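import Mathlib

set_option autoImplicit false

namespace Crest.Agent.R160

open Finset

/-- If `a ^ 2^j ≤ C` for all `j`, then `a ≤ 1`. -/
theorem le_one_of_pow_two_pow_le {a C : ℝ} (h : ∀ j : ℕ, a ^ (2 ^ j) ≤ C) : a ≤ 1 := by
  by_contra ha
  push Not at ha
  have h1 := tendsto_pow_atTop_atTop_of_one_lt ha
  have h2 : Filter.Tendsto (fun j : ℕ => 2 ^ j) Filter.atTop Filter.atTop :=
    tendsto_pow_atTop_atTop_of_one_lt (by norm_num)
  have h3 := (h1.comp h2).eventually_gt_atTop C
  obtain ⟨j, hj⟩ := h3.exists
  exact absurd (h j) (not_le.mpr hj)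

/-- Abstract log-convexity lemma: for a positive semidefinite symmetric form `B`, an operator `A`
self-adjoint for `B`, and a vector `x` with `|B x (A^m x)| ≤ C L^m`, one has
`|B x (A x)| ≤ L * B x x`. -/
theorem abs_form_le {M : Type*} [AddCommGroup M] [Module ℝ M] (B : LinearMap.BilinForm ℝ M)
    (hs : ∀ x, 0 ≤ B x x) (hB : ∀ x y, B x y = B y x) (A : M →ₗ[ℝ] M)
    (hA : ∀ x y, B (A x) y = B x (A y))
    (x : M) {C L : ℝ} (hL : 0 < L) (hC : ∀ m : ℕ, |B x ((A ^ m) x)| ≤ C * L ^ m) :
    |B x (A x)| ≤ L * B x x := by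
  have hAm : ∀ (m : ℕ) (x y : M), B ((A ^ m) x) y = B x ((A ^ m) y) := by
    intro m
    induction m with
    | zero => intro x y; simp
    | succ m ih =>
      intro x y
      have h1 : (A ^ (m + 1)) x = (A ^ m) (A x) := by rw [pow_succ, Module.End.mul_apply]
      have h2 : (A ^ (m + 1)) y = A ((A ^ m) y) := by rw [pow_succ', Module.End.mul_apply]
      rw [h1, h2, ih, hA]
  have hCS : ∀ x y : M, (B x y) ^ 2 ≤ (B x x) * (B y y) :=
    fun x y => LinearMap.BilinForm.apply_sq_le_of_symm B hs ⟨fun x y => hB x y⟩ x y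
  set b := B x x with hb
  have hb0 : 0 ≤ b := hs x
  rcases hb0.eq_or_lt with hb1 | hb1
  · have := hCS x (A x)
    rw [← hb, ← hb1, zero_mul] at this
    have h0 : B x (A x) = 0 := by
      have := le_antisymm this (sq_nonneg _)
      exact pow_eq_zero_iff (two_ne_zero) |>.mp this
    rw [h0, ← hb1]; simp
  · -- b > 0
    set a : ℕ → ℝ := fun j => |B x ((A ^ (2 ^ j)) x)| with ha
    have hstep : ∀ j, (a j / b) ^ 2 ≤ a (j + 1) / b := by
      intro j
      have h1 := hCS x ((A ^ (2 ^ j)) x)
      have h2 : B ((A ^ (2 ^ j)) x) ((A ^ (2 ^ j)) x) = B x ((A ^ (2 ^ (j + 1))) x) := by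
        rw [hAm, ← Module.End.mul_apply, ← pow_add]
        congr 3
        ring
      rw [h2, ← hb] at h1
      have h3 : (a j) ^ 2 ≤ b * a (j + 1) := by
        simp only [ha, sq_abs]
        refine h1.trans ?_
        exact mul_le_mul_of_nonneg_left (le_abs_self _) hb0
      rw [div_pow, div_le_div_iff₀ (by positivity) hb1]
      calc (a j) ^ 2 * b ≤ (b * a (j + 1)) * b := mul_le_mul_of_nonneg_right h3 hb0
        _ = a (j + 1) * b ^ 2 := by ring
    have hpow : ∀ j, (a 0 / b) ^ (2 ^ j) ≤ a j / b := by
      intro j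
      induction j with
      | zero => simp
      | succ j ih =>
        calc (a 0 / b) ^ (2 ^ (j + 1)) = ((a 0 / b) ^ (2 ^ j)) ^ 2 := by rw [← pow_mul, pow_succ]
          _ ≤ (a j / b) ^ 2 := by
            apply pow_le_pow_left₀ _ ih
            positivity
          _ ≤ a (j + 1) / b := hstep j
    have h4 : a 0 / b / L ≤ 1 := by
      apply le_one_of_pow_two_pow_le (C := C / b)
      intro j
      rw [div_pow, div_le_iff₀ (by positivity)]
      refine (hpow j).trans ?_
      rw [div_mul_eq_mul_div]
      exact div_le_div_of_nonneg_right (hC _) hb0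
    have h5 : a 0 ≤ L * b := by
      rw [div_div, div_le_one (by positivity)] at h4
      linarith
    simpa [ha] using h5


section Kernel

variable {I : Type*} (K : I → I → ℝ)

/-- The bilinear form on finitely supported functions attached to a kernel. -/
noncomputable def kform : LinearMap.BilinForm ℝ (I →₀ ℝ) :=
  Finsupp.linearCombination ℝ (fun i => Finsupp.linearCombination ℝ (fun j => K i j))

theorem kform_single_left (i : I) (a : ℝ) (y : I →₀ ℝ) :
    kform K (Finsupp.single i a) y = a * y.sum (fun j b => b * K i j) := by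
  simp [kform, Finsupp.linearCombination_apply]

theorem kform_single_single (i j : I) (a b : ℝ) :
    kform K (Finsupp.single i a) (Finsupp.single j b) = a * (b * K i j) := by
  rw [kform_single_left]
  simp

theorem kform_apply (x y : I →₀ ℝ) :
    kform K x y = x.sum (fun i a => a * y.sum (fun j b => b * K i j)) := by
  conv_lhs => rw [← Finsupp.sum_single x]
  rw [Finsupp.sum, map_sum, LinearMap.sum_apply, Finsupp.sum]
  exact Finset.sum_congr rfl fun i _ => kform_single_left K i (x i) y

theorem kform_symm (hsymm : ∀ i j, K i j = K j i) (x y : I →₀ ℝ) :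
    kform K x y = kform K y x := by
  have : kform K = (kform K).flip := by
    ext i j
    simp [kform, hsymm i j]
  calc kform K x y = (kform K).flip x y := by rw [← this]
    _ = kform K y x := rfl

theorem kform_nonneg (hpsd : ∀ (s : Finset I) (x : I → ℝ),
    0 ≤ ∑ i ∈ s, ∑ j ∈ s, x i * x j * K i j) (x : I →₀ ℝ) : 0 ≤ kform K x x := by
  rw [kform_apply]
  refine (hpsd x.support x).trans (le_of_eq ?_)
  simp only [Finsupp.sum, Finset.mul_sum]
  refine Finset.sum_congr rfl fun i _ => Finset.sum_congr rfl fun j _ => ?_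
  ring

/-- the "adjacency" operator of a relation given by finite neighbourhoods -/
noncomputable def adjOp (S : I → Finset I) : (I →₀ ℝ) →ₗ[ℝ] (I →₀ ℝ) :=
  Finsupp.linearCombination ℝ (fun i => ∑ j ∈ S i, Finsupp.single j (1 : ℝ))

theorem adjOp_single (S : I → Finset I) (i : I) :
    adjOp S (Finsupp.single i 1) = ∑ j ∈ S i, Finsupp.single j (1 : ℝ) := by
  simp [adjOp]

theorem adjOp_apply (S : I → Finset I) (hS : ∀ i j, j ∈ S i ↔ i ∈ S j) (x : I →₀ ℝ) (j : I) :
    adjOp S x j = ∑ k ∈ S j, x k := by
  classical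
  induction x using Finsupp.induction_linear with
  | zero => simp
  | add f g hf hg => simp [map_add, hf, hg, Finset.sum_add_distrib]
  | single a b =>
    simp only [adjOp, Finsupp.linearCombination_single, Finsupp.smul_apply,
      Finsupp.finsetSum_apply, Finsupp.single_apply, smul_eq_mul]
    simp [hS a j, Finset.sum_ite_eq, Finset.sum_ite_eq']

theorem kernel_sphere_le (hsymm : ∀ i j, K i j = K j i)
    (hpsd : ∀ (s : Finset I) (x : I → ℝ), 0 ≤ ∑ i ∈ s, ∑ j ∈ s, x i * x j * K i j)
    (hfin : ∀ i, {j | K i j ≠ 0}.Finite)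
    (S : I → Finset I) (hS : ∀ i j, j ∈ S i ↔ i ∈ S j)
    (hcomm : ∀ i j, ∑ k ∈ S j, K i k = ∑ k ∈ S i, K k j)
    (w : I → ℝ) (hw : ∀ i, 0 < w i) {L : ℝ} (hL : 0 < L)
    (hwS : ∀ i, ∑ j ∈ S i, w j ≤ L * w i) (i : I) :
    |∑ j ∈ S i, K i j| ≤ L * K i i := by
  classical
  set x : I →₀ ℝ := Finsupp.single i 1 with hx
  have hsa : ∀ x y, kform K (adjOp S x) y = kform K x (adjOp S y) := by
    have : LinearMap.comp (kform K) (adjOp S) = LinearMap.compl₂ (kform K) (adjOp S) := by
      refine Finsupp.lhom_ext' fun a => LinearMap.ext_ring ?_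
      refine Finsupp.lhom_ext' fun b => LinearMap.ext_ring ?_
      simp only [LinearMap.comp_apply, Finsupp.lsingle_apply, LinearMap.compl₂_apply, adjOp_single,
        map_sum, LinearMap.sum_apply, kform_single_single, one_mul]
      exact (hcomm a b).symm
    intro x y
    exact LinearMap.congr_fun (LinearMap.congr_fun this x) y
  -- pointwise growth
  have hgrow : ∀ (m : ℕ) (j : I), 0 ≤ ((adjOp S) ^ m) x j ∧
      ((adjOp S) ^ m) x j ≤ (L ^ m / w i) * w j := by
    intro m
    induction m with
    | zero =>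
      intro j
      simp only [pow_zero, Module.End.one_apply, hx, Finsupp.single_apply]
      split_ifs with h
      · subst h
        refine ⟨zero_le_one, ?_⟩
        rw [one_div, inv_mul_cancel₀ (hw _).ne']
      · exact ⟨le_refl _, by have := hw i; have := hw j; positivity⟩
    | succ m ih =>
      intro j
      rw [pow_succ', Module.End.mul_apply, adjOp_apply S hS]
      refine ⟨Finset.sum_nonneg fun k _ => (ih k).1, ?_⟩
      calc ∑ k ∈ S j, ((adjOp S) ^ m) x k ≤ ∑ k ∈ S j, (L ^ m / w i) * w k :=
            Finset.sum_le_sum fun k _ => (ih k).2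
        _ = (L ^ m / w i) * ∑ k ∈ S j, w k := by rw [Finset.mul_sum]
        _ ≤ (L ^ m / w i) * (L * w j) := by
            apply mul_le_mul_of_nonneg_left (hwS j)
            have := hw i
            positivity
        _ = L ^ (m + 1) / w i * w j := by ring
  set F : Finset I := (hfin i).toFinset with hF
  set C : ℝ := ∑ j ∈ F, w j / w i * |K i j| with hC
  have hbound : ∀ m : ℕ, |kform K x (((adjOp S) ^ m) x)| ≤ C * L ^ m := by
    intro m
    set y := ((adjOp S) ^ m) x with hy
    rw [hx, kform_single_left, one_mul, Finsupp.sum]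
    calc |∑ a ∈ y.support, y a * K i a| ≤ ∑ a ∈ y.support, |y a * K i a| :=
          Finset.abs_sum_le_sum_abs _ _
      _ ≤ ∑ a ∈ y.support ∪ F, |y a * K i a| :=
          Finset.sum_le_sum_of_subset_of_nonneg Finset.subset_union_left
            fun _ _ _ => abs_nonneg _
      _ = ∑ a ∈ F, |y a * K i a| := by
          symm
          apply Finset.sum_subset Finset.subset_union_right
          intro a _ ha
          have : K i a = 0 := by
            by_contra h
            exact ha (by simpa [hF] using h)
          simp [this]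
      _ ≤ ∑ a ∈ F, (w a / w i * |K i a|) * L ^ m := by
          refine Finset.sum_le_sum fun a _ => ?_
          rw [abs_mul, abs_of_nonneg (hgrow m a).1]
          calc y a * |K i a| ≤ (L ^ m / w i * w a) * |K i a| :=
                mul_le_mul_of_nonneg_right (hgrow m a).2 (abs_nonneg _)
            _ = (w a / w i * |K i a|) * L ^ m := by ring
      _ = C * L ^ m := by rw [hC, Finset.sum_mul]
  have := abs_form_le (kform K) (kform_nonneg K hpsd) (kform_symm K hsymm) (adjOp S) hsa x hL hbound
  have h1 : kform K x (adjOp S x) = ∑ j ∈ S i, K i j := by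
    rw [hx, adjOp_single, map_sum]
    simp [kform_single_single]
  have h2 : kform K x x = K i i := by
    rw [hx, kform_single_single]; simp
  rwa [h1, h2] at this

end Kernel

end Crest.Agent.R160
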