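import Mathlib

/-! Row 160: elementary facts on convergence in `L²` expressed with integrals of squares. -/

set_option autoImplicit false

open MeasureTheory Filter Finset
open scoped Topology

namespace Crest.Agent.R160

variable {Ω : Type*} [MeasurableSpace Ω] {μ : Measure Ω}

theorem integral_sq_eq_norm_toLp {f : Ω → ℝ} (hf : MemLp f 2 μ) :
    ∫ ω, f ω ^ 2 ∂μ = ‖hf.toLp f‖ ^ 2 := by
  rw [← real_inner_self_eq_norm_sq, L2.inner_def]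
  refine integral_congr_ae ?_
  filter_upwards [hf.coeFn_toLp] with ω hω
  rw [hω]
  simp [sq]

theorem tendsto_toLp_iff {ι : Type*} {l : Filter ι} {f : ι → Ω → ℝ} {g : Ω → ℝ}
    (hf : ∀ i, MemLp (f i) 2 μ) (hg : MemLp g 2 μ) :
    Tendsto (fun i => (hf i).toLp (f i)) l (𝓝 (hg.toLp g)) ↔
      Tendsto (fun i => ∫ ω, (f i ω - g ω) ^ 2 ∂μ) l (𝓝 0) := by
  rw [tendsto_iff_norm_sub_tendsto_zero]
  have h : ∀ i, ∫ ω, (f i ω - g ω) ^ 2 ∂μ = ‖(hf i).toLp (f i) - hg.toLp g‖ ^ 2 := by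
    intro i
    rw [← MemLp.toLp_sub, ← integral_sq_eq_norm_toLp]
    rfl
  simp only [h]
  constructor
  · intro h1
    simpa using h1.pow 2
  · intro h1
    have := h1.sqrt
    simpa [Real.sqrt_sq] using this

/-- If the squares converge, then a bound `∫ (∑ f_i)² ≤ C ∫ g²` passes to `L²`-limits. -/
theorem integral_sum_sq_le_of_tendsto {ι : Type*} (s : Finset ι) {f : ℕ → ι → Ω → ℝ}
    {g : ι → Ω → ℝ} {u : ℕ → Ω → ℝ} {v : Ω → ℝ} {C : ℝ}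
    (hf : ∀ N i, MemLp (f N i) 2 μ) (hg : ∀ i, MemLp (g i) 2 μ)
    (hu : ∀ N, MemLp (u N) 2 μ) (hv : MemLp v 2 μ)
    (hfg : ∀ i ∈ s, Tendsto (fun N => ∫ ω, (f N i ω - g i ω) ^ 2 ∂μ) atTop (𝓝 0))
    (huv : Tendsto (fun N => ∫ ω, (u N ω - v ω) ^ 2 ∂μ) atTop (𝓝 0))
    (hle : ∀ N, ∫ ω, (∑ i ∈ s, f N i ω) ^ 2 ∂μ ≤ C * ∫ ω, u N ω ^ 2 ∂μ) :
    ∫ ω, (∑ i ∈ s, g i ω) ^ 2 ∂μ ≤ C * ∫ ω, v ω ^ 2 ∂μ := by
  classical
  have hsum : ∀ (F : ι → Ω → ℝ) (hF : ∀ i, MemLp (F i) 2 μ),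
      ∫ ω, (∑ i ∈ s, F i ω) ^ 2 ∂μ = ‖∑ i ∈ s, (hF i).toLp (F i)‖ ^ 2 := by
    intro F hF
    have h1 : MemLp (fun ω => ∑ i ∈ s, F i ω) 2 μ := memLp_finsetSum s fun i _ => hF i
    rw [integral_sq_eq_norm_toLp h1]
    congr 2
    clear hle hfg
    induction s using Finset.induction_on with
    | empty =>
      simp only [Finset.sum_empty]
      exact MemLp.toLp_zero _
    | insert a t ha ih =>
      have h2 : MemLp (fun ω => ∑ i ∈ t, F i ω) 2 μ := memLp_finsetSum t fun i _ => hF i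
      rw [Finset.sum_insert ha, ← ih h2, ← MemLp.toLp_add]
      congr 1
      ext ω
      rw [Finset.sum_insert ha]
      rfl
  have h1 : Tendsto (fun N => ∫ ω, (∑ i ∈ s, f N i ω) ^ 2 ∂μ) atTop
      (𝓝 (∫ ω, (∑ i ∈ s, g i ω) ^ 2 ∂μ)) := by
    rw [hsum g hg]
    have : (fun N => ∫ ω, (∑ i ∈ s, f N i ω) ^ 2 ∂μ) =
        fun N => ‖∑ i ∈ s, (hf N i).toLp (f N i)‖ ^ 2 := by
      ext N
      exact hsum (f N) (hf N)
    rw [this]
    refine Tendsto.pow (Tendsto.norm ?_) 2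
    exact tendsto_finsetSum _ fun i hi =>
      (tendsto_toLp_iff (fun N => hf N i) (hg i)).mpr (hfg i hi)
  have h2 : Tendsto (fun N => ∫ ω, u N ω ^ 2 ∂μ) atTop (𝓝 (∫ ω, v ω ^ 2 ∂μ)) := by
    rw [integral_sq_eq_norm_toLp hv]
    have : (fun N => ∫ ω, u N ω ^ 2 ∂μ) = fun N => ‖(hu N).toLp (u N)‖ ^ 2 := by
      ext N
      exact integral_sq_eq_norm_toLp (hu N)
    rw [this]
    exact Tendsto.pow (Tendsto.norm ((tendsto_toLp_iff hu hv).mpr huv)) 2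
  exact le_of_tendsto_of_tendsto' h1 (h2.const_mul C) hle

end Crest.Agent.R160
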