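import Crest.Agent.R160.EdgeSphere
import Crest.Agent.R160.BSV
import Crest.Agent.R160.L2Lim

/-! Row 160: the Backhausz–Szegedy–Virág decorrelation bound for finite-range invariant
families on the vertices / edges of a regular tree, and the resulting variance bound along paths. -/

set_option autoImplicit false

open SimpleGraph Finset MeasureTheory Filter
open scoped Classical Topology

namespace Crest.Agent.R160.Sphere

open Crest.Agent.R160.TreeAut

variable {V : Type*} {G : SimpleGraph V} [G.LocallyFinite]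

/-- decorrelation profile -/
noncomputable def prof (q : ℝ) (n : ℕ) : ℝ := 6 * (n + 2) * q * q⁻¹ ^ n

lemma prof_nonneg {q : ℝ} (hq : 1 ≤ q) (n : ℕ) : 0 ≤ prof q n := by
  unfold prof; positivity

lemma summable_prof {q : ℝ} (hq : 1 < q) : Summable (prof q) := by
  have h0 : ‖q⁻¹‖ < 1 := by
    rw [norm_inv, Real.norm_of_nonneg (by linarith)]
    exact inv_lt_one_of_one_lt₀ hq
  have h1 := summable_pow_mul_geometric_of_norm_lt_one 1 h0
  have h2 := summable_geometric_of_norm_lt_one h0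
  have h3 := (h1.mul_left (6 * q)).add (h2.mul_left (12 * q))
  refine h3.congr fun n => ?_
  unfold prof
  ring

/-- the constant in the path variance bound -/
noncomputable def Cbsv (q : ℝ) : ℝ := 2 * ∑' n, prof q n

lemma Cbsv_nonneg {q : ℝ} (hq : 1 ≤ q) : 0 ≤ Cbsv q :=
  mul_nonneg (by norm_num) (tsum_nonneg fun n => prof_nonneg hq n)

/-- Decorrelation of finite-range invariant kernels on edges. -/
theorem edge_kernel_le (hT : G.IsTree) {d : ℕ} (hreg : G.IsRegularOfDegree d) {q : ℝ}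
    (hq : 1 ≤ q) (hqd : (d : ℝ) = q ^ 2 + 1) (K : G.edgeSet → G.edgeSet → ℝ)
    (hsymm : ∀ i j, K i j = K j i)
    (hpsd : ∀ (s : Finset G.edgeSet) (x : G.edgeSet → ℝ),
      0 ≤ ∑ i ∈ s, ∑ j ∈ s, x i * x j * K i j)
    (hfin : ∀ i, {j | K i j ≠ 0}.Finite)
    (hinv : ∀ (g : G ≃g G) (e f : G.edgeSet), K (g.mapEdgeSet e) (g.mapEdgeSet f) = K e f)
    {n : ℕ} {e f : G.edgeSet} (h : ERel G (n + 1) (e : Sym2 V) f) :
    |K e f| ≤ prof q n * K e e := by
  have hS : ∀ i j, j ∈ esph G hT (n + 1) i ↔ i ∈ esph G hT (n + 1) j := by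
    intro i j
    rw [mem_esph hT, mem_esph hT]
    exact ⟨fun h => h.symm, fun h => h.symm⟩
  have hmap : ∀ (g : G ≃g G) (e f : G.edgeSet), f ∈ esph G hT (n + 1) e →
      g.mapEdgeSet f ∈ esph G hT (n + 1) (g.mapEdgeSet e) := by
    intro g e f h
    rw [mem_esph hT] at h ⊢
    exact ERel.map h g
  have hcomm : ∀ i j, ∑ k ∈ esph G hT (n + 1) j, K i k = ∑ k ∈ esph G hT (n + 1) i, K k j := by
    intro i j
    obtain ⟨g, hg1, hg2⟩ := exists_aut_edge_swap hT hreg i.2 j.2
    have hg1' : g.mapEdgeSet i = j := Subtype.ext hg1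
    have hg2' : g.mapEdgeSet j = i := Subtype.ext hg2
    refine Finset.sum_nbij' (fun k => g.mapEdgeSet k) (fun k => g.mapEdgeSet.symm k) ?_ ?_ ?_ ?_ ?_
    · intro k hk
      have := hmap g _ _ hk
      rwa [hg2'] at this
    · intro k hk
      have h1 := hmap g.symm _ _ hk
      have h2 : g.symm.mapEdgeSet i = j := by
        rw [← hg2']
        apply Subtype.ext
        simp [Hom.mapEdgeSet, Sym2.map_map]
      rw [h2] at h1
      exact h1
    · intro k _
      exact Equiv.symm_apply_apply _ _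
    · intro k _
      exact Equiv.apply_symm_apply _ _
    · intro k _
      rw [← hinv g i k, hg1', hsymm]
  have o : V := hT.connected.nonempty.some
  have hL : (0 : ℝ) < 6 * ((n + 1 : ℕ) + 1) * q ^ (n + 1) := by positivity
  have h1 := kernel_sphere_le K hsymm hpsd hfin (esph G hT (n + 1)) hS hcomm
    (fun e => wt q (G.dist o (far G o e))) (fun e => wt_pos hq _) hL
    (fun e => sum_esph_wt hT hreg hq hqd o (n + 1) e) e
  -- the kernel is constant on the sphere
  have h2 : ∑ j ∈ esph G hT (n + 1) e, K e j = ((esph G hT (n + 1) e).card : ℝ) * K e f := by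
    rw [← nsmul_eq_mul, ← Finset.sum_const]
    refine Finset.sum_congr rfl fun j hj => ?_
    rw [mem_esph hT] at hj
    obtain ⟨g, hg1, hg2⟩ := ERel.exists_aut hT hreg hj h
    have hg1' : g.mapEdgeSet e = e := Subtype.ext hg1
    have hg2' : g.mapEdgeSet j = f := Subtype.ext hg2
    rw [← hinv g e j, hg1', hg2']
  rw [h2, abs_mul, Nat.abs_cast] at h1
  have hd : ((d - 1 : ℕ) : ℝ) = q ^ 2 := by
    have : 1 ≤ d := by
      by_contra h0
      have : d = 0 := by omega
      subst this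
      push_cast at hqd
      nlinarith
    push_cast [this]
    linarith
  have h3 : (q ^ 2) ^ n ≤ ((esph G hT (n + 1) e).card : ℝ) := by
    rw [← hd]
    exact_mod_cast card_esph_ge hT hreg n e
  have h4 : (q ^ 2) ^ n * |K e f| ≤ 6 * ((n + 1 : ℕ) + 1) * q ^ (n + 1) * K e e :=
    (mul_le_mul_of_nonneg_right h3 (abs_nonneg _)).trans h1
  have h5 : 0 < (q ^ 2) ^ n := by positivity
  have h6 : |K e f| ≤ (6 * ((n + 1 : ℕ) + 1) * q ^ (n + 1) * K e e) / (q ^ 2) ^ n := by
    rw [le_div_iff₀ h5, mul_comm]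
    exact h4
  refine h6.trans (le_of_eq ?_)
  have h7 : q⁻¹ ^ n = q ^ n / (q ^ 2) ^ n := by
    rw [inv_pow, ← pow_mul, two_mul, pow_add]
    field_simp
  unfold prof
  rw [h7, pow_succ]
  push_cast
  ring

/-- sums of the profile along a path -/
lemma sum_prof_le {q : ℝ} (hq : 1 < q) (n i : ℕ) :
    ∑ j ∈ range n, prof q ((i - j) + (j - i)) ≤ Cbsv q := by
  have hs := summable_prof hq
  have h0 := fun m => prof_nonneg hq.le m
  have h1 : ∑ j ∈ (range n).filter (fun j => j ≤ i), prof q ((i - j) + (j - i)) ≤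
      ∑' m, prof q m := by
    rw [Finset.sum_congr rfl (g := fun j => prof q (i - j))]
    · rw [← Finset.sum_image (f := fun m => prof q m) (g := fun j => i - j)]
      · exact hs.sum_le_tsum _ fun m _ => h0 m
      · intro a ha b hb hab
        simp only [Finset.coe_filter, Finset.mem_range, Set.mem_ofPred_eq] at ha hb
        simp only at hab
        omega
    · intro j hj
      simp only [Finset.mem_filter, Finset.mem_range] at hj
      rw [show j - i = 0 by omega, add_zero]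
  have h2 : ∑ j ∈ (range n).filter (fun j => ¬ j ≤ i), prof q ((i - j) + (j - i)) ≤
      ∑' m, prof q m := by
    rw [Finset.sum_congr rfl (g := fun j => prof q (j - i))]
    · rw [← Finset.sum_image (f := fun m => prof q m) (g := fun j => j - i)]
      · exact hs.sum_le_tsum _ fun m _ => h0 m
      · intro a ha b hb hab
        simp only [Finset.coe_filter, Finset.mem_range, Set.mem_ofPred_eq] at ha hb
        simp only at hab
        omega
    · intro j hj
      simp only [Finset.mem_filter, Finset.mem_range] at hj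
      rw [show i - j = 0 by omega, zero_add]
  rw [← Finset.sum_filter_add_sum_filter_not (range n) (fun j => j ≤ i)]
  unfold Cbsv
  linarith

/-- closed balls are finite -/
lemma ball_finite (hT : G.IsTree) (x : V) (R : ℕ) : {v | G.dist x v ≤ R}.Finite := by
  refine (Finset.finite_toSet ((range (R + 1)).biUnion (sph G x))).subset ?_
  intro v hv
  simp only [Finset.coe_biUnion, Finset.coe_range, Set.mem_iUnion, Finset.mem_coe, mem_sph hT,
    Set.mem_Iio, exists_prop, exists_eq_right']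
  exact Nat.lt_succ_of_le hv

omit [G.LocallyFinite] in
/-- The first edge of a non-backtracking path. -/
noncomputable def pe {n : ℕ} {p : ℕ → V} (hp : IsNB G n p) (i : Fin n) : G.edgeSet :=
  ⟨s(p i, p (i + 1)), hp.adj i i.2⟩

omit [G.LocallyFinite] in
lemma pe_ERel {n : ℕ} {p : ℕ → V} (hp : IsNB G n p) {i j : Fin n} (hij : i ≤ j) :
    ERel G ((j : ℕ) - i + 1) (pe hp i : Sym2 V) (pe hp j) := by
  have hij' : (i : ℕ) ≤ j := hij
  refine ⟨by omega, fun k => p (i + k), ?_, rfl, ?_⟩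
  · have h1 := (hp.shift i (by omega)).mono (m := (j : ℕ) - i + 1) (by omega)
    exact h1
  · change s(p ((i : ℕ) + ((j : ℕ) - i + 1 - 1)), p ((i : ℕ) + ((j : ℕ) - i + 1))) =
      s(p j, p ((j : ℕ) + 1))
    rw [show (i : ℕ) + ((j : ℕ) - i + 1 - 1) = j by omega,
      show (i : ℕ) + ((j : ℕ) - i + 1) = (j : ℕ) + 1 by omega]

/-- **Variance along a path**, kernel form. -/
theorem path_kernel_le (hT : G.IsTree) {d : ℕ} (hreg : G.IsRegularOfDegree d) {q : ℝ}
    (hq : 1 < q) (hqd : (d : ℝ) = q ^ 2 + 1) (K : G.edgeSet → G.edgeSet → ℝ)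
    (hsymm : ∀ i j, K i j = K j i)
    (hpsd : ∀ (s : Finset G.edgeSet) (x : G.edgeSet → ℝ),
      0 ≤ ∑ i ∈ s, ∑ j ∈ s, x i * x j * K i j)
    (hfin : ∀ i, {j | K i j ≠ 0}.Finite)
    (hinv : ∀ (g : G ≃g G) (e f : G.edgeSet), K (g.mapEdgeSet e) (g.mapEdgeSet f) = K e f)
    (e₀ : G.edgeSet) {n : ℕ} {p : ℕ → V} (hp : IsNB G n p) :
    ∑ i : Fin n, ∑ j : Fin n, K (pe hp i) (pe hp j) ≤ Cbsv q * n * K e₀ e₀ := by
  have hK0 : ∀ e f : G.edgeSet, K e e = K f f := by
    intro e f
    obtain ⟨g, hg1, hg2⟩ := exists_aut_edge_swap hT hreg e.2 f.2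
    rw [← hinv g e e, show g.mapEdgeSet e = f from Subtype.ext hg1]
  have hKnn : ∀ e : G.edgeSet, 0 ≤ K e e := by
    intro e
    have := hpsd {e} (fun _ => 1)
    simpa using this
  have hb : ∀ i j : Fin n, K (pe hp i) (pe hp j) ≤
      prof q (((i : ℕ) - j) + ((j : ℕ) - i)) * K e₀ e₀ := by
    intro i j
    rcases le_total i j with hij | hij
    · have hij' : (i : ℕ) ≤ j := hij
      have h1 := edge_kernel_le hT hreg hq.le hqd K hsymm hpsd hfin hinv (pe_ERel hp hij)
      rw [show (i : ℕ) - j = 0 by omega, zero_add, ← hK0 (pe hp i) e₀]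
      exact (le_abs_self _).trans h1
    · have hij' : (j : ℕ) ≤ i := hij
      have h1 := edge_kernel_le hT hreg hq.le hqd K hsymm hpsd hfin hinv (pe_ERel hp hij)
      rw [show (j : ℕ) - i = 0 by omega, add_zero, ← hK0 (pe hp j) e₀, hsymm]
      exact (le_abs_self _).trans h1
  calc ∑ i : Fin n, ∑ j : Fin n, K (pe hp i) (pe hp j)
      ≤ ∑ i : Fin n, ∑ j : Fin n, prof q (((i : ℕ) - j) + ((j : ℕ) - i)) * K e₀ e₀ :=
        Finset.sum_le_sum fun i _ => Finset.sum_le_sum fun j _ => hb i j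
    _ = ∑ i : Fin n, (∑ j ∈ range n, prof q (((i : ℕ) - j) + (j - i))) * K e₀ e₀ := by
        refine Finset.sum_congr rfl fun i _ => ?_
        rw [← Finset.sum_mul]
        congr 1
        exact Fin.sum_univ_eq_sum_range (fun j => prof q (((i : ℕ) - j) + (j - i))) n
    _ ≤ ∑ i : Fin n, Cbsv q * K e₀ e₀ := by
        refine Finset.sum_le_sum fun i _ => mul_le_mul_of_nonneg_right (sum_prof_le hq n i)
          (hKnn e₀)
    _ = Cbsv q * n * K e₀ e₀ := by
        rw [Finset.sum_const, Finset.card_univ, Fintype.card_fin, nsmul_eq_mul]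
        ring

/-- **Variance along a path** for an invariant finite-range family of square-integrable random
variables indexed by the (undirected) edges of a regular tree. -/
theorem bsv_path (hT : G.IsTree) {d : ℕ} (hreg : G.IsRegularOfDegree d) {q : ℝ}
    (hq : 1 < q) (hqd : (d : ℝ) = q ^ 2 + 1) {Ω : Type*} [MeasurableSpace Ω] (μ : Measure Ω)
    (g : V → V → Ω → ℝ) (hsym : ∀ x y, G.Adj x y → g x y = g y x)
    (hint : ∀ x y z w, G.Adj x y → G.Adj z w → Integrable (fun ω => g x y ω * g z w ω) μ)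
    (hinv : ∀ (σ : G ≃g G) (x y z w : V), G.Adj x y → G.Adj z w →
      ∫ ω, g (σ x) (σ y) ω * g (σ z) (σ w) ω ∂μ = ∫ ω, g x y ω * g z w ω ∂μ)
    (hfin : ∀ x y, G.Adj x y → ∃ R : ℕ, ∀ z w, G.Adj z w → R < G.dist x z → R < G.dist x w →
      ∫ ω, g x y ω * g z w ω ∂μ = 0)
    {x₀ y₀ : V} (h₀ : G.Adj x₀ y₀) {n : ℕ} {p : ℕ → V} (hp : IsNB G n p) :
    ∫ ω, (∑ i ∈ range n, g (p i) (p (i + 1)) ω) ^ 2 ∂μ ≤
      Cbsv q * n * ∫ ω, g x₀ y₀ ω ^ 2 ∂μ := by
  have o : V := hT.connected.nonempty.some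
  -- the family indexed by edges
  set F : G.edgeSet → Ω → ℝ := fun e => g (far G o e) (par G o (far G o e)) with hF
  have hadj : ∀ e : G.edgeSet, G.Adj (far G o e) (par G o (far G o e)) := fun e =>
    par_adj hT (far_spec hT o e.2).1
  have hFg : ∀ (x y : V) (h : G.Adj x y), F ⟨s(x, y), h⟩ = g x y := by
    intro x y h
    have h1 := (far_spec hT o (e := s(x, y)) h).2
    rw [Sym2.eq_iff] at h1
    simp only [hF]
    rcases h1 with h1 | h1
    · rw [h1.2, h1.1]
    · rw [h1.2, h1.1]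
      exact (hsym x y h).symm
  set K : G.edgeSet → G.edgeSet → ℝ := fun e f => ∫ ω, F e ω * F f ω ∂μ with hK
  have hKxy : ∀ (x y z w : V) (h : G.Adj x y) (h' : G.Adj z w),
      K ⟨s(x, y), h⟩ ⟨s(z, w), h'⟩ = ∫ ω, g x y ω * g z w ω ∂μ := by
    intro x y z w h h'
    simp only [hK]
    rw [hFg x y h, hFg z w h']
  have hFint : ∀ e f : G.edgeSet, Integrable (fun ω => F e ω * F f ω) μ := fun e f =>
    hint _ _ _ _ (hadj e) (hadj f)
  have hsymm : ∀ e f, K e f = K f e := by
    intro e f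
    simp only [hK]
    congr 1
    ext ω
    ring
  have hpsd : ∀ (s : Finset G.edgeSet) (x : G.edgeSet → ℝ),
      0 ≤ ∑ i ∈ s, ∑ j ∈ s, x i * x j * K i j := by
    intro s x
    have h1 : ∑ i ∈ s, ∑ j ∈ s, x i * x j * K i j = ∫ ω, (∑ i ∈ s, x i * F i ω) ^ 2 ∂μ := by
      simp only [hK]
      rw [show (fun ω => (∑ i ∈ s, x i * F i ω) ^ 2) =
        fun ω => ∑ i ∈ s, ∑ j ∈ s, x i * x j * (F i ω * F j ω) from ?_]
      · rw [integral_finsetSum]
        · refine Finset.sum_congr rfl fun i _ => ?_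
          rw [integral_finsetSum]
          · refine Finset.sum_congr rfl fun j _ => ?_
            rw [integral_const_mul]
          · intro j _
            exact (hFint i j).const_mul _
        · intro i _
          exact integrable_finsetSum _ fun j _ => (hFint i j).const_mul _
      · ext ω
        rw [sq, Finset.sum_mul_sum]
        refine Finset.sum_congr rfl fun i _ => Finset.sum_congr rfl fun j _ => ?_
        ring
    rw [h1]
    exact integral_nonneg fun ω => sq_nonneg _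
  have hKfin : ∀ e, {f | K e f ≠ 0}.Finite := by
    rintro ⟨e, he⟩
    induction e using Sym2.ind with
    | _ x y =>
      obtain ⟨R, hR⟩ := hfin x y he
      have hb := (ball_finite hT x (R + 1)).image2 (fun a b => s(a, b)) (ball_finite hT x (R + 1))
      refine (hb.preimage (f := fun f : G.edgeSet => (f : Sym2 V))
        (Subtype.val_injective.injOn)).subset ?_
      rintro ⟨f, hf⟩ hne
      induction f using Sym2.ind with
      | _ z w =>
        simp only [Set.mem_preimage]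
        have hzw : G.Adj z w := hf
        have h1 : ¬ (R < G.dist x z ∧ R < G.dist x w) := by
          rintro ⟨h1, h2⟩
          apply hne
          rw [hKxy x y z w he hf]
          exact hR z w hf h1 h2
        have h2 := hT.dist_eq_dist_add_one_of_adj x hzw
        refine ⟨z, ?_, w, ?_, rfl⟩ <;> simp only [Set.mem_ofPred_eq] <;> omega
  have hKinv : ∀ (σ : G ≃g G) (e f : G.edgeSet), K (σ.mapEdgeSet e) (σ.mapEdgeSet f) = K e f := by
    rintro σ ⟨e, he⟩ ⟨f, hf⟩
    induction e using Sym2.ind with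
    | _ x y =>
    induction f using Sym2.ind with
    | _ z w =>
      have h1 : G.Adj x y := he
      have h2 : G.Adj z w := hf
      rw [hKxy x y z w he hf, ← hinv σ x y z w he hf]
      exact hKxy (σ x) (σ y) (σ z) (σ w) (σ.map_adj_iff.mpr h1) (σ.map_adj_iff.mpr h2)
  have h1 := path_kernel_le hT hreg hq hqd K hsymm hpsd hKfin hKinv ⟨s(x₀, y₀), h₀⟩ hp
  have h2 : K ⟨s(x₀, y₀), h₀⟩ ⟨s(x₀, y₀), h₀⟩ = ∫ ω, g x₀ y₀ ω ^ 2 ∂μ := by
    rw [hKxy]
    congr 1
    ext ω
    ring
  rw [h2] at h1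
  refine le_trans (le_of_eq ?_) h1
  have h3 : ∀ ω, (∑ i ∈ range n, g (p i) (p (i + 1)) ω) = ∑ i : Fin n, F (pe hp i) ω := by
    intro ω
    rw [← Fin.sum_univ_eq_sum_range (fun i => g (p i) (p (i + 1)) ω) n]
    refine Finset.sum_congr rfl fun i _ => ?_
    exact (congrFun (hFg _ _ (hp.adj i i.2)) ω).symm
  simp only [h3, sq, Finset.sum_mul_sum, hK]
  rw [integral_finsetSum]
  · refine Finset.sum_congr rfl fun i _ => ?_
    rw [integral_finsetSum]
    intro j _
    exact hFint _ _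
  · intro i _
    exact integrable_finsetSum _ fun j _ => hFint _ _

/-- **Variance along a path** for `L²`-limits of invariant finite-range families. -/
theorem bsv_path_limit (hT : G.IsTree) {d : ℕ} (hreg : G.IsRegularOfDegree d) {q : ℝ}
    (hq : 1 < q) (hqd : (d : ℝ) = q ^ 2 + 1) {Ω : Type*} [MeasurableSpace Ω] (μ : Measure Ω)
    (gN : ℕ → V → V → Ω → ℝ) (g : V → V → Ω → ℝ)
    (hsym : ∀ N x y, G.Adj x y → gN N x y = gN N y x)
    (hL2N : ∀ N x y, G.Adj x y → MemLp (gN N x y) 2 μ)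
    (hL2 : ∀ x y, G.Adj x y → MemLp (g x y) 2 μ)
    (hinv : ∀ N, ∀ (σ : G ≃g G) (x y z w : V), G.Adj x y → G.Adj z w →
      ∫ ω, gN N (σ x) (σ y) ω * gN N (σ z) (σ w) ω ∂μ = ∫ ω, gN N x y ω * gN N z w ω ∂μ)
    (hfin : ∀ N x y, G.Adj x y → ∃ R : ℕ, ∀ z w, G.Adj z w → R < G.dist x z → R < G.dist x w →
      ∫ ω, gN N x y ω * gN N z w ω ∂μ = 0)
    (hlim : ∀ x y, G.Adj x y →
      Tendsto (fun N => ∫ ω, (gN N x y ω - g x y ω) ^ 2 ∂μ) atTop (𝓝 0))
    {x₀ y₀ : V} (h₀ : G.Adj x₀ y₀) {n : ℕ} {p : ℕ → V} (hp : IsNB G n p) :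
    ∫ ω, (∑ i ∈ range n, g (p i) (p (i + 1)) ω) ^ 2 ∂μ ≤
      Cbsv q * n * ∫ ω, g x₀ y₀ ω ^ 2 ∂μ := by
  have key := integral_sum_sq_le_of_tendsto (μ := μ) (Finset.univ : Finset (Fin n))
    (f := fun N i => gN N (p i) (p (i + 1))) (g := fun i => g (p i) (p (i + 1)))
    (u := fun N => gN N x₀ y₀) (v := g x₀ y₀) (C := Cbsv q * n)
    (fun N i => hL2N N _ _ (hp.adj i i.2)) (fun i => hL2 _ _ (hp.adj i i.2))
    (fun N => hL2N N _ _ h₀) (hL2 _ _ h₀) (fun i _ => hlim _ _ (hp.adj i i.2))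
    (hlim _ _ h₀) ?_
  · have h3 : ∀ ω, (∑ i ∈ range n, g (p i) (p (i + 1)) ω) =
        ∑ i : Fin n, g (p i) (p (i + 1)) ω := fun ω =>
      (Fin.sum_univ_eq_sum_range (fun i => g (p i) (p (i + 1)) ω) n).symm
    simp only [h3]
    exact key
  · intro N
    have h1 := bsv_path hT hreg hq hqd μ (gN N) (hsym N)
      (fun x y z w h h' => (hL2N N x y h).integrable_mul (hL2N N z w h')) (hinv N) (hfin N) h₀ hp
    have h3 : ∀ ω, (∑ i ∈ range n, gN N (p i) (p (i + 1)) ω) =
        ∑ i : Fin n, gN N (p i) (p (i + 1)) ω := fun ω =>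
      (Fin.sum_univ_eq_sum_range (fun i => gN N (p i) (p (i + 1)) ω) n).symm
    simp only [h3] at h1
    exact h1

end Crest.Agent.R160.Sphere
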