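import Mathlib

/-! Row 160: trees, parents, path-transitivity of the automorphism group of a regular tree. -/

set_option autoImplicit false

open SimpleGraph

namespace Crest.Agent.R160.TreeAut

variable {V : Type*} {G : SimpleGraph V}

/-- two neighbours of `v` which are both closer to `r` coincide -/
lemma unique_closer (hT : G.IsTree) {r v w w' : V} (hw : G.Adj v w) (hw' : G.Adj v w')
    (h : G.dist r w + 1 = G.dist r v) (h' : G.dist r w' + 1 = G.dist r v) : w = w' := by
  obtain ⟨p, hp, hpl⟩ := hT.connected.exists_path_of_dist r w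
  obtain ⟨q, hq, hql⟩ := hT.connected.exists_path_of_dist r w'
  have h1 : (p.concat hw.symm).IsPath := by
    apply Walk.isPath_of_length_eq_dist
    rw [Walk.length_concat, hpl, h]
  have h2 : (q.concat hw'.symm).IsPath := by
    apply Walk.isPath_of_length_eq_dist
    rw [Walk.length_concat, hql, h']
  have h3 := congrArg Subtype.val
    ((hT.isAcyclic.subsingleton_path r v).elim ⟨_, h1⟩ ⟨_, h2⟩)
  have h4 := congrArg Walk.penultimate h3
  simpa using h4

/-- the neighbour of `v` which is closer to `r` exists if `v ≠ r` -/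
lemma exists_closer (hT : G.IsTree) {r v : V} (hv : v ≠ r) :
    ∃ w, G.Adj v w ∧ G.dist r w + 1 = G.dist r v := by
  obtain ⟨p, hp, hpl⟩ := hT.connected.exists_path_of_dist v r
  cases p with
  | nil => exact absurd rfl hv
  | cons hadj p' =>
    rename_i w
    refine ⟨w, hadj, ?_⟩
    rw [Walk.length_cons] at hpl
    have h1 : G.dist w r ≤ p'.length := G.dist_le p'
    have h2 : G.dist v r ≤ G.dist v w + G.dist w r := hT.connected.dist_triangle
    have h3 : G.dist v w = 1 := SimpleGraph.dist_eq_one_iff_adj.mpr hadj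
    rw [SimpleGraph.dist_comm (u := r) (v := w), SimpleGraph.dist_comm (u := r) (v := v)]
    omega

/-- The parent of `v` in the tree rooted at `r` (junk value `v` if `v = r`). -/
noncomputable def par (G : SimpleGraph V) (r v : V) : V :=
  open Classical in
  if h : ∃ w, G.Adj v w ∧ G.dist r w + 1 = G.dist r v then h.choose else v

lemma par_adj (hT : G.IsTree) {r v : V} (hv : v ≠ r) : G.Adj v (par G r v) := by
  have h := exists_closer hT hv
  unfold par
  rw [dif_pos h]
  exact h.choose_spec.1

lemma par_dist (hT : G.IsTree) {r v : V} (hv : v ≠ r) :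
    G.dist r (par G r v) + 1 = G.dist r v := by
  have h := exists_closer hT hv
  unfold par
  rw [dif_pos h]
  exact h.choose_spec.2

lemma eq_par (hT : G.IsTree) {r v w : V} (hadj : G.Adj v w) (h : G.dist r w + 1 = G.dist r v) :
    par G r v = w := by
  have hv : v ≠ r := by
    rintro rfl
    rw [SimpleGraph.dist_self] at h
    omega
  exact unique_closer hT (par_adj hT hv) hadj (par_dist hT hv) h

lemma adj_cases (hT : G.IsTree) (r : V) {u v : V} (hadj : G.Adj u v) :
    (u ≠ r ∧ par G r u = v) ∨ (v ≠ r ∧ par G r v = u) := by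
  rcases hT.dist_eq_dist_add_one_of_adj r hadj with h | h
  · left
    have hu : u ≠ r := by
      rintro rfl
      rw [SimpleGraph.dist_self] at h
      omega
    exact ⟨hu, eq_par hT hadj h.symm⟩
  · right
    have hv : v ≠ r := by
      rintro rfl
      rw [SimpleGraph.dist_self] at h
      omega
    exact ⟨hv, eq_par hT hadj.symm h.symm⟩

/-- The children of `u` in the tree rooted at `r`. -/
def children (G : SimpleGraph V) (r u : V) : Set V := {v | v ≠ r ∧ par G r v = u}

lemma mem_children_iff (hT : G.IsTree) {r u v : V} :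
    v ∈ children G r u ↔ G.Adj u v ∧ (u = r ∨ v ≠ par G r u) := by
  constructor
  · rintro ⟨hv, rfl⟩
    refine ⟨(par_adj hT hv).symm, ?_⟩
    by_cases h : par G r v = r
    · exact Or.inl h
    · right
      intro h'
      have h1 := par_dist hT hv
      have h2 := par_dist hT h
      rw [← h'] at h2
      omega
  · rintro ⟨hadj, h⟩
    rcases adj_cases hT r hadj with ⟨h1, h2⟩ | h1
    · rcases h with h | h
      · exact absurd h h1
      · exact absurd h2.symm h
    · exact h1

lemma children_eq_root (hT : G.IsTree) {r : V} : children G r r = G.neighborSet r := by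
  ext v
  rw [mem_children_iff hT]
  simp

lemma children_eq (hT : G.IsTree) {r u : V} (hu : u ≠ r) :
    children G r u = G.neighborSet u \ {par G r u} := by
  ext v
  rw [mem_children_iff hT]
  simp [hu]

lemma children_finite [G.LocallyFinite] (hT : G.IsTree) (r u : V) : (children G r u).Finite := by
  apply (G.neighborFinset u).finite_toSet.subset
  intro v hv
  rw [mem_children_iff hT] at hv
  simpa using hv.1

lemma ncard_children_root [G.LocallyFinite] (hT : G.IsTree) {d : ℕ}
    (hreg : G.IsRegularOfDegree d) (r : V) : (children G r r).ncard = d := by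
  rw [children_eq_root hT, ← hreg r, ← SimpleGraph.card_neighborSet_eq_degree,
    Set.ncard_eq_toFinset_card', Set.toFinset_card]

lemma ncard_children [G.LocallyFinite] (hT : G.IsTree) {d : ℕ}
    (hreg : G.IsRegularOfDegree d) {r u : V} (hu : u ≠ r) :
    (children G r u).ncard = d - 1 := by
  rw [children_eq hT hu, Set.ncard_sdiff_singleton_of_mem]
  · rw [← hreg u, ← SimpleGraph.card_neighborSet_eq_degree,
      Set.ncard_eq_toFinset_card', Set.toFinset_card]
  · simpa using par_adj hT hu


/-- A bijection between finite sets of equal size, with one prescribed value, as a pair of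
mutually inverse functions. -/
lemma exists_match {A B : Set V} (hA : A.Finite) (hB : B.Finite) (h : A.ncard = B.ncard)
    (a b : V) : ∃ f g : V → V, (∀ x ∈ A, f x ∈ B) ∧ (∀ y ∈ B, g y ∈ A) ∧
      (∀ x ∈ A, g (f x) = x) ∧ (∀ y ∈ B, f (g y) = y) ∧ (a ∈ A → b ∈ B → f a = b) := by
  classical
  have _i1 : Fintype A := hA.fintype
  have _i2 : Fintype B := hB.fintype
  have hc : Fintype.card A = Fintype.card B := by
    rw [← Nat.card_eq_fintype_card, ← Nat.card_eq_fintype_card, Nat.card_coe_set_eq,
      Nat.card_coe_set_eq, h]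
  let e : A ≃ B := Fintype.equivOfCardEq hc
  let e' : A ≃ B := if hab : a ∈ A ∧ b ∈ B then e.trans (Equiv.swap (e ⟨a, hab.1⟩) ⟨b, hab.2⟩)
    else e
  refine ⟨fun x => if hx : x ∈ A then (e' ⟨x, hx⟩ : V) else x,
    fun y => if hy : y ∈ B then (e'.symm ⟨y, hy⟩ : V) else y, ?_, ?_, ?_, ?_, ?_⟩
  · intro x hx
    simp only [hx, dif_pos]
    exact (e' ⟨x, hx⟩).2
  · intro y hy
    simp only [hy, dif_pos]
    exact (e'.symm ⟨y, hy⟩).2
  · intro x hx
    simp [hx]
  · intro y hy
    simp [hy]
  · intro ha hb
    simp only [ha, dif_pos]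
    have : e' = e.trans (Equiv.swap (e ⟨a, ha⟩) ⟨b, hb⟩) := by
      simp only [e', ha, hb, and_self, dif_pos]
    rw [this]
    simp

/-- The map between two rooted trees built from a family of matchings of children. -/
noncomputable def phi (hT : G.IsTree) (r r' : V) (e : V → V → V → V) (v : V) : V :=
  open Classical in
  if _h : v = r then r' else
    e (par G r v) (phi hT r r' e (par G r v)) v
termination_by G.dist r v
decreasing_by
  have := par_dist hT _h
  omega

lemma phi_root (hT : G.IsTree) (r r' : V) (e : V → V → V → V) : phi hT r r' e r = r' := by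
  rw [phi]
  simp

lemma phi_of_ne (hT : G.IsTree) (r r' : V) (e : V → V → V → V) {v : V} (h : v ≠ r) :
    phi hT r r' e v = e (par G r v) (phi hT r r' e (par G r v)) v := by
  rw [phi]
  simp [h]

/-- Induction along the tree rooted at `r`. -/
lemma par_induction (hT : G.IsTree) (r : V) {P : V → Prop} (h0 : P r)
    (hs : ∀ v, v ≠ r → P (par G r v) → P v) (v : V) : P v := by
  induction hn : G.dist r v using Nat.strong_induction_on generalizing v with
  | _ n ih =>
    by_cases hv : v = r
    · rw [hv]; exact h0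
    · apply hs v hv
      apply ih (G.dist r (par G r v)) _ _ rfl
      have := par_dist hT hv
      omega

/-- `e u u'` maps the `r`-children of `u` into the `r'`-children of `u'` as soon as `u`, `u'` are
both roots or both non-roots. -/
def Good (G : SimpleGraph V) (r r' : V) (e : V → V → V → V) : Prop :=
  ∀ u u', (u = r ↔ u' = r') → ∀ v ∈ children G r u, e u u' v ∈ children G r' u'

lemma phi_spec (hT : G.IsTree) {r r' : V} {e : V → V → V → V} (he : Good G r r' e) (v : V) :
    (v = r ↔ phi hT r r' e v = r') ∧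
      (v ≠ r → par G r' (phi hT r r' e v) = phi hT r r' e (par G r v)) := by
  induction v using par_induction hT r with
  | h0 =>
    refine ⟨⟨fun _ => phi_root hT r r' e, fun _ => rfl⟩, fun h => absurd rfl h⟩
  | hs v hv ih =>
    have h1 := he (par G r v) (phi hT r r' e (par G r v)) ih.1 v ⟨hv, rfl⟩
    rw [← phi_of_ne hT r r' e hv] at h1
    exact ⟨⟨fun h => absurd h hv, fun h => absurd h h1.1⟩, fun _ => h1.2⟩

lemma phi_inv (hT : G.IsTree) {r r' : V} {e f : V → V → V → V} (he : Good G r r' e)
    (hef : ∀ u u', (u = r ↔ u' = r') → ∀ v ∈ children G r u, f u' u (e u u' v) = v) (v : V) :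
    phi hT r' r f (phi hT r r' e v) = v := by
  induction v using par_induction hT r with
  | h0 => rw [phi_root, phi_root]
  | hs v hv ih =>
    have h1 := phi_spec hT he v
    have h2 : phi hT r r' e v ≠ r' := fun h => hv (h1.1.2 h)
    rw [phi_of_ne hT r' r f h2, h1.2 hv, ih, phi_of_ne hT r r' e hv]
    exact hef _ _ (phi_spec hT he (par G r v)).1 v ⟨hv, rfl⟩

lemma phi_adj (hT : G.IsTree) {r r' : V} {e : V → V → V → V} (he : Good G r r' e) {u v : V}
    (h : G.Adj u v) : G.Adj (phi hT r r' e u) (phi hT r r' e v) := by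
  rcases adj_cases hT r h with ⟨h1, h2⟩ | ⟨h1, h2⟩
  · have h3 := phi_spec hT he u
    have h4 : phi hT r r' e u ≠ r' := fun h => h1 (h3.1.2 h)
    have h5 := par_adj hT h4
    rwa [h3.2 h1, h2] at h5
  · have h3 := phi_spec hT he v
    have h4 : phi hT r r' e v ≠ r' := fun h => h1 (h3.1.2 h)
    have h5 := par_adj hT h4
    rw [h3.2 h1, h2] at h5
    exact h5.symm

/-- The isomorphism built from mutually inverse families of matchings of children. -/
noncomputable def phiIso (hT : G.IsTree) {r r' : V} {e f : V → V → V → V} (he : Good G r r' e)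
    (hf : Good G r' r f)
    (hef : ∀ u u', (u = r ↔ u' = r') → ∀ v ∈ children G r u, f u' u (e u u' v) = v)
    (hfe : ∀ u' u, (u' = r' ↔ u = r) → ∀ v ∈ children G r' u', e u u' (f u' u v) = v) :
    G ≃g G where
  toFun := phi hT r r' e
  invFun := phi hT r' r f
  left_inv := phi_inv hT he hef
  right_inv := phi_inv hT hf hfe
  map_rel_iff' := by
    intro a b
    constructor
    · intro h
      have := phi_adj hT hf h
      simpa [phi_inv hT he hef] using this
    · intro h
      exact phi_adj hT he h

/-- A finite path in a graph, as a sequence of consecutive adjacent vertices without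
backtracking. -/
structure IsNB (G : SimpleGraph V) (n : ℕ) (p : ℕ → V) : Prop where
  adj : ∀ i < n, G.Adj (p i) (p (i + 1))
  nb : ∀ i, i + 2 ≤ n → p (i + 2) ≠ p i

lemma IsNB.mono {n m : ℕ} {p : ℕ → V} (h : IsNB G n p) (hm : m ≤ n) : IsNB G m p :=
  ⟨fun i hi => h.adj i (by omega), fun i hi => h.nb i (by omega)⟩

lemma IsNB.shift {n : ℕ} {p : ℕ → V} (h : IsNB G n p) (k : ℕ) (hk : k ≤ n) :
    IsNB G (n - k) (fun i => p (k + i)) :=
  ⟨fun i hi => h.adj (k + i) (by omega), fun i hi => h.nb (k + i) (by omega)⟩

lemma IsNB.reverse {n : ℕ} {p : ℕ → V} (h : IsNB G n p) :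
    IsNB G n (fun i => p (n - i)) := by
  refine ⟨fun i hi => ?_, fun i hi => ?_⟩
  · have h1 := h.adj (n - (i + 1)) (by omega)
    have h2 : n - (i + 1) + 1 = n - i := by omega
    rw [h2] at h1
    exact h1.symm
  · have h1 := h.nb (n - (i + 2)) (by omega)
    have h2 : n - (i + 2) + 2 = n - i := by omega
    rw [h2] at h1
    exact h1.symm

/-- In a tree a non-backtracking path is a geodesic, and its parents are its predecessors. -/
lemma IsNB.dist_par (hT : G.IsTree) {n : ℕ} {p : ℕ → V} (h : IsNB G n p) (i : ℕ) (hi : i ≤ n) :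
    G.dist (p 0) (p i) = i ∧ (1 ≤ i → par G (p 0) (p i) = p (i - 1)) := by
  induction i with
  | zero => simp
  | succ i ih =>
    have h1 := ih (by omega)
    have hadj := h.adj i (by omega)
    rcases hT.dist_eq_dist_add_one_of_adj (p 0) hadj with h2 | h2
    · exfalso
      rcases Nat.eq_zero_or_pos i with rfl | hpos
      · rw [SimpleGraph.dist_self] at h2
        omega
      · have h3 := eq_par hT hadj h2.symm
        rw [h1.2 hpos] at h3
        obtain ⟨j, rfl⟩ : ∃ j, i = j + 1 := ⟨i - 1, by omega⟩
        exact h.nb j (by omega) h3.symm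
    · refine ⟨by rw [h2, h1.1], fun _ => ?_⟩
      simp only [Nat.add_sub_cancel]
      exact eq_par hT hadj.symm h2.symm

lemma IsNB.dist (hT : G.IsTree) {n : ℕ} {p : ℕ → V} (h : IsNB G n p) {i j : ℕ} (hij : i ≤ j)
    (hj : j ≤ n) : G.dist (p i) (p j) = j - i := by
  have h1 := ((h.shift i (by omega)).dist_par hT (j - i) (by omega)).1
  have h2 : i + (j - i) = j := by omega
  simpa [h2] using h1

lemma IsNB.injOn (hT : G.IsTree) {n : ℕ} {p : ℕ → V} (h : IsNB G n p) {i j : ℕ} (hi : i ≤ n)
    (hj : j ≤ n) (hp : p i = p j) : i = j := by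
  rcases le_total i j with hij | hij
  · have := h.dist hT hij hj
    rw [hp, SimpleGraph.dist_self] at this
    omega
  · have := h.dist hT hij hi
    rw [hp, SimpleGraph.dist_self] at this
    omega

/-- **Path-transitivity.** In a regular tree any two non-backtracking paths of the same length
are related by an automorphism. -/
theorem exists_aut_path [G.LocallyFinite] (hT : G.IsTree) {d : ℕ}
    (hreg : G.IsRegularOfDegree d) {n : ℕ} {p q : ℕ → V} (hp : IsNB G n p) (hq : IsNB G n q) :
    ∃ g : G ≃g G, ∀ i ≤ n, g (p i) = q i := by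
  classical
  set r := p 0 with hr
  set r' := q 0 with hr'
  -- the matchings
  have key : ∀ u u' : V, ∃ fg : (V → V) × (V → V), (u = r ↔ u' = r') →
      ((∀ x ∈ children G r u, fg.1 x ∈ children G r' u') ∧
        (∀ y ∈ children G r' u', fg.2 y ∈ children G r u) ∧
        (∀ x ∈ children G r u, fg.2 (fg.1 x) = x) ∧
        (∀ y ∈ children G r' u', fg.1 (fg.2 y) = y) ∧
        (∀ i, i < n → u = p i → u' = q i → fg.1 (p (i + 1)) = q (i + 1))) := by
    intro u u'
    by_cases hu : u = r ↔ u' = r'
    · have hcard : (children G r u).ncard = (children G r' u').ncard := by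
        by_cases h : u = r
        · rw [hu.1 h, h, ncard_children_root hT hreg, ncard_children_root hT hreg]
        · rw [ncard_children hT hreg h, ncard_children hT hreg (fun h' => h (hu.2 h'))]
      by_cases hi : ∃ i, i < n ∧ u = p i ∧ u' = q i
      · obtain ⟨i, hi, h1, h2⟩ := hi
        obtain ⟨f, g, hf⟩ := exists_match (children_finite hT r u) (children_finite hT r' u')
          hcard (p (i + 1)) (q (i + 1))
        refine ⟨(f, g), fun _ => ⟨hf.1, hf.2.1, hf.2.2.1, hf.2.2.2.1, ?_⟩⟩
        intro j hj h3 h4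
        have hij : i = j := hp.injOn hT (by omega) (by omega) (h1.symm.trans h3)
        subst hij
        apply hf.2.2.2.2
        · have h5 := hp.dist_par hT (i + 1) (by omega)
          refine ⟨?_, ?_⟩
          · intro h6
            rw [← hr, h6, SimpleGraph.dist_self] at h5
            omega
          · rw [h1]
            exact h5.2 (by omega)
        · have h5 := hq.dist_par hT (i + 1) (by omega)
          refine ⟨?_, ?_⟩
          · intro h6
            rw [← hr', h6, SimpleGraph.dist_self] at h5
            omega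
          · rw [h2]
            exact h5.2 (by omega)
      · obtain ⟨f, g, hf⟩ := exists_match (children_finite hT r u) (children_finite hT r' u')
          hcard r r'
        refine ⟨(f, g), fun _ => ⟨hf.1, hf.2.1, hf.2.2.1, hf.2.2.2.1, ?_⟩⟩
        intro j hj h3 h4
        exact absurd ⟨j, hj, h3, h4⟩ hi
    · exact ⟨(id, id), fun h => absurd h hu⟩
  choose fg hfg using key
  let g : G ≃g G := phiIso hT (r := r) (r' := r') (e := fun u u' => (fg u u').1)
    (f := fun u' u => (fg u u').2)
    (fun u u' h v hv => (hfg u u' h).1 v hv)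
    (fun u' u h v hv => (hfg u u' h.symm).2.1 v hv)
    (fun u u' h v hv => (hfg u u' h).2.2.1 v hv)
    (fun u' u h v hv => (hfg u u' h.symm).2.2.2.1 v hv)
  refine ⟨g, fun i => ?_⟩
  have hg : ∀ v, g v = phi hT r r' (fun u u' => (fg u u').1) v := fun v => rfl
  induction i with
  | zero =>
    intro _
    rw [hg, ← hr, phi_root]
  | succ i ih =>
    intro hi
    have ih' := ih (by omega)
    rw [hg] at ih' ⊢
    have h5 := hp.dist_par hT (i + 1) hi
    have h6 : p (i + 1) ≠ r := by
      intro h6
      rw [← hr, h6, SimpleGraph.dist_self] at h5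
      omega
    have h7 : par G r (p (i + 1)) = p i := h5.2 (by omega)
    rw [phi_of_ne hT r r' _ h6, h7, ih']
    have h8 : (p i = r ↔ q i = r') := by
      rcases Nat.eq_zero_or_pos i with rfl | hpos
      · simp [hr, hr']
      · constructor
        · intro h
          exact absurd (hp.injOn hT (by omega) (by omega) (h.trans hr)) (by omega)
        · intro h
          exact absurd (hq.injOn hT (by omega) (by omega) (h.trans hr')) (by omega)
    exact (hfg (p i) (q i) h8).2.2.2.2 i (by omega) rfl rfl

/-- Vertex-transitivity. -/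
theorem exists_aut_vertex [G.LocallyFinite] (hT : G.IsTree) {d : ℕ}
    (hreg : G.IsRegularOfDegree d) (u v : V) : ∃ g : G ≃g G, g u = v := by
  obtain ⟨g, hg⟩ := exists_aut_path (n := 0) hT hreg (p := fun _ => u) (q := fun _ => v)
    ⟨fun i hi => by omega, fun i hi => by omega⟩ ⟨fun i hi => by omega, fun i hi => by omega⟩
  exact ⟨g, hg 0 le_rfl⟩

/-- Transitivity on directed edges. -/
theorem exists_aut_dart [G.LocallyFinite] (hT : G.IsTree) {d : ℕ}
    (hreg : G.IsRegularOfDegree d) {u v u' v' : V} (h : G.Adj u v) (h' : G.Adj u' v') :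
    ∃ g : G ≃g G, g u = u' ∧ g v = v' := by
  obtain ⟨g, hg⟩ := exists_aut_path (n := 1) hT hreg
    (p := fun i => if i = 0 then u else v) (q := fun i => if i = 0 then u' else v')
    ⟨fun i hi => by have : i = 0 := by omega
                    subst this
                    simpa using h, fun i hi => by omega⟩
    ⟨fun i hi => by have : i = 0 := by omega
                    subst this
                    simpa using h', fun i hi => by omega⟩
  exact ⟨g, by simpa using hg 0 (by omega), by simpa using hg 1 le_rfl⟩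

/-- The geodesic between two vertices. -/
theorem exists_geodesic (hT : G.IsTree) (u v : V) :
    ∃ p : ℕ → V, IsNB G (G.dist u v) p ∧ p 0 = u ∧ p (G.dist u v) = v := by
  obtain ⟨w, hw, hl⟩ := hT.connected.exists_path_of_dist u v
  refine ⟨w.getVert, ⟨fun i hi => ?_, fun i hi h => ?_⟩, w.getVert_zero, ?_⟩
  · exact w.adj_getVert_succ (by omega)
  · have := hw.getVert_injOn (Set.mem_ofPred_eq ▸ (by omega : i + 2 ≤ w.length))
      (Set.mem_ofPred_eq ▸ (by omega : i ≤ w.length)) h
    omega
  · rw [← hl]
    exact w.getVert_length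

/-- Pairs of vertices at the same distance are related by an automorphism. -/
theorem exists_aut_of_dist_eq [G.LocallyFinite] (hT : G.IsTree) {d : ℕ}
    (hreg : G.IsRegularOfDegree d) {u v u' v' : V} (h : G.dist u v = G.dist u' v') :
    ∃ g : G ≃g G, g u = u' ∧ g v = v' := by
  obtain ⟨p, hp, hp0, hp1⟩ := exists_geodesic hT u v
  obtain ⟨q, hq, hq0, hq1⟩ := exists_geodesic hT u' v'
  rw [← h] at hq hq1
  obtain ⟨g, hg⟩ := exists_aut_path hT hreg hp hq
  refine ⟨g, ?_, ?_⟩
  · rw [← hp0, hg 0 (by omega), hq0]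
  · rw [← hp1, hg _ le_rfl, hq1]

/-- Some automorphism exchanges `u` and `v`. -/
theorem exists_aut_swap [G.LocallyFinite] (hT : G.IsTree) {d : ℕ}
    (hreg : G.IsRegularOfDegree d) (u v : V) : ∃ g : G ≃g G, g u = v ∧ g v = u :=
  exists_aut_of_dist_eq hT hreg SimpleGraph.dist_comm

/-- Some automorphism fixes `u` and maps `v` to `v'`, if these are equally far from `u`. -/
theorem exists_aut_fix [G.LocallyFinite] (hT : G.IsTree) {d : ℕ}
    (hreg : G.IsRegularOfDegree d) {u v v' : V} (h : G.dist u v = G.dist u v') :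
    ∃ g : G ≃g G, g u = u ∧ g v = v' :=
  exists_aut_of_dist_eq hT hreg h

/-- `ERel G n e f`: the (undirected) edges `e` and `f` are the first and the last edge of a
non-backtracking path with `n` edges (`n = 1` iff `e = f`). -/
def ERel (G : SimpleGraph V) (n : ℕ) (e f : Sym2 V) : Prop :=
  1 ≤ n ∧ ∃ p : ℕ → V, IsNB G n p ∧ s(p 0, p 1) = e ∧ s(p (n - 1), p n) = f

lemma IsNB.one (G : SimpleGraph V) {a b : V} (h : G.Adj a b) :
    IsNB G 1 (fun i => if i = 0 then a else b) :=
  ⟨fun i hi => by have : i = 0 := by omega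
                  subst this
                  simpa using h, fun i hi => by omega⟩

lemma ERel.refl {e : Sym2 V} (he : e ∈ G.edgeSet) : ERel G 1 e e := by
  induction e using Sym2.ind with
  | _ a b =>
    exact ⟨le_rfl, _, IsNB.one G he, by simp, by simp⟩

lemma ERel.symm {n : ℕ} {e f : Sym2 V} (h : ERel G n e f) : ERel G n f e := by
  obtain ⟨hn, p, hp, h0, h1⟩ := h
  refine ⟨hn, _, hp.reverse, ?_, ?_⟩
  · simp only [Nat.sub_zero]
    rw [Sym2.eq_swap, h1]
  · simp only [Nat.sub_self]
    rw [Sym2.eq_swap, ← h0]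
    congr 2
    omega

/-- The geodesic starts with the neighbour closer to the target. -/
lemma IsNB.eq_of_closer (hT : G.IsTree) {n : ℕ} {p : ℕ → V} (h : IsNB G n p) (hn : 1 ≤ n) {x : V}
    (hadj : G.Adj (p n) x) (hx : G.dist (p 0) x + 1 = n) : p (n - 1) = x := by
  have h1 := h.dist_par hT n le_rfl
  rw [← h1.2 hn]
  exact eq_par hT hadj (by rw [hx, h1.1])

/-- Any two edges are related. -/
theorem exists_ERel (hT : G.IsTree) {e f : Sym2 V} (he : e ∈ G.edgeSet) (hf : f ∈ G.edgeSet) :
    ∃ n, ERel G n e f := by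
  classical
  induction e using Sym2.ind with
  | _ a b =>
  induction f using Sym2.ind with
  | _ c d =>
    rw [SimpleGraph.mem_edgeSet] at he hf
    -- choose the endpoints at maximal distance
    obtain ⟨x, x', y, y', hx, hy, h1, h2⟩ : ∃ x x' y y' : V, s(x, x') = s(a, b) ∧
        s(y, y') = s(c, d) ∧ G.dist x' y ≤ G.dist x y ∧ G.dist x y' ≤ G.dist x y := by
      by_cases h1 : G.dist a c ≤ G.dist a d
      · by_cases h2 : G.dist b d ≤ G.dist a d
        · exact ⟨a, b, d, c, rfl, Sym2.eq_swap, h2, h1⟩
        · by_cases h3 : G.dist b c ≤ G.dist b d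
          · exact ⟨b, a, d, c, Sym2.eq_swap, Sym2.eq_swap, by omega, h3⟩
          · exact ⟨b, a, c, d, Sym2.eq_swap, rfl, by omega, by omega⟩
      · by_cases h2 : G.dist b c ≤ G.dist a c
        · exact ⟨a, b, c, d, rfl, rfl, h2, by omega⟩
        · by_cases h3 : G.dist b d ≤ G.dist b c
          · exact ⟨b, a, c, d, Sym2.eq_swap, rfl, by omega, h3⟩
          · exact ⟨b, a, d, c, Sym2.eq_swap, Sym2.eq_swap, by omega, by omega⟩
    have hadj : G.Adj x x' := by
      rw [← SimpleGraph.mem_edgeSet, hx, SimpleGraph.mem_edgeSet]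
      exact he
    have hadj' : G.Adj y y' := by
      rw [← SimpleGraph.mem_edgeSet, hy, SimpleGraph.mem_edgeSet]
      exact hf
    have h3 := hT.dist_eq_dist_add_one_of_adj y hadj
    have h4 := hT.dist_eq_dist_add_one_of_adj x hadj'
    rw [SimpleGraph.dist_comm (u := y) (v := x), SimpleGraph.dist_comm (u := y) (v := x')] at h3
    obtain ⟨p, hp, hp0, hp1⟩ := exists_geodesic hT x y
    have hn : 1 ≤ G.dist x y := by omega
    refine ⟨G.dist x y, hn, p, hp, ?_, ?_⟩
    · rw [← hx]
      have h5 := hp.reverse.eq_of_closer hT hn (x := x') (by simpa [hp0] using hadj)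
        (by
          simp only [Nat.sub_zero, hp1]
          rw [SimpleGraph.dist_comm]
          omega)
      rw [show G.dist x y - (G.dist x y - 1) = 1 by omega] at h5
      rw [hp0, h5]
    · rw [← hy]
      have h5 := hp.eq_of_closer hT hn (x := y') (by simpa [hp1] using hadj')
        (by rw [hp0]; omega)
      rw [h5, hp1, Sym2.eq_swap]

/-- Pairs of edges with the same relation are related by an automorphism. -/
theorem ERel.exists_aut [G.LocallyFinite] (hT : G.IsTree) {d : ℕ}
    (hreg : G.IsRegularOfDegree d) {n : ℕ} {e f e' f' : Sym2 V} (h : ERel G n e f)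
    (h' : ERel G n e' f') : ∃ g : G ≃g G, Sym2.map g e = e' ∧ Sym2.map g f = f' := by
  obtain ⟨hn, p, hp, h0, h1⟩ := h
  obtain ⟨-, q, hq, h0', h1'⟩ := h'
  obtain ⟨g, hg⟩ := exists_aut_path hT hreg hp hq
  refine ⟨g, ?_, ?_⟩
  · rw [← h0, ← h0', Sym2.map_mk, hg 0 (by omega), hg 1 hn]
  · rw [← h1, ← h1', Sym2.map_mk, hg _ (by omega), hg _ le_rfl]

/-- Some automorphism exchanges the edges `e` and `f`. -/
theorem exists_aut_edge_swap [G.LocallyFinite] (hT : G.IsTree) {d : ℕ}
    (hreg : G.IsRegularOfDegree d) {e f : Sym2 V} (he : e ∈ G.edgeSet) (hf : f ∈ G.edgeSet) :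
    ∃ g : G ≃g G, Sym2.map g e = f ∧ Sym2.map g f = e := by
  obtain ⟨n, hn⟩ := exists_ERel hT he hf
  exact hn.exists_aut hT hreg hn.symm

/-- The length in `ERel` is determined by the two edges. -/
lemma ERel.unique (hT : G.IsTree) {n m : ℕ} {e f : Sym2 V} (h : ERel G n e f)
    (h' : ERel G m e f) : n = m := by
  have key : ∀ {n : ℕ}, ERel G n e f → (∃ x ∈ e, ∃ y ∈ f, G.dist x y = n) ∧
      (∀ x ∈ e, ∀ y ∈ f, G.dist x y ≤ n) := by
    intro n hn
    obtain ⟨hn, p, hp, h0, h1⟩ := hn
    refine ⟨⟨p 0, by rw [← h0]; simp, p n, by rw [← h1]; simp, ?_⟩, ?_⟩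
    · simpa using hp.dist hT (Nat.zero_le n) le_rfl
    · intro x hx y hy
      rw [← h0, Sym2.mem_iff] at hx
      rw [← h1, Sym2.mem_iff] at hy
      have aux : ∀ i j, i ≤ n → j ≤ n → G.dist (p i) (p j) ≤ n := by
        intro i j hi hj
        rcases le_total i j with hij | hij
        · rw [hp.dist hT hij hj]; omega
        · rw [SimpleGraph.dist_comm, hp.dist hT hij hi]; omega
      rcases hx with rfl | rfl <;> rcases hy with rfl | rfl <;> apply aux <;> omega
  obtain ⟨⟨x, hx, y, hy, hxy⟩, hle⟩ := key h
  obtain ⟨⟨x', hx', y', hy', hxy'⟩, hle'⟩ := key h'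
  have h1 := hle' x hx y hy
  have h2 := hle x' hx' y' hy'
  omega

end Crest.Agent.R160.TreeAut
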