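import Mathlib
import Crest.Agent.R160.TreeAut

/-! Row 160, core definitions: noise space, Ising posterior with observations, sequential
observation process driven by iid noise. -/

set_option autoImplicit false

open MeasureTheory Finset
open scoped Classical

namespace Crest.Agent.R160

variable {V : Type*}

/-- events: (vertex, round) -/
abbrev Ev (V : Type*) := V × ℕ

/-- the noise space: for every event a clock and a noise, both uniform on `[0,1]` -/
abbrev Om (V : Type*) := Ev V → unitInterval × unitInterval

/-- the law of the noise -/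
noncomputable def PP (V : Type*) : Measure (Om V) :=
  Measure.infinitePi (fun _ : Ev V => (volume : Measure (unitInterval × unitInterval)))

/-- the clock of an event, in `[0,1]` -/
def clk (ω : Om V) (e : Ev V) : ℝ := ((ω e).1 : ℝ)

/-- the noise of an event, in `[-1,1]` -/
def nz (ω : Om V) (e : Ev V) : ℝ := 2 * ((ω e).2 : ℝ) - 1

/-- the absolute time of an event -/
def tm (ω : Om V) (e : Ev V) : ℝ := (e.2 : ℝ) + clk ω e

/-- the strength as a function of round and clock -/
noncomputable def str (j : ℕ) (u : ℝ) : ℝ :=
  if u < 1 / 2 then (if j = 0 then u / 2 else 1 / 2) else 0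

/-- the strength of an event -/
noncomputable def st (ω : Om V) (e : Ev V) : ℝ := str e.2 (clk ω e)

/-- the sampling map: if `z` is uniform on `[-1,1]` then `TT s z` has density `(1+s y)/2` -/
noncomputable def TT (s z : ℝ) : ℝ := (2 * z + s) / (1 + √(1 + 2 * s * z + s ^ 2))

/-- the spin at `v` of the configuration with plus set `A` -/
noncomputable def sg (A : Finset V) (v : V) : ℝ := if v ∈ A then 1 else -1

/-- product of the spins at the two ends of an edge -/
noncomputable def sgE (A : Finset V) (e : Sym2 V) : ℝ :=
  Sym2.lift ⟨fun a b => sg A a * sg A b, fun a b => mul_comm _ _⟩ e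

/-- edge weight -/
noncomputable def ew (G : SimpleGraph V) (θ : ℝ) (S A : Finset V) : ℝ :=
  ∏ e ∈ S.sym2 with e ∈ G.edgeSet, (1 + θ * sgE A e)

/-- observation weight -/
noncomputable def ow (E : Finset (Ev V)) (o : Ev V → ℝ) (A : Finset V) : ℝ :=
  ∏ e ∈ E, (1 + sg A e.1 * o e)

/-- unnormalised posterior sum of `f` -/
noncomputable def num (G : SimpleGraph V) (θ : ℝ) (S : Finset V) (E : Finset (Ev V))
    (o : Ev V → ℝ) (f : Finset V → ℝ) : ℝ :=
  ∑ A ∈ S.powerset, f A * (ew G θ S A * ow E o A)

/-- partition function -/
noncomputable def ZZ (G : SimpleGraph V) (θ : ℝ) (S : Finset V) (E : Finset (Ev V))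
    (o : Ev V → ℝ) : ℝ := num G θ S E o (fun _ => 1)

/-- posterior mean of `f` -/
noncomputable def mean (G : SimpleGraph V) (θ : ℝ) (S : Finset V) (E : Finset (Ev V))
    (o : Ev V → ℝ) (f : Finset V → ℝ) : ℝ := num G θ S E o f / ZZ G θ S E o

/-- posterior magnetization -/
noncomputable def mm (G : SimpleGraph V) (θ : ℝ) (S : Finset V) (E : Finset (Ev V))
    (o : Ev V → ℝ) (v : V) : ℝ := mean G θ S E o (fun A => sg A v)

/-- posterior covariance -/
noncomputable def cov (G : SimpleGraph V) (θ : ℝ) (S : Finset V) (E : Finset (Ev V))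
    (o : Ev V → ℝ) (v w : V) : ℝ :=
  mean G θ S E o (fun A => sg A v * sg A w) - mm G θ S E o v * mm G θ S E o w

/-- events strictly before time `s` -/
noncomputable def before (E : Finset (Ev V)) (ω : Om V) (s : ℝ) : Finset (Ev V) :=
  E.filter (fun e => tm ω e < s)

/-- one step of the fixed point iteration defining the observations -/
noncomputable def stepObs (G : SimpleGraph V) (θ : ℝ) (S : Finset V) (E : Finset (Ev V))
    (ω : Om V) (o : Ev V → ℝ) : Ev V → ℝ := fun e =>
  if e ∈ E then
    st ω e * TT (st ω e * mm G θ S (before E ω (tm ω e)) o e.1) (nz ω e)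
  else 0

/-- the observations driven by the noise `ω`, system `(θ, S, E)` -/
noncomputable def obs (G : SimpleGraph V) (θ : ℝ) (S : Finset V) (E : Finset (Ev V))
    (ω : Om V) : Ev V → ℝ := (stepObs G θ S E ω)^[E.card] (fun _ => 0)

/-- the magnetization process: posterior magnetization given the events strictly before `s` -/
noncomputable def mt (G : SimpleGraph V) (θ : ℝ) (S : Finset V) (E : Finset (Ev V))
    (ω : Om V) (s : ℝ) (v : V) : ℝ := mm G θ S (before E ω s) (obs G θ S E ω) v

/-- the covariance process -/
noncomputable def ct (G : SimpleGraph V) (θ : ℝ) (S : Finset V) (E : Finset (Ev V))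
    (ω : Om V) (s : ℝ) (v w : V) : ℝ := cov G θ S (before E ω s) (obs G θ S E ω) v w

/-- the null observations: `Y` uniform on `[-1,1]` -/
noncomputable def nul (ω : Om V) (e : Ev V) : ℝ := st ω e * nz ω e

end Crest.Agent.R160
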