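import Mathlib
import Crest.Prelude.Def_TreeIsing
import Crest.Agent.R160.TreeAut
import Crest.Agent.R160.Core

/-! # Row 160 (S0241): derived definitions (the basic ones are in `Core.lean`)

`mfin` = finite-volume magnetization, `minf` = infinite-volume magnetization,
`rho`, `lam`, `slope`, `MM` = slopes and covariance as functions of magnetizations,
`Alev` = normalised level sums of slope products. -/

set_option autoImplicit false

open MeasureTheory
open scoped Classical

namespace Crest.Agent.R160

open Crest.Agent.R160.TreeAut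

noncomputable section

variable {V : Type*}

/-- all events at vertices of `S` in the first `R` rounds -/
def evs (S : Finset V) (R : ℕ) : Finset (Ev V) := S ×ˢ Finset.range R

/-- finite-volume magnetization at time `t` -/
def mfin (G : SimpleGraph V) (θ : ℝ) (S : Finset V) (ω : Om V) (t : ℝ) (v : V) : ℝ :=
  mt G θ S (evs S ⌈t⌉₊) ω t v

/-- ball of radius `n` around `v` -/
def bal (G : SimpleGraph V) [G.LocallyFinite] (v : V) : ℕ → Finset V
  | 0 => {v}
  | n + 1 => (bal G v n).biUnion fun x => insert x (G.neighborFinset x)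

/-- sphere of radius `n` around `v` -/
def sph (G : SimpleGraph V) [G.LocallyFinite] (v : V) (n : ℕ) : Finset V :=
  (bal G v n).filter fun w => G.dist v w = n

/-- infinite-volume magnetization at time `t` -/
def minf (G : SimpleGraph V) [G.LocallyFinite] (θ t : ℝ) (v : V) (ω : Om V) : ℝ :=
  Filter.limsup (fun n => mfin G θ (bal G v n) ω t v) Filter.atTop

/-- normalised slope over an edge as a function of the magnetizations `a`, `b` of its end
points: `Cov(σ_a, σ_b) = (1 - a^2) * θ * rho θ a b` -/
def rho (θ a b : ℝ) : ℝ :=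
  2 * (1 - b ^ 2) / ((1 + θ ^ 2 - 2 * θ * a * b) +
    Real.sqrt ((1 + θ ^ 2 - 2 * θ * a * b) ^ 2 - 4 * θ ^ 2 * (1 - a ^ 2) * (1 - b ^ 2)))

/-- the slope `Cov(σ_a, σ_b) / Var(σ_a)` over an edge -/
def lam (θ a b : ℝ) : ℝ := θ * rho θ a b

/-- product of `rho` along the path from the root `r` to `v` (at distance `n`) -/
def rprodN (G : SimpleGraph V) (θ : ℝ) (m : V → ℝ) (r : V) : ℕ → V → ℝ
  | 0, _ => 1
  | n + 1, v => rprodN G θ m r n (par G r v) * rho θ (m (par G r v)) (m v)

/-- product of `rho` along the path from `r` to `v` -/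
def rprod (G : SimpleGraph V) (θ : ℝ) (m : V → ℝ) (r v : V) : ℝ :=
  rprodN G θ m r (G.dist r v) v

/-- covariance of the spins at `v`, `w` as a function of the magnetizations on the path -/
def MM (G : SimpleGraph V) (θ : ℝ) (m : V → ℝ) (v w : V) : ℝ :=
  (1 - m v ^ 2) * θ ^ G.dist v w * rprod G θ m v w

/-- normalised level sum `b^{-k} ∑_{|w - o| = k} ∏ rho` (slopes pointing away from `o`) -/
def Alev (G : SimpleGraph V) [G.LocallyFinite] (b : ℕ) (θ : ℝ) (m : V → ℝ) (o : V) (k : ℕ) : ℝ :=
  (b : ℝ)⁻¹ ^ k * ∑ w ∈ sph G o k, rprod G θ m o w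

/-- the pulled back noise -/
def act {G : SimpleGraph V} (g : G ≃g G) (ω : Om V) : Om V := fun e => ω (g e.1, e.2)

/-- mean square difference of two infinite-volume magnetizations with the same noise -/
def DD (G : SimpleGraph V) [G.LocallyFinite] (θ θ' t : ℝ) (v : V) : ℝ :=
  ∫ ω, (minf G θ t v ω - minf G θ' t v ω) ^ 2 ∂(PP V)

/-- critical parameter -/
def thc (b : ℕ) : ℝ := 1 / Real.sqrt b

end

end Crest.Agent.R160
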