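import Mathlib

/-! Row 160: infinite product measures: finite-coordinate σ-algebras, independence, shifts,
approximation by conditional expectations. -/

set_option autoImplicit false

open MeasureTheory ProbabilityTheory Filter Finset
open scoped Topology ENNReal NNReal

namespace Crest.Agent.R160.InfPi

variable {ι E : Type*} [mE : MeasurableSpace E]

/-- the σ-algebra generated by the coordinates in the finite set `S` -/
@[instance_reducible]
def sig (E : Type*) [MeasurableSpace E] (S : Finset ι) : MeasurableSpace (ι → E) :=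
  MeasurableSpace.comap (fun (ω : ι → E) (i : S) => ω i) MeasurableSpace.pi

lemma sig_le (S : Finset ι) : sig E S ≤ (MeasurableSpace.pi : MeasurableSpace (ι → E)) := by
  unfold sig
  rw [← measurable_iff_comap_le]
  fun_prop

lemma measurable_coord_sig {S : Finset ι} {i : ι} (hi : i ∈ S) :
    Measurable[sig E S] (fun ω : ι → E => ω i) := by
  have h1 : Measurable[sig E S] (fun (ω : ι → E) (i : S) => ω i) := comap_measurable _
  exact (measurable_pi_apply (⟨i, hi⟩ : S)).comp h1

lemma sig_le_iff {S : Finset ι} {m : MeasurableSpace (ι → E)}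
    (h : ∀ i ∈ S, Measurable[m] (fun ω : ι → E => ω i)) : sig E S ≤ m := by
  unfold sig
  rw [← measurable_iff_comap_le]
  exact @measurable_pi_lambda _ _ _ m _ _ fun i => h i i.2

lemma sig_mono {S T : Finset ι} (h : S ⊆ T) : sig E S ≤ sig E T :=
  sig_le_iff fun _ hi => measurable_coord_sig (h hi)

lemma iSup_sig (S : ℕ → Finset ι) (hS : ∀ i, ∃ n, i ∈ S n) :
    ⨆ n, sig E (S n) = (MeasurableSpace.pi : MeasurableSpace (ι → E)) := by
  apply le_antisymm (iSup_le fun n => sig_le _)
  rw [MeasurableSpace.pi]
  refine iSup_le fun i => ?_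
  obtain ⟨n, hn⟩ := hS i
  refine le_trans ?_ (le_iSup _ n)
  rw [← measurable_iff_comap_le]
  exact measurable_coord_sig hn

variable (ν : Measure E) [IsProbabilityMeasure ν]

lemma indep_sig {S T : Finset ι} (h : Disjoint S T) :
    Indep (sig E S) (sig E T) (Measure.infinitePi (fun _ : ι => ν)) := by
  have h1 : iIndepFun (fun (i : ι) (ω : ι → E) => ω i) (Measure.infinitePi (fun _ : ι => ν)) :=
    iIndepFun_infinitePi (P := fun _ : ι => ν) (X := fun _ => id) (fun _ => measurable_id)
  exact h1.indepFun_finset S T h fun i => measurable_pi_apply i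

/-- A product of functions measurable w.r.t. disjoint sets of coordinates. -/
lemma integral_mul_of_disjoint {S T : Finset ι} (h : Disjoint S T) {f g : (ι → E) → ℝ}
    (hf : StronglyMeasurable[sig E S] f) (hg : StronglyMeasurable[sig E T] g) :
    ∫ ω, f ω * g ω ∂(Measure.infinitePi (fun _ : ι => ν)) =
      (∫ ω, f ω ∂(Measure.infinitePi (fun _ : ι => ν))) *
        ∫ ω, g ω ∂(Measure.infinitePi (fun _ : ι => ν)) := by
  have h1 : IndepFun f g (Measure.infinitePi (fun _ : ι => ν)) := by
    have h2 := indep_sig (E := E) ν h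
    have h3 := indep_of_indep_of_le_left h2 hf.measurable.comap_le
    exact indep_of_indep_of_le_right h3 hg.measurable.comap_le
  exact h1.integral_fun_mul_eq_mul_integral (hf.mono (sig_le S)).aestronglyMeasurable
    (hg.mono (sig_le T)).aestronglyMeasurable

/-- reindexing the coordinates -/
def rei (τ : ι ≃ ι) (ω : ι → E) : ι → E := fun i => ω (τ i)

lemma measurable_rei (τ : ι ≃ ι) : Measurable (rei (E := E) τ) := by
  unfold rei; fun_prop

omit mE in
lemma rei_symm_rei (τ : ι ≃ ι) (ω : ι → E) : rei τ.symm (rei τ ω) = ω := by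
  ext i; simp [rei]

lemma measurePreserving_rei (τ : ι ≃ ι) : MeasurePreserving (rei (E := E) τ)
    (Measure.infinitePi (fun _ : ι => ν)) (Measure.infinitePi (fun _ : ι => ν)) := by
  refine ⟨measurable_rei τ, ?_⟩
  have h := Measure.infinitePi_map_piCongrLeft (X := fun _ : ι => E) (fun _ : ι => ν) τ.symm
  convert h using 2
  ext ω i
  rw [MeasurableEquiv.coe_piCongrLeft, Equiv.piCongrLeft_apply]
  simp [rei]

lemma comap_rei_sig (τ : ι ≃ ι) (S : Finset ι) :
    MeasurableSpace.comap (rei (E := E) τ) (sig E S) = sig E (S.map τ.toEmbedding) := by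
  apply le_antisymm
  · rw [← measurable_iff_comap_le]
    have h1 : ∀ i ∈ S, Measurable[sig E (S.map τ.toEmbedding)] (fun ω : ι → E => ω (τ i)) :=
      fun i hi => measurable_coord_sig (by simpa using hi)
    rw [measurable_iff_comap_le, sig, MeasurableSpace.comap_comp, ← measurable_iff_comap_le]
    exact @measurable_pi_lambda _ _ _ (sig E (S.map τ.toEmbedding)) _ _ fun i => h1 i i.2
  · apply sig_le_iff
    intro i hi
    rw [Finset.mem_map] at hi
    obtain ⟨j, hj, rfl⟩ := hi
    exact (measurable_coord_sig hj).comp (comap_measurable _)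

/-- conditional expectations commute with reindexing -/
lemma condExp_rei (τ : ι ≃ ι) (S : Finset ι) {F : (ι → E) → ℝ}
    (hF : Integrable F (Measure.infinitePi (fun _ : ι => ν))) :
    (fun ω => (Measure.infinitePi (fun _ : ι => ν))[F | sig E S] (rei τ ω))
      =ᵐ[Measure.infinitePi (fun _ : ι => ν)]
    (Measure.infinitePi (fun _ : ι => ν))[fun ω => F (rei τ ω) | sig E (S.map τ.toEmbedding)] := by
  set P := Measure.infinitePi (fun _ : ι => ν) with hP
  have hmp := measurePreserving_rei (E := E) ν τ
  rw [← hP] at hmp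
  have hSm : StronglyMeasurable[sig E S] (P[F | sig E S]) := stronglyMeasurable_condExp
  have hme : MeasurableEmbedding (rei (E := E) τ) := by
    refine MeasurableEquiv.measurableEmbedding
      ⟨⟨rei τ, rei τ.symm, fun ω => ?_, fun ω => ?_⟩, measurable_rei τ, measurable_rei τ.symm⟩
    · ext i; simp [rei]
    · ext i; simp [rei]
  have hint : Integrable (fun ω => (P[F | sig E S]) (rei τ ω)) P :=
    hmp.integrable_comp_of_integrable integrable_condExp
  refine ae_eq_condExp_of_forall_setIntegral_eq (sig_le _) ?_ ?_ ?_ ?_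
  · exact hmp.integrable_comp_of_integrable hF
  · intro s _ _
    exact hint.integrableOn
  · intro s hs _
    rw [← comap_rei_sig] at hs
    obtain ⟨t, ht, rfl⟩ := hs
    rw [hmp.setIntegral_preimage_emb hme, hmp.setIntegral_preimage_emb hme,
      setIntegral_condExp (sig_le _) hF ht]
  · rw [← comap_rei_sig]
    exact (hSm.comp_measurable (comap_measurable _)).aestronglyMeasurable

/-- `L²` approximation of bounded functions by conditional expectations. -/
lemma tendsto_condExp_sq (S : ℕ → Finset ι) (hmono : Monotone S) (hS : ∀ i, ∃ n, i ∈ S n)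
    {F : (ι → E) → ℝ} (hF : Measurable F) {B : ℝ} (hB : ∀ ω, |F ω| ≤ B) :
    Tendsto (fun n => ∫ ω, ((Measure.infinitePi (fun _ : ι => ν))[F | sig E (S n)] ω - F ω) ^ 2
      ∂(Measure.infinitePi (fun _ : ι => ν))) atTop (𝓝 0) := by
  set P := Measure.infinitePi (fun _ : ι => ν) with hP
  let ℱ : Filtration ℕ (MeasurableSpace.pi : MeasurableSpace (ι → E)) :=
    ⟨fun n => sig E (S n), fun a b hab => sig_mono (hmono hab), fun n => sig_le _⟩
  have hB0 : 0 ≤ B := by
    have : Nonempty E := by
      by_contra h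
      rw [not_nonempty_iff] at h
      have := measure_univ (μ := ν)
      rw [Set.univ_eq_empty_iff.mpr h, measure_empty] at this
      exact zero_ne_one this
    exact (abs_nonneg _).trans (hB (fun _ => this.some))
  have hFint : Integrable F P := by
    refine Integrable.of_bound hF.aestronglyMeasurable B (ae_of_all _ fun ω => ?_)
    exact hB ω
  have h1 : Tendsto (fun n => eLpNorm (P[F | ℱ n] - F) 1 P) atTop (𝓝 0) := by
    refine hFint.tendsto_eLpNorm_condExp (ℱ := ℱ) ?_
    have : (⨆ n, (ℱ n : MeasurableSpace (ι → E))) = MeasurableSpace.pi := iSup_sig S hS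
    rw [this]
    exact hF.stronglyMeasurable
  have hbd : ∀ n, ∀ᵐ ω ∂P, |(P[F | sig E (S n)]) ω| ≤ B := by
    intro n
    exact ae_bdd_abs_condExp_of_ae_bdd_abs (ae_of_all _ hB)
  have h2 : Tendsto (fun n => ∫ ω, |(P[F | sig E (S n)]) ω - F ω| ∂P) atTop (𝓝 0) := by
    have h3 : ∀ n, ∫ ω, |(P[F | sig E (S n)]) ω - F ω| ∂P =
        (eLpNorm (P[F | ℱ n] - F) 1 P).toReal := by
      intro n
      rw [eLpNorm_one_eq_lintegral_enorm, ← integral_norm_eq_lintegral_enorm]
      · rfl
      · exact (integrable_condExp.sub hFint).aestronglyMeasurable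
    simp only [h3]
    have := (ENNReal.tendsto_toReal ENNReal.zero_ne_top).comp h1
    simpa [Function.comp_def] using this
  have h4 : Tendsto (fun n => (2 * B) * ∫ ω, |(P[F | sig E (S n)]) ω - F ω| ∂P) atTop (𝓝 0) := by
    simpa using h2.const_mul (2 * B)
  refine squeeze_zero (fun n => integral_nonneg fun ω => sq_nonneg _) (fun n => ?_) h4
  rw [← integral_const_mul]
  refine integral_mono_ae ?_ ?_ ?_
  · have hm : AEStronglyMeasurable (fun ω => ((P[F | sig E (S n)]) ω - F ω) ^ 2) P :=
      ((integrable_condExp.sub hFint).aestronglyMeasurable.pow 2)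
    refine Integrable.of_bound hm ((2 * B) ^ 2) ?_
    filter_upwards [hbd n] with ω hω
    rw [Real.norm_eq_abs, abs_pow]
    apply pow_le_pow_left₀ (abs_nonneg _)
    calc |(P[F | sig E (S n)]) ω - F ω| ≤ |(P[F | sig E (S n)]) ω| + |F ω| := abs_sub _ _
      _ ≤ 2 * B := by linarith [hB ω]
  · exact ((integrable_condExp.sub hFint).abs.const_mul _)
  · filter_upwards [hbd n] with ω hω
    have h5 : |(P[F | sig E (S n)]) ω - F ω| ≤ 2 * B :=
      calc |(P[F | sig E (S n)]) ω - F ω| ≤ |(P[F | sig E (S n)]) ω| + |F ω| := abs_sub _ _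
        _ ≤ 2 * B := by linarith [hB ω]
    rw [← sq_abs, sq]
    exact mul_le_mul_of_nonneg_right h5 (abs_nonneg _)

end Crest.Agent.R160.InfPi
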