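import Crest.Agent.R160.BSVMain
import Crest.Agent.R160.InfPi
import Crest.Agent.R160.Balls
import Crest.Agent.R160.Defs

/-! Row 160: the Backhausz–Szegedy–Virág variance bound along paths for bounded equivariant
edge functions of the iid noise. -/

set_option autoImplicit false

open SimpleGraph Finset MeasureTheory Filter
open scoped Classical Topology

namespace Crest.Agent.R160.BSVNoise

open Crest.Agent.R160 Crest.Agent.R160.TreeAut Crest.Agent.R160.Sphere Crest.Agent.R160.InfPi

variable {V : Type*} {G : SimpleGraph V}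

/-- action of an automorphism on events -/
def evEquiv (g : G ≃g G) : Ev V ≃ Ev V := g.toEquiv.prodCongr (Equiv.refl ℕ)

lemma rei_evEquiv (g : G ≃g G) (ω : Om V) : rei (evEquiv g) ω = act g ω := by
  ext e <;> rfl

lemma act_eq_rei (g : G ≃g G) : (act g : Om V → Om V) = rei (evEquiv g) := by
  funext ω; exact (rei_evEquiv g ω).symm

/-- The law of the noise is invariant under automorphisms. -/
lemma measurePreserving_act (g : G ≃g G) : MeasurePreserving (act g : Om V → Om V) (PP V) (PP V) := by
  rw [act_eq_rei]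
  exact measurePreserving_rei _ _

instance : IsProbabilityMeasure (PP V) := by unfold PP; infer_instance

lemma measurableEmbedding_act (g : G ≃g G) : MeasurableEmbedding (act g : Om V → Om V) := by
  refine MeasurableEquiv.measurableEmbedding
    ⟨⟨act g, act g.symm, fun ω => ?_, fun ω => ?_⟩, (measurePreserving_act g).measurable,
      (measurePreserving_act g.symm).measurable⟩
  · ext e <;> simp [act]
  · ext e <;> simp [act]

lemma integral_act (g : G ≃g G) (F : Om V → ℝ) : ∫ ω, F (act g ω) ∂(PP V) = ∫ ω, F ω ∂(PP V) :=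
  (measurePreserving_act g).integral_comp (measurableEmbedding_act g) F

variable [G.LocallyFinite]

/-- the events used in the `N`-th local approximation at the edge `xy` -/
noncomputable def locEv (G : SimpleGraph V) [G.LocallyFinite] (N : ℕ) (x y : V) : Finset (Ev V) :=
  (R160.bal G x N ∪ R160.bal G y N) ×ˢ Finset.range N

lemma locEv_symm (N : ℕ) (x y : V) : locEv G N x y = locEv G N y x := by
  unfold locEv; rw [Finset.union_comm]

lemma locEv_map (hT : G.IsTree) (g : G ≃g G) (N : ℕ) (x y : V) :
    locEv G N (g x) (g y) = (locEv G N x y).map (evEquiv g).toEmbedding := by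
  unfold locEv
  rw [bal_map hT, bal_map hT, ← Finset.map_union]
  ext ⟨v, j⟩
  simp only [Finset.mem_product, Finset.mem_map_equiv, evEquiv, Equiv.prodCongr_symm,
    Equiv.prodCongr_apply, Prod.map, Finset.mem_range]
  rfl

lemma locEv_mono (hT : G.IsTree) (x y : V) : Monotone fun N => locEv G N x y := by
  intro N M h
  have h1 : ∀ v, R160.bal G v N ⊆ R160.bal G v M := by
    intro v u hu
    rw [mem_bal hT] at hu ⊢
    omega
  exact Finset.product_subset_product (Finset.union_subset_union (h1 x) (h1 y))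
    (Finset.range_mono h)

lemma locEv_exhaust (hT : G.IsTree) (x y : V) (e : Ev V) : ∃ N, e ∈ locEv G N x y := by
  refine ⟨max (G.dist x e.1) (e.2 + 1), ?_⟩
  simp only [locEv, Finset.mem_product, Finset.mem_union, mem_bal hT, Finset.mem_range]
  refine ⟨Or.inl (le_max_left _ _), ?_⟩
  have := le_max_right (G.dist x e.1) (e.2 + 1)
  omega

lemma locEv_disjoint (hT : G.IsTree) {N : ℕ} {x y z w : V} (hxy : G.Adj x y)
    (hz : 2 * N + 1 < G.dist x z) (hw : 2 * N + 1 < G.dist x w) :
    Disjoint (locEv G N x y) (locEv G N z w) := by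
  rw [Finset.disjoint_left]
  rintro ⟨v, j⟩ h1 h2
  simp only [locEv, Finset.mem_product, Finset.mem_union, mem_bal hT] at h1 h2
  have h3 : G.dist x y = 1 := SimpleGraph.dist_eq_one_iff_adj.mpr hxy
  have h4 : G.dist x v ≤ N + 1 := by
    rcases h1.1 with h | h
    · omega
    · have : G.dist x v ≤ G.dist x y + G.dist y v := hT.connected.dist_triangle
      omega
  rcases h2.1 with h | h
  · have h5 : G.dist x z ≤ G.dist x v + G.dist v z := hT.connected.dist_triangle
    rw [SimpleGraph.dist_comm (u := v) (v := z)] at h5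
    omega
  · have h5 : G.dist x w ≤ G.dist x v + G.dist v w := hT.connected.dist_triangle
    rw [SimpleGraph.dist_comm (u := v) (v := w)] at h5
    omega

/-- **BSV variance bound along paths** for bounded equivariant symmetric edge functions of the
noise. -/
theorem bsv_noise (hT : G.IsTree) {b : ℕ} (hb : 2 ≤ b) (hreg : G.IsRegularOfDegree (b + 1)) :
    ∃ C : ℝ, 0 < C ∧ ∀ (F : V → V → Om V → ℝ) (B : ℝ), (∀ x y, Measurable (F x y)) →
      (∀ x y ω, |F x y ω| ≤ B) → (∀ x y ω, G.Adj x y → F x y ω = F y x ω) →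
      (∀ (g : G ≃g G) (x y : V) (ω : Om V), F x y (act g ω) = F (g x) (g y) ω) →
      ∀ (x y : V), G.Adj x y → ∀ (n : ℕ) (p : ℕ → V), IsNB G n p →
        ∫ ω, (∑ i ∈ range n, (F (p i) (p (i + 1)) ω
          - ∫ ω', F (p i) (p (i + 1)) ω' ∂(PP V))) ^ 2 ∂(PP V)
        ≤ C * n * ∫ ω, (F x y ω - ∫ ω', F x y ω' ∂(PP V)) ^ 2 ∂(PP V) := by
  set q : ℝ := Real.sqrt b with hq
  have hb' : (2 : ℝ) ≤ b := by exact_mod_cast hb
  have hq2 : q ^ 2 = b := Real.sq_sqrt (by positivity)
  have hq1 : 1 < q := by
    rw [hq, Real.lt_sqrt (by norm_num)]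
    linarith
  have hqd : ((b + 1 : ℕ) : ℝ) = q ^ 2 + 1 := by rw [hq2]; push_cast; ring
  refine ⟨Cbsv q + 1, by have := Cbsv_nonneg hq1.le; linarith, ?_⟩
  intro F B hFm hFB hFs hFe x₀ y₀ h₀ n p hp
  have hB0 : 0 ≤ B := (abs_nonneg _).trans (hFB x₀ y₀ (fun _ => (0, 0)))
  have hFint : ∀ x y, Integrable (F x y) (PP V) := fun x y =>
    Integrable.of_bound (hFm x y).aestronglyMeasurable B (ae_of_all _ fun ω => hFB x y ω)
  set g : V → V → Om V → ℝ := fun x y ω => F x y ω - ∫ ω', F x y ω' ∂(PP V) with hg
  have hmean : ∀ x y, |∫ ω', F x y ω' ∂(PP V)| ≤ B := by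
    intro x y
    have := norm_integral_le_of_norm_le_const (μ := PP V) (f := F x y) (C := B)
      (ae_of_all _ fun ω => hFB x y ω)
    simpa using this
  have hgm : ∀ x y, Measurable (g x y) := fun x y => (hFm x y).sub_const _
  have hgB : ∀ x y ω, |g x y ω| ≤ 2 * B := by
    intro x y ω
    calc |g x y ω| ≤ |F x y ω| + |∫ ω', F x y ω' ∂(PP V)| := abs_sub _ _
      _ ≤ 2 * B := by linarith [hFB x y ω, hmean x y]
  have hgint : ∀ x y, Integrable (g x y) (PP V) := fun x y => (hFint x y).sub (integrable_const _)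
  have hg0 : ∀ x y, ∫ ω, g x y ω ∂(PP V) = 0 := by
    intro x y
    simp only [hg]
    rw [integral_sub (hFint x y) (integrable_const _)]
    simp
  have hge : ∀ (σ : G ≃g G) (x y : V) (ω : Om V), g x y (act σ ω) = g (σ x) (σ y) ω := by
    intro σ x y ω
    simp only [hg]
    rw [hFe σ x y ω]
    congr 1
    rw [← integral_act σ (F x y)]
    exact integral_congr_ae (ae_of_all _ fun ω => hFe σ x y ω)
  have hgs : ∀ x y, G.Adj x y → g x y = g y x := by
    intro x y h
    funext ω
    simp only [hg]
    rw [hFs x y ω h]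
    congr 1
    exact integral_congr_ae (ae_of_all _ fun ω => hFs x y ω h)
  -- local approximations
  set gN : ℕ → V → V → Om V → ℝ := fun N x y =>
    (PP V)[g x y | sig (unitInterval × unitInterval) (locEv G N x y)] with hgN
  have hPP : PP V = Measure.infinitePi (fun _ : Ev V =>
    (volume : Measure (unitInterval × unitInterval))) := rfl
  have hsm : ∀ N x y, StronglyMeasurable[sig (unitInterval × unitInterval) (locEv G N x y)]
      (gN N x y) := fun N x y => stronglyMeasurable_condExp
  have hL2N : ∀ N x y, MemLp (gN N x y) 2 (PP V) := by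
    intro N x y
    have hbd : ∀ᵐ ω ∂(PP V), |gN N x y ω| ≤ 2 * B :=
      ae_bdd_abs_condExp_of_ae_bdd_abs (ae_of_all _ (hgB x y))
    exact MemLp.of_bound ((hsm N x y).mono (sig_le _)).aestronglyMeasurable (2 * B) hbd
  have hL2 : ∀ x y, MemLp (g x y) 2 (PP V) := fun x y =>
    MemLp.of_bound (hgm x y).aestronglyMeasurable (2 * B) (ae_of_all _ (hgB x y))
  have hgNact : ∀ N (σ : G ≃g G) x y,
      (fun ω => gN N x y (act σ ω)) =ᵐ[PP V] gN N (σ x) (σ y) := by
    intro N σ x y
    have h1 := condExp_rei (volume : Measure (unitInterval × unitInterval)) (evEquiv σ)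
      (locEv G N x y) (hgint x y)
    rw [← hPP, ← locEv_map hT] at h1
    have h2 : (fun ω => g x y (rei (evEquiv σ) ω)) = g (σ x) (σ y) := by
      funext ω
      rw [rei_evEquiv, hge]
    rw [h2] at h1
    have h3 : (fun ω => gN N x y (act σ ω)) = fun ω => gN N x y (rei (evEquiv σ) ω) := by
      funext ω; rw [rei_evEquiv]
    rw [h3]
    exact h1
  have key := bsv_path_limit hT hreg hq1 hqd (PP V) gN g
    (fun N x y h => by simp only [hgN]; rw [hgs x y h, locEv_symm])
    (fun N x y _ => hL2N N x y) (fun x y _ => hL2 x y)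
    (fun N σ x y z w _ _ => by
      rw [← integral_act σ (fun ω => gN N x y ω * gN N z w ω)]
      refine integral_congr_ae ?_
      filter_upwards [hgNact N σ x y, hgNact N σ z w] with ω h1 h2
      rw [← h1, ← h2])
    (fun N x y hxy => by
      refine ⟨2 * N + 1, fun z w _ hz hw => ?_⟩
      have h1 := integral_mul_of_disjoint (volume : Measure (unitInterval × unitInterval))
        (locEv_disjoint hT hxy hz hw) (hsm N x y) (hsm N z w)
      rw [← hPP] at h1
      rw [h1]
      have h2 : ∫ ω, gN N x y ω ∂(PP V) = 0 := by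
        rw [← hg0 x y]
        exact integral_condExp (sig_le _)
      rw [h2, zero_mul])
    (fun x y _ => tendsto_condExp_sq (volume : Measure (unitInterval × unitInterval))
      (fun N => locEv G N x y) (locEv_mono hT x y) (locEv_exhaust hT x y) (hgm x y) (hgB x y))
    h₀ hp
  refine key.trans ?_
  have h5 : 0 ≤ ∫ ω, g x₀ y₀ ω ^ 2 ∂(PP V) := integral_nonneg fun ω => sq_nonneg _
  have h6 : (0 : ℝ) ≤ n := by positivity
  nlinarith [mul_nonneg h6 h5]

end Crest.Agent.R160.BSVNoise
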