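import Mathlib

/-! Row 160: the real-variable conclusion (module G).  A nondecreasing nonnegative function `D`
which tends to `0` at `0+` and satisfies the two window inequalities (A) and (B) vanishes. -/

set_option autoImplicit false

open Filter Topology

namespace Crest.Agent.R160.Calc

/-- discrete Gronwall on an interval, from a window inequality -/
theorem gronwall_window (D : ℝ → ℝ) (s t K ε : ℝ) (hst : s ≤ t) (hK : 0 ≤ K) (hε : 0 ≤ ε)
    (hnn : ∀ r, s ≤ r → r ≤ t → 0 ≤ D r)
    (h : ∀ r r', s ≤ r → r ≤ r' → r' ≤ t → D r' - D r ≤ (r' - r) * (K * D r' + ε)) :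
    D t ≤ Real.exp (2 * K * (t - s)) * (D s + ε * (t - s)) := by
  obtain ⟨n, hn⟩ := exists_nat_gt (2 * K * (t - s))
  have hts : 0 ≤ t - s := by linarith
  have hn0 : (0 : ℝ) < n := lt_of_le_of_lt (by positivity) hn
  set δ : ℝ := (t - s) / n with hδ
  have hδ0 : 0 ≤ δ := by positivity
  have hδK : K * δ ≤ 1 / 2 := by
    rw [hδ, ← mul_div_assoc, div_le_iff₀ hn0]
    nlinarith
  have hnδ : (n : ℝ) * δ = t - s := by
    rw [hδ]; field_simp
  have key : ∀ i : ℕ, i ≤ n →
      D (s + i * δ) ≤ Real.exp (2 * K * (i * δ)) * (D s + ε * (i * δ)) := by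
    intro i
    induction i with
    | zero => intro _; simp
    | succ i ih =>
      intro hi
      have ih' := ih (by omega)
      have hi' : ((i : ℝ) + 1) ≤ n := by exact_mod_cast hi
      have hle : s + ((i : ℝ) + 1) * δ ≤ t := by
        have : ((i : ℝ) + 1) * δ ≤ n * δ := mul_le_mul_of_nonneg_right hi' hδ0
        linarith
      have hi0 : (0 : ℝ) ≤ i := Nat.cast_nonneg i
      have h1 : s ≤ s + i * δ := by nlinarith
      have h2 : s + i * δ ≤ s + ((i : ℝ) + 1) * δ := by nlinarith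
      have h3 := h _ _ h1 h2 hle
      have h4 : (s + ((i : ℝ) + 1) * δ) - (s + i * δ) = δ := by ring
      rw [h4] at h3
      have hD' : 0 ≤ D (s + ((i : ℝ) + 1) * δ) := hnn _ (by linarith) hle
      have hDi : 0 ≤ D (s + i * δ) := hnn _ h1 (by linarith)
      have h5 : D (s + ((i : ℝ) + 1) * δ) * (1 - K * δ) ≤ D (s + i * δ) + δ * ε := by nlinarith
      have h6 : 1 ≤ (1 - K * δ) * (1 + 2 * (K * δ)) := by
        have : 0 ≤ K * δ := by positivity
        nlinarith
      have hKδ : 0 ≤ K * δ := by positivity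
      have h7 : D (s + ((i : ℝ) + 1) * δ) ≤ (1 + 2 * (K * δ)) * (D (s + i * δ) + δ * ε) := by
        calc D (s + ((i : ℝ) + 1) * δ) ≤ D (s + ((i : ℝ) + 1) * δ) * ((1 - K * δ) * (1 + 2 * (K * δ))) := by
              nlinarith
          _ = (1 + 2 * (K * δ)) * (D (s + ((i : ℝ) + 1) * δ) * (1 - K * δ)) := by ring
          _ ≤ _ := by
              apply mul_le_mul_of_nonneg_left h5; linarith
      have h8 : 1 + 2 * (K * δ) ≤ Real.exp (2 * K * δ) := by
        have := Real.add_one_le_exp (2 * K * δ)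
        linarith
      have hexp1 : 1 ≤ Real.exp (2 * K * (i * δ)) := by
        apply Real.one_le_exp; positivity
      have hDs : 0 ≤ D s := hnn s le_rfl hst
      calc D (s + ((i + 1 : ℕ) : ℝ) * δ) = D (s + ((i : ℝ) + 1) * δ) := by push_cast; ring_nf
        _ ≤ (1 + 2 * (K * δ)) * (D (s + i * δ) + δ * ε) := h7
        _ ≤ Real.exp (2 * K * δ) * (D (s + i * δ) + δ * ε) := by
            apply mul_le_mul_of_nonneg_right h8; positivity
        _ ≤ Real.exp (2 * K * δ) *
            (Real.exp (2 * K * (i * δ)) * (D s + ε * (i * δ)) + Real.exp (2 * K * (i * δ)) * (δ * ε)) := by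
            apply mul_le_mul_of_nonneg_left _ (Real.exp_pos _).le
            have : δ * ε ≤ Real.exp (2 * K * (i * δ)) * (δ * ε) := by
              have : 0 ≤ δ * ε := by positivity
              nlinarith
            linarith
        _ = (Real.exp (2 * K * δ) * Real.exp (2 * K * (i * δ))) * (D s + ε * (((i : ℝ) + 1) * δ)) := by ring
        _ = _ := by
            rw [← Real.exp_add]
            push_cast
            ring_nf
  have := key n le_rfl
  rw [hnδ] at this
  have e : s + (t - s) = t := by ring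
  rw [e] at this
  exact this

/-- phase 1: super-polynomial smallness near `0` -/
theorem phase_one (D : ℝ → ℝ) (C η a c s₁ : ℝ) (hC : 0 < C) (hη : 0 < η) (ha : 0 < a)
    (hc : 0 < c) (hs₁ : 0 < s₁)
    (hnn : ∀ t, 0 < t → t ≤ s₁ → 0 ≤ D t)
    (h0 : Tendsto D (𝓝[>] 0) (𝓝 0))
    (hA : ∀ s t, 0 < s → s ≤ t → t ≤ 2 * s → t ≤ s₁ →
      D t - D s ≤ C * (t - s) * (s ^ (-1 + η) * D t + Real.exp (-c * s ^ (-a)))) :
    ∃ C' s₂, 0 < C' ∧ 0 < s₂ ∧ s₂ ≤ s₁ ∧ ∀ t, 0 < t → t ≤ s₂ → D t ≤ C' * Real.exp (-c * t ^ (-a)) := by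
  -- choose `s₂ ≤ min s₁ 1` with `C * s₂ ^ η ≤ 1/2`
  obtain ⟨s₂, hs₂0, hs₂1, hs₂2, hs₂3⟩ : ∃ s₂ : ℝ, 0 < s₂ ∧ s₂ ≤ s₁ ∧ s₂ ≤ 1 ∧ C * s₂ ^ η ≤ 1 / 2 := by
    refine ⟨min (min s₁ 1) ((1 / (2 * C)) ^ (1 / η)), by positivity, ?_, ?_, ?_⟩
    · exact (min_le_left _ _).trans (min_le_left _ _)
    · exact (min_le_left _ _).trans (min_le_right _ _)
    · have h1 : (min (min s₁ 1) ((1 / (2 * C)) ^ (1 / η))) ^ η ≤ ((1 / (2 * C)) ^ (1 / η)) ^ η := by
        apply Real.rpow_le_rpow (by positivity) (min_le_right _ _) hη.le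
      rw [← Real.rpow_mul (by positivity), one_div_mul_cancel hη.ne', Real.rpow_one] at h1
      calc C * _ ≤ C * (1 / (2 * C)) := by
            apply mul_le_mul_of_nonneg_left h1 hC.le
        _ = 1 / 2 := by field_simp
  set K : ℝ := 2 * C / (1 - 2 ^ (-η)) with hKdef
  have h2η : (2 : ℝ) ^ (-η) < 1 := by
    apply Real.rpow_lt_one_of_one_lt_of_neg (by norm_num) (by linarith)
  have h2η' : 0 < 1 - (2 : ℝ) ^ (-η) := by linarith
  have hK0 : 0 < K := by positivity
  -- one step
  have step : ∀ t, 0 < t → t ≤ s₂ →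
      D t * Real.exp (-K * t ^ η) ≤ D (t / 2) * Real.exp (-K * (t / 2) ^ η) +
        C * t * Real.exp (-c * (t / 2) ^ (-a)) := by
    intro t ht0 hts
    have ht2 : 0 < t / 2 := by positivity
    have h1 := hA (t / 2) t ht2 (by linarith) (by linarith) (by linarith)
    have h2 : t - t / 2 = t / 2 := by ring
    rw [h2] at h1
    have h3 : t / 2 * (t / 2) ^ (-1 + η) = (t / 2) ^ η := by
      rw [Real.rpow_add ht2, Real.rpow_neg_one, ← mul_assoc, mul_inv_cancel₀ ht2.ne', one_mul]
    set δ : ℝ := C * (t / 2) ^ η with hδ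
    have hδ0 : 0 ≤ δ := by positivity
    have hδ1 : δ ≤ 1 / 2 := by
      refine le_trans ?_ hs₂3
      apply mul_le_mul_of_nonneg_left _ hC.le
      apply Real.rpow_le_rpow ht2.le (by linarith) hη.le
    have hDt : 0 ≤ D t := hnn t ht0 (by linarith)
    have hDt2 : 0 ≤ D (t / 2) := hnn _ ht2 (by linarith)
    set E : ℝ := Real.exp (-c * (t / 2) ^ (-a)) with hE
    have hE0 : 0 < E := Real.exp_pos _
    have h4 : D t * (1 - δ) ≤ D (t / 2) + C * (t / 2) * E := by
      have : C * (t / 2) * ((t / 2) ^ (-1 + η) * D t + E) = δ * D t + C * (t / 2) * E := by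
        rw [hδ, ← h3]; ring
      rw [this] at h1
      linarith
    have h6 : 1 ≤ (1 - δ) * (1 + 2 * δ) := by nlinarith
    have h7 : D t ≤ (1 + 2 * δ) * (D (t / 2) + C * (t / 2) * E) := by
      calc D t ≤ D t * ((1 - δ) * (1 + 2 * δ)) := by nlinarith
        _ = (1 + 2 * δ) * (D t * (1 - δ)) := by ring
        _ ≤ _ := by apply mul_le_mul_of_nonneg_left h4; linarith
    have hKt : K * t ^ η - K * (t / 2) ^ η = 2 * (C * t ^ η) := by
      have : (t / 2) ^ η = t ^ η * 2 ^ (-η) := by
        rw [Real.div_rpow ht0.le (by norm_num), Real.rpow_neg (by norm_num), div_eq_mul_inv]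
      rw [this, hKdef]
      field_simp
    have hδt : δ ≤ C * t ^ η := by
      apply mul_le_mul_of_nonneg_left _ hC.le
      apply Real.rpow_le_rpow ht2.le (by linarith) hη.le
    have h8 : 1 + 2 * δ ≤ Real.exp (K * t ^ η - K * (t / 2) ^ η) := by
      have := Real.add_one_le_exp (K * t ^ η - K * (t / 2) ^ η)
      rw [hKt] at this ⊢
      linarith
    have hX : 0 ≤ D (t / 2) + C * (t / 2) * E := by positivity
    calc D t * Real.exp (-K * t ^ η)
        ≤ ((1 + 2 * δ) * (D (t / 2) + C * (t / 2) * E)) * Real.exp (-K * t ^ η) := by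
          apply mul_le_mul_of_nonneg_right h7 (Real.exp_pos _).le
      _ ≤ (Real.exp (K * t ^ η - K * (t / 2) ^ η) * (D (t / 2) + C * (t / 2) * E)) *
            Real.exp (-K * t ^ η) := by
          apply mul_le_mul_of_nonneg_right _ (Real.exp_pos _).le
          apply mul_le_mul_of_nonneg_right h8 hX
      _ = (D (t / 2) + C * (t / 2) * E) * (Real.exp (K * t ^ η - K * (t / 2) ^ η) *
            Real.exp (-K * t ^ η)) := by ring
      _ = (D (t / 2) + C * (t / 2) * E) * Real.exp (-K * (t / 2) ^ η) := by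
          rw [← Real.exp_add]; ring_nf
      _ = D (t / 2) * Real.exp (-K * (t / 2) ^ η) + C * (t / 2) * E * Real.exp (-K * (t / 2) ^ η) := by
          ring
      _ ≤ _ := by
          have h9 : Real.exp (-K * (t / 2) ^ η) ≤ 1 := by
            apply Real.exp_le_one_iff.mpr
            have : 0 ≤ K * (t / 2) ^ η := by positivity
            linarith
          have h10 : C * (t / 2) * E * Real.exp (-K * (t / 2) ^ η) ≤ C * (t / 2) * E * 1 := by
            apply mul_le_mul_of_nonneg_left h9; positivity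
          have h11 : C * (t / 2) * E * 1 ≤ C * t * E := by
            have : 0 ≤ C * E := by positivity
            nlinarith
          linarith
  -- iterate
  have iter : ∀ t, 0 < t → t ≤ s₂ → ∀ n : ℕ,
      D t * Real.exp (-K * t ^ η) ≤ D (t / 2 ^ n) * Real.exp (-K * (t / 2 ^ n) ^ η) +
        2 * C * t * (1 - (1 / 2) ^ n) * Real.exp (-c * t ^ (-a)) := by
    intro t ht0 hts n
    induction n with
    | zero => simp
    | succ n ih =>
      have hp : (0 : ℝ) < 2 ^ n := by positivity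
      have h1p : (1 : ℝ) ≤ 2 ^ n := one_le_pow₀ (by norm_num)
      have htn : 0 < t / 2 ^ n := by positivity
      have htn' : t / 2 ^ n ≤ t := div_le_self ht0.le h1p
      have h1 := step (t / 2 ^ n) htn (by linarith)
      have h2 : t / 2 ^ n / 2 = t / 2 ^ (n + 1) := by rw [pow_succ]; field_simp
      rw [h2] at h1
      have h3 : Real.exp (-c * (t / 2 ^ (n + 1)) ^ (-a)) ≤ Real.exp (-c * t ^ (-a)) := by
        apply Real.exp_le_exp.mpr
        have h4 : t ^ (-a) ≤ (t / 2 ^ (n + 1)) ^ (-a) := by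
          apply Real.rpow_le_rpow_of_nonpos (by positivity) _ (by linarith)
          apply div_le_self ht0.le (one_le_pow₀ (by norm_num))
        nlinarith
      have h5 : C * (t / 2 ^ n) * Real.exp (-c * (t / 2 ^ (n + 1)) ^ (-a)) ≤
          C * (t / 2 ^ n) * Real.exp (-c * t ^ (-a)) := by
        apply mul_le_mul_of_nonneg_left h3; positivity
      have h6 : C * (t / 2 ^ n) * Real.exp (-c * t ^ (-a)) +
          2 * C * t * (1 - (1 / 2) ^ n) * Real.exp (-c * t ^ (-a)) =
          2 * C * t * (1 - (1 / 2) ^ (n + 1)) * Real.exp (-c * t ^ (-a)) := by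
        rw [pow_succ, one_div_pow]
        field_simp
        ring
      linarith
  refine ⟨2 * C * s₂ * Real.exp (K * s₂ ^ η), s₂, by positivity, hs₂0, hs₂1, ?_⟩
  intro t ht0 hts
  have hlim : Tendsto (fun n : ℕ => t / 2 ^ n) atTop (𝓝[>] (0 : ℝ)) := by
    rw [tendsto_nhdsWithin_iff]
    refine ⟨?_, Eventually.of_forall fun n => by simpa using (by positivity : 0 < t / 2 ^ n)⟩
    have := (tendsto_pow_atTop_nhds_zero_of_lt_one (by norm_num : (0 : ℝ) ≤ 1 / 2)
      (by norm_num)).const_mul t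
    simpa [div_eq_mul_inv, one_div] using this
  have hDlim := h0.comp hlim
  have hbound : ∀ n : ℕ, D t * Real.exp (-K * t ^ η) ≤ D (t / 2 ^ n) +
      2 * C * t * Real.exp (-c * t ^ (-a)) := by
    intro n
    refine (iter t ht0 hts n).trans ?_
    have hp : (0 : ℝ) < 2 ^ n := by positivity
    have h1p : (1 : ℝ) ≤ 2 ^ n := one_le_pow₀ (by norm_num)
    have htn : 0 < t / 2 ^ n := by positivity
    have htn' : t / 2 ^ n ≤ t := div_le_self ht0.le h1p
    have hDn : 0 ≤ D (t / 2 ^ n) := hnn _ htn (by linarith)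
    have h9 : Real.exp (-K * (t / 2 ^ n) ^ η) ≤ 1 := by
      apply Real.exp_le_one_iff.mpr
      have : 0 ≤ K * (t / 2 ^ n) ^ η := by positivity
      linarith
    have h10 : (1 - (1 / 2 : ℝ) ^ n) ≤ 1 := by
      have : (0 : ℝ) ≤ (1 / 2) ^ n := by positivity
      linarith
    have h11 : 2 * C * t * (1 - (1 / 2) ^ n) * Real.exp (-c * t ^ (-a)) ≤
        2 * C * t * 1 * Real.exp (-c * t ^ (-a)) := by
      apply mul_le_mul_of_nonneg_right _ (Real.exp_pos _).le
      apply mul_le_mul_of_nonneg_left h10; positivity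
    nlinarith
  have hle : D t * Real.exp (-K * t ^ η) ≤ 0 + 2 * C * t * Real.exp (-c * t ^ (-a)) := by
    refine ge_of_tendsto' (hDlim.add_const _) ?_
    intro n; exact hbound n
  rw [zero_add] at hle
  have hDt : 0 ≤ D t := hnn t ht0 (by linarith)
  calc D t = (D t * Real.exp (-K * t ^ η)) * Real.exp (K * t ^ η) := by
        rw [mul_assoc, ← Real.exp_add]; simp
    _ ≤ (2 * C * t * Real.exp (-c * t ^ (-a))) * Real.exp (K * t ^ η) := by
        apply mul_le_mul_of_nonneg_right hle (Real.exp_pos _).le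
    _ ≤ (2 * C * s₂ * Real.exp (-c * t ^ (-a))) * Real.exp (K * s₂ ^ η) := by
        apply mul_le_mul
        · apply mul_le_mul_of_nonneg_right _ (Real.exp_pos _).le
          apply mul_le_mul_of_nonneg_left hts; positivity
        · apply Real.exp_le_exp.mpr
          apply mul_le_mul_of_nonneg_left _ hK0.le
          apply Real.rpow_le_rpow ht0.le hts hη.le
        · exact (Real.exp_pos _).le
        · positivity
    _ = _ := by ring

/-- phase 2 on dyadic windows -/
theorem phase_two (D : ℝ → ℝ) (T C c : ℝ) (hC : 0 < C)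
    (hnn : ∀ t, 0 < t → t ≤ T → 0 ≤ D t)
    (hB : ∀ s t L, 0 < s → s ≤ t → t ≤ T → 1 ≤ L →
      D t - D s ≤ C * (t - s) * ((1 / s + (Real.log L) ^ 2) * D t + Real.exp (-c * L) / s))
    (t L : ℝ) (ht0 : 0 < t) (htT : t ≤ T) (hL : 1 ≤ L) (n : ℕ) :
    D t ≤ Real.exp (2 * C * (n + t * (Real.log L) ^ 2)) *
      (D (t / 2 ^ n) + n * (C * Real.exp (-c * L))) := by
  have hstep : ∀ s, 0 < s → 2 * s ≤ T →
      D (2 * s) ≤ Real.exp (2 * C * (1 + s * (Real.log L) ^ 2)) * (D s + C * Real.exp (-c * L)) := by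
    intro s hs hsT
    have hg := gronwall_window D s (2 * s) (C * (1 / s + (Real.log L) ^ 2))
      (C * (Real.exp (-c * L) / s)) (by linarith) (by positivity) (by positivity)
      (fun r hr hr' => hnn r (by linarith) (by linarith)) ?_
    · have h1 : 2 * s - s = s := by ring
      rw [h1] at hg
      have h2 : 2 * (C * (1 / s + (Real.log L) ^ 2)) * s = 2 * C * (1 + s * (Real.log L) ^ 2) := by
        field_simp
      have h3 : C * (Real.exp (-c * L) / s) * s = C * Real.exp (-c * L) := by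
        field_simp
      rw [h2, h3] at hg
      exact hg
    · intro r r' hr hrr' hr'
      have hr0 : 0 < r := by linarith
      have h1 := hB r r' L hr0 hrr' (by linarith) hL
      refine h1.trans ?_
      have hD' : 0 ≤ D r' := hnn r' (by linarith) (by linarith)
      have h2 : 1 / r ≤ 1 / s := one_div_le_one_div_of_le hs hr
      have h3 : Real.exp (-c * L) / r ≤ Real.exp (-c * L) / s := by
        apply div_le_div_of_nonneg_left (Real.exp_pos _).le hs hr
      have h4 : (1 / r + (Real.log L) ^ 2) * D r' ≤ (1 / s + (Real.log L) ^ 2) * D r' := by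
        apply mul_le_mul_of_nonneg_right _ hD'; linarith
      have h5 : 0 ≤ C * (r' - r) := by
        apply mul_nonneg hC.le; linarith
      calc C * (r' - r) * ((1 / r + (Real.log L) ^ 2) * D r' + Real.exp (-c * L) / r)
          ≤ C * (r' - r) * ((1 / s + (Real.log L) ^ 2) * D r' + Real.exp (-c * L) / s) := by
            apply mul_le_mul_of_nonneg_left _ h5; linarith
        _ = _ := by ring
  induction n generalizing t with
  | zero =>
    have h1 : 1 ≤ Real.exp (2 * C * ((0 : ℕ) + t * (Real.log L) ^ 2)) := by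
      apply Real.one_le_exp; positivity
    have hDt := hnn t ht0 htT
    simp only [pow_zero, div_one, Nat.cast_zero, zero_mul, add_zero] at h1 ⊢
    nlinarith
  | succ n ih =>
    have ht2 : 0 < t / 2 := by positivity
    have h1 := ih (t / 2) ht2 (by linarith)
    have h2 := hstep (t / 2) ht2 (by linarith)
    have h3 : 2 * (t / 2) = t := by ring
    rw [h3] at h2
    have h4 : t / 2 / 2 ^ n = t / 2 ^ (n + 1) := by rw [pow_succ]; field_simp
    rw [h4] at h1
    set E := C * Real.exp (-c * L) with hE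
    have hE0 : 0 ≤ E := by positivity
    have hn0 : (0 : ℝ) ≤ n := Nat.cast_nonneg n
    set A1 := Real.exp (2 * C * (n + t / 2 * (Real.log L) ^ 2)) with hA1
    have hA1' : 1 ≤ A1 := by
      apply Real.one_le_exp; positivity
    have h5 : D (t / 2) + E ≤ A1 * (D (t / 2 ^ (n + 1)) + ((n : ℝ) + 1) * E) := by
      have : E ≤ A1 * E := by nlinarith
      nlinarith
    calc D t ≤ Real.exp (2 * C * (1 + t / 2 * (Real.log L) ^ 2)) * (D (t / 2) + E) := h2
      _ ≤ Real.exp (2 * C * (1 + t / 2 * (Real.log L) ^ 2)) *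
          (A1 * (D (t / 2 ^ (n + 1)) + ((n : ℝ) + 1) * E)) :=
          mul_le_mul_of_nonneg_left h5 (Real.exp_pos _).le
      _ = (Real.exp (2 * C * (1 + t / 2 * (Real.log L) ^ 2)) * A1) *
          (D (t / 2 ^ (n + 1)) + ((n : ℝ) + 1) * E) := by ring
      _ = _ := by
          rw [hA1, ← Real.exp_add]
          push_cast
          ring_nf

/-- The conclusion: (A) near `0` and (B) everywhere force `D = 0`. -/
theorem calc_main (D : ℝ → ℝ) (T C η a c s₁ : ℝ) (hC : 0 < C) (hη : 0 < η) (ha : 0 < a)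
    (hc : 0 < c) (hs₁ : 0 < s₁) (hs₁T : s₁ ≤ T)
    (hnn : ∀ t, 0 < t → t ≤ T → 0 ≤ D t)
    (h0 : Tendsto D (𝓝[>] 0) (𝓝 0))
    (hA : ∀ s t, 0 < s → s ≤ t → t ≤ 2 * s → t ≤ s₁ →
      D t - D s ≤ C * (t - s) * (s ^ (-1 + η) * D t + Real.exp (-c * s ^ (-a))))
    (hB : ∀ s t L, 0 < s → s ≤ t → t ≤ T → 1 ≤ L →
      D t - D s ≤ C * (t - s) * ((1 / s + (Real.log L) ^ 2) * D t + Real.exp (-c * L) / s)) :
    ∀ t, 0 < t → t ≤ T → D t = 0 := by
  intro t ht0 htT
  obtain ⟨C', s₂, hC'0, hs₂0, hs₂1, hphase⟩ := phase_one D C η a c s₁ hC hη ha hc hs₁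
    (fun t h1 h2 => hnn t h1 (h2.trans hs₁T)) h0 hA
  apply le_antisymm _ (hnn t ht0 htT)
  -- the bound with `s = t / 2^n`, `L = 2^n`
  have hbd : ∀ᶠ n : ℕ in atTop, D t ≤ Real.exp (2 * C * (n + t * ((n : ℝ) * Real.log 2) ^ 2)) *
      (C' * Real.exp (-c * (t ^ (-a) * ((2 : ℝ) ^ a) ^ n)) + n * (C * Real.exp (-c * 2 ^ n))) := by
    have hlim : Tendsto (fun n : ℕ => t / 2 ^ n) atTop (𝓝 (0 : ℝ)) := by
      have := (tendsto_pow_atTop_nhds_zero_of_lt_one (by norm_num : (0 : ℝ) ≤ 1 / 2)
        (by norm_num)).const_mul t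
      simpa [div_eq_mul_inv, one_div] using this
    have hev : ∀ᶠ n : ℕ in atTop, t / 2 ^ n ≤ s₂ := hlim.eventually (ge_mem_nhds hs₂0)
    filter_upwards [hev] with n hn
    have hp : (0 : ℝ) < 2 ^ n := by positivity
    have htn : 0 < t / 2 ^ n := by positivity
    have h1 := phase_two D T C c hC hnn hB t (2 ^ n) ht0 htT (one_le_pow₀ (by norm_num)) n
    rw [Real.log_pow] at h1
    refine h1.trans ?_
    apply mul_le_mul_of_nonneg_left _ (Real.exp_pos _).le
    have h2 := hphase (t / 2 ^ n) htn hn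
    have h3 : (t / 2 ^ n) ^ (-a) = t ^ (-a) * ((2 : ℝ) ^ a) ^ n := by
      rw [Real.div_rpow ht0.le hp.le, Real.rpow_neg hp.le, ← Real.rpow_natCast, ← Real.rpow_natCast,
        ← Real.rpow_mul (by norm_num), ← Real.rpow_mul (by norm_num), mul_comm a (n : ℝ)]
      field_simp
    rw [h3] at h2
    linarith
  -- the right-hand side tends to zero
  have hq1 : (1 : ℝ) < 2 ^ a := Real.one_lt_rpow (by norm_num) ha
  have hta : 0 < t ^ (-a) := Real.rpow_pos_of_pos ht0 _
  -- general fact: for `β > 0`, `q > 1`: `P(n) - β q^n → -∞` for quadratic `P`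
  have gen : ∀ (β q A B : ℝ), 0 < β → 1 < q →
      Tendsto (fun n : ℕ => A * n + B * (n : ℝ) ^ 2 - β * q ^ n) atTop atBot := by
    intro β q A B hβ hq
    have h1 : Tendsto (fun n : ℕ => (n : ℝ) ^ 1 / q ^ n) atTop (𝓝 0) :=
      tendsto_pow_const_div_const_pow_of_one_lt 1 hq
    have h2 : Tendsto (fun n : ℕ => (n : ℝ) ^ 2 / q ^ n) atTop (𝓝 0) :=
      tendsto_pow_const_div_const_pow_of_one_lt 2 hq
    have h3 : Tendsto (fun n : ℕ => A * ((n : ℝ) ^ 1 / q ^ n) + B * ((n : ℝ) ^ 2 / q ^ n) - β)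
        atTop (𝓝 (A * 0 + B * 0 - β)) := ((h1.const_mul A).add (h2.const_mul B)).sub_const β
    have h4 : A * 0 + B * 0 - β < 0 := by simpa using hβ
    have h5 := (tendsto_pow_atTop_atTop_of_one_lt hq).atTop_mul_neg h4 h3
    refine h5.congr ?_
    intro n
    have : (0 : ℝ) < q ^ n := by positivity
    field_simp
  have t1 : Tendsto (fun n : ℕ => Real.exp (2 * C * (n + t * ((n : ℝ) * Real.log 2) ^ 2)) *
      (C' * Real.exp (-c * (t ^ (-a) * ((2 : ℝ) ^ a) ^ n)))) atTop (𝓝 0) := by
    have h1 := gen (c * t ^ (-a)) (2 ^ a) (2 * C) (2 * C * t * (Real.log 2) ^ 2) (by positivity) hq1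
    have h2 := (Real.tendsto_exp_atBot.comp h1).const_mul C'
    rw [mul_zero] at h2
    refine h2.congr ?_
    intro n
    simp only [Function.comp]
    rw [mul_left_comm, ← Real.exp_add]
    ring_nf
  have t2 : Tendsto (fun n : ℕ => Real.exp (2 * C * (n + t * ((n : ℝ) * Real.log 2) ^ 2)) *
      (n * (C * Real.exp (-c * 2 ^ n)))) atTop (𝓝 0) := by
    have h1 := gen c 2 (2 * C + 1) (2 * C * t * (Real.log 2) ^ 2) hc (by norm_num)
    have h2 := (Real.tendsto_exp_atBot.comp h1).const_mul C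
    rw [mul_zero] at h2
    refine squeeze_zero (fun n => by positivity) ?_ h2
    intro n
    simp only [Function.comp]
    have h3 : (n : ℝ) ≤ Real.exp n := by
      have := Real.add_one_le_exp (n : ℝ); linarith
    calc Real.exp (2 * C * (n + t * ((n : ℝ) * Real.log 2) ^ 2)) * (n * (C * Real.exp (-c * 2 ^ n)))
        ≤ Real.exp (2 * C * (n + t * ((n : ℝ) * Real.log 2) ^ 2)) *
          (Real.exp n * (C * Real.exp (-c * 2 ^ n))) := by
          apply mul_le_mul_of_nonneg_left _ (Real.exp_pos _).le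
          apply mul_le_mul_of_nonneg_right h3; positivity
      _ = C * (Real.exp (2 * C * (n + t * ((n : ℝ) * Real.log 2) ^ 2)) * Real.exp n *
            Real.exp (-c * 2 ^ n)) := by ring
      _ = _ := by
          rw [← Real.exp_add, ← Real.exp_add]
          ring_nf
  have hsum := t1.add t2
  rw [add_zero] at hsum
  refine ge_of_tendsto hsum ?_
  filter_upwards [hbd] with n hn
  rw [← mul_add]
  exact hn

end Crest.Agent.R160.Calc
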