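import Mathlib
import Crest.Agent.R160.Proc
import Crest.Agent.R160.Defs

/-! Row 160: equivariance of the finite-volume process. -/

set_option autoImplicit false
set_option linter.unusedSectionVars false

open MeasureTheory Finset
open scoped Classical

namespace Crest.Agent.R160

variable {V : Type*} {G : SimpleGraph V}

/-- the action on events -/
def aE (g : G ≃g G) (e : Ev V) : Ev V := (g e.1, e.2)

lemma aE_injective (g : G ≃g G) : Function.Injective (aE g) := by
  rintro ⟨a, b⟩ ⟨c, d⟩ h
  unfold aE at h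
  simp only [Prod.mk.injEq, EmbeddingLike.apply_eq_iff_eq] at h
  exact Prod.ext h.1 h.2

@[simp] lemma aE_fst (g : G ≃g G) (e : Ev V) : (aE g e).1 = g e.1 := rfl
@[simp] lemma aE_snd (g : G ≃g G) (e : Ev V) : (aE g e).2 = e.2 := rfl

lemma act_apply (g : G ≃g G) (ω : Om V) (e : Ev V) : act g ω e = ω (aE g e) := rfl

lemma clk_act (g : G ≃g G) (ω : Om V) (e : Ev V) : clk (act g ω) e = clk ω (aE g e) := rfl
lemma nz_act (g : G ≃g G) (ω : Om V) (e : Ev V) : nz (act g ω) e = nz ω (aE g e) := rfl
lemma tm_act (g : G ≃g G) (ω : Om V) (e : Ev V) : tm (act g ω) e = tm ω (aE g e) := rfl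
lemma st_act (g : G ≃g G) (ω : Om V) (e : Ev V) : st (act g ω) e = st ω (aE g e) := rfl
lemma nul_act (g : G ≃g G) (ω : Om V) (e : Ev V) : nul (act g ω) e = nul ω (aE g e) := rfl

lemma sg_image (g : G ≃g G) (A : Finset V) (v : V) : sg (A.image g) (g v) = sg A v := by
  unfold sg
  simp

lemma sgE_image (g : G ≃g G) (A : Finset V) (e : Sym2 V) :
    sgE (A.image g) (Sym2.map g e) = sgE A e := by
  induction e with
  | h a b => simp only [sgE, Sym2.map_mk, Sym2.lift_mk, sg_image]

lemma mem_edgeSet_map (g : G ≃g G) (e : Sym2 V) : Sym2.map g e ∈ G.edgeSet ↔ e ∈ G.edgeSet := by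
  induction e with
  | h a b => simp [SimpleGraph.mem_edgeSet, g.map_adj_iff]

lemma ew_image (g : G ≃g G) (θ : ℝ) (S A : Finset V) :
    ew G θ (S.image g) (A.image g) = ew G θ S A := by
  unfold ew
  symm
  refine Finset.prod_nbij (Sym2.map g) ?_ ?_ ?_ ?_
  · intro e he
    rw [Finset.mem_filter] at he ⊢
    rw [mem_edgeSet_map]
    refine ⟨?_, he.2⟩
    rw [Finset.sym2_image]
    exact Finset.mem_image_of_mem _ he.1
  · intro e _ e' _ h
    exact Sym2.map.injective g.injective h
  · intro e he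
    rw [Finset.mem_coe, Finset.mem_filter, Finset.sym2_image, Finset.mem_image] at he
    obtain ⟨⟨e', he', rfl⟩, h2⟩ := he
    refine ⟨e', ?_, rfl⟩
    rw [Finset.mem_coe, Finset.mem_filter]
    exact ⟨he', (mem_edgeSet_map g e').mp h2⟩
  · intro e _
    rw [sgE_image]

lemma ow_image (g : G ≃g G) (E : Finset (Ev V)) (o : Ev V → ℝ) (A : Finset V) :
    ow (E.image (aE g)) o (A.image g) = ow E (fun e => o (aE g e)) A := by
  unfold ow
  rw [Finset.prod_image (fun a _ b _ h => aE_injective g h)]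
  refine Finset.prod_congr rfl fun e _ => ?_
  rw [aE_fst, sg_image]

lemma num_image (g : G ≃g G) (θ : ℝ) (S : Finset V) (E : Finset (Ev V)) (o : Ev V → ℝ)
    (f : Finset V → ℝ) :
    num G θ (S.image g) (E.image (aE g)) o f
      = num G θ S E (fun e => o (aE g e)) (fun A => f (A.image g)) := by
  unfold num
  symm
  refine Finset.sum_nbij (fun A => A.image g) ?_ ?_ ?_ ?_
  · intro A hA
    rw [Finset.mem_powerset] at hA ⊢
    exact Finset.image_subset_image hA
  · intro A _ B _ h
    exact Finset.image_injective g.injective h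
  · intro B hB
    rw [Finset.mem_coe, Finset.mem_powerset] at hB
    obtain ⟨A, hA, rfl⟩ := Finset.subset_image_iff.mp hB
    exact ⟨A, by rw [Finset.mem_coe, Finset.mem_powerset]; exact_mod_cast hA, rfl⟩
  · intro A _
    rw [ew_image, ow_image]

lemma mean_image (g : G ≃g G) (θ : ℝ) (S : Finset V) (E : Finset (Ev V)) (o : Ev V → ℝ)
    (f : Finset V → ℝ) :
    mean G θ (S.image g) (E.image (aE g)) o f
      = mean G θ S E (fun e => o (aE g e)) (fun A => f (A.image g)) := by
  unfold mean ZZ
  rw [num_image, num_image]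

lemma mm_image (g : G ≃g G) (θ : ℝ) (S : Finset V) (E : Finset (Ev V)) (o : Ev V → ℝ) (v : V) :
    mm G θ (S.image g) (E.image (aE g)) o (g v) = mm G θ S E (fun e => o (aE g e)) v := by
  unfold mm
  rw [mean_image]
  simp only [sg_image]

lemma cov_image (g : G ≃g G) (θ : ℝ) (S : Finset V) (E : Finset (Ev V)) (o : Ev V → ℝ) (v w : V) :
    cov G θ (S.image g) (E.image (aE g)) o (g v) (g w)
      = cov G θ S E (fun e => o (aE g e)) v w := by
  unfold cov
  rw [mean_image, mm_image, mm_image]
  simp only [sg_image]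

lemma before_image (g : G ≃g G) (E : Finset (Ev V)) (ω : Om V) (s : ℝ) :
    before (E.image (aE g)) ω s = (before E (act g ω) s).image (aE g) := by
  ext e
  simp only [before, Finset.mem_filter, Finset.mem_image]
  constructor
  · rintro ⟨⟨e', he', rfl⟩, h⟩
    exact ⟨e', ⟨he', h⟩, rfl⟩
  · rintro ⟨e', ⟨he', h⟩, rfl⟩
    exact ⟨⟨e', he', rfl⟩, h⟩

lemma obs_image (g : G ≃g G) (θ : ℝ) (S : Finset V) (E : Finset (Ev V)) (ω : Om V) (e : Ev V) :
    obs G θ (S.image g) (E.image (aE g)) ω (aE g e) = obs G θ S E (act g ω) e := by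
  unfold obs
  rw [Finset.card_image_of_injective _ (aE_injective g)]
  generalize E.card = n
  induction n generalizing e with
  | zero => rfl
  | succ n ih =>
    rw [Function.iterate_succ_apply', Function.iterate_succ_apply', stepObs_eq, stepObs_eq]
    have h1 : aE g e ∈ E.image (aE g) ↔ e ∈ E := by
      rw [Finset.mem_image]
      constructor
      · rintro ⟨e', he', h⟩; rw [← aE_injective g h]; exact he'
      · intro h; exact ⟨e, h, rfl⟩
    by_cases he : e ∈ E
    · rw [if_pos (h1.mpr he), if_pos he, ← st_act, ← nz_act, ← tm_act, before_image, aE_fst, mm_image]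
      congr 4
      funext e'
      exact ih e'
    · rw [if_neg (fun h => he (h1.mp h)), if_neg he]

lemma obs_image' (g : G ≃g G) (θ : ℝ) (S : Finset V) (E : Finset (Ev V)) (ω : Om V) :
    (fun e => obs G θ (S.image g) (E.image (aE g)) ω (aE g e)) = obs G θ S E (act g ω) :=
  funext fun e => obs_image g θ S E ω e

lemma mt_image (g : G ≃g G) (θ : ℝ) (S : Finset V) (E : Finset (Ev V)) (ω : Om V) (s : ℝ) (v : V) :
    mt G θ (S.image g) (E.image (aE g)) ω s (g v) = mt G θ S E (act g ω) s v := by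
  unfold mt
  rw [before_image, mm_image, obs_image']

lemma ct_image (g : G ≃g G) (θ : ℝ) (S : Finset V) (E : Finset (Ev V)) (ω : Om V) (s : ℝ) (v w : V) :
    ct G θ (S.image g) (E.image (aE g)) ω s (g v) (g w) = ct G θ S E (act g ω) s v w := by
  unfold ct
  rw [before_image, cov_image, obs_image']

lemma evs_image (g : G ≃g G) (S : Finset V) (R : ℕ) :
    (evs S R).image (aE g) = evs (S.image g) R := by
  ext ⟨x, j⟩
  simp only [evs, Finset.mem_image, Finset.mem_product, Finset.mem_range, aE]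
  constructor
  · rintro ⟨⟨y, k⟩, ⟨hy, hk⟩, h⟩
    rw [Prod.mk.injEq] at h
    obtain ⟨h1, h2⟩ := h
    exact ⟨⟨y, hy, h1⟩, by rw [← h2]; exact hk⟩
  · rintro ⟨⟨y, hy, h1⟩, h2⟩
    exact ⟨(y, j), ⟨hy, h2⟩, by rw [← h1]⟩

/-- exact equivariance in finite volume -/
theorem mfin_act (g : G ≃g G) (θ : ℝ) (S : Finset V) (ω : Om V) (t : ℝ) (v : V) :
    mfin G θ S (act g ω) t v = mfin G θ (S.image g) ω t (g v) := by
  unfold mfin
  rw [← mt_image, evs_image]

end Crest.Agent.R160
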