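import Mathlib
import Crest.Agent.R160.Proc
import Crest.Agent.R160.Defs

/-! Row 160: measurability of the process. -/

set_option autoImplicit false
set_option linter.unusedSectionVars false

open MeasureTheory Finset

namespace Crest.Agent.R160

open scoped Classical

variable {V : Type*}

/-! ### coordinates -/

lemma measurable_coord (e : Ev V) : Measurable fun ω : Om V => ω e :=
  measurable_pi_apply e

@[fun_prop]
lemma measurable_clk (e : Ev V) : Measurable fun ω : Om V => clk ω e := by
  unfold clk
  exact measurable_subtype_coe.comp (measurable_fst.comp (measurable_coord e))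

@[fun_prop]
lemma measurable_nz (e : Ev V) : Measurable fun ω : Om V => nz ω e := by
  unfold nz
  exact ((measurable_subtype_coe.comp (measurable_snd.comp (measurable_coord e))).const_mul 2).sub_const 1

@[fun_prop]
lemma measurable_tm (e : Ev V) : Measurable fun ω : Om V => tm ω e := by
  unfold tm
  exact (measurable_clk e).const_add _

@[fun_prop]
lemma measurable_str (j : ℕ) : Measurable (str j) := by
  unfold str
  refine Measurable.ite measurableSet_Iio ?_ measurable_const
  by_cases h : j = 0
  · simp only [h, if_true]; fun_prop
  · simp only [h, if_false]; fun_prop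

@[fun_prop]
lemma measurable_st (e : Ev V) : Measurable fun ω : Om V => st ω e := by
  unfold st
  exact (measurable_str e.2).comp (measurable_clk e)

lemma measurable_TT : Measurable fun p : ℝ × ℝ => TT p.1 p.2 := by
  unfold TT
  fun_prop

@[fun_prop]
lemma Measurable.TT {α : Type*} [MeasurableSpace α] {f g : α → ℝ} (hf : Measurable f)
    (hg : Measurable g) : Measurable fun a => TT (f a) (g a) :=
  measurable_TT.comp (hf.prodMk hg)

@[fun_prop]
lemma measurable_nul (e : Ev V) : Measurable fun ω : Om V => nul ω e := by
  unfold nul; fun_prop

/-! ### posterior with a time filter -/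

section Post

variable {α : Type*} [MeasurableSpace α]

variable (G : SimpleGraph V) (θ : ℝ) (S : Finset V) (E : Finset (Ev V))

variable {o : α → Ev V → ℝ} {T : Ev V → α → ℝ} {τ : α → ℝ}

lemma measurable_ow_filter (ho : ∀ e ∈ E, Measurable fun a => o a e) (hT : ∀ e ∈ E, Measurable (T e))
    (hτ : Measurable τ) (A : Finset V) :
    Measurable fun a => ow (E.filter fun e => T e a < τ a) (o a) A := by
  have h : (fun a => ow (E.filter fun e => T e a < τ a) (o a) A)
      = fun a => ∏ e ∈ E, (if T e a < τ a then 1 + sg A e.1 * o a e else 1) := by
    funext a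
    unfold ow
    rw [Finset.prod_filter]
  rw [h]
  refine Finset.measurable_fun_prod _ fun e he => ?_
  refine Measurable.ite (measurableSet_lt (hT e he) hτ) ?_ measurable_const
  exact ((ho e he).const_mul _).const_add _

lemma measurable_num_filter (ho : ∀ e ∈ E, Measurable fun a => o a e) (hT : ∀ e ∈ E, Measurable (T e))
    (hτ : Measurable τ) (f : Finset V → ℝ) :
    Measurable fun a => num G θ S (E.filter fun e => T e a < τ a) (o a) f := by
  unfold num
  exact Finset.measurable_fun_sum _ fun A _ =>
    ((measurable_ow_filter E ho hT hτ A).const_mul _).const_mul _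

lemma measurable_ZZ_filter (ho : ∀ e ∈ E, Measurable fun a => o a e) (hT : ∀ e ∈ E, Measurable (T e))
    (hτ : Measurable τ) :
    Measurable fun a => ZZ G θ S (E.filter fun e => T e a < τ a) (o a) := by
  exact measurable_num_filter G θ S E ho hT hτ _

lemma measurable_mean_filter (ho : ∀ e ∈ E, Measurable fun a => o a e) (hT : ∀ e ∈ E, Measurable (T e))
    (hτ : Measurable τ) (f : Finset V → ℝ) :
    Measurable fun a => mean G θ S (E.filter fun e => T e a < τ a) (o a) f := by
  simp only [mean_eq_num]
  exact (measurable_num_filter G θ S E ho hT hτ f).div (measurable_ZZ_filter G θ S E ho hT hτ)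

lemma measurable_mm_filter (ho : ∀ e ∈ E, Measurable fun a => o a e) (hT : ∀ e ∈ E, Measurable (T e))
    (hτ : Measurable τ) (v : V) :
    Measurable fun a => mm G θ S (E.filter fun e => T e a < τ a) (o a) v :=
  measurable_mean_filter G θ S E ho hT hτ _

lemma measurable_cov_filter (ho : ∀ e ∈ E, Measurable fun a => o a e) (hT : ∀ e ∈ E, Measurable (T e))
    (hτ : Measurable τ) (v w : V) :
    Measurable fun a => cov G θ S (E.filter fun e => T e a < τ a) (o a) v w := by
  unfold cov
  exact (measurable_mean_filter G θ S E ho hT hτ _).sub
    ((measurable_mm_filter G θ S E ho hT hτ v).mul (measurable_mm_filter G θ S E ho hT hτ w))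

lemma measurable_ow (A : Finset V) :
    Measurable fun o : Ev V → ℝ => ow E o A := by
  unfold ow; fun_prop

lemma measurable_num (f : Finset V → ℝ) :
    Measurable fun o : Ev V → ℝ => num G θ S E o f := by
  unfold num ow; fun_prop

lemma measurable_ZZ : Measurable fun o : Ev V → ℝ => ZZ G θ S E o := by
  unfold ZZ num ow; fun_prop

lemma measurable_mean (f : Finset V → ℝ) :
    Measurable fun o : Ev V → ℝ => mean G θ S E o f := by
  simp only [mean_eq_num]
  exact (measurable_num G θ S E f).div (measurable_ZZ G θ S E)

lemma measurable_mm (v : V) : Measurable fun o : Ev V → ℝ => mm G θ S E o v :=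
  measurable_mean G θ S E _

lemma measurable_cov (v w : V) : Measurable fun o : Ev V → ℝ => cov G θ S E o v w := by
  unfold cov
  exact (measurable_mean G θ S E _).sub ((measurable_mm G θ S E v).mul (measurable_mm G θ S E w))

end Post

/-! ### the process -/

section Obs

variable (G : SimpleGraph V) (θ : ℝ) (S : Finset V) (E : Finset (Ev V))

lemma measurable_stepObs {o : Om V → Ev V → ℝ} (ho : ∀ e, Measurable fun ω => o ω e) (e : Ev V) :
    Measurable fun ω : Om V => stepObs G θ S E ω (o ω) e := by
  unfold stepObs
  by_cases he : e ∈ E
  · simp only [he, if_true]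
    have h := measurable_mm_filter G θ S E (o := o) (T := fun e ω => tm ω e) (τ := fun ω => tm ω e)
      (fun e _ => ho e) (fun e _ => measurable_tm e) (measurable_tm e) e.1
    exact (measurable_st e).mul (Measurable.TT ((measurable_st e).mul h) (measurable_nz e))
  · simp only [he, if_false]; exact measurable_const

@[fun_prop]
lemma measurable_obs (e : Ev V) : Measurable fun ω : Om V => obs G θ S E ω e := by
  unfold obs
  generalize E.card = n
  induction n generalizing e with
  | zero => exact measurable_const
  | succ n ih =>
    simp only [Function.iterate_succ_apply']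
    exact measurable_stepObs G θ S E ih e

@[fun_prop]
lemma measurable_obs' : Measurable fun ω : Om V => obs G θ S E ω :=
  measurable_pi_iff.mpr fun e => measurable_obs G θ S E e

/-- joint measurability of the magnetization -/
lemma measurable_mt_joint (v : V) :
    Measurable fun p : Om V × ℝ => mt G θ S E p.1 p.2 v := by
  unfold mt before
  exact measurable_mm_filter G θ S E (o := fun p : Om V × ℝ => obs G θ S E p.1)
    (T := fun e p => tm p.1 e) (τ := fun p => p.2)
    (fun e _ => (measurable_obs G θ S E e).comp measurable_fst)
    (fun e _ => (measurable_tm e).comp measurable_fst) measurable_snd v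

lemma measurable_ct_joint (v w : V) :
    Measurable fun p : Om V × ℝ => ct G θ S E p.1 p.2 v w := by
  unfold ct before
  exact measurable_cov_filter G θ S E (o := fun p : Om V × ℝ => obs G θ S E p.1)
    (T := fun e p => tm p.1 e) (τ := fun p => p.2)
    (fun e _ => (measurable_obs G θ S E e).comp measurable_fst)
    (fun e _ => (measurable_tm e).comp measurable_fst) measurable_snd v w

lemma measurable_mean_joint (f : Finset V → ℝ) :
    Measurable fun p : Om V × ℝ => mean G θ S (before E p.1 p.2) (obs G θ S E p.1) f := by
  unfold before
  exact measurable_mean_filter G θ S E (o := fun p : Om V × ℝ => obs G θ S E p.1)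
    (T := fun e p => tm p.1 e) (τ := fun p => p.2)
    (fun e _ => (measurable_obs G θ S E e).comp measurable_fst)
    (fun e _ => (measurable_tm e).comp measurable_fst) measurable_snd f

lemma measurable_pair_const (t : ℝ) : Measurable fun ω : Om V => (ω, t) :=
  measurable_prodMk_right

lemma measurable_pair_tm (e : Ev V) : Measurable fun ω : Om V => (ω, tm ω e) :=
  Measurable.prodMk measurable_id (measurable_tm e)

@[fun_prop]
lemma measurable_mt (t : ℝ) (v : V) : Measurable fun ω : Om V => mt G θ S E ω t v := by
  have h := (measurable_mt_joint G θ S E v).comp (measurable_pair_const t)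
  exact h

@[fun_prop]
lemma measurable_ct (t : ℝ) (v w : V) : Measurable fun ω : Om V => ct G θ S E ω t v w := by
  have h := (measurable_ct_joint G θ S E v w).comp (measurable_pair_const t)
  exact h

@[fun_prop]
lemma measurable_mt_tm (e : Ev V) (v : V) :
    Measurable fun ω : Om V => mt G θ S E ω (tm ω e) v := by
  have h := (measurable_mt_joint G θ S E v).comp (measurable_pair_tm e)
  exact h

@[fun_prop]
lemma measurable_ct_tm (e : Ev V) (v w : V) :
    Measurable fun ω : Om V => ct G θ S E ω (tm ω e) v w := by
  have h := (measurable_ct_joint G θ S E v w).comp (measurable_pair_tm e)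
  exact h

@[fun_prop]
lemma measurable_mfin (t : ℝ) (v : V) : Measurable fun ω : Om V => mfin G θ S ω t v :=
  measurable_mt G θ S _ t v

lemma measurable_minf [G.LocallyFinite] (t : ℝ) (v : V) :
    Measurable fun ω : Om V => minf G θ t v ω := by
  unfold minf
  exact Measurable.limsup fun n => measurable_mfin G θ _ t v

end Obs

end Crest.Agent.R160
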