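import Mathlib
import Crest.Agent.R160.Meas

/-! Row 160: resampling one coordinate of the noise; the channel lemma. -/

set_option autoImplicit false
set_option linter.unusedSectionVars false

open MeasureTheory Finset
open scoped Classical ENNReal

namespace Crest.Agent.R160

/-! ### updating one coordinate of a product measure -/

theorem measurePreserving_update {ι : Type*} [DecidableEq ι] {X : ι → Type*}
    [∀ i, MeasurableSpace (X i)]
    (μ : ∀ i, Measure (X i)) [∀ i, IsProbabilityMeasure (μ i)] (i : ι) :
    MeasurePreserving (fun p : (∀ j, X j) × X i => Function.update p.1 i p.2)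
      ((Measure.infinitePi μ).prod (μ i)) (Measure.infinitePi μ) := by
  refine ⟨measurable_update', ?_⟩
  refine Measure.eq_infinitePi μ fun s t ht => ?_
  rw [Measure.map_apply measurable_update' (MeasurableSet.pi s.countable_toSet fun j _ => ht j)]
  have hpre : (fun p : (∀ j, X j) × X i => Function.update p.1 i p.2) ⁻¹' (Set.pi s t)
      = (Set.pi (s.erase i : Finset ι) t) ×ˢ (if i ∈ s then t i else Set.univ) := by
    ext p
    simp only [Set.mem_preimage, Set.mem_pi, Finset.mem_coe, Set.mem_prod, Finset.mem_erase]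
    constructor
    · intro h
      refine ⟨fun j hj => ?_, ?_⟩
      · have := h j hj.2
        rwa [Function.update_of_ne hj.1] at this
      · split_ifs with hi
        · have := h i hi
          rwa [Function.update_self] at this
        · trivial
    · rintro ⟨h1, h2⟩ j hj
      by_cases hji : j = i
      · subst hji
        rw [Function.update_self]
        rwa [if_pos hj] at h2
      · rw [Function.update_of_ne hji]
        exact h1 j ⟨hji, hj⟩
  rw [hpre, Measure.prod_prod, Measure.infinitePi_pi μ fun j _ => ht j]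
  by_cases hi : i ∈ s
  · rw [if_pos hi, mul_comm, Finset.mul_prod_erase s (fun j => μ j (t j)) hi]
  · rw [if_neg hi, measure_univ, mul_one, Finset.erase_eq_of_notMem hi]

variable {V : Type*}

instance : IsProbabilityMeasure (PP V) := by unfold PP; infer_instance

/-- resample the clock and the noise of `e` -/
theorem mp_update (e : Ev V) :
    MeasurePreserving (fun p : Om V × (unitInterval × unitInterval) => Function.update p.1 e p.2)
      ((PP V).prod volume) (PP V) :=
  measurePreserving_update (fun _ : Ev V => (volume : Measure (unitInterval × unitInterval))) e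

/-- replace the noise of `e` by `z` -/
noncomputable def updz (ω : Om V) (e : Ev V) (z : unitInterval) : Om V :=
  Function.update ω e ((ω e).1, z)

lemma updz_same (ω : Om V) (e : Ev V) (z : unitInterval) : updz ω e z e = ((ω e).1, z) := by
  unfold updz; rw [Function.update_self]

lemma updz_ne (ω : Om V) {e e' : Ev V} (h : e' ≠ e) (z : unitInterval) : updz ω e z e' = ω e' := by
  unfold updz; rw [Function.update_of_ne h]

lemma updz_fst (ω : Om V) (e e' : Ev V) (z : unitInterval) : (updz ω e z e').1 = (ω e').1 := by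
  by_cases h : e' = e
  · subst h; rw [updz_same]
  · rw [updz_ne ω h]

@[simp] lemma clk_updz (ω : Om V) (e e' : Ev V) (z : unitInterval) :
    clk (updz ω e z) e' = clk ω e' := by unfold clk; rw [updz_fst]

@[simp] lemma tm_updz (ω : Om V) (e e' : Ev V) (z : unitInterval) :
    tm (updz ω e z) e' = tm ω e' := by unfold tm; rw [clk_updz]

@[simp] lemma st_updz (ω : Om V) (e e' : Ev V) (z : unitInterval) :
    st (updz ω e z) e' = st ω e' := by unfold st; rw [clk_updz]

lemma nz_updz_same (ω : Om V) (e : Ev V) (z : unitInterval) :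
    nz (updz ω e z) e = 2 * (z : ℝ) - 1 := by unfold nz; rw [updz_same]

lemma nz_updz_ne (ω : Om V) {e e' : Ev V} (h : e' ≠ e) (z : unitInterval) :
    nz (updz ω e z) e' = nz ω e' := by unfold nz; rw [updz_ne ω h]

@[simp] lemma before_updz (E : Finset (Ev V)) (ω : Om V) (e : Ev V) (z : unitInterval) (s : ℝ) :
    before (E := E) (updz ω e z) s = before E ω s := by
  unfold before
  simp only [tm_updz]

lemma measurable_updz (e : Ev V) : Measurable fun p : Om V × unitInterval => updz p.1 e p.2 := by
  unfold updz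
  have h : Measurable fun p : Om V × unitInterval => (p.1, ((p.1 e).1, p.2)) :=
    measurable_fst.prodMk (((measurable_fst.comp ((measurable_coord e).comp measurable_fst))).prodMk
      measurable_snd)
  exact (measurable_update' (a := e)).comp h

/-- resample the noise of `e` -/
theorem mp_updz (e : Ev V) :
    MeasurePreserving (fun p : Om V × unitInterval => updz p.1 e p.2) ((PP V).prod volume) (PP V) := by
  refine ⟨measurable_updz e, ?_⟩
  -- write `ω = update ω' e (u, z')`
  have h1 := mp_update (V := V) e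
  have h2 : MeasurePreserving (fun p : (Om V × (unitInterval × unitInterval)) × unitInterval =>
      (Function.update p.1.1 e p.1.2, p.2)) (((PP V).prod volume).prod volume)
      ((PP V).prod volume) := h1.prod (MeasurePreserving.id _)
  have h3 : MeasurePreserving (fun p : (Om V × (unitInterval × unitInterval)) × unitInterval =>
      (p.1.1, (p.1.2.1, p.2))) (((PP V).prod volume).prod volume)
      ((PP V).prod (volume : Measure (unitInterval × unitInterval))) := by
    have ha : MeasurePreserving
        (MeasurableEquiv.prodAssoc : (Om V × (unitInterval × unitInterval)) × unitInterval ≃ᵐ _)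
        (((PP V).prod volume).prod volume) ((PP V).prod (volume.prod volume)) :=
      measurePreserving_prodAssoc _ _ _
    have hb : MeasurePreserving (fun q : (unitInterval × unitInterval) × unitInterval =>
        (q.1.1, q.2)) ((volume : Measure (unitInterval × unitInterval)).prod volume)
        (volume : Measure (unitInterval × unitInterval)) := by
      have hf : MeasurePreserving (Prod.fst : unitInterval × unitInterval → unitInterval)
          volume volume := measurePreserving_fst
      exact hf.prod (MeasurePreserving.id _)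
    exact ((MeasurePreserving.id (PP V)).prod hb).comp ha
  have h4 := h1.comp h3
  have h5 : (fun p : Om V × unitInterval => updz p.1 e p.2) ∘
      (fun p : (Om V × (unitInterval × unitInterval)) × unitInterval =>
      (Function.update p.1.1 e p.1.2, p.2))
      = (fun p : Om V × (unitInterval × unitInterval) => Function.update p.1 e p.2) ∘
      (fun p : (Om V × (unitInterval × unitInterval)) × unitInterval =>
      (p.1.1, (p.1.2.1, p.2))) := by
    funext p
    simp only [Function.comp_apply, updz, Function.update_self, Function.update_idem]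
  rw [← h2.map_eq, Measure.map_map (measurable_updz e) h2.measurable, h5, h4.map_eq]

/-! ### the channel lemma -/

lemma TT_inv {s y : ℝ} (hs : |s| ≤ 1) (hy : |y| ≤ 1) : TT s (y + s * (y ^ 2 - 1) / 2) = y := by
  unfold TT
  have h1 : |s * y| ≤ 1 := by rw [abs_mul]; exact mul_le_one₀ hs (abs_nonneg _) hy
  have h2 := (abs_le.mp h1).1
  have h3 : 1 + 2 * s * (y + s * (y ^ 2 - 1) / 2) + s ^ 2 = (1 + s * y) ^ 2 := by ring
  rw [h3, Real.sqrt_sq (by linarith)]
  rw [div_eq_iff (by linarith)]
  ring

/-- the inverse of the sampling map on `[0,1]` -/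
noncomputable def gT (s x : ℝ) : ℝ := x + s * (x ^ 2 - x)

lemma TT_gT {s x : ℝ} (hs : |s| ≤ 1) (hx0 : 0 ≤ x) (hx1 : x ≤ 1) :
    TT s (2 * gT s x - 1) = 2 * x - 1 := by
  have h : |2 * x - 1| ≤ 1 := by rw [abs_le]; constructor <;> linarith
  rw [← TT_inv hs h]
  congr 1
  unfold gT
  ring

lemma gT_mono {s : ℝ} (hs : |s| ≤ 1) : MonotoneOn (gT s) (Set.Icc 0 1) := by
  intro x hx y hy hxy
  unfold gT
  have h1 := abs_le.mp hs
  have : y + s * (y ^ 2 - y) - (x + s * (x ^ 2 - x)) = (y - x) * (1 + s * (x + y - 1)) := by ring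
  have h2 : |s * (x + y - 1)| ≤ 1 := by
    rw [abs_mul]
    refine mul_le_one₀ hs (abs_nonneg _) ?_
    rw [abs_le]; constructor <;> linarith [hx.1, hx.2, hy.1, hy.2]
  have h3 := (abs_le.mp h2).1
  nlinarith [mul_nonneg (sub_nonneg.mpr hxy) (by linarith : 0 ≤ 1 + s * (x + y - 1))]

lemma gT_image {s : ℝ} (hs : |s| ≤ 1) : gT s '' Set.Icc 0 1 = Set.Icc 0 1 := by
  have h0 : gT s 0 = 0 := by unfold gT; ring
  have h1 : gT s 1 = 1 := by unfold gT; ring
  apply Set.Subset.antisymm
  · rintro _ ⟨x, hx, rfl⟩
    have ha := gT_mono hs (Set.left_mem_Icc.mpr zero_le_one) hx hx.1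
    have hb := gT_mono hs hx (Set.right_mem_Icc.mpr zero_le_one) hx.2
    rw [h0] at ha
    rw [h1] at hb
    exact ⟨ha, hb⟩
  · have hc : ContinuousOn (gT s) (Set.Icc 0 1) := by unfold gT; fun_prop
    have := intermediate_value_Icc zero_le_one hc
    rwa [h0, h1] at this

lemma gT_deriv (s x : ℝ) : HasDerivAt (gT s) (1 + s * (2 * x - 1)) x := by
  unfold gT
  have h := (hasDerivAt_id' x).fun_add (((hasDerivAt_pow 2 x).fun_sub (hasDerivAt_id' x)).const_mul s)
  exact h.congr_deriv (by norm_num)

/-- the channel lemma, `lintegral` form -/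
theorem lintegral_TT {s : ℝ} (hs : |s| ≤ 1) (φ : ℝ → ℝ≥0∞) :
    ∫⁻ z : unitInterval, φ (TT s (2 * (z : ℝ) - 1))
      = ∫⁻ x : unitInterval, ENNReal.ofReal (1 + s * (2 * (x : ℝ) - 1)) * φ (2 * (x : ℝ) - 1) := by
  have hm := unitInterval.measurePreserving_coe
  have he := unitInterval.measurableEmbedding_coe
  have e1 : ∫⁻ z : unitInterval, φ (TT s (2 * (z : ℝ) - 1))
      = ∫⁻ z in Set.Icc (0:ℝ) 1, φ (TT s (2 * z - 1)) := by
    rw [← hm.lintegral_comp_emb he (fun z => φ (TT s (2 * z - 1)))]
  have e2 : ∫⁻ x : unitInterval, ENNReal.ofReal (1 + s * (2 * (x : ℝ) - 1)) * φ (2 * (x : ℝ) - 1)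
      = ∫⁻ x in Set.Icc (0:ℝ) 1, ENNReal.ofReal (1 + s * (2 * x - 1)) * φ (2 * x - 1) := by
    rw [← hm.lintegral_comp_emb he
      (fun x => ENNReal.ofReal (1 + s * (2 * x - 1)) * φ (2 * x - 1))]
  rw [e1, e2]
  have h := lintegral_image_eq_lintegral_deriv_mul_of_monotoneOn (f := gT s)
    (f' := fun x => 1 + s * (2 * x - 1)) (s := Set.Icc (0:ℝ) 1) measurableSet_Icc
    (fun x _ => (gT_deriv s x).hasDerivWithinAt) (gT_mono hs) (fun z => φ (TT s (2 * z - 1)))
  rw [gT_image hs] at h
  rw [h]
  refine setLIntegral_congr_fun measurableSet_Icc fun x hx => ?_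
  rw [TT_gT hs hx.1 hx.2]

/-- the channel lemma, Bochner form -/
theorem integral_TT {s : ℝ} (hs : |s| ≤ 1) (φ : ℝ → ℝ) :
    ∫ z : unitInterval, φ (TT s (2 * (z : ℝ) - 1))
      = ∫ x : unitInterval, (1 + s * (2 * (x : ℝ) - 1)) * φ (2 * (x : ℝ) - 1) := by
  have hm := unitInterval.measurePreserving_coe
  have he := unitInterval.measurableEmbedding_coe
  have e1 : ∫ z : unitInterval, φ (TT s (2 * (z : ℝ) - 1))
      = ∫ z in Set.Icc (0:ℝ) 1, φ (TT s (2 * z - 1)) := by
    rw [← hm.integral_comp he (fun z => φ (TT s (2 * z - 1)))]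
  have e2 : ∫ x : unitInterval, (1 + s * (2 * (x : ℝ) - 1)) * φ (2 * (x : ℝ) - 1)
      = ∫ x in Set.Icc (0:ℝ) 1, (1 + s * (2 * x - 1)) * φ (2 * x - 1) := by
    rw [← hm.integral_comp he (fun x => (1 + s * (2 * x - 1)) * φ (2 * x - 1))]
  rw [e1, e2]
  have h := integral_image_eq_integral_deriv_smul_of_monotoneOn (f := gT s)
    (f' := fun x => 1 + s * (2 * x - 1)) (s := Set.Icc (0:ℝ) 1) measurableSet_Icc
    (fun x _ => (gT_deriv s x).hasDerivWithinAt) (gT_mono hs) (fun z => φ (TT s (2 * z - 1)))
  rw [gT_image hs] at h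
  rw [h]
  refine setIntegral_congr_fun measurableSet_Icc fun x hx => ?_
  simp only [smul_eq_mul]
  rw [TT_gT hs hx.1 hx.2]

/-- mean of the noise is zero -/
lemma integral_noise : ∫ x : unitInterval, (2 * (x : ℝ) - 1) = 0 := by
  have hm := unitInterval.measurePreserving_coe
  have he := unitInterval.measurableEmbedding_coe
  have e1 : ∫ z : unitInterval, (2 * (z : ℝ) - 1) = ∫ z in Set.Icc (0:ℝ) 1, (2 * z - 1) := by
    rw [← hm.integral_comp he (fun z => 2 * z - 1)]
  rw [e1, integral_Icc_eq_integral_Ioc, ← intervalIntegral.integral_of_le zero_le_one]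
  have h : ∀ x ∈ Set.uIcc (0:ℝ) 1, HasDerivAt (fun x : ℝ => x ^ 2 - x) (2 * x - 1) x := by
    intro x _
    have h := (hasDerivAt_pow 2 x).fun_sub (hasDerivAt_id' x)
    exact h.congr_deriv (by norm_num)
  rw [intervalIntegral.integral_eq_sub_of_hasDerivAt h
    ((by fun_prop : Continuous fun x : ℝ => 2 * x - 1).intervalIntegrable 0 1)]
  norm_num

end Crest.Agent.R160
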