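import Mathlib
import Crest.Agent.R160.Resample

/-! Row 160: causality facts for the process. -/

set_option autoImplicit false
set_option linter.unusedSectionVars false

open MeasureTheory Finset
open scoped Classical

namespace Crest.Agent.R160

variable {V : Type*} (G : SimpleGraph V) (θ : ℝ) (S : Finset V)

/-! ### events with zero observation can be dropped -/

lemma ow_of_zero {E E' : Finset (Ev V)} {o : Ev V → ℝ} (h : E' ⊆ E) (h0 : ∀ e ∈ E, e ∉ E' → o e = 0)
    (A : Finset V) : ow E o A = ow E' o A := by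
  unfold ow
  symm
  refine Finset.prod_subset h fun e he he' => ?_
  rw [h0 e he he', mul_zero, add_zero]

lemma num_of_zero {E E' : Finset (Ev V)} {o : Ev V → ℝ} (h : E' ⊆ E)
    (h0 : ∀ e ∈ E, e ∉ E' → o e = 0) (f : Finset V → ℝ) :
    num G θ S E o f = num G θ S E' o f := by
  unfold num
  exact Finset.sum_congr rfl fun A _ => by rw [ow_of_zero h h0]

lemma ZZ_of_zero {E E' : Finset (Ev V)} {o : Ev V → ℝ} (h : E' ⊆ E)
    (h0 : ∀ e ∈ E, e ∉ E' → o e = 0) : ZZ G θ S E o = ZZ G θ S E' o :=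
  num_of_zero G θ S h h0 _

lemma mean_of_zero {E E' : Finset (Ev V)} {o : Ev V → ℝ} (h : E' ⊆ E)
    (h0 : ∀ e ∈ E, e ∉ E' → o e = 0) (f : Finset V → ℝ) :
    mean G θ S E o f = mean G θ S E' o f := by
  unfold mean
  rw [num_of_zero G θ S h h0, ZZ_of_zero G θ S h h0]

lemma mm_of_zero {E E' : Finset (Ev V)} {o : Ev V → ℝ} (h : E' ⊆ E)
    (h0 : ∀ e ∈ E, e ∉ E' → o e = 0) (v : V) :
    mm G θ S E o v = mm G θ S E' o v := mean_of_zero G θ S h h0 _

lemma cov_of_zero {E E' : Finset (Ev V)} {o : Ev V → ℝ} (h : E' ⊆ E)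
    (h0 : ∀ e ∈ E, e ∉ E' → o e = 0) (v w : V) :
    cov G θ S E o v w = cov G θ S E' o v w := by
  unfold cov
  rw [mean_of_zero G θ S h h0, mm_of_zero G θ S h h0, mm_of_zero G θ S h h0]

/-! ### the state only depends on the events before time `t` -/

/-- general posterior functional at time `t` -/
noncomputable def mnt (G : SimpleGraph V) (θ : ℝ) (S : Finset V) (E : Finset (Ev V)) (ω : Om V)
    (t : ℝ) (f : Finset V → ℝ) : ℝ := mean G θ S (before E ω t) (obs G θ S E ω) f

lemma mt_eq_mnt (E : Finset (Ev V)) (ω : Om V) (t : ℝ) (v : V) :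
    mt G θ S E ω t v = mnt G θ S E ω t (fun A => sg A v) := rfl

lemma ct_eq_mnt (E : Finset (Ev V)) (ω : Om V) (t : ℝ) (v w : V) :
    ct G θ S E ω t v w = mnt G θ S E ω t (fun A => sg A v * sg A w)
      - mnt G θ S E ω t (fun A => sg A v) * mnt G θ S E ω t (fun A => sg A w) := rfl

lemma mnt_eq_before (E : Finset (Ev V)) (ω : Om V) (t : ℝ) (f : Finset V → ℝ) :
    mnt G θ S E ω t f
      = mean G θ S (before E ω t) (obs G θ S (before E ω t) ω) f := by
  unfold mnt
  exact mean_congr G θ S (fun e he => (obs_before G θ S he).symm) f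

/-- the state only depends on the set of past events -/
lemma mnt_congr_before {E E' : Finset (Ev V)} {ω : Om V} {t t' : ℝ}
    (h : before E ω t = before E' ω t') (f : Finset V → ℝ) :
    mnt G θ S E ω t f = mnt G θ S E' ω t' f := by
  rw [mnt_eq_before, mnt_eq_before, h]

lemma mnt_congr_noise {E : Finset (Ev V)} {ω ω' : Om V} (h : ∀ e ∈ E, ω e = ω' e) (s : ℝ)
    (f : Finset V → ℝ) : mnt G θ S E ω s f = mnt G θ S E ω' s f := by
  unfold mnt; rw [obs_congr_noise G θ S h, before_congr_noise h]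

/-- the state at time `t` only depends on the clocks and on the noises of the past events -/
lemma mnt_congr_past {E : Finset (Ev V)} {ω ω' : Om V} {t : ℝ}
    (hc : ∀ e ∈ E, (ω e).1 = (ω' e).1) (hn : ∀ e ∈ before E ω t, ω e = ω' e) (f : Finset V → ℝ) :
    mnt G θ S E ω t f = mnt G θ S E ω' t f := by
  have hb : before E ω t = before E ω' t := by
    apply Finset.filter_congr
    intro x hx
    have : tm ω x = tm ω' x := by unfold tm clk; rw [hc x hx]
    rw [this]
  rw [mnt_eq_before, mnt_eq_before, ← hb, obs_congr_noise G θ S hn]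

lemma obs_congr_past {E : Finset (Ev V)} {ω ω' : Om V} {t : ℝ}
    (hc : ∀ e ∈ E, (ω e).1 = (ω' e).1) (hn : ∀ e ∈ before E ω t, ω e = ω' e) {e : Ev V}
    (he : e ∈ before E ω t) : obs G θ S E ω e = obs G θ S E ω' e := by
  have hb : before E ω t = before E ω' t := by
    apply Finset.filter_congr
    intro x hx
    have : tm ω x = tm ω' x := by unfold tm clk; rw [hc x hx]
    rw [this]
  have he' : e ∈ before E ω' t := hb ▸ he
  have h1 := obs_before G θ S he
  have h2 := obs_before G θ S he'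
  rw [← h1, ← h2, ← hb, obs_congr_noise G θ S hn]

/-- resampling the noise of `e` does not change the state up to the time of `e` -/
lemma mnt_updz {E : Finset (Ev V)} {ω : Om V} {e : Ev V} {t : ℝ} (h : t ≤ tm ω e)
    (z : unitInterval) (f : Finset V → ℝ) :
    mnt G θ S E (updz ω e z) t f = mnt G θ S E ω t f := by
  symm
  refine mnt_congr_past G θ S (fun e' _ => (updz_fst ω e e' z).symm) (fun e' he' => ?_) f
  have : e' ≠ e := by
    rintro rfl
    exact absurd (mem_before.mp he').2 (not_lt.mpr h)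
  rw [updz_ne ω this]

lemma mt_updz {E : Finset (Ev V)} {ω : Om V} {e : Ev V} {t : ℝ} (h : t ≤ tm ω e)
    (z : unitInterval) (v : V) : mt G θ S E (updz ω e z) t v = mt G θ S E ω t v :=
  mnt_updz G θ S h z _

lemma ct_updz {E : Finset (Ev V)} {ω : Om V} {e : Ev V} {t : ℝ} (h : t ≤ tm ω e)
    (z : unitInterval) (v w : V) : ct G θ S E (updz ω e z) t v w = ct G θ S E ω t v w := by
  rw [ct_eq_mnt, ct_eq_mnt, mnt_updz G θ S h, mnt_updz G θ S h, mnt_updz G θ S h]

lemma obs_updz_lt {E : Finset (Ev V)} {ω : Om V} {e e' : Ev V} (h : tm ω e' < tm ω e)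
    (z : unitInterval) : obs G θ S E (updz ω e z) e' = obs G θ S E ω e' := by
  by_cases he : e' ∈ E
  · symm
    refine obs_congr_past G θ S (t := tm ω e) (fun x _ => (updz_fst ω e x z).symm)
      (fun x hx => ?_) (mem_before.mpr ⟨he, h⟩)
    have : x ≠ e := by
      rintro rfl
      exact absurd (mem_before.mp hx).2 (lt_irrefl _)
    rw [updz_ne ω this]
  · rw [obs_of_not_mem G θ S he, obs_of_not_mem G θ S he]

/-- the observation of `e` as a function of its own noise -/
lemma obs_updz_same {E : Finset (Ev V)} {ω : Om V} {e : Ev V} (he : e ∈ E) (z : unitInterval) :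
    obs G θ S E (updz ω e z) e
      = st ω e * TT (st ω e * mt G θ S E ω (tm ω e) e.1) (2 * (z : ℝ) - 1) := by
  rw [obs_of_mem G θ S he, st_updz, tm_updz, mt_updz G θ S le_rfl, nz_updz_same]

/-! ### removing an event from the event set -/

lemma before_erase {E : Finset (Ev V)} {ω : Om V} {e : Ev V} {t : ℝ} (h : t ≤ tm ω e) :
    before (E.erase e) ω t = before E ω t := by
  ext x
  rw [mem_before, mem_before, Finset.mem_erase]
  constructor
  · rintro ⟨⟨-, h2⟩, h3⟩; exact ⟨h2, h3⟩
  · rintro ⟨h2, h3⟩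
    refine ⟨⟨?_, h2⟩, h3⟩
    rintro rfl
    exact absurd h3 (not_lt.mpr h)

lemma mnt_erase_of_le {E : Finset (Ev V)} {ω : Om V} {e : Ev V} {t : ℝ} (h : t ≤ tm ω e)
    (f : Finset V → ℝ) : mnt G θ S (E.erase e) ω t f = mnt G θ S E ω t f :=
  mnt_congr_before G θ S (before_erase h) f

/-- inactive events have no influence: observations -/
lemma obs_erase_of_inactive {θ : ℝ} (hθ : |θ| < 1) {E : Finset (Ev V)} {ω : Om V} {e : Ev V}
    (h : st ω e = 0) : obs G θ S (E.erase e) ω = obs G θ S E ω := by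
  have h0 : ∀ E : Finset (Ev V), obs G θ S E ω e = 0 := by
    intro E
    have := obs_bound G S hθ E ω e
    rw [h] at this
    exact abs_eq_zero.mp (le_antisymm this (abs_nonneg _))
  funext e'
  induction hn : (before E ω (tm ω e')).card using Nat.strong_induction_on generalizing e' with
  | _ n ih =>
    subst hn
    by_cases hee : e' = e
    · subst hee; rw [h0, h0]
    by_cases he : e' ∈ E
    · rw [obs_of_mem G θ S he, obs_of_mem G θ S (Finset.mem_erase.mpr ⟨hee, he⟩)]
      congr 3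
      unfold mt
      have hsub : before (E.erase e) ω (tm ω e') ⊆ before E ω (tm ω e') := by
        intro x hx
        rw [mem_before] at hx ⊢
        exact ⟨Finset.mem_of_mem_erase hx.1, hx.2⟩
      rw [mm_of_zero G θ S hsub (o := obs G θ S E ω)]
      · exact mm_congr G θ S (fun x hx => ih _ (before_card_lt (hsub hx)) x rfl) _
      · intro x hx hx'
        have : x = e := by
          by_contra hne
          apply hx'
          rw [mem_before] at hx ⊢
          exact ⟨Finset.mem_erase.mpr ⟨hne, hx.1⟩, hx.2⟩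
        rw [this, h0]
    · rw [obs_of_not_mem G θ S he,
        obs_of_not_mem G θ S (fun hc => he (Finset.mem_of_mem_erase hc))]

/-- inactive events have no influence: state -/
lemma mnt_erase_of_inactive {θ : ℝ} (hθ : |θ| < 1) {E : Finset (Ev V)} {ω : Om V} {e : Ev V}
    (h : st ω e = 0) (t : ℝ) (f : Finset V → ℝ) :
    mnt G θ S (E.erase e) ω t f = mnt G θ S E ω t f := by
  have h0 : obs G θ S E ω e = 0 := by
    have := obs_bound G S hθ E ω e
    rw [h] at this
    exact abs_eq_zero.mp (le_antisymm this (abs_nonneg _))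
  unfold mnt
  rw [obs_erase_of_inactive G S hθ h]
  symm
  refine mean_of_zero G θ S ?_ ?_ f
  · intro x hx
    rw [mem_before] at hx ⊢
    exact ⟨Finset.mem_of_mem_erase hx.1, hx.2⟩
  · intro x hx hx'
    have : x = e := by
      by_contra hne
      apply hx'
      rw [mem_before] at hx ⊢
      exact ⟨Finset.mem_erase.mpr ⟨hne, hx.1⟩, hx.2⟩
    rw [this, h0]

/-- the state does not change over a time interval without active events -/
lemma mnt_idle {θ : ℝ} (hθ : |θ| < 1) {E : Finset (Ev V)} {ω : Om V} {s t : ℝ} (hst : s ≤ t)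
    (h : ∀ e ∈ E, s ≤ tm ω e → tm ω e < t → st ω e = 0) (f : Finset V → ℝ) :
    mnt G θ S E ω t f = mnt G θ S E ω s f := by
  unfold mnt
  refine mean_of_zero G θ S ?_ ?_ f
  · intro x hx
    rw [mem_before] at hx ⊢
    exact ⟨hx.1, hx.2.trans_le hst⟩
  · intro x hx hx'
    rw [mem_before] at hx hx'
    have h1 : s ≤ tm ω x := by
      by_contra hc
      exact hx' ⟨hx.1, not_le.mp hc⟩
    have h2 := h x hx.1 h1 hx.2
    have := obs_bound G S hθ E ω x
    rw [h2] at this
    exact abs_eq_zero.mp (le_antisymm this (abs_nonneg _))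

lemma st_zero_of_clk {ω : Om V} {e : Ev V} (h : 1 / 2 ≤ clk ω e) : st ω e = 0 := by
  unfold st str
  rw [if_neg (not_lt.mpr h)]

/-- (C7) nothing happens in the second half of a round -/
theorem mnt_second_half {θ : ℝ} (hθ : |θ| < 1) (E : Finset (Ev V)) (ω : Om V) (k : ℕ) {s t : ℝ}
    (hs : (k : ℝ) + 1 / 2 ≤ s) (hst : s ≤ t) (ht : t ≤ k + 1) (f : Finset V → ℝ) :
    mnt G θ S E ω t f = mnt G θ S E ω s f := by
  refine mnt_idle G S hθ hst (fun e _ h1 h2 => ?_) f
  apply st_zero_of_clk
  have hc := clk_mem ω e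
  unfold tm at h1 h2
  have h3 : (e.2 : ℝ) < k + 1 := by linarith
  have h4 : e.2 ≤ k := by
    have : (e.2 : ℝ) < ((k + 1 : ℕ) : ℝ) := by push_cast; exact h3
    have := Nat.cast_lt.mp this
    omega
  have h5 : (e.2 : ℝ) ≤ k := by exact_mod_cast h4
  linarith

theorem mt_second_half {θ : ℝ} (hθ : |θ| < 1) (E : Finset (Ev V)) (ω : Om V) (k : ℕ) {s t : ℝ}
    (hs : (k : ℝ) + 1 / 2 ≤ s) (hst : s ≤ t) (ht : t ≤ k + 1) (v : V) :
    mt G θ S E ω t v = mt G θ S E ω s v := mnt_second_half G S hθ E ω k hs hst ht _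

/-- (C4) the number of rounds is irrelevant -/
theorem before_evs {S : Finset V} {R : ℕ} {t : ℝ} (h : t ≤ R) (ω : Om V) :
    before (evs S R) ω t = before (evs S ⌈t⌉₊) ω t := by
  ext e
  rw [mem_before, mem_before]
  unfold evs
  rw [Finset.mem_product, Finset.mem_product, Finset.mem_range, Finset.mem_range]
  constructor
  · rintro ⟨⟨h1, _⟩, h3⟩
    refine ⟨⟨h1, ?_⟩, h3⟩
    rw [Nat.lt_ceil]
    have := (clk_mem ω e).1
    unfold tm at h3
    linarith
  · rintro ⟨⟨h1, h2⟩, h3⟩
    refine ⟨⟨h1, ?_⟩, h3⟩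
    exact lt_of_lt_of_le h2 (Nat.ceil_le.mpr h)

theorem mt_evs {S : Finset V} {R : ℕ} {t : ℝ} (h : t ≤ R) (ω : Om V) (v : V) :
    mt G θ S (evs S R) ω t v = mfin G θ S ω t v := by
  unfold mfin
  exact mnt_congr_before G θ S (before_evs h ω) _

theorem ct_evs {S : Finset V} {R : ℕ} {t : ℝ} (h : t ≤ R) (ω : Om V) (v w : V) :
    ct G θ S (evs S R) ω t v w = ct G θ S (evs S ⌈t⌉₊) ω t v w := by
  rw [ct_eq_mnt, ct_eq_mnt]
  rw [mnt_congr_before G θ S (before_evs h ω), mnt_congr_before G θ S (before_evs h ω),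
    mnt_congr_before G θ S (before_evs h ω)]

theorem abs_mfin_le {θ : ℝ} (hθ : |θ| < 1) (S : Finset V) (ω : Om V) (t : ℝ) (v : V) :
    |mfin G θ S ω t v| ≤ 1 := abs_mt_le G S hθ _ ω t v

end Crest.Agent.R160
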