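import Mathlib
import Crest.Agent.R160.Causal

/-! Row 160: idle half-rounds (any `θ`), the spin flip symmetry of the posterior; the
magnetization at time 0 vanishes. -/

set_option autoImplicit false
set_option linter.unusedSectionVars false

open MeasureTheory Finset

namespace Crest.Agent.R160.P2

open Crest.Agent.R160

open scoped Classical

variable {V : Type*} (G : SimpleGraph V) (θ : ℝ) (S : Finset V)

/-! ### idle half-rounds -/

lemma st_eq_zero {ω : Om V} {e : Ev V} (h : 1 / 2 ≤ clk ω e) : st ω e = 0 := by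
  unfold st str
  rw [if_neg (by linarith)]

lemma obs_eq_zero_of_st {E : Finset (Ev V)} {ω : Om V} {e : Ev V} (h : st ω e = 0) :
    obs G θ S E ω e = 0 := by
  by_cases he : e ∈ E
  · rw [obs_of_mem G θ S he, h, zero_mul]
  · exact obs_of_not_mem G θ S he

lemma ow_eq_of_zero {E E' : Finset (Ev V)} (hE : E ⊆ E') {o : Ev V → ℝ}
    (h : ∀ e ∈ E', e ∉ E → o e = 0) (A : Finset V) : ow E o A = ow E' o A := by
  unfold ow
  refine Finset.prod_subset hE fun e he he' => ?_
  rw [h e he he', mul_zero, add_zero]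

lemma num_eq_of_zero {E E' : Finset (Ev V)} (hE : E ⊆ E') {o : Ev V → ℝ}
    (h : ∀ e ∈ E', e ∉ E → o e = 0) (f : Finset V → ℝ) :
    num G θ S E o f = num G θ S E' o f := by
  unfold num
  exact Finset.sum_congr rfl fun A _ => by rw [ow_eq_of_zero hE h]

lemma mean_eq_of_zero {E E' : Finset (Ev V)} (hE : E ⊆ E') {o : Ev V → ℝ}
    (h : ∀ e ∈ E', e ∉ E → o e = 0) (f : Finset V → ℝ) :
    mean G θ S E o f = mean G θ S E' o f := by
  rw [mean_eq_num, mean_eq_num, ZZ_eq_num, ZZ_eq_num, num_eq_of_zero G θ S hE h,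
    num_eq_of_zero G θ S hE h]

lemma before_mono (E : Finset (Ev V)) (ω : Om V) {s t : ℝ} (hst : s ≤ t) :
    before E ω s ⊆ before E ω t := by
  intro e he
  rw [mem_before] at he ⊢
  exact ⟨he.1, lt_of_lt_of_le he.2 hst⟩

lemma idle_obs {E : Finset (Ev V)} {ω : Om V} {k : ℕ} {s t : ℝ} (hs : (k : ℝ) + 1 / 2 ≤ s)
    (ht : t ≤ k + 1) {e : Ev V} (he : e ∈ before E ω t) (he' : e ∉ before E ω s) :
    obs G θ S E ω e = 0 := by
  rw [mem_before] at he he'
  have h1 : s ≤ tm ω e := by
    by_contra h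
    exact he' ⟨he.1, by linarith⟩
  have h2 := he.2
  refine obs_eq_zero_of_st G θ S (st_eq_zero ?_)
  have h3 := clk_mem ω e
  unfold tm at h1 h2
  have h4 : (e.2 : ℝ) < (k + 1 : ℕ) := by push_cast; linarith [h3.1]
  have h5 : e.2 ≤ k := by
    have : e.2 < k + 1 := by exact_mod_cast h4
    omega
  have h6 : (e.2 : ℝ) ≤ k := by exact_mod_cast h5
  linarith

/-- no change in the second half of a round -/
lemma mt_idle {E : Finset (Ev V)} {ω : Om V} {k : ℕ} {s t : ℝ} (hs : (k : ℝ) + 1 / 2 ≤ s)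
    (hst : s ≤ t) (ht : t ≤ k + 1) (v : V) : mt G θ S E ω t v = mt G θ S E ω s v := by
  unfold mt mm
  exact (mean_eq_of_zero G θ S (before_mono E ω hst)
    (fun e he he' => idle_obs G θ S hs ht he he') _).symm

lemma mfin_idle {ω : Om V} {k : ℕ} {s t : ℝ} (hs : (k : ℝ) + 1 / 2 ≤ s)
    (hst : s ≤ t) (ht : t ≤ k + 1) (v : V) : mfin G θ S ω t v = mfin G θ S ω s v := by
  have ht' : t ≤ ((k + 1 : ℕ) : ℝ) := by push_cast; exact ht
  rw [← mt_evs G θ ht', ← mt_evs G θ (hst.trans ht')]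
  exact mt_idle G θ S hs hst ht v

/-! ### the prior is symmetric -/

lemma sg_sdiff {S A : Finset V} {v : V} (hv : v ∈ S) : sg (S \ A) v = -sg A v := by
  unfold sg
  by_cases h : v ∈ A
  · simp [h]
  · simp [h, hv]

lemma sgE_sdiff {S A : Finset V} {e : Sym2 V} (he : e ∈ S.sym2) : sgE (S \ A) e = sgE A e := by
  induction e with
  | h a b =>
    rw [Finset.mk_mem_sym2_iff] at he
    simp only [sgE, Sym2.lift_mk]
    rw [sg_sdiff he.1, sg_sdiff he.2]
    ring

lemma ew_sdiff (A : Finset V) : ew G θ S (S \ A) = ew G θ S A := by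
  unfold ew
  refine Finset.prod_congr rfl fun e he => ?_
  rw [sgE_sdiff (Finset.mem_filter.1 he).1]

lemma num_flip (E : Finset (Ev V)) (hE : ∀ e ∈ E, e.1 ∈ S) (o : Ev V → ℝ) (f : Finset V → ℝ) :
    num G θ S E o (fun A => f (S \ A)) = num G θ S E (fun e => - o e) f := by
  unfold num
  refine Finset.sum_nbij' (fun A => S \ A) (fun A => S \ A) ?_ ?_ ?_ ?_ ?_
  · intro A _
    exact Finset.mem_powerset.2 Finset.sdiff_subset
  · intro A _
    exact Finset.mem_powerset.2 Finset.sdiff_subset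
  · intro A hA
    exact Finset.sdiff_sdiff_eq_self (Finset.mem_powerset.1 hA)
  · intro A hA
    exact Finset.sdiff_sdiff_eq_self (Finset.mem_powerset.1 hA)
  · intro A hA
    rw [ew_sdiff]
    congr 2
    unfold ow
    refine Finset.prod_congr rfl fun e he => ?_
    rw [sg_sdiff (hE e he)]
    ring

lemma mm_empty (o : Ev V → ℝ) {v : V} (hv : v ∈ S) : mm G θ S ∅ o v = 0 := by
  have h1 := num_flip G θ S ∅ (by simp) o (fun A => sg A v)
  have h2 : num G θ S ∅ o (fun A => sg (S \ A) v) = - num G θ S ∅ o (fun A => sg A v) := by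
    have : (fun A : Finset V => sg (S \ A) v) = fun A => (-1) * sg A v := by
      funext A
      rw [sg_sdiff hv]
      ring
    rw [this, num_smul]
    ring
  have h3 : num G θ S ∅ (fun e => - o e) (fun A => sg A v) = num G θ S ∅ o (fun A => sg A v) :=
    num_congr G θ S (by simp) _
  unfold mm
  rw [mean_eq_num]
  have h4 : num G θ S ∅ o (fun A => sg A v) = 0 := by linarith
  rw [h4, zero_div]

lemma mfin_zero (ω : Om V) {v : V} (hv : v ∈ S) : mfin G θ S ω 0 v = 0 := by
  unfold mfin mt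
  have : before (evs S ⌈(0 : ℝ)⌉₊) ω 0 = ∅ := by
    simp [evs, before]
  rw [this]
  exact mm_empty G θ S _ hv

end Crest.Agent.R160.P2
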