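import Mathlib
import Crest.Agent.R160.Proc2
import Crest.Agent.R160.Meas
import Crest.Agent.R160.Equiv
import Crest.Agent.R160.Balls

/-! Row 160, module D: basic facts on `minf` and `DD`. -/

set_option autoImplicit false
set_option linter.unusedSectionVars false

open MeasureTheory Finset Filter

namespace Crest.Agent.R160

open Crest.Agent.R160.TreeAut Crest.Agent.R160.P2

open scoped Classical

variable {V : Type*} {G : SimpleGraph V} [G.LocallyFinite]

lemma self_mem_bal' (v : V) (n : ℕ) : v ∈ bal G v n := by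
  induction n with
  | zero => simp [bal]
  | succ n ih =>
    simp only [bal, Finset.mem_biUnion, Finset.mem_insert]
    exact ⟨v, ih, Or.inl rfl⟩

theorem minf_equivariant (hT : G.IsTree) (θ t : ℝ) (g : G ≃g G) (v : V) (ω : Om V) :
    minf G θ t v (act g ω) = minf G θ t (g v) ω := by
  unfold minf
  congr 1
  funext n
  rw [mfin_act, bal_map hT, Finset.map_eq_image]
  rfl

theorem abs_minf_le {θ : ℝ} (h0 : 0 ≤ θ) (h1 : θ < 1) (t : ℝ) (v : V)
    (ω : Om V) : |minf G θ t v ω| ≤ 1 := by
  have hθ : |θ| < 1 := by rwa [abs_of_nonneg h0]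
  have h : ∀ n, |mfin G θ (bal G v n) ω t v| ≤ 1 := fun n => abs_mfin_le G hθ _ ω t v
  have hb1 : IsBoundedUnder (· ≤ ·) atTop fun n => mfin G θ (bal G v n) ω t v :=
    isBoundedUnder_of ⟨1, fun n => (abs_le.1 (h n)).2⟩
  have hb2 : IsBoundedUnder (· ≥ ·) atTop fun n => mfin G θ (bal G v n) ω t v :=
    isBoundedUnder_of ⟨-1, fun n => (abs_le.1 (h n)).1⟩
  unfold minf
  rw [abs_le]
  constructor
  · exact le_limsup_of_frequently_le (Frequently.of_forall fun n => (abs_le.1 (h n)).1) hb1
  · exact limsup_le_of_le hb2.isCoboundedUnder_le (Eventually.of_forall fun n => (abs_le.1 (h n)).2)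

theorem minf_zero (θ : ℝ) (v : V) (ω : Om V) : minf G θ 0 v ω = 0 := by
  unfold minf
  have : (fun n => mfin G θ (bal G v n) ω 0 v) = fun _ => 0 := by
    funext n
    exact mfin_zero G θ _ ω (self_mem_bal' v n)
  rw [this, limsup_const]

theorem DD_zero (θ θ' : ℝ) (v : V) : DD G θ θ' 0 v = 0 := by
  unfold DD
  simp [minf_zero]

theorem minf_idle (θ : ℝ) (v : V) (k : ℕ) {s t : ℝ} (hs : (k : ℝ) + 1 / 2 ≤ s)
    (hst : s ≤ t) (ht : t ≤ k + 1) (ω : Om V) : minf G θ t v ω = minf G θ s v ω := by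
  unfold minf
  congr 1
  funext n
  exact mfin_idle G θ _ hs hst ht v

/-- no increments in the second halves of the rounds -/
theorem DD_idle (θ θ' : ℝ) (v : V) (k : ℕ) {s t : ℝ} (hs : (k : ℝ) + 1 / 2 ≤ s)
    (hst : s ≤ t) (ht : t ≤ k + 1) : DD G θ θ' t v = DD G θ θ' s v := by
  unfold DD
  refine integral_congr_ae (Eventually.of_forall fun ω => ?_)
  simp only [minf_idle θ v k hs hst ht, minf_idle θ' v k hs hst ht]

end Crest.Agent.R160
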