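import Crest.Agent.R160.GBabs
import Crest.Agent.R160.MinfBasic
import Crest.Agent.R160.BSVNoise

/-! # Row 160, module G: estimate (B) for the infinite-volume magnetizations. -/

set_option autoImplicit false

open MeasureTheory
open scoped Classical

namespace Crest.Agent.R160

open Crest.Agent.R160.TreeAut

section

variable {V : Type*} {G : SimpleGraph V} [G.LocallyFinite]

theorem thc_pos {b : ℕ} (hb : 2 ≤ b) : 0 < thc b := by
  have : (0 : ℝ) < b := by exact_mod_cast (by omega : 0 < b)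
  unfold thc
  positivity

theorem mul_thc_sq {b : ℕ} (hb : 2 ≤ b) : (b : ℝ) * (thc b) ^ 2 = 1 := by
  have h : (0 : ℝ) < b := by exact_mod_cast (by omega : 0 < b)
  unfold thc
  rw [div_pow, Real.sq_sqrt h.le]
  field_simp

theorem mul_sq_lt_one_of_lt_thc {b : ℕ} (hb : 2 ≤ b) {θ : ℝ} (h0 : 0 ≤ θ) (h : θ < thc b) :
    (b : ℝ) * θ ^ 2 < 1 := by
  have hb0 : (0 : ℝ) < b := by exact_mod_cast (by omega : 0 < b)
  rw [← mul_thc_sq hb]
  apply mul_lt_mul_of_pos_left _ hb0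
  exact pow_lt_pow_left₀ h h0 (by norm_num)

theorem lt_one_of_lt_thc {b : ℕ} (hb : 2 ≤ b) {θ : ℝ} (h0 : 0 ≤ θ) (h : θ < thc b) : θ < 1 := by
  have h1 := mul_sq_lt_one_of_lt_thc hb h0 h
  have hb0 : (2 : ℝ) ≤ b := by exact_mod_cast hb
  nlinarith

theorem quarter_le_of_half_thc {b : ℕ} (hb : 2 ≤ b) {θ : ℝ} (h : thc b / 2 ≤ θ) :
    1 / 4 ≤ (b : ℝ) * θ ^ 2 := by
  have hb0 : (0 : ℝ) < b := by exact_mod_cast (by omega : 0 < b)
  have h1 : (thc b / 2) ^ 2 ≤ θ ^ 2 := pow_le_pow_left₀ (by have := thc_pos hb; positivity) h 2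
  have h2 := mul_thc_sq hb
  nlinarith

/-- the pair of infinite-volume fields is invariant -/
theorem homPair_minf (hT : G.IsTree) {θ θ' : ℝ} (h0 : 0 ≤ θ) (h1 : θ < 1) (h0' : 0 ≤ θ')
    (h1' : θ' < 1) (t : ℝ) : HomPair G (PP V) (minf G θ t) (minf G θ' t) where
  meas := fun v => measurable_minf G θ t v
  meas' := fun v => measurable_minf G θ' t v
  le := fun v ω => abs_minf_le h0 h1 t v ω
  le' := fun v ω => abs_minf_le h0' h1' t v ω
  inv := fun g => ⟨act g, BSVNoise.measurePreserving_act g, fun v ω =>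
    ⟨minf_equivariant hT θ t g v ω, minf_equivariant hT θ' t g v ω⟩⟩

theorem DD_eq (hT : G.IsTree) {d : ℕ} (hreg : G.IsRegularOfDegree d) (θ θ' t : ℝ) (v v' : V) :
    DD G θ θ' t v = DD G θ θ' t v' := by
  obtain ⟨g, rfl⟩ := exists_aut_vertex hT hreg v v'
  unfold DD
  rw [← BSVNoise.integral_act g]
  congr 1
  funext ω
  rw [minf_equivariant hT, minf_equivariant hT]

theorem DD_nonneg (θ θ' t : ℝ) (v : V) : 0 ≤ DD G θ θ' t v :=
  integral_nonneg fun _ => sq_nonneg _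

theorem DD_comm (θ θ' t : ℝ) (v : V) : DD G θ θ' t v = DD G θ' θ t v := by
  unfold DD
  congr 1
  funext ω
  ring

/-- **Estimate (B)**: for times bounded away from `0` and parameters close to `thc b`. -/
theorem GB (hT : G.IsTree) {b : ℕ} (hb : 2 ≤ b) (hreg : G.IsRegularOfDegree (b + 1))
    (hLT : ∃ C c : ℝ, 0 < C ∧ 0 < c ∧ ∀ s0, 0 < s0 → ∃ δ, 0 < δ ∧ ∀ θ, thc b - δ < θ → θ < thc b →
      ∀ t, s0 ≤ t → ∀ (o : V) (k : ℕ),
      (PP V).real {ω | C * Real.exp (-c * (min t 1) ^ (3 / 2 : ℝ) * k)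
          < Alev G b θ (fun x => minf G θ t x ω) o k} ≤ C * Real.exp (-Real.exp (c * k))) :
    ∃ C c : ℝ, 0 < C ∧ 0 < c ∧ ∀ s0, 0 < s0 → ∀ N : ℕ, ∃ δ K : ℝ, 0 < δ ∧ 0 ≤ K ∧
      ∀ θ θ' : ℝ, thc b - δ < θ' → θ' ≤ θ → θ < thc b → ∀ r, s0 ≤ r → ∀ (v : V) (M : ℕ),
        ∑ n ∈ Finset.range M, Sn G (PP V) θ θ' (minf G θ r) (minf G θ' r) v n
          ≤ C * ((N : ℝ) ^ 2 + ((min r 1) ^ 3)⁻¹) * DD G θ θ' r v
            + C * ((min r 1) ^ 3)⁻¹ * Real.exp (-Real.exp (c * N)) + K * (θ - θ') ^ 2 := by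
  obtain ⟨C0, c, hC0, hc, hLT⟩ := hLT
  set C1 : ℝ := max C0 1 with hC1d
  have hC1 : 1 ≤ C1 := le_max_right _ _
  have hC01 : C0 ≤ C1 := le_max_left _ _
  have hbpos : (0 : ℝ) < b := by exact_mod_cast (by omega : 0 < b)
  set L : ℝ := 10 ^ 17 * b * C1 with hL
  have hL0 : 0 < L := by positivity
  set Q1 : ℝ := Real.exp (c / 2) * (1 + c / 2) ^ 2 * 4 with hQ1
  have hQ10 : 0 < Q1 := by positivity
  set Q2 : ℝ := 2 * (Real.exp (c / 4) * (1 + c / 4) ^ 2 * 4 / (c / 2) ^ 2) with hQ2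
  have hQ20 : 0 < Q2 := by positivity
  refine ⟨L * (8 + 8 + Q1 / c ^ 2 + Q2), c / 2, by positivity, by positivity, ?_⟩
  intro s0 hs0 N
  obtain ⟨δ, hδ, hLT⟩ := hLT s0 hs0
  set κ0 : ℝ := c * (min s0 1) ^ (3 / 2 : ℝ) with hκ0d
  have hms0 : 0 < min s0 1 := lt_min hs0 one_pos
  have hκ0 : 0 < κ0 := mul_pos hc (Real.rpow_pos_of_pos hms0 _)
  refine ⟨min δ (thc b / 2), L * ((2 * N + 2) ^ 3 + (4 / κ0) * Real.exp κ0
          * (Real.exp (κ0 / 4) * (1 + κ0 / 4) ^ 2 * 4 / (κ0 / 2) ^ 2)),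
    lt_min hδ (by have := thc_pos hb; positivity), by positivity, ?_⟩
  intro θ θ' hθ' hle hθ r hr v M
  have hθ'1 : thc b - δ < θ' := by
    have := min_le_left δ (thc b / 2); linarith
  have hθ'2 : thc b / 2 ≤ θ' := by
    have := min_le_right δ (thc b / 2); linarith
  have hthc := thc_pos hb
  have h0' : 0 ≤ θ' := by linarith
  have h0 : 0 ≤ θ := by linarith
  have hr0 : 0 < r := lt_of_lt_of_le hs0 hr
  have hmr : 0 < min r 1 := lt_min hr0 one_pos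
  set κ : ℝ := c * (min r 1) ^ (3 / 2 : ℝ) with hκd
  have hκle : κ0 ≤ κ := by
    apply mul_le_mul_of_nonneg_left _ hc.le
    exact Real.rpow_le_rpow hms0.le (min_le_min_right _ hr) (by norm_num)
  have hκc : κ ≤ c := by
    have : (min r 1) ^ (3 / 2 : ℝ) ≤ 1 :=
      Real.rpow_le_one hmr.le (min_le_right _ _) (by norm_num)
    calc κ = c * (min r 1) ^ (3 / 2 : ℝ) := rfl
      _ ≤ c * 1 := mul_le_mul_of_nonneg_left this hc.le
      _ = c := mul_one c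
  have hκ2 : κ ^ 2 = c ^ 2 * (min r 1) ^ 3 := by
    rw [hκd, mul_pow]
    congr 1
    rw [← Real.rpow_natCast ((min r 1) ^ (3 / 2 : ℝ)) 2, ← Real.rpow_mul hmr.le,
      ← Real.rpow_natCast (min r 1) 3]
    norm_num
  have htail : ∀ ϑ : ℝ, thc b - δ < ϑ → ϑ < thc b → ∀ (o : V) (k : ℕ),
      (PP V).real {ω | C1 * Real.exp (-κ * k) < Alev G b ϑ (fun x => minf G ϑ r x ω) o k}
        ≤ C1 * Real.exp (-Real.exp (c * k)) := by
    intro ϑ h1 h2 o k
    have h3 := hLT ϑ h1 h2 r hr o k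
    have h4 : (PP V).real {ω | C1 * Real.exp (-κ * k) < Alev G b ϑ (fun x => minf G ϑ r x ω) o k}
        ≤ (PP V).real {ω | C0 * Real.exp (-c * (min r 1) ^ (3 / 2 : ℝ) * k)
          < Alev G b ϑ (fun x => minf G ϑ r x ω) o k} := by
      apply measureReal_mono _ (measure_ne_top _ _)
      intro ω hω
      simp only [Set.mem_ofPred_eq] at hω ⊢
      refine lt_of_le_of_lt ?_ hω
      have e1 : -c * (min r 1) ^ (3 / 2 : ℝ) * k = -κ * k := by rw [hκd]; ring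
      rw [e1]
      exact mul_le_mul_of_nonneg_right hC01 (Real.exp_pos _).le
    refine h4.trans (h3.trans ?_)
    exact mul_le_mul_of_nonneg_right hC01 (Real.exp_pos _).le
  have hdata : GBdata G (PP V) b θ θ' (minf G θ r) (minf G θ' r) (DD G θ θ' r v) C1 c κ κ0 :=
    { tree := hT
      reg := hreg
      hb := hb
      hom := homPair_minf hT h0 (lt_one_of_lt_thc hb h0 hθ) h0'
        (lt_one_of_lt_thc hb h0' (lt_of_le_of_lt hle hθ)) r
      h0' := h0'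
      hle := hle
      h4 := quarter_le_of_half_thc hb (by linarith)
      hlt := (mul_sq_lt_one_of_lt_thc hb h0 hθ).le
      hD := fun v' => DD_eq hT hreg θ θ' r v' v
      hC1 := hC1
      hc := hc
      hκ0 := hκ0
      hκ := hκle
      hκc := hκc
      tail := htail θ (by linarith) hθ
      tail' := htail θ' hθ'1 (by linarith) }
  have hmain := hdata.main v N M
  refine hmain.trans ?_
  have hD0 : 0 ≤ DD G θ θ' r v := DD_nonneg θ θ' r v
  have hx3 : 0 < (min r 1) ^ 3 := by positivity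
  have hx3le : (min r 1) ^ 3 ≤ 1 := pow_le_one₀ hmr.le (min_le_right _ _)
  have hinv : 1 ≤ ((min r 1) ^ 3)⁻¹ := (one_le_inv₀ hx3).2 hx3le
  have e1 : Q1 / κ ^ 2 = Q1 / c ^ 2 * ((min r 1) ^ 3)⁻¹ := by
    rw [hκ2]; field_simp
  have hQc : 0 < Q1 / c ^ 2 := by positivity
  have hN2 : (0 : ℝ) ≤ (N : ℝ) ^ 2 := by positivity
  set X : ℝ := ((min r 1) ^ 3)⁻¹ with hX
  have hX0 : 0 < X := by positivity
  have g1 : L * (8 * (N : ℝ) ^ 2 + 8 + Real.exp (c / 2) * (1 + c / 2) ^ 2 * 4 / κ ^ 2)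
      ≤ L * (8 + 8 + Q1 / c ^ 2 + Q2) * ((N : ℝ) ^ 2 + X) := by
    rw [← hQ1, e1]
    have : 8 * (N : ℝ) ^ 2 + 8 + Q1 / c ^ 2 * X
        ≤ (8 + 8 + Q1 / c ^ 2 + Q2) * ((N : ℝ) ^ 2 + X) := by
      have f1 : 0 ≤ (8 + Q1 / c ^ 2 + Q2) * (N : ℝ) ^ 2 := by positivity
      have f2 : 0 ≤ (8 + Q2) * X := by positivity
      have f3 : (8 : ℝ) ≤ (8 + Q2) * X := by
        have u1 : (8 : ℝ) * 1 ≤ 8 * X := mul_le_mul_of_nonneg_left hinv (by norm_num)
        have u2 : 0 ≤ Q2 * X := by positivity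
        linarith
      calc 8 * (N : ℝ) ^ 2 + 8 + Q1 / c ^ 2 * X
          ≤ 8 * (N : ℝ) ^ 2 + (8 + Q2) * X + Q1 / c ^ 2 * X
            + ((8 + Q1 / c ^ 2 + Q2) * (N : ℝ) ^ 2 + 8 * X) := by
            have : 0 ≤ 8 * X := by positivity
            linarith
        _ = _ := by ring
    calc _ ≤ L * ((8 + 8 + Q1 / c ^ 2 + Q2) * ((N : ℝ) ^ 2 + X)) :=
          mul_le_mul_of_nonneg_left this hL0.le
      _ = _ := by ring
  have g2 : L * Q2 * Real.exp (-Real.exp (c / 2 * N))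
      ≤ L * (8 + 8 + Q1 / c ^ 2 + Q2) * X * Real.exp (-Real.exp (c / 2 * N)) := by
    apply mul_le_mul_of_nonneg_right _ (Real.exp_pos _).le
    have : Q2 ≤ (8 + 8 + Q1 / c ^ 2 + Q2) * X := by
      have u1 : Q2 * 1 ≤ Q2 * X := mul_le_mul_of_nonneg_left hinv hQ20.le
      have u2 : 0 ≤ (8 + 8 + Q1 / c ^ 2) * X := by positivity
      linarith
    calc L * Q2 ≤ L * ((8 + 8 + Q1 / c ^ 2 + Q2) * X) := mul_le_mul_of_nonneg_left this hL0.le
      _ = _ := by ring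
  have g3 := mul_le_mul_of_nonneg_right g1 hD0
  exact add_le_add (add_le_add g3 g2) le_rfl

end

end Crest.Agent.R160
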