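import Mathlib
import Crest.Prelude.Def_Labels
import Crest.Prelude.Def_TreeIsing

/-! Row 160, module H (abstract part): from a convergent equivariant sequence of approximate
magnetizations with the right laws to the factor map. -/

set_option autoImplicit false

namespace Crest.Agent.R160

open MeasureTheory ProbabilityTheory Filter Topology
open Crest.ProbabilityR.TreeIsing Crest.ProbabilityR.Labels

section conv

theorem sq_eq_one_iff_of_side {l : ℝ} (h : l ^ 2 = 1) : l = 1 ∨ l = -1 := by
  have h1 : (l - 1) * (l + 1) = 0 := by nlinarith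
  rcases mul_eq_zero.1 h1 with h | h
  · left; linarith
  · right; linarith

variable {Ω : Type*} [MeasurableSpace Ω] {P : Measure Ω} [IsProbabilityMeasure P]

/-- A sequence of bounded functions with summable increments converges almost everywhere. -/
theorem ae_tendsto_of_summable {m : ℕ → Ω → ℝ} (hm : ∀ n, Measurable (m n))
    (hb : ∀ n x, |m n x| ≤ 1)
    (hc : Summable fun n => ∫ x, |m n x - m (n + 1) x| ∂P) :
    ∀ᵐ x ∂P, ∃ l, Tendsto (fun n => m n x) atTop (𝓝 l) := by
  have hint : ∀ n, Integrable (fun x => |m n x - m (n + 1) x|) P := by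
    intro n
    refine Integrable.of_bound ((hm n).sub (hm (n + 1))).abs.aestronglyMeasurable 2
      (Eventually.of_forall fun x => ?_)
    rw [Real.norm_eq_abs, abs_abs]
    have h1 := abs_le.1 (hb n x)
    have h2 := abs_le.1 (hb (n + 1) x)
    exact abs_le.2 ⟨by linarith, by linarith⟩
  have hmeas : ∀ n, Measurable fun x => ENNReal.ofReal |m n x - m (n + 1) x| :=
    fun n => ((hm n).sub (hm (n + 1))).abs.ennreal_ofReal
  have h1 : ∑' n, ∫⁻ x, ENNReal.ofReal |m n x - m (n + 1) x| ∂P ≠ ⊤ := by
    have h2 : ∀ n, ∫⁻ x, ENNReal.ofReal |m n x - m (n + 1) x| ∂P =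
        ENNReal.ofReal (∫ x, |m n x - m (n + 1) x| ∂P) := by
      intro n
      rw [ofReal_integral_eq_lintegral_ofReal (hint n)
        (Eventually.of_forall fun x => abs_nonneg _)]
    simp_rw [h2]
    exact hc.tsum_ofReal_ne_top
  have h3 : ∫⁻ x, ∑' n, ENNReal.ofReal |m n x - m (n + 1) x| ∂P ≠ ⊤ := by
    rw [lintegral_tsum fun n => (hmeas n).aemeasurable]
    exact h1
  have h4 := ae_lt_top (Measurable.tsum hmeas) h3
  filter_upwards [h4] with x hx
  have h5 : Summable fun n => |m n x - m (n + 1) x| := by
    have := ENNReal.summable_toReal hx.ne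
    simpa [ENNReal.toReal_ofReal (abs_nonneg _)] using this
  have h6 : CauchySeq fun n => m n x := by
    apply cauchySeq_of_summable_dist
    simpa [Real.dist_eq, Nat.succ_eq_add_one] using h5
  exact cauchySeq_tendsto_of_complete h6

/-- ... and the limit has absolute value one if `E (1 - m²) → 0`. -/
theorem ae_tendsto_abs_one {m : ℕ → Ω → ℝ} (hm : ∀ n, Measurable (m n))
    (hb : ∀ n x, |m n x| ≤ 1)
    (hc : Summable fun n => ∫ x, |m n x - m (n + 1) x| ∂P)
    (h1 : Tendsto (fun n => ∫ x, (1 - (m n x) ^ 2) ∂P) atTop (𝓝 0)) :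
    ∀ᵐ x ∂P, Tendsto (fun n => m n x) atTop (𝓝 1) ∨ Tendsto (fun n => m n x) atTop (𝓝 (-1)) := by
  have h2 := ae_tendsto_of_summable hm hb hc
  have hlm : Measurable fun x => limsup (fun n => m n x) atTop := Measurable.limsup hm
  have h3 : ∀ᵐ x ∂P, Tendsto (fun n => m n x) atTop (𝓝 (limsup (fun n => m n x) atTop)) := by
    filter_upwards [h2] with x hx
    obtain ⟨l, hl⟩ := hx
    rwa [hl.limsup_eq]
  have hb2 : ∀ n x, |1 - (m n x) ^ 2| ≤ 1 := by
    intro n x
    have h4 : (m n x) ^ 2 ≤ 1 := by
      rw [← sq_abs]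
      nlinarith [hb n x, abs_nonneg (m n x)]
    exact abs_le.2 ⟨by nlinarith [sq_nonneg (m n x)], by nlinarith [sq_nonneg (m n x)]⟩
  have h4 : Tendsto (fun n => ∫ x, (1 - (m n x) ^ 2) ∂P) atTop
      (𝓝 (∫ x, (1 - (limsup (fun n => m n x) atTop) ^ 2) ∂P)) := by
    refine tendsto_integral_of_dominated_convergence (fun _ => 1) ?_ (integrable_const _) ?_ ?_
    · intro n
      exact ((measurable_const.sub ((hm n).pow_const 2))).aestronglyMeasurable
    · intro n
      exact Eventually.of_forall fun x => by rw [Real.norm_eq_abs]; exact hb2 n x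
    · filter_upwards [h3] with x hx
      exact tendsto_const_nhds.sub (hx.pow 2)
  have h5 : ∫ x, (1 - (limsup (fun n => m n x) atTop) ^ 2) ∂P = 0 :=
    tendsto_nhds_unique h4 h1
  have h6 : 0 ≤ᵐ[P] fun x => 1 - (limsup (fun n => m n x) atTop) ^ 2 := by
    filter_upwards [h3] with x hx
    have : Tendsto (fun n => 1 - (m n x) ^ 2) atTop
        (𝓝 (1 - (limsup (fun n => m n x) atTop) ^ 2)) := tendsto_const_nhds.sub (hx.pow 2)
    refine ge_of_tendsto' this fun n => ?_
    have h4 : (m n x) ^ 2 ≤ 1 := by
      rw [← sq_abs]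
      nlinarith [hb n x, abs_nonneg (m n x)]
    simp only [Pi.zero_apply]
    linarith
  have h7 : Integrable (fun x => 1 - (limsup (fun n => m n x) atTop) ^ 2) P := by
    refine Integrable.of_bound
      (measurable_const.sub (hlm.pow_const 2)).aestronglyMeasurable 1 ?_
    filter_upwards [h3] with x hx
    have : Tendsto (fun n => |1 - (m n x) ^ 2|) atTop
        (𝓝 |1 - (limsup (fun n => m n x) atTop) ^ 2|) := 
      (tendsto_const_nhds.sub (hx.pow 2)).abs
    rw [Real.norm_eq_abs]
    exact le_of_tendsto' this fun n => hb2 n x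
  have h8 := (integral_eq_zero_iff_of_nonneg_ae h6 h7).1 h5
  filter_upwards [h3, h8] with x hx hx'
  simp only [Pi.zero_apply] at hx'
  have h9 : (limsup (fun n => m n x) atTop) ^ 2 = 1 := by linarith
  rcases sq_eq_one_iff_of_side h9 with h | h
  · left; rwa [h] at hx
  · right; rwa [h] at hx

end conv

/-- **Abstract final assembly**: a sequence of exactly equivariant approximate magnetizations on
an iid label space whose increments are summable in `L¹`, which become `±1` valued in the limit and
whose signs have the right laws in the limit, gives a factor map. -/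
theorem final_abs {V : Type*} [Countable V] (G : SimpleGraph V) (θ : ℝ)
    {E : Type*} [Nonempty E] [MeasurableSpace E] [StandardBorelSpace E] (κ : Measure E)
    [IsProbabilityMeasure κ] (m : ℕ → V → (V → E) → ℝ)
    (hm : ∀ n v, Measurable (m n v)) (hb : ∀ n v x, |m n v x| ≤ 1)
    (heq : ∀ n v (g : G ≃g G) (x : V → E), m n v (x ∘ g) = m n (g v) x)
    (hc : ∀ v, Summable fun n =>
      ∫ x, |m n v x - m (n + 1) v x| ∂(Measure.infinitePi fun _ : V => κ))
    (h1 : ∀ v, Tendsto (fun n => ∫ x, (1 - (m n v x) ^ 2) ∂(Measure.infinitePi fun _ : V => κ))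
      atTop (𝓝 0))
    (hlaw : ∀ (S : Finset V) (η : V → Bool), (G.induce (S : Set V)).Connected →
      Tendsto (fun n => ((Measure.infinitePi fun _ : V => κ)
        {x | ∀ v ∈ S, (0 < m n v x ↔ η v = true)}).toReal) atTop (𝓝 (isingWeight G θ S η))) :
    ∃ Φ : (V → unitInterval) → (V → Bool), Measurable Φ ∧
      (∀ (g : G ≃g G) (x : V → unitInterval), Φ (x ∘ ⇑g) = Φ x ∘ ⇑g) ∧
      ∀ (S : Finset V) (η : V → Bool), (G.induce (S : Set V)).Connected →
        (labelMeasure V).map Φ {σ | ∀ v ∈ S, σ v = η v} =
          ENNReal.ofReal (isingWeight G θ S η) := by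
  classical
  obtain ⟨dec, hdec, hdecmap⟩ : ∃ dec : unitInterval → E, Measurable dec ∧
      (labelMeasure V).map (fun x v => dec (x v)) = Measure.infinitePi (fun _ : V => κ) := by
    obtain ⟨f, hf, hmap⟩ := MeasureTheory.Measure.exists_measurable_map_eq κ
    refine ⟨f, hf, ?_⟩
    unfold labelMeasure
    rw [Measure.infinitePi_map_pi _ (fun _ => hf), hmap]
  set P : Measure (V → E) := Measure.infinitePi (fun _ : V => κ) with hP
  let Ψ : (V → E) → (V → Bool) := fun x v => decide (0 < limsup (fun n => m n v x) atTop)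
  have hlm : ∀ v, Measurable fun x => limsup (fun n => m n v x) atTop := fun v =>
    Measurable.limsup (fun n => hm n v)
  have hΨ : Measurable Ψ := by
    rw [measurable_pi_iff]
    intro v
    refine measurable_to_bool ?_
    have : (fun x => Ψ x v) ⁻¹' {true} = {x | 0 < limsup (fun n => m n v x) atTop} := by
      ext x
      simp [Ψ]
    rw [this]
    exact measurableSet_lt measurable_const (hlm v)
  have hdecpi : Measurable (fun (x : V → unitInterval) v => dec (x v)) := by fun_prop
  refine ⟨fun u => Ψ (fun v => dec (u v)), hΨ.comp hdecpi, ?_, ?_⟩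
  · intro g x
    funext v
    change decide (0 < limsup (fun n => m n v ((fun w => dec (x w)) ∘ g)) atTop) =
      decide (0 < limsup (fun n => m n (g v) (fun w => dec (x w))) atTop)
    simp only [heq]
  · intro S η hS
    have hmapeq : (labelMeasure V).map (fun u => Ψ (fun v => dec (u v))) = P.map Ψ := by
      rw [← hdecmap, Measure.map_map hΨ hdecpi]
      rfl
    have hSm : MeasurableSet {σ : V → Bool | ∀ v ∈ S, σ v = η v} := by
      have : {σ : V → Bool | ∀ v ∈ S, σ v = η v} = ⋂ v ∈ S, {σ | σ v = η v} := by
        ext σ; simp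
      rw [this]
      exact Finset.measurableSet_biInter S fun v _ =>
        measurableSet_eq_fun (measurable_pi_apply v) measurable_const
    rw [hmapeq, Measure.map_apply hΨ hSm]
    have hA : MeasurableSet (Ψ ⁻¹' {σ : V → Bool | ∀ v ∈ S, σ v = η v}) := hΨ hSm
    have hAn : ∀ n, MeasurableSet {x : V → E | ∀ v ∈ S, (0 < m n v x ↔ η v = true)} := by
      intro n
      have : {x : V → E | ∀ v ∈ S, (0 < m n v x ↔ η v = true)} =
          ⋂ v ∈ S, {x | (0 < m n v x ↔ η v = true)} := by
        ext x; simp
      rw [this]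
      refine Finset.measurableSet_biInter S fun v _ => ?_
      by_cases hη : η v = true
      · simp only [hη, iff_true]
        exact measurableSet_lt measurable_const (hm n v)
      · have : {x : V → E | 0 < m n v x ↔ η v = true} = {x | m n v x ≤ 0} := by
          ext x
          simp [hη]
        rw [this]
        exact measurableSet_le (hm n v) measurable_const
    have hae : ∀ᵐ x ∂P, ∀ v, Tendsto (fun n => m n v x) atTop (𝓝 1) ∨
        Tendsto (fun n => m n v x) atTop (𝓝 (-1)) := by
      rw [ae_all_iff]
      intro v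
      exact ae_tendsto_abs_one (hm · v) (hb · v) (hc v) (h1 v)
    -- convergence of the indicator functions
    have hlim : Tendsto (fun n => (P {x | ∀ v ∈ S, (0 < m n v x ↔ η v = true)}).toReal) atTop
        (𝓝 (P (Ψ ⁻¹' {σ : V → Bool | ∀ v ∈ S, σ v = η v})).toReal) := by
      have e1 : ∀ n, (P {x | ∀ v ∈ S, (0 < m n v x ↔ η v = true)}).toReal =
          ∫ x, Set.indicator {x | ∀ v ∈ S, (0 < m n v x ↔ η v = true)} (fun _ => (1 : ℝ)) x ∂P := by
        intro n
        rw [integral_indicator_const _ (hAn n)]
        simp [Measure.real]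
      have e2 : (P (Ψ ⁻¹' {σ : V → Bool | ∀ v ∈ S, σ v = η v})).toReal =
          ∫ x, Set.indicator (Ψ ⁻¹' {σ : V → Bool | ∀ v ∈ S, σ v = η v})
            (fun _ => (1 : ℝ)) x ∂P := by
        rw [integral_indicator_const _ hA]
        simp [Measure.real]
      simp_rw [e1]
      rw [e2]
      refine tendsto_integral_of_dominated_convergence (fun _ => 1) ?_ (integrable_const _) ?_ ?_
      · intro n
        exact (measurable_const.indicator (hAn n)).aestronglyMeasurable
      · intro n
        refine Eventually.of_forall fun x => ?_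
        rw [Real.norm_eq_abs]
        by_cases h : x ∈ {x | ∀ v ∈ S, (0 < m n v x ↔ η v = true)}
        · rw [Set.indicator_of_mem h]; simp
        · rw [Set.indicator_of_notMem h]; simp
      · filter_upwards [hae] with x hx
        have hev : ∀ᶠ n in atTop, ∀ v ∈ S, (0 < m n v x ↔ Ψ x v = true) := by
          rw [Filter.eventually_all_finset]
          intro v _
          rcases hx v with h | h
          · have h2 : Ψ x v = true := by
              simp only [Ψ, h.limsup_eq]
              simp
            filter_upwards [h.eventually_const_lt (by norm_num : (0 : ℝ) < 1)] with n hn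
            simp [h2, hn]
          · have h2 : ¬ Ψ x v = true := by
              simp only [Ψ, h.limsup_eq]
              simp
            filter_upwards [h.eventually_lt_const (by norm_num : (-1 : ℝ) < 0)] with n hn
            have h3 : ¬ (0 < m n v x) := not_lt.2 hn.le
            simp [h2, h3]
        refine tendsto_const_nhds.congr' ?_
        filter_upwards [hev] with n hn
        have : (x ∈ {x | ∀ v ∈ S, (0 < m n v x ↔ η v = true)}) ↔
            x ∈ Ψ ⁻¹' {σ : V → Bool | ∀ v ∈ S, σ v = η v} := by
          simp only [Set.mem_ofPred_eq, Set.mem_preimage]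
          refine forall₂_congr fun v hv => ?_
          rw [hn v hv]
          exact Bool.eq_iff_iff.symm
        by_cases h : x ∈ Ψ ⁻¹' {σ : V → Bool | ∀ v ∈ S, σ v = η v}
        · rw [Set.indicator_of_mem h, Set.indicator_of_mem (this.2 h)]
        · rw [Set.indicator_of_notMem h, Set.indicator_of_notMem (fun h' => h (this.1 h'))]
    have hfin := tendsto_nhds_unique hlim (hlaw S η hS)
    rw [← hfin, ENNReal.ofReal_toReal (measure_ne_top _ _)]

end Crest.Agent.R160
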