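import Mathlib
import Crest.Agent.R160.Causal

/-! Row 160: increments of the posterior along the process: telescoping and orthogonality. -/

set_option autoImplicit false
set_option linter.unusedSectionVars false

open MeasureTheory Finset
open scoped Classical

namespace Crest.Agent.R160

variable {V : Type*} (G : SimpleGraph V) {θ : ℝ} (S : Finset V)

/-! ### general measure theory -/

lemma intg_of_bdd {α : Type*} [MeasurableSpace α] {μ : Measure α} [IsFiniteMeasure μ]
    {f : α → ℝ} (hf : Measurable f) {C : ℝ} (hC : ∀ a, |f a| ≤ C) : Integrable f μ :=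
  Integrable.of_bound hf.aestronglyMeasurable C (Filter.Eventually.of_forall fun a => by
    rw [Real.norm_eq_abs]; exact hC a)

/-! ### ties -/

/-- no two events of `E` at the same time -/
def NoTies (E : Finset (Ev V)) (ω : Om V) : Prop :=
  ∀ e ∈ E, ∀ e' ∈ E, e ≠ e' → tm ω e ≠ tm ω e'

lemma null_tie {e e' : Ev V} (h : e ≠ e') : (PP V) {ω | tm ω e = tm ω e'} = 0 := by
  have hm : MeasurableSet {ω : Om V | tm ω e = tm ω e'} :=
    measurableSet_eq_fun (measurable_tm e) (measurable_tm e')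
  have hmp := mp_update (V := V) e
  rw [← hmp.measure_preimage hm.nullMeasurableSet]
  rw [Measure.measure_prod_null (hmp.measurable hm)]
  refine Filter.Eventually.of_forall fun ω => ?_
  have hsub : (Prod.mk ω ⁻¹' ((fun p : Om V × (unitInterval × unitInterval) =>
      Function.update p.1 e p.2) ⁻¹' {ω | tm ω e = tm ω e'}))
      ⊆ {u : unitInterval | (u : ℝ) = tm ω e' - e.2} ×ˢ (Set.univ : Set unitInterval) := by
    intro p hp
    simp only [Set.mem_preimage, Set.mem_ofPred_eq] at hp
    unfold tm clk at hp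
    rw [Function.update_self, Function.update_of_ne h.symm] at hp
    refine ⟨?_, trivial⟩
    show ((p.1 : unitInterval) : ℝ) = tm ω e' - e.2
    unfold tm clk
    linarith
  have h0 : (volume : Measure unitInterval) {u : unitInterval | (u : ℝ) = tm ω e' - e.2} = 0 := by
    have hss : {u : unitInterval | (u : ℝ) = tm ω e' - e.2}.Subsingleton := by
      intro a ha b hb
      exact Subtype.ext (ha.trans hb.symm)
    exact hss.measure_zero _
  refine measure_mono_null hsub ?_
  rw [Measure.volume_eq_prod, Measure.prod_prod, h0, zero_mul]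

lemma ae_noTies (E : Finset (Ev V)) : ∀ᵐ ω ∂(PP V), NoTies E ω := by
  unfold NoTies
  rw [Filter.eventually_all_finset]
  intro e _
  rw [Filter.eventually_all_finset]
  intro e' _
  by_cases h : e = e'
  · exact Filter.Eventually.of_forall fun ω hc => absurd h hc
  · have := null_tie h
    rw [← compl_compl {ω : Om V | tm ω e = tm ω e'}, ← mem_ae_iff] at this
    filter_upwards [this] with ω hω _
    exact hω

/-! ### jumps -/

/-- relative jump -/
noncomputable def rj (G : SimpleGraph V) (θ : ℝ) (S : Finset V) (E : Finset (Ev V)) (ω : Om V)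
    (e : Ev V) : ℝ :=
  obs G θ S E ω e / (1 + mt G θ S E ω (tm ω e) e.1 * obs G θ S E ω e)

/-- jump of the posterior mean of `f` at the event `e` -/
noncomputable def jp (G : SimpleGraph V) (θ : ℝ) (S : Finset V) (E : Finset (Ev V)) (ω : Om V)
    (e : Ev V) (f : Finset V → ℝ) : ℝ :=
  (mnt G θ S E ω (tm ω e) (fun A => f A * sg A e.1)
    - mnt G θ S E ω (tm ω e) f * mt G θ S E ω (tm ω e) e.1) * rj G θ S E ω e

lemma one_add_pos {m o : ℝ} (hm : |m| ≤ 1) (ho : |o| ≤ 1 / 2) : 1 / 2 ≤ 1 + m * o := by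
  have : |m * o| ≤ 1 / 2 := by
    rw [abs_mul]
    calc |m| * |o| ≤ 1 * (1 / 2) := by gcongr
      _ = 1 / 2 := by norm_num
  linarith [(abs_le.mp this).1]

lemma obs_half (hθ : |θ| < 1) (E : Finset (Ev V)) (ω : Om V) (e : Ev V) :
    |obs G θ S E ω e| ≤ 1 / 2 := (obs_bound G S hθ E ω e).trans (st_le ω e)

lemma abs_rj_le (hθ : |θ| < 1) (E : Finset (Ev V)) (ω : Om V) (e : Ev V) :
    |rj G θ S E ω e| ≤ 2 * st ω e := by
  have h1 := one_add_pos (abs_mt_le G S hθ E ω (tm ω e) e.1) (obs_half G S hθ E ω e)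
  have h2 := obs_bound G S hθ E ω e
  unfold rj
  rw [abs_div, abs_of_pos (by linarith : 0 < 1 + mt G θ S E ω (tm ω e) e.1 * obs G θ S E ω e),
    div_le_iff₀ (by linarith)]
  have := st_nonneg ω e
  nlinarith

lemma rj_of_not_mem {E : Finset (Ev V)} {ω : Om V} {e : Ev V} (he : e ∉ E) :
    rj G θ S E ω e = 0 := by
  unfold rj; rw [obs_of_not_mem G θ S he, zero_div]

lemma jp_of_not_mem {E : Finset (Ev V)} {ω : Om V} {e : Ev V} (he : e ∉ E) (f : Finset V → ℝ) :
    jp G θ S E ω e f = 0 := by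
  unfold jp; rw [rj_of_not_mem G S he, mul_zero]

lemma abs_mnt_le (hθ : |θ| < 1) (E : Finset (Ev V)) (ω : Om V) (t : ℝ) {f : Finset V → ℝ} {c : ℝ}
    (hf : ∀ A, |f A| ≤ c) : |mnt G θ S E ω t f| ≤ c :=
  abs_mean_le G S hθ (fun e _ => obs_lt_one G S hθ E ω e) hf

lemma abs_jp_le (hθ : |θ| < 1) (E : Finset (Ev V)) (ω : Om V) (e : Ev V) {f : Finset V → ℝ} {c : ℝ}
    (hf : ∀ A, |f A| ≤ c) : |jp G θ S E ω e f| ≤ 2 * c := by
  have hc : 0 ≤ c := (abs_nonneg _).trans (hf ∅)
  have h1 : |mnt G θ S E ω (tm ω e) (fun A => f A * sg A e.1)| ≤ c :=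
    abs_mnt_le G S hθ E ω _ fun A => by rw [abs_mul, abs_sg, mul_one]; exact hf A
  have h2 := abs_mnt_le G S hθ E ω (tm ω e) hf
  have h3 := abs_mt_le G S hθ E ω (tm ω e) e.1
  have h4 := abs_rj_le G S hθ E ω e
  have h5 := st_le ω e
  have h6 : |mnt G θ S E ω (tm ω e) f * mt G θ S E ω (tm ω e) e.1| ≤ c := by
    rw [abs_mul]
    calc _ ≤ c * 1 := by gcongr
      _ = c := mul_one c
  unfold jp
  rw [abs_mul]
  calc _ ≤ (c + c) * 1 := by
        gcongr
        · exact (abs_sub _ _).trans (add_le_add h1 h6)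
        · linarith
    _ = 2 * c := by ring

/-- one step -/
lemma mnt_step (hθ : |θ| < 1) {E : Finset (Ev V)} {ω : Om V} (hnt : NoTies E ω) {e : Ev V}
    (he : e ∈ E) {t : ℝ} (het : tm ω e < t) (hlast : ∀ e' ∈ E, tm ω e' < t → tm ω e' ≤ tm ω e)
    (f : Finset V → ℝ) :
    mnt G θ S E ω t f = mnt G θ S E ω (tm ω e) f + jp G θ S E ω e f := by
  have hb : before E ω t = insert e (before E ω (tm ω e)) := by
    ext x
    rw [Finset.mem_insert, mem_before, mem_before]
    constructor
    · rintro ⟨h1, h2⟩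
      by_cases hx : x = e
      · exact Or.inl hx
      · exact Or.inr ⟨h1, lt_of_le_of_ne (hlast x h1 h2) (hnt x h1 e he hx)⟩
    · rintro (rfl | ⟨h1, h2⟩)
      · exact ⟨he, het⟩
      · exact ⟨h1, h2.trans het⟩
  have hne : e ∉ before E ω (tm ω e) := fun h => lt_irrefl _ (mem_before.mp h).2
  have hZ := (ZZ_pos G S hθ (E := before E ω (tm ω e)) (o := obs G θ S E ω)
    (fun e _ => obs_lt_one G S hθ E ω e)).ne'
  have h1 := one_add_pos (abs_mt_le G S hθ E ω (tm ω e) e.1) (obs_half G S hθ E ω e)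
  have h2 : 1 + mm G θ S (before E ω (tm ω e)) (obs G θ S E ω) e.1 * obs G θ S E ω e ≠ 0 := by
    have : 0 < 1 + mt G θ S E ω (tm ω e) e.1 * obs G θ S E ω e := by linarith
    exact this.ne'
  unfold mnt
  rw [hb, mean_insert G θ S hne hZ h2]
  rfl

/-- telescoping -/
theorem mnt_telescope (hθ : |θ| < 1) {E : Finset (Ev V)} {ω : Om V} (hnt : NoTies E ω)
    {s t : ℝ} (hst : s ≤ t) (f : Finset V → ℝ) :
    mnt G θ S E ω t f = mnt G θ S E ω s f
      + ∑ e ∈ E, if s ≤ tm ω e ∧ tm ω e < t then jp G θ S E ω e f else 0 := by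
  rw [← Finset.sum_filter]
  induction hn : (E.filter fun e => s ≤ tm ω e ∧ tm ω e < t).card using Nat.strong_induction_on
    generalizing t with
  | _ n ih =>
    subst hn
    by_cases hemp : (E.filter fun e => s ≤ tm ω e ∧ tm ω e < t) = ∅
    · rw [hemp, Finset.sum_empty, add_zero]
      apply mnt_congr_before
      ext x
      rw [mem_before, mem_before]
      constructor
      · rintro ⟨h1, h2⟩
        refine ⟨h1, ?_⟩
        by_contra hc
        have : x ∈ (E.filter fun e => s ≤ tm ω e ∧ tm ω e < t) :=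
          Finset.mem_filter.mpr ⟨h1, not_lt.mp hc, h2⟩
        rw [hemp] at this
        exact absurd this (Finset.notMem_empty _)
      · rintro ⟨h1, h2⟩; exact ⟨h1, h2.trans_le hst⟩
    · obtain ⟨e, he, hmax⟩ := Finset.exists_max_image _ (fun e => tm ω e)
        (Finset.nonempty_iff_ne_empty.mpr hemp)
      rw [Finset.mem_filter] at he
      obtain ⟨heE, hse, het⟩ := he
      have hlast : ∀ e' ∈ E, tm ω e' < t → tm ω e' ≤ tm ω e := by
        intro e' he' ht'
        by_cases hs' : s ≤ tm ω e'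
        · exact hmax e' (Finset.mem_filter.mpr ⟨he', hs', ht'⟩)
        · exact (not_le.mp hs').le.trans hse
      have hfil : (E.filter fun e => s ≤ tm ω e ∧ tm ω e < t)
          = insert e (E.filter fun e' => s ≤ tm ω e' ∧ tm ω e' < tm ω e) := by
        ext x
        rw [Finset.mem_insert, Finset.mem_filter, Finset.mem_filter]
        constructor
        · rintro ⟨h1, h2, h3⟩
          by_cases hx : x = e
          · exact Or.inl hx
          · exact Or.inr ⟨h1, h2, lt_of_le_of_ne (hlast x h1 h3) (hnt x h1 e heE hx)⟩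
        · rintro (rfl | ⟨h1, h2, h3⟩)
          · exact ⟨heE, hse, het⟩
          · exact ⟨h1, h2, h3.trans het⟩
      have hne : e ∉ (E.filter fun e' => s ≤ tm ω e' ∧ tm ω e' < tm ω e) := by
        rw [Finset.mem_filter]
        rintro ⟨-, -, h⟩
        exact lt_irrefl _ h
      have hcard : (E.filter fun e' => s ≤ tm ω e' ∧ tm ω e' < tm ω e).card
          < (E.filter fun e => s ≤ tm ω e ∧ tm ω e < t).card := by
        rw [hfil, Finset.card_insert_of_notMem hne]
        omega
      rw [mnt_step G S hθ hnt heE het hlast, ih _ hcard hse rfl, hfil, Finset.sum_insert hne]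
      ring

/-! ### measurability of the jumps -/

lemma measurable_mnt_joint (G : SimpleGraph V) (θ : ℝ) (S : Finset V) (E : Finset (Ev V))
    (f : Finset V → ℝ) : Measurable fun p : Om V × ℝ => mnt G θ S E p.1 p.2 f :=
  measurable_mean_joint G θ S E f

@[fun_prop]
lemma measurable_mnt (G : SimpleGraph V) (θ : ℝ) (S : Finset V) (E : Finset (Ev V))
    (t : ℝ) (f : Finset V → ℝ) : Measurable fun ω : Om V => mnt G θ S E ω t f := by
  have h := (measurable_mnt_joint G θ S E f).comp (measurable_pair_const t)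
  exact h

@[fun_prop]
lemma measurable_mnt_tm (G : SimpleGraph V) (θ : ℝ) (S : Finset V) (E : Finset (Ev V))
    (e : Ev V) (f : Finset V → ℝ) : Measurable fun ω : Om V => mnt G θ S E ω (tm ω e) f := by
  have h := (measurable_mnt_joint G θ S E f).comp (measurable_pair_tm e)
  exact h

@[fun_prop]
lemma measurable_rj (G : SimpleGraph V) (θ : ℝ) (S : Finset V) (E : Finset (Ev V))
    (e : Ev V) : Measurable fun ω : Om V => rj G θ S E ω e := by
  unfold rj; fun_prop

@[fun_prop]
lemma measurable_jp (G : SimpleGraph V) (θ : ℝ) (S : Finset V) (E : Finset (Ev V))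
    (e : Ev V) (f : Finset V → ℝ) : Measurable fun ω : Om V => jp G θ S E ω e f := by
  unfold jp; fun_prop

/-! ### mean zero -/

lemma integral_rj_noise {a m : ℝ} (ha0 : 0 ≤ a) (ha : a ≤ 1 / 2) (hm : |m| ≤ 1) :
    ∫ z : unitInterval, (a * TT (a * m) (2 * (z : ℝ) - 1))
      / (1 + m * (a * TT (a * m) (2 * (z : ℝ) - 1))) = 0 := by
  have hs : |a * m| ≤ 1 := by
    rw [abs_mul, abs_of_nonneg ha0]; nlinarith [abs_nonneg m]
  rw [integral_TT hs (fun y => (a * y) / (1 + m * (a * y)))]
  have h : ∀ x : unitInterval, (1 + a * m * (2 * (x : ℝ) - 1))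
      * ((a * (2 * (x : ℝ) - 1)) / (1 + m * (a * (2 * (x : ℝ) - 1)))) = a * (2 * (x : ℝ) - 1) := by
    intro x
    have hx : |2 * (x : ℝ) - 1| ≤ 1 := by
      rw [abs_le]; constructor <;> linarith [x.2.1, x.2.2]
    have h1 : |a * (2 * (x : ℝ) - 1)| ≤ 1 / 2 := by
      rw [abs_mul, abs_of_nonneg ha0]; nlinarith [abs_nonneg (2 * (x : ℝ) - 1)]
    have h2 := one_add_pos hm h1
    have h3 : 1 + m * (a * (2 * (x : ℝ) - 1)) ≠ 0 := by
      have : 0 < 1 + m * (a * (2 * (x : ℝ) - 1)) := by linarith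
      exact this.ne'
    have h4 : 1 + a * m * (2 * (x : ℝ) - 1) = 1 + m * (a * (2 * (x : ℝ) - 1)) := by ring
    rw [h4, mul_div_cancel₀ _ h3]
  simp only [h]
  rw [integral_const_mul, integral_noise, mul_zero]

/-- the jump is orthogonal to everything that does not depend on the noise of the event -/
theorem integral_mul_jp (hθ : |θ| < 1) (E : Finset (Ev V)) (e : Ev V) {f : Finset V → ℝ} {c : ℝ}
    (hf : ∀ A, |f A| ≤ c) {H : Om V → ℝ} (hH : Measurable H) {C : ℝ} (hC : ∀ ω, |H ω| ≤ C)
    (hinv : ∀ ω z, H (updz ω e z) = H ω) :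
    ∫ ω, H ω * jp G θ S E ω e f ∂(PP V) = 0 := by
  by_cases he : e ∈ E
  swap
  · simp only [jp_of_not_mem G S he, mul_zero, integral_zero]
  have hg : Measurable fun ω : Om V => H ω * jp G θ S E ω e f := hH.mul (measurable_jp _ _ _ _ _ _)
  have hbd : ∀ ω, |H ω * jp G θ S E ω e f| ≤ C * (2 * c) := by
    intro ω
    rw [abs_mul]
    have h1 := hC ω
    have h2 := abs_jp_le G S hθ E ω e hf
    have : 0 ≤ C := (abs_nonneg _).trans h1
    gcongr
  have hmp := mp_updz (V := V) e
  rw [← hmp.map_eq, integral_map hmp.measurable.aemeasurable hg.aestronglyMeasurable]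
  have hint : Integrable (fun p : Om V × unitInterval =>
      H (updz p.1 e p.2) * jp G θ S E (updz p.1 e p.2) e f) ((PP V).prod volume) :=
    intg_of_bdd (hg.comp hmp.measurable) fun p => hbd _
  rw [integral_prod _ hint]
  have hz : ∀ ω : Om V, ∫ z : unitInterval, H (updz ω e z) * jp G θ S E (updz ω e z) e f = 0 := by
    intro ω
    have h1 : ∀ z : unitInterval, H (updz ω e z) * jp G θ S E (updz ω e z) e f
        = (H ω * (mnt G θ S E ω (tm ω e) (fun A => f A * sg A e.1)
          - mnt G θ S E ω (tm ω e) f * mt G θ S E ω (tm ω e) e.1))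
          * ((st ω e * TT (st ω e * mt G θ S E ω (tm ω e) e.1) (2 * (z : ℝ) - 1))
            / (1 + mt G θ S E ω (tm ω e) e.1
              * (st ω e * TT (st ω e * mt G θ S E ω (tm ω e) e.1) (2 * (z : ℝ) - 1)))) := by
      intro z
      rw [hinv]
      unfold jp rj
      rw [tm_updz, mnt_updz G θ S le_rfl, mnt_updz G θ S le_rfl, mt_updz G θ S le_rfl,
        obs_updz_same G θ S he]
      ring
    simp only [h1]
    rw [integral_const_mul, integral_rj_noise (st_nonneg ω e) (st_le ω e)
      (abs_mt_le G S hθ E ω (tm ω e) e.1), mul_zero]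
  simp only [hz, integral_zero]

end Crest.Agent.R160
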