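import Mathlib
import Crest.Agent.R160.Diff

/-! Row 160: the martingale property and the energy identity for a pair of systems driven by the
same noise. -/

set_option autoImplicit false
set_option linter.unusedSectionVars false

open MeasureTheory Finset
open scoped Classical

namespace Crest.Agent.R160

variable {V : Type*} (G : SimpleGraph V) {θ θ' : ℝ} (S S' : Finset V)

/-- `H` only depends on the clocks and on the noises of the events before time `s` -/
def PastInv (s : ℝ) (H : Om V → ℝ) : Prop :=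
  ∀ ω (e : Ev V) (z : unitInterval), s ≤ tm ω e → H (updz ω e z) = H ω

lemma pastInv_mnt (G : SimpleGraph V) (θ : ℝ) (S : Finset V) (E : Finset (Ev V)) {s t : ℝ}
    (hst : s ≤ t) (f : Finset V → ℝ) : PastInv t (fun ω => mnt G θ S E ω s f) :=
  fun _ _ z h => mnt_updz G θ S (hst.trans h) z f

lemma PastInv.mono {s t : ℝ} {H : Om V → ℝ} (h : PastInv s H) (hst : s ≤ t) : PastInv t H :=
  fun ω e z he => h ω e z (hst.trans he)

/-- martingale property, one event -/
lemma integral_mul_window_jp (hθ : |θ| < 1) (E : Finset (Ev V)) (e : Ev V) {f : Finset V → ℝ}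
    {c : ℝ} (hf : ∀ A, |f A| ≤ c) {s : ℝ} (t : ℝ) {H : Om V → ℝ} (hH : Measurable H) {C : ℝ}
    (hC : ∀ ω, |H ω| ≤ C) (hinv : PastInv s H) :
    ∫ ω, H ω * (if s ≤ tm ω e ∧ tm ω e < t then jp G θ S E ω e f else 0) ∂(PP V) = 0 := by
  have h := integral_mul_jp G S hθ E e hf (H := fun ω => if s ≤ tm ω e ∧ tm ω e < t then H ω else 0)
    ?_ (C := C) ?_ ?_
  · refine Eq.trans ?_ h
    congr 1
    funext ω
    split_ifs <;> simp
  · refine Measurable.ite ?_ hH measurable_const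
    exact (measurableSet_le measurable_const (measurable_tm e)).inter
      (measurableSet_lt (measurable_tm e) measurable_const)
  · intro ω
    split_ifs
    · exact hC ω
    · rw [abs_zero]; exact (abs_nonneg _).trans (hC ω)
  · intro ω z
    simp only [tm_updz]
    by_cases hc : s ≤ tm ω e ∧ tm ω e < t
    · rw [if_pos hc, if_pos hc]; exact hinv ω e z hc.1
    · rw [if_neg hc, if_neg hc]

lemma measurable_window {F : Om V → ℝ} (hF : Measurable F) (e : Ev V) (s t : ℝ) :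
    Measurable fun ω : Om V => if s ≤ tm ω e ∧ tm ω e < t then F ω else 0 := by
  refine Measurable.ite ?_ hF measurable_const
  exact (measurableSet_le measurable_const (measurable_tm e)).inter
      (measurableSet_lt (measurable_tm e) measurable_const)

lemma abs_window_le {x C : ℝ} (hx : |x| ≤ C) (p : Prop) [Decidable p] : |if p then x else 0| ≤ C := by
  split_ifs
  · exact hx
  · rw [abs_zero]; exact (abs_nonneg _).trans hx

/-- **martingale property** -/
theorem integral_mul_mnt (hθ : |θ| < 1) (E : Finset (Ev V)) {f : Finset V → ℝ}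
    {c : ℝ} (hf : ∀ A, |f A| ≤ c) {s t : ℝ} (hst : s ≤ t) {H : Om V → ℝ} (hH : Measurable H) {C : ℝ}
    (hC : ∀ ω, |H ω| ≤ C) (hinv : PastInv s H) :
    ∫ ω, H ω * mnt G θ S E ω t f ∂(PP V) = ∫ ω, H ω * mnt G θ S E ω s f ∂(PP V) := by
  have hC0 : 0 ≤ C := (abs_nonneg _).trans (hC (fun _ => (0, 0)))
  have h1 : ∫ ω, H ω * mnt G θ S E ω t f ∂(PP V)
      = ∫ ω, (H ω * mnt G θ S E ω s f
        + ∑ e ∈ E, H ω * (if s ≤ tm ω e ∧ tm ω e < t then jp G θ S E ω e f else 0)) ∂(PP V) := by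
    apply integral_congr_ae
    filter_upwards [ae_noTies E] with ω hω
    rw [mnt_telescope G S hθ hω hst f, mul_add, Finset.mul_sum]
  rw [h1, integral_add, integral_finsetSum]
  · rw [Finset.sum_eq_zero fun e _ => integral_mul_window_jp G S hθ E e hf t hH hC hinv, add_zero]
  · intro e _
    refine intg_of_bdd (hH.mul (measurable_window (measurable_jp _ _ _ _ _ _) e s t))
      (C := C * (2 * c)) fun ω => ?_
    rw [abs_mul]
    exact mul_le_mul (hC ω) (abs_window_le (abs_jp_le G S hθ E ω e hf) _) (abs_nonneg _) hC0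
  · refine intg_of_bdd (hH.mul (measurable_mnt _ _ _ _ _ _)) (C := C * c) fun ω => ?_
    rw [abs_mul]
    exact mul_le_mul (hC ω) (abs_mnt_le G S hθ E ω s hf) (abs_nonneg _) hC0
  · refine integrable_finsetSum _ fun e _ => ?_
    refine intg_of_bdd (hH.mul (measurable_window (measurable_jp _ _ _ _ _ _) e s t))
      (C := C * (2 * c)) fun ω => ?_
    rw [abs_mul]
    exact mul_le_mul (hC ω) (abs_window_le (abs_jp_le G S hθ E ω e hf) _) (abs_nonneg _) hC0

lemma before_zero (E : Finset (Ev V)) (ω : Om V) {t : ℝ} (ht : t ≤ 0) : before E ω t = ∅ := by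
  ext x
  rw [mem_before]
  constructor
  · rintro ⟨-, h⟩
    have h1 := (clk_mem ω x).1
    have h2 : (0:ℝ) ≤ x.2 := Nat.cast_nonneg _
    unfold tm at h
    linarith
  · intro h; exact absurd h (Finset.notMem_empty _)

/-- the posterior mean at time `0` is the prior mean -/
lemma mnt_zero (G : SimpleGraph V) (θ : ℝ) (S : Finset V) (E : Finset (Ev V)) (ω : Om V) {t : ℝ}
    (ht : t ≤ 0) (f : Finset V → ℝ) :
    mnt G θ S E ω t f = mean G θ S ∅ (fun _ => 0) f := by
  unfold mnt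
  rw [before_zero E ω ht]
  exact mean_congr G θ S (fun e he => absurd he (Finset.notMem_empty _)) f

/-- the expected posterior mean is the prior mean -/
theorem integral_mnt (hθ : |θ| < 1) (E : Finset (Ev V)) {f : Finset V → ℝ}
    {c : ℝ} (hf : ∀ A, |f A| ≤ c) (t : ℝ) :
    ∫ ω, mnt G θ S E ω t f ∂(PP V) = mean G θ S ∅ (fun _ => 0) f := by
  rcases le_total t 0 with ht | ht
  · simp only [mnt_zero G θ S E _ ht, integral_const, probReal_univ, one_smul]
  · have h := integral_mul_mnt G S hθ E hf ht (H := fun _ => 1) measurable_const (C := 1)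
      (fun _ => by simp) (fun _ _ _ _ => rfl)
    simp only [one_mul, mnt_zero G θ S E _ le_rfl, integral_const, probReal_univ, one_smul] at h
    exact h

/-! ### the energy identity -/

lemma jp_updz_lt (G : SimpleGraph V) (θ : ℝ) (S : Finset V) {E : Finset (Ev V)} {ω : Om V}
    {e e' : Ev V} (h : tm ω e' < tm ω e) (z : unitInterval) (f : Finset V → ℝ) :
    jp G θ S E (updz ω e z) e' f = jp G θ S E ω e' f := by
  unfold jp rj
  rw [tm_updz, mnt_updz G θ S h.le, mnt_updz G θ S h.le, mt_updz G θ S h.le, obs_updz_lt G θ S h]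

/-- difference of the jumps of two systems -/
noncomputable def dj (G : SimpleGraph V) (θ : ℝ) (S : Finset V) (E : Finset (Ev V)) (θ' : ℝ)
    (S' : Finset V) (E' : Finset (Ev V)) (ω : Om V) (e : Ev V) (f f' : Finset V → ℝ) : ℝ :=
  jp G θ S E ω e f - jp G θ' S' E' ω e f'

@[fun_prop]
lemma measurable_dj (G : SimpleGraph V) (θ : ℝ) (S : Finset V) (E : Finset (Ev V)) (θ' : ℝ)
    (S' : Finset V) (E' : Finset (Ev V)) (e : Ev V) (f f' : Finset V → ℝ) :
    Measurable fun ω : Om V => dj G θ S E θ' S' E' ω e f f' := by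
  unfold dj; fun_prop

lemma abs_dj_le (hθ : |θ| < 1) (hθ' : |θ'| < 1) (E E' : Finset (Ev V)) (ω : Om V) (e : Ev V)
    {f f' : Finset V → ℝ} {c : ℝ} (hf : ∀ A, |f A| ≤ c) (hf' : ∀ A, |f' A| ≤ c) :
    |dj G θ S E θ' S' E' ω e f f'| ≤ 4 * c := by
  have h1 := abs_jp_le G S hθ E ω e hf
  have h2 := abs_jp_le G S' hθ' E' ω e hf'
  unfold dj
  refine (abs_sub _ _).trans ?_
  linarith

lemma integral_mul_dj (hθ : |θ| < 1) (hθ' : |θ'| < 1) (E E' : Finset (Ev V)) (e : Ev V)
    {f f' : Finset V → ℝ} {c : ℝ} (hf : ∀ A, |f A| ≤ c) (hf' : ∀ A, |f' A| ≤ c)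
    {H : Om V → ℝ} (hH : Measurable H) {C : ℝ} (hC : ∀ ω, |H ω| ≤ C)
    (hinv : ∀ ω z, H (updz ω e z) = H ω) :
    ∫ ω, H ω * dj G θ S E θ' S' E' ω e f f' ∂(PP V) = 0 := by
  have hC0 : 0 ≤ C := (abs_nonneg _).trans (hC (fun _ => (0, 0)))
  unfold dj
  simp only [mul_sub]
  rw [integral_sub, integral_mul_jp G S hθ E e hf hH hC hinv,
    integral_mul_jp G S' hθ' E' e hf' hH hC hinv, sub_zero]
  · refine intg_of_bdd (hH.mul (measurable_jp _ _ _ _ _ _)) (C := C * (2 * c)) fun ω => ?_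
    rw [abs_mul]
    exact mul_le_mul (hC ω) (abs_jp_le G S hθ E ω e hf) (abs_nonneg _) hC0
  · refine intg_of_bdd (hH.mul (measurable_jp _ _ _ _ _ _)) (C := C * (2 * c)) fun ω => ?_
    rw [abs_mul]
    exact mul_le_mul (hC ω) (abs_jp_le G S' hθ' E' ω e hf') (abs_nonneg _) hC0

/-- the difference process -/
noncomputable def Dp (G : SimpleGraph V) (θ : ℝ) (S : Finset V) (E : Finset (Ev V)) (θ' : ℝ)
    (S' : Finset V) (E' : Finset (Ev V)) (ω : Om V) (t : ℝ) (f f' : Finset V → ℝ) : ℝ :=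
  mnt G θ S E ω t f - mnt G θ' S' E' ω t f'

lemma abs_Dp_le (hθ : |θ| < 1) (hθ' : |θ'| < 1) (E E' : Finset (Ev V)) (ω : Om V) (t : ℝ)
    {f f' : Finset V → ℝ} {c : ℝ} (hf : ∀ A, |f A| ≤ c) (hf' : ∀ A, |f' A| ≤ c) :
    |Dp G θ S E θ' S' E' ω t f f'| ≤ 2 * c := by
  have h1 := abs_mnt_le G S hθ E ω t hf
  have h2 := abs_mnt_le G S' hθ' E' ω t hf'
  unfold Dp
  refine (abs_sub _ _).trans ?_
  linarith

/-- window jump difference -/
noncomputable def wj (G : SimpleGraph V) (θ : ℝ) (S : Finset V) (E : Finset (Ev V)) (θ' : ℝ)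
    (S' : Finset V) (E' : Finset (Ev V)) (s t : ℝ) (f f' : Finset V → ℝ) (e : Ev V) (ω : Om V) : ℝ :=
  if s ≤ tm ω e ∧ tm ω e < t then dj G θ S E θ' S' E' ω e f f' else 0

lemma measurable_wj (G : SimpleGraph V) (θ : ℝ) (S : Finset V) (E : Finset (Ev V)) (θ' : ℝ)
    (S' : Finset V) (E' : Finset (Ev V)) (s t : ℝ) (f f' : Finset V → ℝ) (e : Ev V) :
    Measurable (wj G θ S E θ' S' E' s t f f' e) := by
  unfold wj
  exact measurable_window (measurable_dj _ _ _ _ _ _ _ _ _ _) e s t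

lemma Dp_telescope (hθ : |θ| < 1) (hθ' : |θ'| < 1) {E E' : Finset (Ev V)} {ω : Om V}
    (hnt : NoTies (E ∪ E') ω) {s t : ℝ} (hst : s ≤ t) (f f' : Finset V → ℝ) :
    Dp G θ S E θ' S' E' ω t f f' = Dp G θ S E θ' S' E' ω s f f'
      + ∑ e ∈ E ∪ E', wj G θ S E θ' S' E' s t f f' e ω := by
  have h1 : NoTies E ω := fun e he e' he' => hnt e (Finset.mem_union_left _ he) e'
    (Finset.mem_union_left _ he')
  have h2 : NoTies E' ω := fun e he e' he' => hnt e (Finset.mem_union_right _ he) e'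
    (Finset.mem_union_right _ he')
  have e1 : ∑ e ∈ E, (if s ≤ tm ω e ∧ tm ω e < t then jp G θ S E ω e f else 0)
      = ∑ e ∈ E ∪ E', (if s ≤ tm ω e ∧ tm ω e < t then jp G θ S E ω e f else 0) := by
    refine Finset.sum_subset Finset.subset_union_left fun e _ he => ?_
    rw [jp_of_not_mem G S he, ite_self]
  have e2 : ∑ e ∈ E', (if s ≤ tm ω e ∧ tm ω e < t then jp G θ' S' E' ω e f' else 0)
      = ∑ e ∈ E ∪ E', (if s ≤ tm ω e ∧ tm ω e < t then jp G θ' S' E' ω e f' else 0) := by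
    refine Finset.sum_subset Finset.subset_union_right fun e _ he => ?_
    rw [jp_of_not_mem G S' he, ite_self]
  have e3 : ∑ e ∈ E ∪ E', wj G θ S E θ' S' E' s t f f' e ω
      = ∑ e ∈ E ∪ E', (if s ≤ tm ω e ∧ tm ω e < t then jp G θ S E ω e f else 0)
        - ∑ e ∈ E ∪ E', (if s ≤ tm ω e ∧ tm ω e < t then jp G θ' S' E' ω e f' else 0) := by
    rw [← Finset.sum_sub_distrib]
    refine Finset.sum_congr rfl fun e _ => ?_
    unfold wj dj
    split_ifs <;> simp
  unfold Dp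
  rw [mnt_telescope G S hθ h1 hst f, mnt_telescope G S' hθ' h2 hst f', e1, e2, e3]
  ring

/-- orthogonality of the initial difference and the increments -/
lemma integral_Dp_wj (hθ : |θ| < 1) (hθ' : |θ'| < 1) (E E' : Finset (Ev V)) (s t : ℝ)
    {f f' : Finset V → ℝ} {c : ℝ} (hf : ∀ A, |f A| ≤ c) (hf' : ∀ A, |f' A| ≤ c) (e : Ev V) :
    ∫ ω, Dp G θ S E θ' S' E' ω s f f' * wj G θ S E θ' S' E' s t f f' e ω ∂(PP V) = 0 := by
  have hm : Measurable fun ω : Om V => Dp G θ S E θ' S' E' ω s f f' := by unfold Dp; fun_prop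
  have h := integral_mul_dj G S S' hθ hθ' E E' e hf hf'
    (H := fun ω => if s ≤ tm ω e ∧ tm ω e < t then Dp G θ S E θ' S' E' ω s f f' else 0)
    (measurable_window hm e s t) (C := 2 * c)
    (fun ω => abs_window_le (abs_Dp_le G S S' hθ hθ' E E' ω s hf hf') _) ?_
  · refine Eq.trans ?_ h
    congr 1
    funext ω
    unfold wj
    split_ifs <;> simp
  · intro ω z
    simp only [tm_updz]
    by_cases hc : s ≤ tm ω e ∧ tm ω e < t
    · rw [if_pos hc, if_pos hc]
      unfold Dp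
      rw [mnt_updz G θ S hc.1, mnt_updz G θ' S' hc.1]
    · rw [if_neg hc, if_neg hc]

/-- orthogonality of two increments, ordered version -/
lemma integral_wj_lt (hθ : |θ| < 1) (hθ' : |θ'| < 1) (E E' : Finset (Ev V)) (s t : ℝ)
    {f f' : Finset V → ℝ} {c : ℝ} (hf : ∀ A, |f A| ≤ c) (hf' : ∀ A, |f' A| ≤ c) (e e' : Ev V) :
    ∫ ω, (if tm ω e' < tm ω e then
      wj G θ S E θ' S' E' s t f f' e' ω * wj G θ S E θ' S' E' s t f f' e ω else 0) ∂(PP V) = 0 := by
  have hset : MeasurableSet {ω : Om V | tm ω e' < tm ω e} :=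
    measurableSet_lt (measurable_tm e') (measurable_tm e)
  have hb : ∀ ω, |wj G θ S E θ' S' E' s t f f' e' ω| ≤ 4 * c := fun ω => by
    unfold wj
    exact abs_window_le (abs_dj_le G S S' hθ hθ' E E' ω e' hf hf') _
  have h := integral_mul_dj G S S' hθ hθ' E E' e hf hf'
    (H := fun ω => if tm ω e' < tm ω e then
      (if s ≤ tm ω e ∧ tm ω e < t then wj G θ S E θ' S' E' s t f f' e' ω else 0) else 0)
    (Measurable.ite hset (measurable_window (measurable_wj _ _ _ _ _ _ _ _ _ _ _ _) e s t)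
      measurable_const) (C := 4 * c)
    (fun ω => abs_window_le (abs_window_le (hb ω) _) _) ?_
  · refine Eq.trans ?_ h
    congr 1
    funext ω
    by_cases h1 : tm ω e' < tm ω e
    · rw [if_pos h1, if_pos h1]
      by_cases h2 : s ≤ tm ω e ∧ tm ω e < t
      · rw [if_pos h2]
        congr 1
        unfold wj
        rw [if_pos h2]
      · rw [if_neg h2, zero_mul]
        have : wj G θ S E θ' S' E' s t f f' e ω = 0 := by unfold wj; rw [if_neg h2]
        rw [this, mul_zero]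
    · rw [if_neg h1, if_neg h1, zero_mul]
  · intro ω z
    simp only [tm_updz]
    by_cases h1 : tm ω e' < tm ω e
    · rw [if_pos h1, if_pos h1]
      by_cases h2 : s ≤ tm ω e ∧ tm ω e < t
      · rw [if_pos h2, if_pos h2]
        unfold wj dj
        rw [tm_updz, jp_updz_lt G θ S h1, jp_updz_lt G θ' S' h1]
      · rw [if_neg h2, if_neg h2]
    · rw [if_neg h1, if_neg h1]

/-- orthogonality of two increments -/
lemma integral_wj_ne (hθ : |θ| < 1) (hθ' : |θ'| < 1) (E E' : Finset (Ev V)) (s t : ℝ)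
    {f f' : Finset V → ℝ} {c : ℝ} (hf : ∀ A, |f A| ≤ c) (hf' : ∀ A, |f' A| ≤ c) {e e' : Ev V}
    (hne : e ≠ e') :
    ∫ ω, wj G θ S E θ' S' E' s t f f' e ω * wj G θ S E θ' S' E' s t f f' e' ω ∂(PP V) = 0 := by
  have h1 := integral_wj_lt G S S' hθ hθ' E E' s t hf hf' e e'
  have h2 := integral_wj_lt G S S' hθ hθ' E E' s t hf hf' e' e
  have hc0 : 0 ≤ c := (abs_nonneg _).trans (hf ∅)
  have hm : ∀ e, Measurable (wj G θ S E θ' S' E' s t f f' e) := fun e =>
    measurable_wj _ _ _ _ _ _ _ _ _ _ _ _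
  have hb : ∀ e ω, |wj G θ S E θ' S' E' s t f f' e ω| ≤ 4 * c := fun e ω => by
    unfold wj
    exact abs_window_le (abs_dj_le G S S' hθ hθ' E E' ω e hf hf') _
  have hint : ∀ e e' : Ev V, Integrable (fun ω => (if tm ω e' < tm ω e then
      wj G θ S E θ' S' E' s t f f' e' ω * wj G θ S E θ' S' E' s t f f' e ω else 0)) (PP V) := by
    intro e e'
    refine intg_of_bdd (Measurable.ite (measurableSet_lt (measurable_tm e') (measurable_tm e))
      ((hm e').mul (hm e)) measurable_const) (C := (4 * c) * (4 * c)) fun ω => ?_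
    refine abs_window_le ?_ _
    rw [abs_mul]
    exact mul_le_mul (hb _ _) (hb _ _) (abs_nonneg _) (by linarith)
  have h3 : ∫ ω, wj G θ S E θ' S' E' s t f f' e ω * wj G θ S E θ' S' E' s t f f' e' ω ∂(PP V)
      = ∫ ω, ((if tm ω e' < tm ω e then
          wj G θ S E θ' S' E' s t f f' e' ω * wj G θ S E θ' S' E' s t f f' e ω else 0)
        + (if tm ω e < tm ω e' then
          wj G θ S E θ' S' E' s t f f' e ω * wj G θ S E θ' S' E' s t f f' e' ω else 0)) ∂(PP V) := by
    apply integral_congr_ae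
    have hnt : ∀ᵐ ω ∂(PP V), tm ω e ≠ tm ω e' := by
      have := null_tie hne
      rwa [← compl_compl {ω : Om V | tm ω e = tm ω e'}, ← mem_ae_iff] at this
    filter_upwards [hnt] with ω hω
    rcases lt_or_gt_of_ne hω with h | h
    · rw [if_neg (not_lt.mpr h.le), if_pos h, zero_add]
    · rw [if_pos h, if_neg (not_lt.mpr h.le), add_zero, mul_comm]
  rw [h3, integral_add (hint e e') (hint e' e), h1, h2, add_zero]

/-- **the energy identity** -/
theorem energy (hθ : |θ| < 1) (hθ' : |θ'| < 1) (E E' : Finset (Ev V)) {s t : ℝ} (hst : s ≤ t)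
    {f f' : Finset V → ℝ} {c : ℝ} (hf : ∀ A, |f A| ≤ c) (hf' : ∀ A, |f' A| ≤ c) :
    ∫ ω, (Dp G θ S E θ' S' E' ω t f f') ^ 2 ∂(PP V)
      = ∫ ω, (Dp G θ S E θ' S' E' ω s f f') ^ 2 ∂(PP V)
        + ∑ e ∈ E ∪ E', ∫ ω, (wj G θ S E θ' S' E' s t f f' e ω) ^ 2 ∂(PP V) := by
  have hc0 : 0 ≤ c := (abs_nonneg _).trans (hf ∅)
  have hm : ∀ e, Measurable (wj G θ S E θ' S' E' s t f f' e) := fun e =>
    measurable_wj _ _ _ _ _ _ _ _ _ _ _ _
  have hb : ∀ e ω, |wj G θ S E θ' S' E' s t f f' e ω| ≤ 4 * c := fun e ω => by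
    unfold wj
    exact abs_window_le (abs_dj_le G S S' hθ hθ' E E' ω e hf hf') _
  have hDm : Measurable fun ω : Om V => Dp G θ S E θ' S' E' ω s f f' := by unfold Dp; fun_prop
  have hDb : ∀ ω, |Dp G θ S E θ' S' E' ω s f f'| ≤ 2 * c := fun ω =>
    abs_Dp_le G S S' hθ hθ' E E' ω s hf hf'
  have i1 : Integrable (fun ω => (Dp G θ S E θ' S' E' ω s f f') ^ 2) (PP V) := by
    refine intg_of_bdd (hDm.pow_const 2) (C := (2 * c) ^ 2) fun ω => ?_
    rw [abs_pow]
    exact pow_le_pow_left₀ (abs_nonneg _) (hDb ω) 2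
  have i2 : ∀ e, Integrable (fun ω => Dp G θ S E θ' S' E' ω s f f'
      * wj G θ S E θ' S' E' s t f f' e ω) (PP V) := fun e => by
    refine intg_of_bdd (hDm.mul (hm e)) (C := (2 * c) * (4 * c)) fun ω => ?_
    rw [abs_mul]
    exact mul_le_mul (hDb _) (hb _ _) (abs_nonneg _) (by linarith)
  have i3 : ∀ e e', Integrable (fun ω => wj G θ S E θ' S' E' s t f f' e ω
      * wj G θ S E θ' S' E' s t f f' e' ω) (PP V) := fun e e' => by
    refine intg_of_bdd ((hm e).mul (hm e')) (C := (4 * c) * (4 * c)) fun ω => ?_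
    rw [abs_mul]
    exact mul_le_mul (hb _ _) (hb _ _) (abs_nonneg _) (by linarith)
  have h1 : ∫ ω, (Dp G θ S E θ' S' E' ω t f f') ^ 2 ∂(PP V)
      = ∫ ω, (((Dp G θ S E θ' S' E' ω s f f') ^ 2
        + 2 * ∑ e ∈ E ∪ E', Dp G θ S E θ' S' E' ω s f f' * wj G θ S E θ' S' E' s t f f' e ω)
        + ∑ e ∈ E ∪ E', ∑ e' ∈ E ∪ E', wj G θ S E θ' S' E' s t f f' e ω
            * wj G θ S E θ' S' E' s t f f' e' ω) ∂(PP V) := by
    apply integral_congr_ae
    filter_upwards [ae_noTies (E ∪ E')] with ω hω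
    rw [Dp_telescope G S S' hθ hθ' hω hst f f', ← Finset.mul_sum, ← Finset.sum_mul_sum]
    ring
  rw [h1, integral_add, integral_add, integral_const_mul, integral_finsetSum]
  · rw [Finset.sum_eq_zero fun e _ => integral_Dp_wj G S S' hθ hθ' E E' s t hf hf' e, mul_zero,
      add_zero]
    congr 1
    rw [integral_finsetSum]
    · refine Finset.sum_congr rfl fun e he => ?_
      rw [integral_finsetSum]
      · rw [Finset.sum_eq_single e]
        · congr 1
          funext ω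
          ring
        · intro e' _ hne
          exact integral_wj_ne G S S' hθ hθ' E E' s t hf hf' hne.symm
        · intro h; exact absurd he h
      · intro e' _; exact i3 e e'
    · intro e _
      exact integrable_finsetSum _ fun e' _ => i3 e e'
  · intro e _; exact i2 e
  · exact i1
  · exact (integrable_finsetSum _ fun e _ => i2 e).const_mul 2
  · exact i1.add ((integrable_finsetSum _ fun e _ => i2 e).const_mul 2)
  · exact integrable_finsetSum _ fun e _ => integrable_finsetSum _ fun e' _ => i3 e e'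

/-- (C6) the mean square difference is nondecreasing in time -/
theorem energy_mono (hθ : |θ| < 1) (hθ' : |θ'| < 1) (E E' : Finset (Ev V)) {s t : ℝ} (hst : s ≤ t)
    {f f' : Finset V → ℝ} {c : ℝ} (hf : ∀ A, |f A| ≤ c) (hf' : ∀ A, |f' A| ≤ c) :
    ∫ ω, (Dp G θ S E θ' S' E' ω s f f') ^ 2 ∂(PP V)
      ≤ ∫ ω, (Dp G θ S E θ' S' E' ω t f f') ^ 2 ∂(PP V) := by
  rw [energy G S S' hθ hθ' E E' hst hf hf']
  have : 0 ≤ ∑ e ∈ E ∪ E', ∫ ω, (wj G θ S E θ' S' E' s t f f' e ω) ^ 2 ∂(PP V) :=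
    Finset.sum_nonneg fun e _ => integral_nonneg fun ω => sq_nonneg _
  linarith

theorem mt_diff_mono (hθ : |θ| < 1) (hθ' : |θ'| < 1) (E E' : Finset (Ev V)) {s t : ℝ} (hst : s ≤ t)
    (v : V) :
    ∫ ω, (mt G θ S E ω s v - mt G θ' S' E' ω s v) ^ 2 ∂(PP V)
      ≤ ∫ ω, (mt G θ S E ω t v - mt G θ' S' E' ω t v) ^ 2 ∂(PP V) :=
  energy_mono G S S' hθ hθ' E E' hst (c := 1) (fun A => (abs_sg A v).le) (fun A => (abs_sg A v).le)

/-- orthogonality of the increments in time -/
theorem mt_incr (hθ : |θ| < 1) (E : Finset (Ev V)) {s t : ℝ} (hst : s ≤ t) (v : V) :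
    ∫ ω, (mt G θ S E ω t v - mt G θ S E ω s v) ^ 2 ∂(PP V)
      = ∫ ω, (mt G θ S E ω t v) ^ 2 ∂(PP V) - ∫ ω, (mt G θ S E ω s v) ^ 2 ∂(PP V) := by
  have hf : ∀ A : Finset V, |sg A v| ≤ 1 := fun A => (abs_sg A v).le
  have hms := measurable_mt G θ S E s v
  have hmt := measurable_mt G θ S E t v
  have hbs : ∀ ω, |mt G θ S E ω s v| ≤ 1 := fun ω => abs_mt_le G S hθ E ω s v
  have hbt : ∀ ω, |mt G θ S E ω t v| ≤ 1 := fun ω => abs_mt_le G S hθ E ω t v
  have h := integral_mul_mnt G S hθ E hf hst (H := fun ω => mt G θ S E ω s v) hms hbs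
    (pastInv_mnt G θ S E le_rfl _)
  have h' : ∫ ω, mt G θ S E ω s v * mt G θ S E ω t v ∂(PP V)
      = ∫ ω, mt G θ S E ω s v * mt G θ S E ω s v ∂(PP V) := h
  have i1 : Integrable (fun ω => (mt G θ S E ω t v) ^ 2) (PP V) :=
    intg_of_bdd (hmt.pow_const 2) (C := 1) fun ω => by
      rw [abs_pow]; exact pow_le_one₀ (abs_nonneg _) (hbt ω)
  have i2 : Integrable (fun ω => mt G θ S E ω s v * mt G θ S E ω t v) (PP V) :=
    intg_of_bdd (hms.mul hmt) (C := 1) fun ω => by
      rw [abs_mul]; exact mul_le_one₀ (hbs ω) (abs_nonneg _) (hbt ω)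
  have i3 : Integrable (fun ω => mt G θ S E ω s v * mt G θ S E ω s v) (PP V) :=
    intg_of_bdd (hms.mul hms) (C := 1) fun ω => by
      rw [abs_mul]; exact mul_le_one₀ (hbs ω) (abs_nonneg _) (hbs ω)
  have e1 : (fun ω => (mt G θ S E ω t v - mt G θ S E ω s v) ^ 2)
      = fun ω => ((mt G θ S E ω t v) ^ 2 - 2 * (mt G θ S E ω s v * mt G θ S E ω t v))
        + mt G θ S E ω s v * mt G θ S E ω s v := by
    funext ω; ring
  have e2 : (fun ω => (mt G θ S E ω s v) ^ 2) = fun ω => mt G θ S E ω s v * mt G θ S E ω s v := by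
    funext ω; ring
  have i12 : Integrable (fun ω => (mt G θ S E ω t v) ^ 2
      - 2 * (mt G θ S E ω s v * mt G θ S E ω t v)) (PP V) := i1.sub (i2.const_mul 2)
  rw [e1, integral_add i12 i3, integral_sub i1 (i2.const_mul 2),
    integral_const_mul, h', e2]
  ring

/-- the interface statement `time_incr` -/
theorem time_incr (hθ : |θ| < 1) (E : Finset (Ev V)) {s t : ℝ} (hst : s ≤ t) (v : V) :
    ∫ ω, (mt G θ S E ω t v - mt G θ S E ω s v) ^ 2 ∂(PP V)
      ≤ ∫ ω, (1 - (mt G θ S E ω s v) ^ 2) ∂(PP V) := by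
  have hms := measurable_mt G θ S E s v
  have hmt := measurable_mt G θ S E t v
  have hbs : ∀ ω, |mt G θ S E ω s v| ≤ 1 := fun ω => abs_mt_le G S hθ E ω s v
  have hbt : ∀ ω, |mt G θ S E ω t v| ≤ 1 := fun ω => abs_mt_le G S hθ E ω t v
  have i1 : Integrable (fun ω => (mt G θ S E ω t v) ^ 2) (PP V) :=
    intg_of_bdd (hmt.pow_const 2) (C := 1) fun ω => by
      rw [abs_pow]; exact pow_le_one₀ (abs_nonneg _) (hbt ω)
  have i2 : Integrable (fun ω => (mt G θ S E ω s v) ^ 2) (PP V) :=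
    intg_of_bdd (hms.pow_const 2) (C := 1) fun ω => by
      rw [abs_pow]; exact pow_le_one₀ (abs_nonneg _) (hbs ω)
  rw [mt_incr G S hθ E hst v, integral_sub (integrable_const 1) i2]
  have : ∫ ω, (mt G θ S E ω t v) ^ 2 ∂(PP V) ≤ ∫ _ω : Om V, (1:ℝ) ∂(PP V) := by
    apply integral_mono i1 (integrable_const 1)
    intro ω
    have h := hbt ω
    have := sq_abs (mt G θ S E ω t v)
    beta_reduce
    nlinarith [abs_nonneg (mt G θ S E ω t v)]
  linarith

/-- `time_incr` for `mfin` -/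
theorem time_incr_mfin (hθ : |θ| < 1) {s t : ℝ} (hst : s ≤ t) (v : V) :
    ∫ ω, (mfin G θ S ω t v - mfin G θ S ω s v) ^ 2 ∂(PP V)
      ≤ ∫ ω, (1 - (mfin G θ S ω s v) ^ 2) ∂(PP V) := by
  have h := time_incr G S hθ (evs S ⌈t⌉₊) hst v
  have h1 : ∀ ω, mt G θ S (evs S ⌈t⌉₊) ω s v = mfin G θ S ω s v := fun ω =>
    mt_evs G θ (hst.trans (Nat.le_ceil t)) ω v
  simp only [h1] at h
  exact h

end Crest.Agent.R160
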