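import Mathlib
import Crest.Agent.R160.Energy

/-! Row 160: the clock lemma and the increment inequality (C5). -/

set_option autoImplicit false
set_option linter.unusedSectionVars false

open MeasureTheory Finset
open scoped Classical ENNReal

namespace Crest.Agent.R160

/-! ### Lipschitz bound for the relative jump -/

lemma TT_lip {s s' z : ℝ} (hs : |s| ≤ 1 / 2) (hs' : |s'| ≤ 1 / 2) (hz : |z| ≤ 1) :
    |TT s z - TT s' z| ≤ |s - s'| := by
  have h1 : |s| ≤ 1 := by linarith
  have h1' : |s'| ≤ 1 := by linarith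
  have q := TT_quad h1 hz
  have q' := TT_quad h1' hz
  have b := abs_TT_le h1 hz
  have b' := abs_TT_le h1' hz
  set T := TT s z
  set T' := TT s' z
  have key : (T - T') * (1 + s' * (T + T') / 2) = (s - s') * ((1 - T ^ 2) / 2) := by
    have : T + s * (T ^ 2 - 1) / 2 - (T' + s' * (T' ^ 2 - 1) / 2) = 0 := by rw [q, q']; ring
    linear_combination this
  have h2 : |s' * (T + T') / 2| ≤ 1 / 2 := by
    rw [abs_div, abs_mul, abs_two, div_le_iff₀ (by norm_num)]
    have h3 : |T + T'| ≤ 2 := (abs_add_le _ _).trans (by linarith)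
    calc |s'| * |T + T'| ≤ 1 / 2 * 2 := by gcongr
      _ = 1 / 2 * 2 := rfl
  have h3 : 1 / 2 ≤ 1 + s' * (T + T') / 2 := by linarith [(abs_le.mp h2).1]
  have h4 : |(T - T') * (1 + s' * (T + T') / 2)| = |T - T'| * (1 + s' * (T + T') / 2) := by
    rw [abs_mul, abs_of_pos (by linarith : 0 < 1 + s' * (T + T') / 2)]
  have h5 : |(s - s') * ((1 - T ^ 2) / 2)| ≤ |s - s'| * (1 / 2) := by
    rw [abs_mul]
    refine mul_le_mul_of_nonneg_left ?_ (abs_nonneg _)
    have h6 : T ^ 2 ≤ 1 := by rw [← sq_abs]; exact pow_le_one₀ (abs_nonneg _) b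
    rw [abs_of_nonneg (by linarith)]
    linarith [sq_nonneg T]
  rw [← key, h4] at h5
  nlinarith [abs_nonneg (T - T')]

lemma rel_lip {a m m' z : ℝ} (ha0 : 0 ≤ a) (ha : a ≤ 1 / 2) (hm : |m| ≤ 1) (hm' : |m'| ≤ 1)
    (hz : |z| ≤ 1) :
    |(a * TT (a * m) z) / (1 + m * (a * TT (a * m) z))
      - (a * TT (a * m') z) / (1 + m' * (a * TT (a * m') z))| ≤ 8 * a ^ 2 * |m - m'| := by
  have hs : |a * m| ≤ 1 / 2 := by
    rw [abs_mul, abs_of_nonneg ha0]; nlinarith [abs_nonneg m]
  have hs' : |a * m'| ≤ 1 / 2 := by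
    rw [abs_mul, abs_of_nonneg ha0]; nlinarith [abs_nonneg m']
  have hL := TT_lip hs hs' hz
  have b := abs_TT_le (hs.trans (by norm_num)) hz
  have b' := abs_TT_le (hs'.trans (by norm_num)) hz
  set T := TT (a * m) z
  set T' := TT (a * m') z
  have e1 : |a * m - a * m'| = a * |m - m'| := by
    rw [← mul_sub, abs_mul, abs_of_nonneg ha0]
  rw [e1] at hL
  have hb : |a * T| ≤ 1 / 2 := by
    rw [abs_mul, abs_of_nonneg ha0]; nlinarith [abs_nonneg T]
  have hb' : |a * T'| ≤ 1 / 2 := by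
    rw [abs_mul, abs_of_nonneg ha0]; nlinarith [abs_nonneg T']
  have p := one_add_pos hm hb
  have p' := one_add_pos hm' hb'
  have hp : 0 < 1 + m * (a * T) := by linarith
  have hp' : 0 < 1 + m' * (a * T') := by linarith
  rw [div_sub_div _ _ hp.ne' hp'.ne', abs_div, abs_of_pos (mul_pos hp hp'),
    div_le_iff₀ (mul_pos hp hp')]
  have e2 : a * T * (1 + m' * (a * T')) - (1 + m * (a * T)) * (a * T')
      = a * ((T - T') - a * (m - m') * (T * T')) := by ring
  rw [e2, abs_mul, abs_of_nonneg ha0]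
  have h1 : |(T - T') - a * (m - m') * (T * T')| ≤ 2 * (a * |m - m'|) := by
    refine (abs_sub _ _).trans ?_
    have : |a * (m - m') * (T * T')| ≤ a * |m - m'| := by
      rw [abs_mul, abs_mul, abs_of_nonneg ha0, abs_mul T]
      have : |T| * |T'| ≤ 1 := mul_le_one₀ b (abs_nonneg _) b'
      nlinarith [mul_nonneg ha0 (abs_nonneg (m - m'))]
    linarith
  have h2 : 1 / 4 ≤ (1 + m * (a * T)) * (1 + m' * (a * T')) := by nlinarith
  have h3 : 0 ≤ a ^ 2 * |m - m'| := by positivity
  nlinarith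

variable {V : Type*} (G : SimpleGraph V) {θ θ' : ℝ} (S S' : Finset V)

/-! ### spins outside the volume -/

lemma cov_of_not_mem (hθ : |θ| < 1) {E : Finset (Ev V)} {o : Ev V → ℝ} (ho : ∀ e ∈ E, |o e| < 1)
    (v : V) {x : V} (hx : x ∉ S) : cov G θ S E o v x = 0 := by
  have hs : ∀ A ∈ S.powerset, sg A x = -1 := fun A hA => by
    unfold sg
    rw [if_neg fun h => hx (Finset.mem_powerset.mp hA h)]
  have hZ := (ZZ_pos G S hθ ho).ne'
  have h1 : mean G θ S E o (fun A => sg A v * sg A x) = - mm G θ S E o v := by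
    unfold mm mean
    rw [← neg_div]
    congr 1
    unfold num
    rw [← Finset.sum_neg_distrib]
    refine Finset.sum_congr rfl fun A hA => ?_
    beta_reduce
    rw [hs A hA]; ring
  have h2 : mm G θ S E o x = -1 := by
    unfold mm mean
    have : num G θ S E o (fun A => sg A x) = - ZZ G θ S E o := by
      unfold ZZ num
      rw [← Finset.sum_neg_distrib]
      refine Finset.sum_congr rfl fun A hA => ?_
      beta_reduce
      rw [hs A hA]; ring
    rw [this, neg_div, div_self hZ]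
  unfold cov
  rw [h1, h2]
  ring

lemma ct_of_not_mem (hθ : |θ| < 1) (E : Finset (Ev V)) (ω : Om V) (t : ℝ) (v : V) {x : V}
    (hx : x ∉ S) : ct G θ S E ω t v x = 0 :=
  cov_of_not_mem G S hθ (fun e _ => obs_lt_one G S hθ E ω e) v hx

/-- the integrand of the increment inequality -/
noncomputable def qq (G : SimpleGraph V) (θ : ℝ) (S : Finset V) (E : Finset (Ev V)) (θ' : ℝ)
    (S' : Finset V) (E' : Finset (Ev V)) (v x : V) (ω : Om V) (r : ℝ) : ℝ :=
  (ct G θ S E ω r v x - ct G θ' S' E' ω r v x) ^ 2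
    + (ct G θ S E ω r v x) ^ 2 * (mt G θ S E ω r x - mt G θ' S' E' ω r x) ^ 2

lemma qq_nonneg (E E' : Finset (Ev V)) (v x : V) (ω : Om V) (r : ℝ) :
    0 ≤ qq G θ S E θ' S' E' v x ω r := by unfold qq; positivity

lemma jp_sg (E : Finset (Ev V)) (ω : Om V) (e : Ev V) (v : V) :
    jp G θ S E ω e (fun A => sg A v) = ct G θ S E ω (tm ω e) v e.1 * rj G θ S E ω e := rfl

lemma rj_of_mem {E : Finset (Ev V)} {ω : Om V} {e : Ev V} (he : e ∈ E) :
    rj G θ S E ω e = (st ω e * TT (st ω e * mt G θ S E ω (tm ω e) e.1) (nz ω e))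
      / (1 + mt G θ S E ω (tm ω e) e.1
        * (st ω e * TT (st ω e * mt G θ S E ω (tm ω e) e.1) (nz ω e))) := by
  unfold rj; rw [obs_of_mem G θ S he]

/-- pointwise bound for the difference of two jumps -/
theorem dj_sq_le (hθ : |θ| < 1) (hθ' : |θ'| < 1) {E E' : Finset (Ev V)}
    (h1 : ∀ e ∈ E, e.1 ∈ S' → e ∈ E') (h2 : ∀ e ∈ E', e.1 ∈ S → e ∈ E) (v : V) (ω : Om V)
    (e : Ev V) :
    (dj G θ S E θ' S' E' ω e (fun A => sg A v) (fun A => sg A v)) ^ 2
      ≤ 32 * (st ω e) ^ 2 * qq G θ S E θ' S' E' v e.1 ω (tm ω e) := by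
  have ha0 := st_nonneg ω e
  have ha := st_le ω e
  have hq1 : 0 ≤ (ct G θ S E ω (tm ω e) v e.1) ^ 2
      * (mt G θ S E ω (tm ω e) e.1 - mt G θ' S' E' ω (tm ω e) e.1) ^ 2 := by positivity
  have hr : (rj G θ S E ω e) ^ 2 ≤ 4 * (st ω e) ^ 2 := by
    rw [← sq_abs]
    have := abs_rj_le G S hθ E ω e
    nlinarith [abs_nonneg (rj G θ S E ω e)]
  have hr' : (rj G θ' S' E' ω e) ^ 2 ≤ 4 * (st ω e) ^ 2 := by
    rw [← sq_abs]
    have := abs_rj_le G S' hθ' E' ω e
    nlinarith [abs_nonneg (rj G θ' S' E' ω e)]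
  unfold dj qq
  rw [jp_sg, jp_sg]
  by_cases he : e ∈ E
  · by_cases he' : e ∈ E'
    · have hL : |rj G θ S E ω e - rj G θ' S' E' ω e| ≤ 8 * (st ω e) ^ 2
          * |mt G θ S E ω (tm ω e) e.1 - mt G θ' S' E' ω (tm ω e) e.1| := by
        rw [rj_of_mem G S he, rj_of_mem G S' he']
        exact rel_lip ha0 ha (abs_mt_le G S hθ E ω _ _) (abs_mt_le G S' hθ' E' ω _ _) (nz_mem ω e)
      have hL2 : (rj G θ S E ω e - rj G θ' S' E' ω e) ^ 2 ≤ 16 * (st ω e) ^ 2
          * (mt G θ S E ω (tm ω e) e.1 - mt G θ' S' E' ω (tm ω e) e.1) ^ 2 := by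
        rw [← sq_abs, ← sq_abs (mt G θ S E ω (tm ω e) e.1 - mt G θ' S' E' ω (tm ω e) e.1)]
        have h3 := pow_le_pow_left₀ (abs_nonneg _) hL 2
        refine h3.trans ?_
        have h4 : (st ω e) ^ 2 ≤ 1 / 4 := by nlinarith
        have h5 : 0 ≤ (st ω e) ^ 2
          * |mt G θ S E ω (tm ω e) e.1 - mt G θ' S' E' ω (tm ω e) e.1| ^ 2 := by positivity
        nlinarith
      set C := ct G θ S E ω (tm ω e) v e.1
      set C' := ct G θ' S' E' ω (tm ω e) v e.1
      set r := rj G θ S E ω e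
      set r' := rj G θ' S' E' ω e
      set M := mt G θ S E ω (tm ω e) e.1
      set M' := mt G θ' S' E' ω (tm ω e) e.1
      have e1 : C * r - C' * r' = (C - C') * r' + C * (r - r') := by ring
      have e2 : (C * r - C' * r') ^ 2 ≤ 2 * ((C - C') ^ 2 * r' ^ 2) + 2 * (C ^ 2 * (r - r') ^ 2) := by
        rw [e1]
        nlinarith [sq_nonneg ((C - C') * r' - C * (r - r'))]
      have e3 : (C - C') ^ 2 * r' ^ 2 ≤ (C - C') ^ 2 * (4 * (st ω e) ^ 2) :=
        mul_le_mul_of_nonneg_left hr' (sq_nonneg _)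
      have e4 : C ^ 2 * (r - r') ^ 2 ≤ C ^ 2 * (16 * (st ω e) ^ 2 * (M - M') ^ 2) :=
        mul_le_mul_of_nonneg_left hL2 (sq_nonneg _)
      have e5 : 0 ≤ (C - C') ^ 2 * (st ω e) ^ 2 := by positivity
      nlinarith
    · have hx : e.1 ∉ S' := fun hc => he' (h1 e he hc)
      rw [ct_of_not_mem G S' hθ' E' ω _ v hx, zero_mul, sub_zero, sub_zero, mul_pow]
      have e3 := mul_le_mul_of_nonneg_left hr (sq_nonneg (ct G θ S E ω (tm ω e) v e.1))
      have e5 : 0 ≤ (ct G θ S E ω (tm ω e) v e.1) ^ 2 * (st ω e) ^ 2 := by positivity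
      have e6 : 0 ≤ (st ω e) ^ 2 := by positivity
      nlinarith [mul_nonneg e6 hq1]
  · by_cases he' : e ∈ E'
    · have hx : e.1 ∉ S := fun hc => he (h2 e he' hc)
      rw [ct_of_not_mem G S hθ E ω _ v hx]
      have e3 := mul_le_mul_of_nonneg_left hr' (sq_nonneg (ct G θ' S' E' ω (tm ω e) v e.1))
      have e5 : 0 ≤ (ct G θ' S' E' ω (tm ω e) v e.1) ^ 2 * (st ω e) ^ 2 := by positivity
      nlinarith
    · rw [rj_of_not_mem G S he, rj_of_not_mem G S' he']
      have e6 : 0 ≤ (st ω e) ^ 2 := by positivity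
      have e7 : 0 ≤ (ct G θ S E ω (tm ω e) v e.1 - ct G θ' S' E' ω (tm ω e) v e.1) ^ 2 := by
        positivity
      nlinarith [mul_nonneg e6 hq1, mul_nonneg e6 e7]

/-! ### the clock lemma -/

lemma clk_update_same (ω : Om V) (e : Ev V) (p : unitInterval × unitInterval) :
    clk (Function.update ω e p) e = p.1 := by unfold clk; rw [Function.update_self]

lemma tm_update_same (ω : Om V) (e : Ev V) (p : unitInterval × unitInterval) :
    tm (Function.update ω e p) e = (e.2 : ℝ) + p.1 := by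
  unfold tm; rw [clk_update_same]

lemma volume_half : (volume : Measure (unitInterval × unitInterval))
    {p | (1:ℝ) / 2 ≤ (p.1 : ℝ)} = 1 / 2 := by
  have h : {p : unitInterval × unitInterval | (1:ℝ) / 2 ≤ (p.1 : ℝ)}
      = (Set.Ici ⟨1 / 2, by norm_num, by norm_num⟩ : Set unitInterval) ×ˢ Set.univ := by
    ext p
    simp only [Set.mem_ofPred_eq, Set.mem_prod, Set.mem_Ici, Set.mem_univ, and_true]
    rfl
  rw [h, Measure.volume_eq_prod, Measure.prod_prod, measure_univ, mul_one, unitInterval.volume_Ici]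
  simp only
  rw [show (1:ℝ) - 1 / 2 = 1 / 2 by norm_num, ENNReal.ofReal_div_of_pos (by norm_num)]
  simp

/-- half of the time the event is inactive -/
lemma lintegral_le_two_mul (e : Ev V) (q qe : Om V → ℝ≥0∞) (hqe : Measurable qe)
    (h2 : ∀ ω, st ω e = 0 → q ω = qe ω)
    (h3 : ∀ ω p, qe (Function.update ω e p) = qe ω) :
    ∫⁻ ω, qe ω ∂(PP V) ≤ 2 * ∫⁻ ω, q ω ∂(PP V) := by
  have hmp := mp_update (V := V) e
  have hset : MeasurableSet {ω : Om V | (1:ℝ) / 2 ≤ clk ω e} :=
    measurableSet_le measurable_const (measurable_clk e)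
  have hset' : MeasurableSet {p : unitInterval × unitInterval | (1:ℝ) / 2 ≤ (p.1 : ℝ)} :=
    measurableSet_le measurable_const (measurable_subtype_coe.comp measurable_fst)
  have h4 : ∫⁻ ω, Set.indicator {ω : Om V | (1:ℝ) / 2 ≤ clk ω e} qe ω ∂(PP V)
      = (1 / 2) * ∫⁻ ω, qe ω ∂(PP V) := by
    have hcomp : Measurable (fun a : Om V × (unitInterval × unitInterval) =>
        Set.indicator {ω : Om V | (1:ℝ) / 2 ≤ clk ω e} qe (Function.update a.1 e a.2)) :=
      (hqe.indicator hset).comp hmp.measurable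
    rw [← hmp.lintegral_comp (hqe.indicator hset), lintegral_prod _ hcomp.aemeasurable]
    rw [← lintegral_const_mul _ hqe]
    refine lintegral_congr fun ω => ?_
    have h5 : ∀ p : unitInterval × unitInterval,
        Set.indicator {ω : Om V | (1:ℝ) / 2 ≤ clk ω e} qe (Function.update ω e p)
        = Set.indicator {p : unitInterval × unitInterval | (1:ℝ) / 2 ≤ (p.1 : ℝ)}
          (fun _ => qe ω) p := by
      intro p
      by_cases hp : (1:ℝ) / 2 ≤ (p.1 : ℝ)
      · rw [Set.indicator_of_mem, Set.indicator_of_mem, h3]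
        · exact hp
        · show (1:ℝ) / 2 ≤ clk (Function.update ω e p) e
          rw [clk_update_same]; exact hp
      · rw [Set.indicator_of_notMem, Set.indicator_of_notMem]
        · exact hp
        · show ¬ ((1:ℝ) / 2 ≤ clk (Function.update ω e p) e)
          rw [clk_update_same]; exact hp
    simp only [h5]
    rw [lintegral_indicator_const hset', volume_half, mul_comm]
  have h5 : ∫⁻ ω, Set.indicator {ω : Om V | (1:ℝ) / 2 ≤ clk ω e} qe ω ∂(PP V)
      ≤ ∫⁻ ω, q ω ∂(PP V) := by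
    refine lintegral_mono fun ω => ?_
    by_cases hω : (1:ℝ) / 2 ≤ clk ω e
    · rw [Set.indicator_of_mem (by exact hω), h2 ω (st_zero_of_clk hω)]
    · rw [Set.indicator_of_notMem (by exact hω)]; exact zero_le
  rw [h4] at h5
  calc ∫⁻ ω, qe ω ∂(PP V) = 2 * ((1 / 2) * ∫⁻ ω, qe ω ∂(PP V)) := by
        rw [← mul_assoc, ENNReal.mul_div_cancel (by norm_num) (by norm_num), one_mul]
    _ ≤ 2 * ∫⁻ ω, q ω ∂(PP V) := by gcongr

/-- **clock lemma** -/
theorem clock_lemma (e : Ev V) (q qe : Om V → ℝ → ℝ≥0∞) (hq : Measurable (Function.uncurry q))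
    (hqe : Measurable (Function.uncurry qe))
    (h1 : ∀ ω, q ω (tm ω e) = qe ω (tm ω e))
    (h2 : ∀ ω r, st ω e = 0 → q ω r = qe ω r)
    (h3 : ∀ ω p r, qe (Function.update ω e p) r = qe ω r) (s t : ℝ) :
    ∫⁻ ω, (if s ≤ tm ω e ∧ tm ω e < t then q ω (tm ω e) else 0) ∂(PP V)
      ≤ 2 * ∫⁻ r in Set.Icc s t, ∫⁻ ω, q ω r ∂(PP V) := by
  have hmp := mp_update (V := V) e
  have hqtm : Measurable fun ω : Om V => q ω (tm ω e) := by
    have := hq.comp (measurable_pair_tm e)
    exact this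
  have hF : Measurable fun ω : Om V => if s ≤ tm ω e ∧ tm ω e < t then q ω (tm ω e) else 0 := by
    refine Measurable.ite ?_ hqtm measurable_const
    exact (measurableSet_le measurable_const (measurable_tm e)).inter
      (measurableSet_lt (measurable_tm e) measurable_const)
  have hcomp : Measurable (fun a : Om V × (unitInterval × unitInterval) =>
      if s ≤ tm (Function.update a.1 e a.2) e ∧ tm (Function.update a.1 e a.2) e < t
        then q (Function.update a.1 e a.2) (tm (Function.update a.1 e a.2) e) else 0) :=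
    hF.comp hmp.measurable
  rw [← hmp.lintegral_comp hF, lintegral_prod_symm _ hcomp.aemeasurable]
  -- the inner integral as a function of the clock
  set Q : ℝ → ℝ≥0∞ := fun r => if s ≤ r ∧ r < t then ∫⁻ ω, qe ω r ∂(PP V) else 0 with hQ
  have hqe' : Measurable fun r : ℝ => ∫⁻ ω, qe ω r ∂(PP V) := hqe.lintegral_prod_left'
  have hQm : Measurable Q := by
    refine Measurable.ite ?_ hqe' measurable_const
    exact (measurableSet_le measurable_const measurable_id).inter
      (measurableSet_lt measurable_id measurable_const)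
  have hin : ∀ p : unitInterval × unitInterval,
      ∫⁻ ω, (if s ≤ tm (Function.update ω e p) e ∧ tm (Function.update ω e p) e < t
        then q (Function.update ω e p) (tm (Function.update ω e p) e) else 0) ∂(PP V)
      = Q ((e.2 : ℝ) + p.1) := by
    intro p
    have hp : ∀ ω : Om V, q (Function.update ω e p) (tm (Function.update ω e p) e)
        = qe ω ((e.2 : ℝ) + p.1) := fun ω => by rw [h1, h3, tm_update_same]
    simp only [hp]
    simp only [tm_update_same, hQ]
    split_ifs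
    · rfl
    · rw [lintegral_zero]
  simp only [hin]
  rw [Measure.volume_eq_prod, lintegral_prod _ (by fun_prop)]
  simp only [lintegral_const, measure_univ, mul_one]
  have hm := unitInterval.measurePreserving_coe
  have he := unitInterval.measurableEmbedding_coe
  have e1 : ∫⁻ u : unitInterval, Q ((e.2 : ℝ) + (u : ℝ)) = ∫⁻ u in Set.Icc (0:ℝ) 1, Q ((e.2 : ℝ) + u) := by
    rw [← hm.lintegral_comp_emb he (fun u => Q ((e.2 : ℝ) + u))]
  rw [e1]
  calc ∫⁻ u in Set.Icc (0:ℝ) 1, Q ((e.2 : ℝ) + u) ≤ ∫⁻ u, Q ((e.2 : ℝ) + u) :=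
        setLIntegral_le_lintegral _ _
    _ = ∫⁻ r, Q r := lintegral_add_left_eq_self _ _
    _ ≤ ∫⁻ r, Set.indicator (Set.Icc s t) (fun r => 2 * ∫⁻ ω, q ω r ∂(PP V)) r := by
        refine lintegral_mono fun r => ?_
        simp only [hQ]
        split_ifs with hr
        · have hr' : r ∈ Set.Icc s t := ⟨hr.1, hr.2.le⟩
          rw [Set.indicator_of_mem hr']
          exact lintegral_le_two_mul e (fun ω => q ω r) (fun ω => qe ω r)
            (hqe.comp (measurable_pair_const r)) (fun ω => h2 ω r) (fun ω p => h3 ω p r)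
        · exact zero_le
    _ = ∫⁻ r in Set.Icc s t, 2 * ∫⁻ ω, q ω r ∂(PP V) := lintegral_indicator measurableSet_Icc _
    _ = 2 * ∫⁻ r in Set.Icc s t, ∫⁻ ω, q ω r ∂(PP V) := by
        have hq' : Measurable fun r : ℝ => ∫⁻ ω, q ω r ∂(PP V) := hq.lintegral_prod_left'
        rw [lintegral_const_mul _ hq']

end Crest.Agent.R160
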