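import Mathlib
import Crest.Agent.R160.Clock

/-! Row 160: the increment inequality (C5) in sup form. -/

set_option autoImplicit false
set_option linter.unusedSectionVars false

open MeasureTheory Finset
open scoped Classical ENNReal

namespace Crest.Agent.R160

variable {V : Type*} (G : SimpleGraph V) {θ θ' : ℝ} (S S' : Finset V)

lemma ct_congr_of_mnt {G : SimpleGraph V} {θ : ℝ} {S : Finset V} {E E' : Finset (Ev V)}
    {ω ω' : Om V} {r : ℝ}
    (h : ∀ f : Finset V → ℝ, mnt G θ S E ω r f = mnt G θ S E' ω' r f) (v x : V) :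
    ct G θ S E ω r v x = ct G θ S E' ω' r v x := by
  rw [ct_eq_mnt, ct_eq_mnt, h, h, h]

lemma qq_congr {G : SimpleGraph V} {θ θ' : ℝ} {S S' : Finset V} {E E' F F' : Finset (Ev V)}
    {ω ω' : Om V} {r : ℝ}
    (h : ∀ f : Finset V → ℝ, mnt G θ S E ω r f = mnt G θ S F ω' r f)
    (h' : ∀ f : Finset V → ℝ, mnt G θ' S' E' ω r f = mnt G θ' S' F' ω' r f) (v x : V) :
    qq G θ S E θ' S' E' v x ω r = qq G θ S F θ' S' F' v x ω' r := by
  unfold qq
  rw [ct_congr_of_mnt h, ct_congr_of_mnt h', mt_eq_mnt, mt_eq_mnt, h, h', ← mt_eq_mnt, ← mt_eq_mnt]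

lemma measurable_qq_joint (G : SimpleGraph V) (θ : ℝ) (S : Finset V) (E : Finset (Ev V)) (θ' : ℝ)
    (S' : Finset V) (E' : Finset (Ev V)) (v x : V) :
    Measurable fun p : Om V × ℝ => qq G θ S E θ' S' E' v x p.1 p.2 := by
  unfold qq
  have h1 := measurable_ct_joint G θ S E v x
  have h2 := measurable_ct_joint G θ' S' E' v x
  have h3 := measurable_mt_joint G θ S E x
  have h4 := measurable_mt_joint G θ' S' E' x
  exact ((h1.sub h2).pow_const 2).add ((h1.pow_const 2).mul ((h3.sub h4).pow_const 2))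

lemma qq_le (hθ : |θ| < 1) (hθ' : |θ'| < 1) (E E' : Finset (Ev V)) (v x : V) (ω : Om V) (r : ℝ) :
    qq G θ S E θ' S' E' v x ω r ≤ 32 := by
  have h1 := abs_ct_le G S hθ E ω r v x
  have h2 := abs_ct_le G S' hθ' E' ω r v x
  have h3 := abs_mt_le G S hθ E ω r x
  have h4 := abs_mt_le G S' hθ' E' ω r x
  unfold qq
  have e1 : |ct G θ S E ω r v x - ct G θ' S' E' ω r v x| ≤ 4 := (abs_sub _ _).trans (by linarith)
  have e2 : |mt G θ S E ω r x - mt G θ' S' E' ω r x| ≤ 2 := (abs_sub _ _).trans (by linarith)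
  have e3 := pow_le_pow_left₀ (abs_nonneg _) e1 2
  have e4 := pow_le_pow_left₀ (abs_nonneg _) e2 2
  have e5 := pow_le_pow_left₀ (abs_nonneg _) h1 2
  rw [sq_abs] at e3 e4 e5
  nlinarith [sq_nonneg (ct G θ S E ω r v x), sq_nonneg (mt G θ S E ω r x - mt G θ' S' E' ω r x)]

/-- clock lemma for `qq` -/
lemma clock_qq (hθ : |θ| < 1) (hθ' : |θ'| < 1) (E E' : Finset (Ev V)) (v x : V) (e : Ev V)
    (s t : ℝ) :
    ∫⁻ ω, (if s ≤ tm ω e ∧ tm ω e < t
        then ENNReal.ofReal (qq G θ S E θ' S' E' v x ω (tm ω e)) else 0) ∂(PP V)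
      ≤ 2 * ∫⁻ r in Set.Icc s t, ∫⁻ ω, ENNReal.ofReal (qq G θ S E θ' S' E' v x ω r) ∂(PP V) := by
  refine clock_lemma e (fun ω r => ENNReal.ofReal (qq G θ S E θ' S' E' v x ω r))
    (fun ω r => ENNReal.ofReal (qq G θ S (E.erase e) θ' S' (E'.erase e) v x ω r)) ?_ ?_ ?_ ?_ ?_ s t
  · exact (measurable_qq_joint G θ S E θ' S' E' v x).ennreal_ofReal
  · exact (measurable_qq_joint G θ S (E.erase e) θ' S' (E'.erase e) v x).ennreal_ofReal
  · intro ω
    congr 1
    exact qq_congr (fun f => (mnt_erase_of_le G θ S le_rfl f).symm)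
      (fun f => (mnt_erase_of_le G θ' S' le_rfl f).symm) v x
  · intro ω r h
    congr 1
    exact qq_congr (fun f => (mnt_erase_of_inactive G S hθ h r f).symm)
      (fun f => (mnt_erase_of_inactive G S' hθ' h r f).symm) v x
  · intro ω p r
    congr 1
    refine qq_congr (fun f => ?_) (fun f => ?_) v x
    · exact mnt_congr_noise G θ S (fun e' he' => Function.update_of_ne (Finset.ne_of_mem_erase he') _ _)
        r f
    · exact mnt_congr_noise G θ' S' (fun e' he' => Function.update_of_ne (Finset.ne_of_mem_erase he') _ _)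
        r f

/-- in a window inside the first half of round `k` only round `k` events are active -/
lemma round_of_window {ω : Om V} {e : Ev V} {k : ℕ} {s t : ℝ} (hs : (k : ℝ) ≤ s)
    (ht : t ≤ k + 1 / 2) (h : s ≤ tm ω e ∧ tm ω e < t) (hne : e.2 ≠ k) : st ω e = 0 := by
  obtain ⟨h1, h2⟩ := h
  have hc := clk_mem ω e
  unfold tm at h1 h2
  rcases Nat.lt_or_gt_of_ne hne with h | h
  · -- `e.2 < k`: the clock is `1`
    have : ((e.2 : ℕ) : ℝ) + 1 ≤ k := by exact_mod_cast h
    exact st_zero_of_clk (by linarith)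
  · have : (k : ℝ) + 1 ≤ (e.2 : ℕ) := by exact_mod_cast h
    linarith

lemma st_le_of_window {ω : Om V} {e : Ev V} {k : ℕ} {s t : ℝ}
    (h : s ≤ tm ω e ∧ tm ω e < t) (he : e.2 = k) :
    st ω e ≤ (if k = 0 then t / 2 else 1 / 2) := by
  obtain ⟨h1, h2⟩ := h
  have hc := clk_mem ω e
  unfold tm at h1 h2
  unfold st str
  rw [he] at h2 ⊢
  by_cases hk : k = 0
  · subst hk
    simp only [if_true]
    push_cast at h2
    split_ifs <;> linarith
  · simp only [if_neg hk]
    split_ifs <;> norm_num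

/-- **(C5), the increment inequality in sup form** -/
theorem incr_sup (hθ : |θ| < 1) (hθ' : |θ'| < 1) (R : ℕ) (v : V) (k : ℕ) {s t : ℝ}
    (hs : (k : ℝ) ≤ s) (hst : s ≤ t) (ht : t ≤ k + 1 / 2) (B : ℝ)
    (hB : ∀ r, s ≤ r → r ≤ t → ∑ w ∈ S ∪ S',
      ∫ ω, qq G θ S (evs S R) θ' S' (evs S' R) v w ω r ∂(PP V) ≤ B) :
    ∫ ω, (mt G θ S (evs S R) ω t v - mt G θ' S' (evs S' R) ω t v) ^ 2 ∂(PP V)
      ≤ ∫ ω, (mt G θ S (evs S R) ω s v - mt G θ' S' (evs S' R) ω s v) ^ 2 ∂(PP V)
        + 100 * (if k = 0 then t / 2 else 1 / 2) ^ 2 * (t - s) * B := by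
  set E := evs S R with hE
  set E' := evs S' R with hE'
  set a : ℝ := if k = 0 then t / 2 else 1 / 2 with ha
  have hk0 : (0:ℝ) ≤ k := Nat.cast_nonneg k
  have ha0 : 0 ≤ a := by
    rw [ha]; split_ifs
    · linarith
    · norm_num
  have hB0 : 0 ≤ B := by
    refine le_trans (Finset.sum_nonneg fun w _ => ?_) (hB s le_rfl hst)
    exact integral_nonneg fun ω => qq_nonneg G S S' E E' v w ω s
  have h1 : ∀ e ∈ E, e.1 ∈ S' → e ∈ E' := by
    intro e he hx
    rw [hE] at he
    rw [hE']
    unfold evs at he ⊢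
    rw [Finset.mem_product] at he ⊢
    exact ⟨hx, he.2⟩
  have h2 : ∀ e ∈ E', e.1 ∈ S → e ∈ E := by
    intro e he hx
    rw [hE'] at he
    rw [hE]
    unfold evs at he ⊢
    rw [Finset.mem_product] at he ⊢
    exact ⟨hx, he.2⟩
  have hf : ∀ A : Finset V, |sg A v| ≤ 1 := fun A => (abs_sg A v).le
  -- the energy identity
  have hen := energy G S S' hθ hθ' E E' hst hf hf
  have hen' : ∫ ω, (mt G θ S E ω t v - mt G θ' S' E' ω t v) ^ 2 ∂(PP V)
      = ∫ ω, (mt G θ S E ω s v - mt G θ' S' E' ω s v) ^ 2 ∂(PP V)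
        + ∑ e ∈ E ∪ E', ∫ ω, (wj G θ S E θ' S' E' s t (fun A => sg A v) (fun A => sg A v) e ω) ^ 2
          ∂(PP V) := hen
  rw [hen']
  refine add_le_add le_rfl ?_
  -- window integrals
  set I : V → ℝ := fun x => ∫ ω, (if s ≤ tm ω (x, k) ∧ tm ω (x, k) < t
        then qq G θ S E θ' S' E' v x ω (tm ω (x, k)) else 0) ∂(PP V) with hI
  have hIm : ∀ x, Measurable fun ω : Om V => (if s ≤ tm ω (x, k) ∧ tm ω (x, k) < t
        then qq G θ S E θ' S' E' v x ω (tm ω (x, k)) else 0) := by
    intro x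
    have hqm : Measurable fun ω : Om V => qq G θ S E θ' S' E' v x ω (tm ω (x, k)) := by
      have := (measurable_qq_joint G θ S E θ' S' E' v x).comp (measurable_pair_tm (x, k))
      exact this
    exact measurable_window hqm (x, k) s t
  have hIi : ∀ x, Integrable (fun ω : Om V => (if s ≤ tm ω (x, k) ∧ tm ω (x, k) < t
        then qq G θ S E θ' S' E' v x ω (tm ω (x, k)) else 0)) (PP V) := by
    intro x
    refine intg_of_bdd (hIm x) (C := 32) fun ω => ?_
    refine abs_window_le ?_ _
    rw [abs_of_nonneg (qq_nonneg G S S' E E' v x ω _)]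
    exact qq_le G S S' hθ hθ' E E' v x ω _
  -- each event
  have hev : ∀ e ∈ E ∪ E', ∫ ω, (wj G θ S E θ' S' E' s t (fun A => sg A v) (fun A => sg A v) e ω) ^ 2
      ∂(PP V) ≤ if e.2 = k then 32 * a ^ 2 * I e.1 else 0 := by
    intro e _
    by_cases hek : e.2 = k
    · rw [if_pos hek]
      have hee : e = (e.1, k) := by rw [← hek]
      rw [hI]
      beta_reduce
      rw [← integral_const_mul]
      refine integral_mono ?_ ((hIi e.1).const_mul _) fun ω => ?_
      · refine intg_of_bdd ((measurable_wj _ _ _ _ _ _ _ _ _ _ _ e).pow_const 2)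
          (C := 4 ^ 2) fun ω => ?_
        rw [abs_pow]
        refine pow_le_pow_left₀ (abs_nonneg _) ?_ 2
        unfold wj
        refine abs_window_le ?_ _
        have := abs_dj_le G S S' hθ hθ' E E' ω e hf hf
        linarith
      · beta_reduce
        rw [← hee]
        unfold wj
        by_cases hw : s ≤ tm ω e ∧ tm ω e < t
        · rw [if_pos hw, if_pos hw]
          refine (dj_sq_le G S S' hθ hθ' h1 h2 v ω e).trans ?_
          have h3 := st_le_of_window hw hek
          have h4 := st_nonneg ω e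
          have h5 : (st ω e) ^ 2 ≤ a ^ 2 := pow_le_pow_left₀ h4 h3 2
          have h6 := qq_nonneg (θ := θ) (θ' := θ') G S S' E E' v e.1 ω (tm ω e)
          gcongr
        · rw [if_neg hw, if_neg hw]
          norm_num
    · rw [if_neg hek]
      have : ∀ ω : Om V, (wj G θ S E θ' S' E' s t (fun A => sg A v) (fun A => sg A v) e ω) ^ 2 = 0 := by
        intro ω
        unfold wj
        by_cases hw : s ≤ tm ω e ∧ tm ω e < t
        · rw [if_pos hw]
          have h3 := dj_sq_le (θ := θ) (θ' := θ') G S S' hθ hθ' h1 h2 v ω e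
          rw [round_of_window hs ht hw hek] at h3
          have h4 := sq_nonneg (dj G θ S E θ' S' E' ω e (fun A => sg A v) (fun A => sg A v))
          have h5 : 32 * (0:ℝ) ^ 2 * qq G θ S E θ' S' E' v e.1 ω (tm ω e) = 0 := by ring
          rw [h5] at h3
          exact le_antisymm h3 h4
        · rw [if_neg hw]; norm_num
      simp only [this, integral_zero, le_refl]
  have hI0 : ∀ x, 0 ≤ I x := fun x => integral_nonneg fun ω => by
    beta_reduce
    split_ifs
    · exact qq_nonneg G S S' E E' v x ω _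
    · exact le_rfl
  have hsum1 : ∑ e ∈ E ∪ E', (if e.2 = k then 32 * a ^ 2 * I e.1 else 0)
      ≤ ∑ x ∈ S ∪ S', 32 * a ^ 2 * I x := by
    rw [← Finset.sum_filter]
    have hinj : Set.InjOn (fun e : Ev V => e.1) ((E ∪ E').filter fun e => e.2 = k) := by
      intro e he e' he' h
      have h1 := (Finset.mem_filter.mp (Finset.mem_coe.mp he)).2
      have h2 := (Finset.mem_filter.mp (Finset.mem_coe.mp he')).2
      exact Prod.ext h (h1.trans h2.symm)
    rw [← Finset.sum_image (f := fun x => 32 * a ^ 2 * I x) hinj]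
    refine Finset.sum_le_sum_of_subset_of_nonneg ?_ fun x _ _ =>
      mul_nonneg (by positivity) (hI0 x)
    intro x hx
    rw [Finset.mem_image] at hx
    obtain ⟨e, he, rfl⟩ := hx
    have h3 := (Finset.mem_filter.mp he).1
    rw [Finset.mem_union] at h3 ⊢
    rcases h3 with h3 | h3
    · left
      rw [hE] at h3
      unfold evs at h3
      exact (Finset.mem_product.mp h3).1
    · right
      rw [hE'] at h3
      unfold evs at h3
      exact (Finset.mem_product.mp h3).1
  -- the clock lemma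
  have hsum2 : ∑ x ∈ S ∪ S', I x ≤ 2 * (B * (t - s)) := by
    have hnn : ∀ x, 0 ≤ᵐ[PP V] fun ω : Om V => (if s ≤ tm ω (x, k) ∧ tm ω (x, k) < t
        then qq G θ S E θ' S' E' v x ω (tm ω (x, k)) else 0) := fun x =>
      Filter.Eventually.of_forall fun ω => by
        beta_reduce
        split_ifs
        · exact qq_nonneg G S S' E E' v x ω _
        · exact le_rfl
    have e1 : ∀ x, ENNReal.ofReal (I x)
        = ∫⁻ ω, (if s ≤ tm ω (x, k) ∧ tm ω (x, k) < t
        then ENNReal.ofReal (qq G θ S E θ' S' E' v x ω (tm ω (x, k))) else 0) ∂(PP V) := by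
      intro x
      rw [hI]
      beta_reduce
      rw [ofReal_integral_eq_lintegral_ofReal (hIi x) (hnn x)]
      refine lintegral_congr fun ω => ?_
      split_ifs
      · rfl
      · exact ENNReal.ofReal_zero
    have e2 : ENNReal.ofReal (∑ x ∈ S ∪ S', I x) ≤ ENNReal.ofReal (2 * (B * (t - s))) := by
      rw [ENNReal.ofReal_sum_of_nonneg fun x _ => hI0 x]
      calc ∑ x ∈ S ∪ S', ENNReal.ofReal (I x)
          ≤ ∑ x ∈ S ∪ S', 2 * ∫⁻ r in Set.Icc s t, ∫⁻ ω,
              ENNReal.ofReal (qq G θ S E θ' S' E' v x ω r) ∂(PP V) := by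
            refine Finset.sum_le_sum fun x _ => ?_
            rw [e1 x]
            exact clock_qq G S S' hθ hθ' E E' v x (x, k) s t
        _ = 2 * ∫⁻ r in Set.Icc s t, ∑ x ∈ S ∪ S', ∫⁻ ω,
              ENNReal.ofReal (qq G θ S E θ' S' E' v x ω r) ∂(PP V) := by
            rw [← Finset.mul_sum, lintegral_finsetSum]
            intro x _
            have := (measurable_qq_joint G θ S E θ' S' E' v x).ennreal_ofReal
            exact this.lintegral_prod_left'
        _ ≤ 2 * ∫⁻ r in Set.Icc s t, ENNReal.ofReal B := by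
            gcongr 2 * ?_
            refine setLIntegral_mono measurable_const fun r hr => ?_
            refine le_trans (le_of_eq ?_) (ENNReal.ofReal_le_ofReal (hB r hr.1 hr.2))
            rw [ENNReal.ofReal_sum_of_nonneg fun x _ => integral_nonneg fun ω =>
              qq_nonneg G S S' E E' v x ω r]
            refine Finset.sum_congr rfl fun x _ => ?_
            rw [ofReal_integral_eq_lintegral_ofReal]
            · refine intg_of_bdd (C := 32) ?_ fun ω => ?_
              · have := (measurable_qq_joint G θ S E θ' S' E' v x).comp (measurable_pair_const r)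
                exact this
              · rw [abs_of_nonneg (qq_nonneg G S S' E E' v x ω _)]
                exact qq_le G S S' hθ hθ' E E' v x ω _
            · exact Filter.Eventually.of_forall fun ω => qq_nonneg G S S' E E' v x ω r
        _ = ENNReal.ofReal (2 * (B * (t - s))) := by
            rw [setLIntegral_const, Real.volume_Icc, ENNReal.ofReal_mul (by norm_num),
              ENNReal.ofReal_mul hB0]
            norm_num
    have h5 : 0 ≤ 2 * (B * (t - s)) := by
      have : 0 ≤ t - s := by linarith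
      positivity
    exact (ENNReal.ofReal_le_ofReal_iff h5).mp e2
  calc ∑ e ∈ E ∪ E', ∫ ω, (wj G θ S E θ' S' E' s t (fun A => sg A v) (fun A => sg A v) e ω) ^ 2
        ∂(PP V) ≤ ∑ e ∈ E ∪ E', (if e.2 = k then 32 * a ^ 2 * I e.1 else 0) := Finset.sum_le_sum hev
    _ ≤ ∑ x ∈ S ∪ S', 32 * a ^ 2 * I x := hsum1
    _ = 32 * a ^ 2 * ∑ x ∈ S ∪ S', I x := by rw [Finset.mul_sum]
    _ ≤ 32 * a ^ 2 * (2 * (B * (t - s))) := by gcongr
    _ ≤ 100 * a ^ 2 * (t - s) * B := by
        have : 0 ≤ a ^ 2 * (t - s) * B := by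
          have : 0 ≤ t - s := by linarith
          positivity
        nlinarith

end Crest.Agent.R160
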