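import Mathlib
import Crest.Agent.R160.Defs

/-!
# Row 160: scalar functions attached to an edge

For two adjacent spins with cavity biases `x` (at `a` away from `b`) and `y` (at `b` away from
`a`) the magnetizations are `ma = (x+θy)/(1+θxy)`, `mb = (y+θx)/(1+θxy)`; everything is expressed
through the pair `(ma, mb)`.

* `Bq θ a b = 1 + θ² - 2θab`, `Dq θ a b = Bq² - 4θ²(1-a²)(1-b²)`, `Rq = √Dq`;
* `lam θ a b = Cov/Var_a = 2θ(1-b²)/(Bq+Rq)`;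
* `gain θ a b` with `lam = θ (1 - gain)`;
* `rr θ a b = 4(1-a²)(1-b²)/(Bq+Rq)²`, the squared normalized correlation.
-/

set_option autoImplicit false

namespace Crest.Agent.R160

open Real

/-! ### Elementary estimates -/

lemma abs_mul_sub_mul_le' {x y x' y' X Y : ℝ} (hx : |x| ≤ X) (hy : |y'| ≤ Y) :
    |x * y - x' * y'| ≤ X * |y - y'| + Y * |x - x'| := by
  have h : x * y - x' * y' = x * (y - y') + y' * (x - x') := by ring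
  rw [h]
  calc |x * (y - y') + y' * (x - x')| ≤ |x * (y - y')| + |y' * (x - x')| := abs_add_le _ _
    _ = |x| * |y - y'| + |y'| * |x - x'| := by rw [abs_mul, abs_mul]
    _ ≤ X * |y - y'| + Y * |x - x'| := by
        gcongr

lemma abs_div_sub_div_le' {p q p' q' P κ : ℝ} (hκ : 0 < κ) (hq : κ ≤ q) (hq' : κ ≤ q')
    (hp : |p'| ≤ P) :
    |p / q - p' / q'| ≤ |p - p'| / κ + P * |q - q'| / κ ^ 2 := by
  have hq0 : 0 < q := lt_of_lt_of_le hκ hq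
  have hq0' : 0 < q' := lt_of_lt_of_le hκ hq'
  have hP : 0 ≤ P := le_trans (abs_nonneg _) hp
  have h : p / q - p' / q' = (p - p') / q + p' * (q' - q) / (q * q') := by
    field_simp; ring
  rw [h]
  calc |(p - p') / q + p' * (q' - q) / (q * q')|
      ≤ |(p - p') / q| + |p' * (q' - q) / (q * q')| := abs_add_le _ _
    _ = |p - p'| / q + |p'| * |q - q'| / (q * q') := by
        rw [abs_div, abs_div, abs_mul, abs_of_pos hq0, abs_of_pos (mul_pos hq0 hq0'),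
          abs_sub_comm q' q]
    _ ≤ |p - p'| / κ + P * |q - q'| / κ ^ 2 := by
        gcongr
        rw [pow_two]
        gcongr

lemma abs_sqrt_sub_sqrt_le' {u v κ : ℝ} (hκ : 0 < κ) (hu : κ ≤ √u) (hv : κ ≤ √v)
    (hu0 : 0 ≤ u) (hv0 : 0 ≤ v) :
    |√u - √v| ≤ |u - v| / (2 * κ) := by
  have h1 : (√u - √v) * (√u + √v) = u - v := by
    nlinarith [Real.sq_sqrt hu0, Real.sq_sqrt hv0]
  have h2 : 0 < √u + √v := by linarith
  rw [le_div_iff₀ (by linarith), ← h1, abs_mul, abs_of_pos h2]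
  have := abs_nonneg (√u - √v)
  nlinarith

/-! ### Definitions -/

/-- `B = 1 + θ² - 2θab`. -/
noncomputable def Bq (θ a b : ℝ) : ℝ := 1 + θ ^ 2 - 2 * θ * a * b

/-- discriminant -/
noncomputable def Dq (θ a b : ℝ) : ℝ := (Bq θ a b) ^ 2 - 4 * θ ^ 2 * (1 - a ^ 2) * (1 - b ^ 2)

/-- root of the discriminant -/
noncomputable def Rq (θ a b : ℝ) : ℝ := √(Dq θ a b)

lemma rho_eq (θ a b : ℝ) : rho θ a b = 2 * (1 - b ^ 2) / (Bq θ a b + Rq θ a b) := rfl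

lemma lam_eq (θ a b : ℝ) : lam θ a b = 2 * θ * (1 - b ^ 2) / (Bq θ a b + Rq θ a b) := by
  unfold lam; rw [rho_eq]; ring

/-- covariance across an edge in terms of the magnetizations. -/
noncomputable def ecov (θ a b : ℝ) : ℝ :=
  2 * θ * ((1 - a ^ 2) * (1 - b ^ 2)) / (Bq θ a b + Rq θ a b)

/-- gain: `lam = θ (1 - gain)`. -/
noncomputable def gain (θ a b : ℝ) : ℝ :=
  2 * (b - θ * a) ^ 2 / (Bq θ a b + Rq θ a b - 2 * θ ^ 2 * (1 - a ^ 2))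

/-- squared normalized correlation divided by `θ²`. -/
noncomputable def rr (θ a b : ℝ) : ℝ :=
  4 * ((1 - a ^ 2) * (1 - b ^ 2)) / (Bq θ a b + Rq θ a b) ^ 2

lemma Bq_comm (θ a b : ℝ) : Bq θ a b = Bq θ b a := by unfold Bq; ring
lemma Dq_comm (θ a b : ℝ) : Dq θ a b = Dq θ b a := by unfold Dq; rw [Bq_comm]; ring
lemma Rq_comm (θ a b : ℝ) : Rq θ a b = Rq θ b a := by unfold Rq; rw [Dq_comm]
lemma ecov_comm (θ a b : ℝ) : ecov θ a b = ecov θ b a := by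
  unfold ecov; rw [Bq_comm, Rq_comm]; ring
lemma rr_comm (θ a b : ℝ) : rr θ a b = rr θ b a := by
  unfold rr; rw [Bq_comm, Rq_comm]; ring

lemma Bq_neg (θ a b : ℝ) : Bq θ (-a) (-b) = Bq θ a b := by unfold Bq; ring
lemma Dq_neg (θ a b : ℝ) : Dq θ (-a) (-b) = Dq θ a b := by unfold Dq; rw [Bq_neg]; ring
lemma Rq_neg (θ a b : ℝ) : Rq θ (-a) (-b) = Rq θ a b := by unfold Rq; rw [Dq_neg]
lemma rho_neg (θ a b : ℝ) : rho θ (-a) (-b) = rho θ a b := by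
  rw [rho_eq, rho_eq, Bq_neg, Rq_neg]; ring
lemma lam_neg (θ a b : ℝ) : lam θ (-a) (-b) = lam θ a b := by
  unfold lam; rw [rho_neg]
lemma gain_neg (θ a b : ℝ) : gain θ (-a) (-b) = gain θ a b := by
  unfold gain; rw [Bq_neg, Rq_neg]; ring
lemma rr_neg (θ a b : ℝ) : rr θ (-a) (-b) = rr θ a b := by
  unfold rr; rw [Bq_neg, Rq_neg]; ring

lemma ecov_eq (θ a b : ℝ) : ecov θ a b = (1 - a ^ 2) * lam θ a b := by
  rw [lam_eq]; unfold ecov; ring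

lemma ecov_eq' (θ a b : ℝ) : ecov θ a b = (1 - b ^ 2) * lam θ b a := by
  rw [ecov_comm, ecov_eq]

/-- reversing one edge. -/
lemma lam_rev (θ a b : ℝ) : (1 - a ^ 2) * lam θ a b = (1 - b ^ 2) * lam θ b a := by
  rw [← ecov_eq, ecov_eq']

lemma rho_rev (θ a b : ℝ) : (1 - a ^ 2) * rho θ a b = (1 - b ^ 2) * rho θ b a := by
  rw [rho_eq, rho_eq, Bq_comm, Rq_comm]; ring

lemma rr_eq (θ a b : ℝ) : rr θ a b = rho θ a b * rho θ b a := by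
  rw [rho_eq, rho_eq, Bq_comm θ b a, Rq_comm θ b a, div_mul_div_comm]; unfold rr; congr 1 <;> ring

lemma Dq_eq (θ a b : ℝ) :
    Dq θ a b = (1 - θ ^ 2) ^ 2 - 4 * θ * (a - θ * b) * (b - θ * a) := by
  unfold Dq Bq; ring

section bounds

variable {θ a b : ℝ}

lemma sq_le_one_of_abs (ha : |a| ≤ 1) : a ^ 2 ≤ 1 := by
  have := abs_le.mp ha
  nlinarith

lemma mul_le_one_of_abs (ha : |a| ≤ 1) (hb : |b| ≤ 1) : a * b ≤ 1 ∧ -1 ≤ a * b := by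
  have h : |a * b| ≤ 1 := by
    rw [abs_mul]; exact mul_le_one₀ ha (abs_nonneg _) hb
  exact ⟨(abs_le.mp h).2, (abs_le.mp h).1⟩

lemma Dq_ge (h0 : 0 ≤ θ) (ha : |a| ≤ 1) (hb : |b| ≤ 1) :
    (1 - θ) ^ 4 ≤ Dq θ a b := by
  obtain ⟨h1, h2⟩ := mul_le_one_of_abs ha hb
  have h3 : Dq θ a b = (1 - θ) ^ 2 * (1 + θ ^ 2 + 2 * θ - 4 * θ * (a * b))
      + 4 * θ ^ 2 * (a - b) ^ 2 := by
    unfold Dq Bq; ring
  rw [h3]
  have h4 : (1 - θ) ^ 2 * (1 - θ) ^ 2 ≤ (1 - θ) ^ 2 * (1 + θ ^ 2 + 2 * θ - 4 * θ * (a * b)) := by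
    apply mul_le_mul_of_nonneg_left _ (sq_nonneg _)
    nlinarith
  nlinarith [sq_nonneg (a - b), sq_nonneg θ, mul_nonneg (sq_nonneg θ) (sq_nonneg (a - b))]

lemma Dq_nonneg (h0 : 0 ≤ θ) (ha : |a| ≤ 1) (hb : |b| ≤ 1) : 0 ≤ Dq θ a b :=
  le_trans (by positivity) (Dq_ge h0 ha hb)

lemma Rq_ge (h0 : 0 ≤ θ) (ha : |a| ≤ 1) (hb : |b| ≤ 1) :
    (1 - θ) ^ 2 ≤ Rq θ a b := by
  apply Real.le_sqrt_of_sq_le
  calc ((1 - θ) ^ 2) ^ 2 = (1 - θ) ^ 4 := by ring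
    _ ≤ _ := Dq_ge h0 ha hb

lemma Rq_nonneg : 0 ≤ Rq θ a b := Real.sqrt_nonneg _

lemma Rq_sq (h0 : 0 ≤ θ) (ha : |a| ≤ 1) (hb : |b| ≤ 1) : Rq θ a b ^ 2 = Dq θ a b :=
  Real.sq_sqrt (Dq_nonneg h0 ha hb)

lemma Bq_ge (h0 : 0 ≤ θ) (ha : |a| ≤ 1) (hb : |b| ≤ 1) : (1 - θ) ^ 2 ≤ Bq θ a b := by
  obtain ⟨h1, h2⟩ := mul_le_one_of_abs ha hb
  unfold Bq; nlinarith

lemma Bq_le (h0 : 0 ≤ θ) (ha : |a| ≤ 1) (hb : |b| ≤ 1) : Bq θ a b ≤ (1 + θ) ^ 2 := by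
  obtain ⟨h1, h2⟩ := mul_le_one_of_abs ha hb
  unfold Bq; nlinarith

lemma Bq_nonneg (h0 : 0 ≤ θ) (ha : |a| ≤ 1) (hb : |b| ≤ 1) : 0 ≤ Bq θ a b :=
  le_trans (sq_nonneg _) (Bq_ge h0 ha hb)

lemma Rq_le (h0 : 0 ≤ θ) (ha : |a| ≤ 1) (hb : |b| ≤ 1) : Rq θ a b ≤ Bq θ a b := by
  apply Real.sqrt_le_iff.mpr
  refine ⟨Bq_nonneg h0 ha hb, ?_⟩
  unfold Dq
  have h1 := sq_le_one_of_abs ha
  have h2 := sq_le_one_of_abs hb
  have : 0 ≤ 4 * θ ^ 2 * (1 - a ^ 2) * (1 - b ^ 2) := by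
    apply mul_nonneg (mul_nonneg (by positivity) (by linarith)) (by linarith)
  linarith

/-- the denominator of `lam` -/
lemma den_ge (h0 : 0 ≤ θ) (ha : |a| ≤ 1) (hb : |b| ≤ 1) :
    2 * (1 - θ) ^ 2 ≤ Bq θ a b + Rq θ a b := by
  linarith [Bq_ge h0 ha hb, Rq_ge h0 ha hb]

lemma den_le (h0 : 0 ≤ θ) (ha : |a| ≤ 1) (hb : |b| ≤ 1) :
    Bq θ a b + Rq θ a b ≤ 2 * (1 + θ) ^ 2 := by
  linarith [Bq_le h0 ha hb, Rq_le h0 ha hb]

lemma den_pos (h0 : 0 ≤ θ) (h1 : θ < 1) (ha : |a| ≤ 1) (hb : |b| ≤ 1) :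
    0 < Bq θ a b + Rq θ a b := by
  have : 0 < 2 * (1 - θ) ^ 2 := by
    have : 0 < 1 - θ := by linarith
    positivity
  linarith [den_ge h0 ha hb]

/-- key identity: `(B+R)(B-R) = 4θ²(1-a²)(1-b²)`. -/
lemma BR_mul (h0 : 0 ≤ θ) (ha : |a| ≤ 1) (hb : |b| ≤ 1) :
    (Bq θ a b + Rq θ a b) * (Bq θ a b - Rq θ a b) = 4 * θ ^ 2 * (1 - a ^ 2) * (1 - b ^ 2) := by
  have := Rq_sq h0 ha hb
  have h2 : Dq θ a b = (Bq θ a b) ^ 2 - 4 * θ ^ 2 * (1 - a ^ 2) * (1 - b ^ 2) := rfl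
  nlinarith

/-- the denominator of `gain`: `Q = R + (1 - θ² - 2θ a (b - θ a))`. -/
lemma gden_eq : Bq θ a b + Rq θ a b - 2 * θ ^ 2 * (1 - a ^ 2)
    = Rq θ a b + (1 - θ ^ 2 - 2 * θ * a * (b - θ * a)) := by
  unfold Bq; ring

lemma gden_ge (h0 : 0 ≤ θ) (h2 : θ ^ 2 ≤ 1 / 2) (ha : |a| ≤ 1) (hb : |b| ≤ 1) :
    (1 - θ) ^ 2 ≤ Bq θ a b + Rq θ a b - 2 * θ ^ 2 * (1 - a ^ 2) := by
  rw [gden_eq]
  have h3 := Rq_ge h0 ha hb
  have h4 : 0 ≤ 1 - θ ^ 2 - 2 * θ * a * (b - θ * a) := by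
    have h5 : θ * a * b ≤ θ * |a| := by
      have : θ * (a * b) ≤ θ * |a| := by
        apply mul_le_mul_of_nonneg_left _ h0
        calc a * b ≤ |a * b| := le_abs_self _
          _ = |a| * |b| := abs_mul _ _
          _ ≤ |a| * 1 := by gcongr
          _ = |a| := mul_one _
      linarith [this, mul_assoc θ a b]
    have h6 : a ^ 2 = |a| ^ 2 := (sq_abs a).symm
    nlinarith [sq_nonneg (2 * θ * |a| - 1)]
  linarith

lemma gden_le (h0 : 0 ≤ θ) (ha : |a| ≤ 1) (hb : |b| ≤ 1) :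
    Bq θ a b + Rq θ a b - 2 * θ ^ 2 * (1 - a ^ 2) ≤ 2 * (1 + θ) ^ 2 := by
  have h1 := sq_le_one_of_abs ha
  have : 0 ≤ 2 * θ ^ 2 * (1 - a ^ 2) := mul_nonneg (by positivity) (by linarith)
  linarith [den_le h0 ha hb]

lemma one_sub_pos (_h0 : 0 ≤ θ) (h2 : θ ^ 2 ≤ 1 / 2) : 7 / 25 ≤ 1 - θ := by
  nlinarith

lemma theta_lt_one (_h0 : 0 ≤ θ) (h2 : θ ^ 2 ≤ 1 / 2) : θ < 1 := by
  nlinarith

lemma one_sub_sq_ge (h0 : 0 ≤ θ) (h2 : θ ^ 2 ≤ 1 / 2) : 7 / 100 ≤ (1 - θ) ^ 2 := by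
  nlinarith [one_sub_pos h0 h2]

/-- `1 - gain` in closed form. -/
lemma one_sub_gain (h0 : 0 ≤ θ) (h2 : θ ^ 2 ≤ 1 / 2) (ha : |a| ≤ 1) (hb : |b| ≤ 1) :
    1 - gain θ a b = rho θ a b := by
  rw [rho_eq]
  have hd := den_pos h0 (theta_lt_one h0 h2) ha hb
  have hg : 0 < Bq θ a b + Rq θ a b - 2 * θ ^ 2 * (1 - a ^ 2) :=
    lt_of_lt_of_le (by linarith [one_sub_sq_ge h0 h2]) (gden_ge h0 h2 ha hb)
  have hR := Rq_sq h0 ha hb
  rw [Dq_eq] at hR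
  unfold gain
  rw [eq_div_iff hd.ne', sub_mul, one_mul, div_mul_eq_mul_div]
  have key : 2 * (b - θ * a) ^ 2 * (Bq θ a b + Rq θ a b)
      = (Bq θ a b + Rq θ a b - 2 * (1 - b ^ 2))
        * (Bq θ a b + Rq θ a b - 2 * θ ^ 2 * (1 - a ^ 2)) := by
    have hB : Bq θ a b = 1 + θ ^ 2 - 2 * θ * a * b := rfl
    rw [hB]
    linear_combination (-1 : ℝ) * hR
  rw [key, mul_div_assoc, div_self hg.ne']
  ring

/-- `lam = θ (1 - gain)`. -/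
lemma lam_eq_gain (h0 : 0 ≤ θ) (h2 : θ ^ 2 ≤ 1 / 2) (ha : |a| ≤ 1) (hb : |b| ≤ 1) :
    lam θ a b = θ * (1 - gain θ a b) := by
  rw [one_sub_gain h0 h2 ha hb]
  rfl

lemma rho_nonneg (h0 : 0 ≤ θ) (h1 : θ < 1) (ha : |a| ≤ 1) (hb : |b| ≤ 1) : 0 ≤ rho θ a b := by
  rw [rho_eq]
  have h1' := sq_le_one_of_abs hb
  exact div_nonneg (by linarith) (den_pos h0 h1 ha hb).le

lemma lam_nonneg (h0 : 0 ≤ θ) (h1 : θ < 1) (ha : |a| ≤ 1) (hb : |b| ≤ 1) : 0 ≤ lam θ a b :=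
  mul_nonneg h0 (rho_nonneg h0 h1 ha hb)

lemma gain_nonneg (h0 : 0 ≤ θ) (h2 : θ ^ 2 ≤ 1 / 2) (ha : |a| ≤ 1) (hb : |b| ≤ 1) :
    0 ≤ gain θ a b := by
  unfold gain
  apply div_nonneg (by positivity)
  linarith [one_sub_sq_ge h0 h2, gden_ge h0 h2 ha hb]

lemma lam_le (h0 : 0 ≤ θ) (h2 : θ ^ 2 ≤ 1 / 2) (ha : |a| ≤ 1) (hb : |b| ≤ 1) :
    lam θ a b ≤ θ := by
  rw [lam_eq_gain h0 h2 ha hb]
  nlinarith [gain_nonneg h0 h2 ha hb]

lemma gain_le_one (h0 : 0 ≤ θ) (h2 : θ ^ 2 ≤ 1 / 2) (ha : |a| ≤ 1) (hb : |b| ≤ 1) :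
    gain θ a b ≤ 1 := by
  have h := one_sub_gain h0 h2 ha hb
  have := rho_nonneg h0 (theta_lt_one h0 h2) ha hb
  linarith

lemma rho_le_one (h0 : 0 ≤ θ) (h2 : θ ^ 2 ≤ 1 / 2) (ha : |a| ≤ 1) (hb : |b| ≤ 1) :
    rho θ a b ≤ 1 := by
  rw [← one_sub_gain h0 h2 ha hb]
  linarith [gain_nonneg h0 h2 ha hb]

/-- lower bound on the gain. -/
lemma gain_ge (h0 : 0 ≤ θ) (h2 : θ ^ 2 ≤ 1 / 2) (ha : |a| ≤ 1) (hb : |b| ≤ 1) :
    (b - θ * a) ^ 2 / 4 ≤ gain θ a b := by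
  unfold gain
  have hg : 0 < Bq θ a b + Rq θ a b - 2 * θ ^ 2 * (1 - a ^ 2) :=
    lt_of_lt_of_le (by linarith [one_sub_sq_ge h0 h2]) (gden_ge h0 h2 ha hb)
  rw [le_div_iff₀ hg]
  have h3 := gden_le h0 ha hb
  have h4 : 2 * (1 + θ) ^ 2 ≤ 8 := by nlinarith
  nlinarith [sq_nonneg (b - θ * a), mul_le_mul_of_nonneg_left (h3.trans h4) (sq_nonneg (b - θ * a))]

lemma gain_le (h0 : 0 ≤ θ) (h2 : θ ^ 2 ≤ 1 / 2) (ha : |a| ≤ 1) (hb : |b| ≤ 1) :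
    gain θ a b ≤ 30 * (b - θ * a) ^ 2 := by
  unfold gain
  have hg0 := gden_ge h0 h2 ha hb
  have hg : 0 < Bq θ a b + Rq θ a b - 2 * θ ^ 2 * (1 - a ^ 2) :=
    lt_of_lt_of_le (by linarith [one_sub_sq_ge h0 h2]) hg0
  rw [div_le_iff₀ hg]
  have h3 : 7 / 100 ≤ Bq θ a b + Rq θ a b - 2 * θ ^ 2 * (1 - a ^ 2) :=
    le_trans (one_sub_sq_ge h0 h2) hg0
  nlinarith [sq_nonneg (b - θ * a), mul_le_mul_of_nonneg_left h3 (sq_nonneg (b - θ * a))]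

end bounds

/-! ### Cavity parametrization -/

section cavity

variable {θ x y : ℝ}

/-- magnetization at an endpoint, given the cavity bias `x` there and the cavity bias `y` at the
other endpoint. -/
noncomputable def mg (θ x y : ℝ) : ℝ := (x + θ * y) / (1 + θ * x * y)

lemma cav_den_pos (h0 : 0 ≤ θ) (h1 : θ < 1) (hx : |x| ≤ 1) (hy : |y| ≤ 1) :
    0 < 1 + θ * x * y := by
  obtain ⟨h2, h3⟩ := mul_le_one_of_abs hx hy
  nlinarith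

lemma cav_den_pos' (h0 : 0 ≤ θ) (h1 : θ < 1) (hx : |x| ≤ 1) (hy : |y| ≤ 1) :
    0 < 1 - θ * x * y := by
  obtain ⟨h2, h3⟩ := mul_le_one_of_abs hx hy
  nlinarith

lemma one_sub_mg_sq (h0 : 0 ≤ θ) (h1 : θ < 1) (hx : |x| ≤ 1) (hy : |y| ≤ 1) :
    1 - mg θ x y ^ 2 = (1 - x ^ 2) * (1 - θ ^ 2 * y ^ 2) / (1 + θ * x * y) ^ 2 := by
  have h := cav_den_pos h0 h1 hx hy
  unfold mg
  rw [div_pow, eq_div_iff (by positivity), sub_mul, div_mul_cancel₀ _ (by positivity)]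
  ring

lemma theta_sq_mul_le (h0 : 0 ≤ θ) (h1 : θ < 1) (hy : |y| ≤ 1) : 0 < 1 - θ ^ 2 * y ^ 2 := by
  have := sq_le_one_of_abs hy
  have h2 : θ ^ 2 < 1 := by nlinarith
  nlinarith [sq_nonneg θ, sq_nonneg y]

lemma abs_mg_le (h0 : 0 ≤ θ) (h1 : θ < 1) (hx : |x| ≤ 1) (hy : |y| ≤ 1) : |mg θ x y| ≤ 1 := by
  have h := cav_den_pos h0 h1 hx hy
  have h3 := theta_sq_mul_le h0 h1 hy
  have h4 := sq_le_one_of_abs hx
  have h5 : 0 ≤ 1 - mg θ x y ^ 2 := by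
    rw [one_sub_mg_sq h0 h1 hx hy]
    exact div_nonneg (mul_nonneg (by linarith) h3.le) (by positivity)
  rw [← sq_le_one_iff_abs_le_one]
  linarith

lemma Dq_mg (h0 : 0 ≤ θ) (h1 : θ < 1) (hx : |x| ≤ 1) (hy : |y| ≤ 1) :
    Dq θ (mg θ x y) (mg θ y x) = ((1 - θ ^ 2) * (1 - θ * x * y) / (1 + θ * x * y)) ^ 2 := by
  have h := (cav_den_pos h0 h1 hx hy).ne'
  have e : 1 + θ * y * x = 1 + θ * x * y := by ring
  rw [Dq_eq]
  unfold mg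
  rw [e]
  field_simp
  ring

lemma Rq_mg (h0 : 0 ≤ θ) (h1 : θ < 1) (hx : |x| ≤ 1) (hy : |y| ≤ 1) :
    Rq θ (mg θ x y) (mg θ y x) = (1 - θ ^ 2) * (1 - θ * x * y) / (1 + θ * x * y) := by
  have h := cav_den_pos h0 h1 hx hy
  have h' := cav_den_pos' h0 h1 hx hy
  have hθ : 0 ≤ 1 - θ ^ 2 := by nlinarith
  unfold Rq
  rw [Dq_mg h0 h1 hx hy]
  exact Real.sqrt_sq (div_nonneg (mul_nonneg hθ h'.le) h.le)

lemma den_mg (h0 : 0 ≤ θ) (h1 : θ < 1) (hx : |x| ≤ 1) (hy : |y| ≤ 1) :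
    Bq θ (mg θ x y) (mg θ y x) + Rq θ (mg θ x y) (mg θ y x)
      = 2 * (1 - θ ^ 2 * x ^ 2) * (1 - θ ^ 2 * y ^ 2) / (1 + θ * x * y) ^ 2 := by
  have h := (cav_den_pos h0 h1 hx hy).ne'
  have e : 1 + θ * y * x = 1 + θ * x * y := by ring
  rw [Rq_mg h0 h1 hx hy]
  unfold Bq mg
  rw [e]
  field_simp
  ring

/-- normalised slope in terms of the cavity bias at the far end. -/
lemma rho_mg (h0 : 0 ≤ θ) (h1 : θ < 1) (hx : |x| ≤ 1) (hy : |y| ≤ 1) :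
    rho θ (mg θ x y) (mg θ y x) = (1 - y ^ 2) / (1 - θ ^ 2 * y ^ 2) := by
  have h := (cav_den_pos h0 h1 hx hy).ne'
  have hy' := (theta_sq_mul_le h0 h1 hy).ne'
  have hx' := (theta_sq_mul_le h0 h1 hx).ne'
  have e : 1 + θ * y * x = 1 + θ * x * y := by ring
  rw [rho_eq, den_mg h0 h1 hx hy, one_sub_mg_sq h0 h1 hy hx, e]
  rw [div_div_eq_mul_div, div_eq_div_iff (by positivity) hy', mul_div_assoc', div_mul_eq_mul_div,
    div_mul_eq_mul_div, div_eq_iff (by positivity)]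
  ring

/-- slope in terms of the cavity bias at the far end. -/
lemma lam_mg (h0 : 0 ≤ θ) (h1 : θ < 1) (hx : |x| ≤ 1) (hy : |y| ≤ 1) :
    lam θ (mg θ x y) (mg θ y x) = θ * (1 - y ^ 2) / (1 - θ ^ 2 * y ^ 2) := by
  unfold lam; rw [rho_mg h0 h1 hx hy, mul_div_assoc]

lemma one_sub_gain_mg (h0 : 0 ≤ θ) (h2 : θ ^ 2 ≤ 1 / 2) (hx : |x| ≤ 1) (hy : |y| ≤ 1) :
    1 - gain θ (mg θ x y) (mg θ y x) = (1 - y ^ 2) / (1 - θ ^ 2 * y ^ 2) := by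
  have h1 := theta_lt_one h0 h2
  rw [one_sub_gain h0 h2 (abs_mg_le h0 h1 hx hy) (abs_mg_le h0 h1 hy hx), rho_mg h0 h1 hx hy]

lemma gain_mg (h0 : 0 ≤ θ) (h2 : θ ^ 2 ≤ 1 / 2) (hx : |x| ≤ 1) (hy : |y| ≤ 1) :
    gain θ (mg θ x y) (mg θ y x) = (1 - θ ^ 2) * y ^ 2 / (1 - θ ^ 2 * y ^ 2) := by
  have h1 := theta_lt_one h0 h2
  have hy' := (theta_sq_mul_le h0 h1 hy).ne'
  have := one_sub_gain_mg h0 h2 hx hy
  have h3 : gain θ (mg θ x y) (mg θ y x) = 1 - (1 - y ^ 2) / (1 - θ ^ 2 * y ^ 2) := by linarith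
  rw [h3, eq_div_iff hy', sub_mul, div_mul_cancel₀ _ hy']
  ring

/-- the gain dominates half the square of the cavity bias. -/
lemma gain_mg_ge (h0 : 0 ≤ θ) (h2 : θ ^ 2 ≤ 1 / 2) (hx : |x| ≤ 1) (hy : |y| ≤ 1) :
    y ^ 2 / 2 ≤ gain θ (mg θ x y) (mg θ y x) := by
  have h1 := theta_lt_one h0 h2
  have hy' := theta_sq_mul_le h0 h1 hy
  rw [gain_mg h0 h2 hx hy, le_div_iff₀ hy']
  nlinarith [sq_nonneg y, sq_nonneg (θ * y), mul_nonneg (sq_nonneg y) (sq_nonneg (θ * y))]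

lemma sub_mg (h0 : 0 ≤ θ) (h1 : θ < 1) (hx : |x| ≤ 1) (hy : |y| ≤ 1) :
    mg θ y x - θ * mg θ x y = (1 - θ ^ 2) * y / (1 + θ * x * y) := by
  have h := (cav_den_pos h0 h1 hx hy).ne'
  have e : 1 + θ * y * x = 1 + θ * x * y := by ring
  unfold mg
  rw [e]
  field_simp
  ring

/-- covariance across the edge in terms of the two cavity biases. -/
lemma ecov_mg (h0 : 0 ≤ θ) (h1 : θ < 1) (hx : |x| ≤ 1) (hy : |y| ≤ 1) :
    ecov θ (mg θ x y) (mg θ y x)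
      = θ * (1 - x ^ 2) * (1 - y ^ 2) / (1 + θ * x * y) ^ 2 := by
  have h := (cav_den_pos h0 h1 hx hy).ne'
  have hy' := (theta_sq_mul_le h0 h1 hy).ne'
  have hx' := (theta_sq_mul_le h0 h1 hx).ne'
  rw [ecov_eq, lam_mg h0 h1 hx hy, one_sub_mg_sq h0 h1 hx hy]
  field_simp

/-- the same covariance as a difference of moments. -/
lemma ecov_mg' (h0 : 0 ≤ θ) (h1 : θ < 1) (hx : |x| ≤ 1) (hy : |y| ≤ 1) :
    ecov θ (mg θ x y) (mg θ y x)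
      = (θ + x * y) / (1 + θ * x * y) - mg θ x y * mg θ y x := by
  have h := (cav_den_pos h0 h1 hx hy).ne'
  have e : 1 + θ * y * x = 1 + θ * x * y := by ring
  rw [ecov_mg h0 h1 hx hy]
  unfold mg
  rw [e]
  field_simp
  ring

end cavity

/-! ### Lipschitz estimates -/

section lipschitz

variable {θ θ' a b a' b' : ℝ}

lemma sq_sub_sq_abs_le {u v : ℝ} {U : ℝ} (hu : |u| ≤ U) (hv : |v| ≤ U) :
    |u ^ 2 - v ^ 2| ≤ 2 * U * |u - v| := by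
  have h : u ^ 2 - v ^ 2 = u * u - v * v := by ring
  rw [h]
  have := abs_mul_sub_mul_le' (x := u) (y := u) (x' := v) (y' := v) hu hv
  linarith

lemma theta_abs_le (h0 : 0 ≤ θ) (h2 : θ ^ 2 ≤ 1 / 2) : |θ| ≤ 3 / 4 := by
  rw [abs_of_nonneg h0]; nlinarith

lemma Bq_lip (h0 : 0 ≤ θ) (h2 : θ ^ 2 ≤ 1 / 2) (h0' : 0 ≤ θ') (h2' : θ' ^ 2 ≤ 1 / 2)
    (ha : |a| ≤ 1) (_hb : |b| ≤ 1) (ha' : |a'| ≤ 1) (hb' : |b'| ≤ 1) :
    |Bq θ a b - Bq θ' a' b'| ≤ 4 * (|a - a'| + |b - b'| + |θ - θ'|) := by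
  have t1 := theta_abs_le h0 h2
  have t2 := theta_abs_le h0' h2'
  have e : Bq θ a b - Bq θ' a' b' = (θ ^ 2 - θ' ^ 2) - 2 * (θ * (a * b) - θ' * (a' * b')) := by
    unfold Bq; ring
  have h1 := sq_sub_sq_abs_le t1 t2
  have h3 := abs_mul_sub_mul_le' (x := a) (y := b) (x' := a') (y' := b') ha hb'
  have h4 : |a' * b'| ≤ 1 := by
    rw [abs_mul]; exact mul_le_one₀ ha' (abs_nonneg _) hb'
  have h5 := abs_mul_sub_mul_le' (x := θ) (y := a * b) (x' := θ') (y' := a' * b') t1 h4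
  rw [e]
  have h6 := abs_sub (θ ^ 2 - θ' ^ 2) (2 * (θ * (a * b) - θ' * (a' * b')))
  rw [abs_mul 2, abs_of_pos (by norm_num : (0:ℝ) < 2)] at h6
  have := abs_nonneg (a - a'); have := abs_nonneg (b - b'); have := abs_nonneg (θ - θ')
  linarith

lemma Dq_lip (h0 : 0 ≤ θ) (h2 : θ ^ 2 ≤ 1 / 2) (h0' : 0 ≤ θ') (h2' : θ' ^ 2 ≤ 1 / 2)
    (ha : |a| ≤ 1) (hb : |b| ≤ 1) (ha' : |a'| ≤ 1) (hb' : |b'| ≤ 1) :
    |Dq θ a b - Dq θ' a' b'| ≤ 50 * (|a - a'| + |b - b'| + |θ - θ'|) := by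
  have t1 := theta_abs_le h0 h2
  have t2 := theta_abs_le h0' h2'
  have e : Dq θ a b - Dq θ' a' b' = ((Bq θ a b) ^ 2 - (Bq θ' a' b') ^ 2)
      - 4 * (θ ^ 2 * ((1 - a ^ 2) * (1 - b ^ 2)) - θ' ^ 2 * ((1 - a' ^ 2) * (1 - b' ^ 2))) := by
    unfold Dq; ring
  have hB : |Bq θ a b| ≤ 4 := by
    rw [abs_of_nonneg (Bq_nonneg h0 ha hb)]
    have := Bq_le h0 ha hb
    nlinarith
  have hB' : |Bq θ' a' b'| ≤ 4 := by
    rw [abs_of_nonneg (Bq_nonneg h0' ha' hb')]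
    have := Bq_le h0' ha' hb'
    nlinarith
  have h1 := sq_sub_sq_abs_le hB hB'
  have hBl := Bq_lip h0 h2 h0' h2' ha hb ha' hb'
  have s1 := sq_sub_sq_abs_le ha ha'
  have s2 := sq_sub_sq_abs_le hb hb'
  have s3 := sq_sub_sq_abs_le t1 t2
  have A1 : |1 - a ^ 2| ≤ 1 := by
    have := sq_le_one_of_abs ha
    rw [abs_of_nonneg (by linarith)]; nlinarith [sq_nonneg a]
  have A2 : |1 - a' ^ 2| ≤ 1 := by
    have := sq_le_one_of_abs ha'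
    rw [abs_of_nonneg (by linarith)]; nlinarith [sq_nonneg a']
  have A4 : |1 - b' ^ 2| ≤ 1 := by
    have := sq_le_one_of_abs hb'
    rw [abs_of_nonneg (by linarith)]; nlinarith [sq_nonneg b']
  have h3 := abs_mul_sub_mul_le' (x := 1 - a ^ 2) (y := 1 - b ^ 2) (x' := 1 - a' ^ 2)
    (y' := 1 - b' ^ 2) A1 A4
  have e1 : |1 - a ^ 2 - (1 - a' ^ 2)| = |a ^ 2 - a' ^ 2| := by
    rw [← abs_neg]; congr 1; ring
  have e2 : |1 - b ^ 2 - (1 - b' ^ 2)| = |b ^ 2 - b' ^ 2| := by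
    rw [← abs_neg]; congr 1; ring
  rw [e1, e2] at h3
  have h4 : |(1 - a' ^ 2) * (1 - b' ^ 2)| ≤ 1 := by
    rw [abs_mul]; exact mul_le_one₀ A2 (abs_nonneg _) A4
  have t3 : |θ ^ 2| ≤ 1 / 2 := by rw [abs_of_nonneg (sq_nonneg _)]; exact h2
  have h5 := abs_mul_sub_mul_le' (x := θ ^ 2) (y := (1 - a ^ 2) * (1 - b ^ 2)) (x' := θ' ^ 2)
    (y' := (1 - a' ^ 2) * (1 - b' ^ 2)) t3 h4
  rw [e]
  have h6 := abs_sub ((Bq θ a b) ^ 2 - (Bq θ' a' b') ^ 2)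
    (4 * (θ ^ 2 * ((1 - a ^ 2) * (1 - b ^ 2)) - θ' ^ 2 * ((1 - a' ^ 2) * (1 - b' ^ 2))))
  rw [abs_mul 4, abs_of_pos (by norm_num : (0:ℝ) < 4)] at h6
  have := abs_nonneg (a - a'); have := abs_nonneg (b - b'); have := abs_nonneg (θ - θ')
  linarith

lemma Rq_lip (h0 : 0 ≤ θ) (h2 : θ ^ 2 ≤ 1 / 2) (h0' : 0 ≤ θ') (h2' : θ' ^ 2 ≤ 1 / 2)
    (ha : |a| ≤ 1) (hb : |b| ≤ 1) (ha' : |a'| ≤ 1) (hb' : |b'| ≤ 1) :
    |Rq θ a b - Rq θ' a' b'| ≤ 500 * (|a - a'| + |b - b'| + |θ - θ'|) := by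
  have h3 : (7:ℝ) / 100 ≤ √(Dq θ a b) := le_trans (one_sub_sq_ge h0 h2) (Rq_ge h0 ha hb)
  have h4 : (7:ℝ) / 100 ≤ √(Dq θ' a' b') := le_trans (one_sub_sq_ge h0' h2') (Rq_ge h0' ha' hb')
  have h5 := abs_sqrt_sub_sqrt_le' (by norm_num) h3 h4 (Dq_nonneg h0 ha hb)
    (Dq_nonneg h0' ha' hb')
  have h6 := Dq_lip h0 h2 h0' h2' ha hb ha' hb'
  rw [show (2 * (7 / 100) : ℝ) = 14 / 100 by norm_num] at h5
  unfold Rq
  have := abs_nonneg (a - a'); have := abs_nonneg (b - b'); have := abs_nonneg (θ - θ')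
  linarith

lemma den_lip (h0 : 0 ≤ θ) (h2 : θ ^ 2 ≤ 1 / 2) (h0' : 0 ≤ θ') (h2' : θ' ^ 2 ≤ 1 / 2)
    (ha : |a| ≤ 1) (hb : |b| ≤ 1) (ha' : |a'| ≤ 1) (hb' : |b'| ≤ 1) :
    |(Bq θ a b + Rq θ a b) - (Bq θ' a' b' + Rq θ' a' b')|
      ≤ 504 * (|a - a'| + |b - b'| + |θ - θ'|) := by
  have h1 := Bq_lip h0 h2 h0' h2' ha hb ha' hb'
  have h3 := Rq_lip h0 h2 h0' h2' ha hb ha' hb'
  have e : (Bq θ a b + Rq θ a b) - (Bq θ' a' b' + Rq θ' a' b')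
      = (Bq θ a b - Bq θ' a' b') + (Rq θ a b - Rq θ' a' b') := by ring
  rw [e]
  have := abs_add_le (Bq θ a b - Bq θ' a' b') (Rq θ a b - Rq θ' a' b')
  linarith

/-- `1 - gain` (hence `gain`) is Lipschitz. -/
lemma gain_lip (h0 : 0 ≤ θ) (h2 : θ ^ 2 ≤ 1 / 2) (h0' : 0 ≤ θ') (h2' : θ' ^ 2 ≤ 1 / 2)
    (ha : |a| ≤ 1) (hb : |b| ≤ 1) (ha' : |a'| ≤ 1) (hb' : |b'| ≤ 1) :
    |gain θ a b - gain θ' a' b'| ≤ 10 ^ 5 * (|a - a'| + |b - b'| + |θ - θ'|) := by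
  have e : gain θ a b - gain θ' a' b' = -((2 * (1 - b ^ 2) / (Bq θ a b + Rq θ a b))
      - (2 * (1 - b' ^ 2) / (Bq θ' a' b' + Rq θ' a' b'))) := by
    rw [← rho_eq, ← rho_eq, ← one_sub_gain h0 h2 ha hb, ← one_sub_gain h0' h2' ha' hb']; ring
  rw [e, abs_neg]
  have k1 : (14:ℝ) / 100 ≤ Bq θ a b + Rq θ a b := by
    linarith [den_ge h0 ha hb, one_sub_sq_ge h0 h2]
  have k2 : (14:ℝ) / 100 ≤ Bq θ' a' b' + Rq θ' a' b' := by
    linarith [den_ge h0' ha' hb', one_sub_sq_ge h0' h2']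
  have p1 : |2 * (1 - b' ^ 2)| ≤ 2 := by
    have := sq_le_one_of_abs hb'
    rw [abs_of_nonneg (by linarith)]; nlinarith [sq_nonneg b']
  have h3 := abs_div_sub_div_le' (p := 2 * (1 - b ^ 2)) (by norm_num) k1 k2 p1
  have h4 := den_lip h0 h2 h0' h2' ha hb ha' hb'
  have e2 : |2 * (1 - b ^ 2) - 2 * (1 - b' ^ 2)| = 2 * |b ^ 2 - b' ^ 2| := by
    rw [← abs_neg, ← abs_of_pos (by norm_num : (0:ℝ) < 2), ← abs_mul,
      abs_of_pos (by norm_num : (0:ℝ) < 2)]; congr 1; ring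
  have s2 := sq_sub_sq_abs_le hb hb'
  rw [e2] at h3
  have := abs_nonneg (a - a'); have := abs_nonneg (b - b'); have := abs_nonneg (θ - θ')
  have h5 : 2 * |Bq θ a b + Rq θ a b - (Bq θ' a' b' + Rq θ' a' b')| / (14 / 100) ^ 2
      ≤ 2 * (504 * (|a - a'| + |b - b'| + |θ - θ'|)) / (14 / 100) ^ 2 := by
    gcongr
  have h6 : 2 * |b ^ 2 - b' ^ 2| / (14 / 100) ≤ 2 * (2 * 1 * |b - b'|) / (14 / 100) := by
    gcongr
  have h7 : 2 * (504 * (|a - a'| + |b - b'| + |θ - θ'|)) / (14 / 100) ^ 2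
    = 360000 / 7 * (|a - a'| + |b - b'| + |θ - θ'|) := by ring
  have h8 : 2 * (2 * 1 * |b - b'|) / (14 / 100) = 200 / 7 * |b - b'| := by ring
  linarith

lemma lam_lip (h0 : 0 ≤ θ) (h2 : θ ^ 2 ≤ 1 / 2) (h0' : 0 ≤ θ') (h2' : θ' ^ 2 ≤ 1 / 2)
    (ha : |a| ≤ 1) (hb : |b| ≤ 1) (ha' : |a'| ≤ 1) (hb' : |b'| ≤ 1) :
    |lam θ a b - lam θ' a' b'| ≤ 10 ^ 5 * (|a - a'| + |b - b'| + |θ - θ'|) := by
  rw [lam_eq_gain h0 h2 ha hb, lam_eq_gain h0' h2' ha' hb']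
  have t1 := theta_abs_le h0 h2
  have g1 : |1 - gain θ' a' b'| ≤ 1 := by
    rw [abs_of_nonneg (by linarith [gain_le_one h0' h2' ha' hb'])]
    linarith [gain_nonneg h0' h2' ha' hb']
  have h3 := abs_mul_sub_mul_le' (x := θ) (y := 1 - gain θ a b) (x' := θ')
    (y' := 1 - gain θ' a' b') t1 g1
  have e1 : |1 - gain θ a b - (1 - gain θ' a' b')| = |gain θ a b - gain θ' a' b'| := by
    rw [← abs_neg]; congr 1; ring
  rw [e1] at h3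
  have h4 := gain_lip h0 h2 h0' h2' ha hb ha' hb'
  have := abs_nonneg (a - a'); have := abs_nonneg (b - b'); have := abs_nonneg (θ - θ')
  linarith

lemma rho_lip (h0 : 0 ≤ θ) (h2 : θ ^ 2 ≤ 1 / 2) (h0' : 0 ≤ θ') (h2' : θ' ^ 2 ≤ 1 / 2)
    (ha : |a| ≤ 1) (hb : |b| ≤ 1) (ha' : |a'| ≤ 1) (hb' : |b'| ≤ 1) :
    |rho θ a b - rho θ' a' b'| ≤ 10 ^ 5 * (|a - a'| + |b - b'| + |θ - θ'|) := by
  have e : rho θ a b - rho θ' a' b' = -(gain θ a b - gain θ' a' b') := by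
    rw [← one_sub_gain h0 h2 ha hb, ← one_sub_gain h0' h2' ha' hb']; ring
  rw [e, abs_neg]
  exact gain_lip h0 h2 h0' h2' ha hb ha' hb'

lemma gden_lip (h0 : 0 ≤ θ) (h2 : θ ^ 2 ≤ 1 / 2) (h0' : 0 ≤ θ') (h2' : θ' ^ 2 ≤ 1 / 2)
    (ha : |a| ≤ 1) (hb : |b| ≤ 1) (ha' : |a'| ≤ 1) (hb' : |b'| ≤ 1) :
    |(Bq θ a b + Rq θ a b - 2 * θ ^ 2 * (1 - a ^ 2))
      - (Bq θ' a' b' + Rq θ' a' b' - 2 * θ' ^ 2 * (1 - a' ^ 2))|
      ≤ 520 * (|a - a'| + |b - b'| + |θ - θ'|) := by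
  have h4 := den_lip h0 h2 h0' h2' ha hb ha' hb'
  have t1 := theta_abs_le h0 h2
  have t2 := theta_abs_le h0' h2'
  have s1 := sq_sub_sq_abs_le ha ha'
  have s3 := sq_sub_sq_abs_le t1 t2
  have A2 : |1 - a' ^ 2| ≤ 1 := by
    have := sq_le_one_of_abs ha'
    rw [abs_of_nonneg (by linarith)]; nlinarith [sq_nonneg a']
  have t3 : |θ ^ 2| ≤ 1 / 2 := by rw [abs_of_nonneg (sq_nonneg _)]; exact h2
  have h5 := abs_mul_sub_mul_le' (x := θ ^ 2) (y := 1 - a ^ 2) (x' := θ' ^ 2)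
    (y' := 1 - a' ^ 2) t3 A2
  have e1 : |1 - a ^ 2 - (1 - a' ^ 2)| = |a ^ 2 - a' ^ 2| := by
    rw [← abs_neg]; congr 1; ring
  rw [e1] at h5
  have e : (Bq θ a b + Rq θ a b - 2 * θ ^ 2 * (1 - a ^ 2))
      - (Bq θ' a' b' + Rq θ' a' b' - 2 * θ' ^ 2 * (1 - a' ^ 2))
      = ((Bq θ a b + Rq θ a b) - (Bq θ' a' b' + Rq θ' a' b'))
        - 2 * (θ ^ 2 * (1 - a ^ 2) - θ' ^ 2 * (1 - a' ^ 2)) := by ring
  rw [e]
  have h6 := abs_sub ((Bq θ a b + Rq θ a b) - (Bq θ' a' b' + Rq θ' a' b'))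
    (2 * (θ ^ 2 * (1 - a ^ 2) - θ' ^ 2 * (1 - a' ^ 2)))
  rw [abs_mul 2, abs_of_pos (by norm_num : (0:ℝ) < 2)] at h6
  have := abs_nonneg (a - a'); have := abs_nonneg (b - b'); have := abs_nonneg (θ - θ')
  linarith

lemma abs_sub_theta_mul_le (h0 : 0 ≤ θ) (h2 : θ ^ 2 ≤ 1 / 2) (ha : |a| ≤ 1) (hb : |b| ≤ 1) :
    |b - θ * a| ≤ 2 := by
  have t1 := theta_abs_le h0 h2
  have h := abs_sub b (θ * a)
  rw [abs_mul] at h
  have : |θ| * |a| ≤ 3 / 4 * 1 := by gcongr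
  linarith

lemma y_lip (h0' : 0 ≤ θ') (h2' : θ' ^ 2 ≤ 1 / 2) (ha : |a| ≤ 1) :
    |(b - θ * a) - (b' - θ' * a')| ≤ |a - a'| + |b - b'| + |θ - θ'| := by
  have t2 := theta_abs_le h0' h2'
  have e : (b - θ * a) - (b' - θ' * a') = (b - b') - (a * θ - a' * θ') := by ring
  have h5 := abs_mul_sub_mul_le' (x := a) (y := θ) (x' := a') (y' := θ') ha t2
  rw [e]
  have h6 := abs_sub (b - b') (a * θ - a' * θ')
  have := abs_nonneg (a - a'); have := abs_nonneg (b - b'); have := abs_nonneg (θ - θ')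
  linarith

/-- the gain has Lipschitz constant proportional to `|y| + |y'|`, `y = b - θ a`. -/
lemma gain_diff (h0 : 0 ≤ θ) (h2 : θ ^ 2 ≤ 1 / 2) (h0' : 0 ≤ θ') (h2' : θ' ^ 2 ≤ 1 / 2)
    (ha : |a| ≤ 1) (hb : |b| ≤ 1) (ha' : |a'| ≤ 1) (hb' : |b'| ≤ 1) :
    |gain θ a b - gain θ' a' b'|
      ≤ 10 ^ 6 * (|b - θ * a| + |b' - θ' * a'|) * (|a - a'| + |b - b'| + |θ - θ'|) := by
  have k1 : (7:ℝ) / 100 ≤ Bq θ a b + Rq θ a b - 2 * θ ^ 2 * (1 - a ^ 2) :=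
    le_trans (one_sub_sq_ge h0 h2) (gden_ge h0 h2 ha hb)
  have k2 : (7:ℝ) / 100 ≤ Bq θ' a' b' + Rq θ' a' b' - 2 * θ' ^ 2 * (1 - a' ^ 2) :=
    le_trans (one_sub_sq_ge h0' h2') (gden_ge h0' h2' ha' hb')
  have p1 : |2 * (b' - θ' * a') ^ 2| ≤ 4 * |b' - θ' * a'| := by
    rw [abs_mul, abs_of_pos (by norm_num : (0:ℝ) < 2), abs_pow]
    have := abs_sub_theta_mul_le h0' h2' ha' hb'
    nlinarith [abs_nonneg (b' - θ' * a')]
  have h3 := abs_div_sub_div_le' (p := 2 * (b - θ * a) ^ 2) (by norm_num) k1 k2 p1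
  have h4 := gden_lip h0 h2 h0' h2' ha hb ha' hb'
  have h5 := y_lip (θ := θ) (b := b) (b' := b') (a' := a') h0' h2' ha
  set y := b - θ * a with hy
  set y' := b' - θ' * a' with hy'
  set δ := |a - a'| + |b - b'| + |θ - θ'| with hδ
  have hδ0 : 0 ≤ δ := by positivity
  have e2 : |2 * y ^ 2 - 2 * y' ^ 2| ≤ 2 * ((|y| + |y'|) * δ) := by
    have : 2 * y ^ 2 - 2 * y' ^ 2 = 2 * ((y + y') * (y - y')) := by ring
    rw [this, abs_mul, abs_of_pos (by norm_num : (0:ℝ) < 2), abs_mul]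
    have := abs_add_le y y'
    gcongr
  have n1 := abs_nonneg y
  have n2 := abs_nonneg y'
  unfold gain
  refine h3.trans ?_
  have h6 : 4 * |y'| * |Bq θ a b + Rq θ a b - 2 * θ ^ 2 * (1 - a ^ 2)
      - (Bq θ' a' b' + Rq θ' a' b' - 2 * θ' ^ 2 * (1 - a' ^ 2))| / (7 / 100) ^ 2
      ≤ 4 * |y'| * (520 * δ) / (7 / 100) ^ 2 := by gcongr
  have h7 : |2 * y ^ 2 - 2 * y' ^ 2| / (7 / 100) ≤ 2 * ((|y| + |y'|) * δ) / (7 / 100) := by gcongr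
  have h8 : 4 * |y'| * (520 * δ) / (7 / 100) ^ 2 = 20800000 / 49 * (|y'| * δ) := by ring
  have h9 : 2 * ((|y| + |y'|) * δ) / (7 / 100) = 200 / 7 * (|y| * δ + |y'| * δ) := by ring
  have m1 : 0 ≤ |y| * δ := by positivity
  have m2 : 0 ≤ |y'| * δ := by positivity
  have e3 : 10 ^ 6 * (|y| + |y'|) * δ = 10 ^ 6 * (|y| * δ + |y'| * δ) := by ring
  rw [e3]
  linarith

/-- abstract one-step inequality with gain. -/
lemma one_step_aux {g g' A A' y y' δ C : ℝ} (hg0 : 0 ≤ g) (hg1 : g ≤ 1) (hg0' : 0 ≤ g')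
    (hg1' : g' ≤ 1) (hy : y ^ 2 / 4 ≤ g) (hy' : y' ^ 2 / 4 ≤ g') (_hδ : 0 ≤ δ) (_hC : 0 ≤ C)
    (hd : |g - g'| ≤ C * (|y| + |y'|) * δ) :
    ((1 - g) * A - (1 - g') * A') ^ 2
      ≤ (1 - (g + g') / 4) * (A - A') ^ 2 + 12 * C ^ 2 * ((A + A') ^ 2 * δ ^ 2) := by
  have hsq : (g - g') ^ 2 ≤ C ^ 2 * (8 * (g + g')) * δ ^ 2 := by
    have h1 : (g - g') ^ 2 ≤ (C * (|y| + |y'|) * δ) ^ 2 := by
      rw [← sq_abs (g - g')]
      gcongr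
    have h2 : (|y| + |y'|) ^ 2 ≤ 8 * (g + g') := by
      have : (|y| + |y'|) ^ 2 ≤ 2 * (y ^ 2 + y' ^ 2) := by
        rw [← sq_abs y, ← sq_abs y']
        nlinarith [sq_nonneg (|y| - |y'|)]
      linarith
    calc (g - g') ^ 2 ≤ (C * (|y| + |y'|) * δ) ^ 2 := h1
      _ = C ^ 2 * (|y| + |y'|) ^ 2 * δ ^ 2 := by ring
      _ ≤ C ^ 2 * (8 * (g + g')) * δ ^ 2 := by gcongr
  set G := (g + g') / 2 with hG
  have hG0 : 0 ≤ G := by positivity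
  have hG1 : G ≤ 1 := by linarith
  have e : (1 - g) * A - (1 - g') * A' = (1 - G) * (A - A') - (g - g') / 2 * (A + A') := by
    rw [hG]; ring
  have e2 : (g + g') = 2 * G := by rw [hG]; ring
  have e3 : 1 - (g + g') / 4 = 1 - G / 2 := by rw [hG]; ring
  rw [e2] at hsq
  rw [e, e3]
  set X := (1 - G) * (A - A') with hX
  set Y := (g - g') / 2 * (A + A') with hY
  have hYsq : Y ^ 2 ≤ G * (4 * C ^ 2 * ((A + A') ^ 2 * δ ^ 2)) := by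
    have : Y ^ 2 = (g - g') ^ 2 * ((A + A') ^ 2 / 4) := by rw [hY]; ring
    rw [this]
    calc (g - g') ^ 2 * ((A + A') ^ 2 / 4) ≤ (C ^ 2 * (8 * (2 * G)) * δ ^ 2) * ((A + A') ^ 2 / 4) := by
          gcongr
      _ = _ := by ring
  set W := 4 * C ^ 2 * ((A + A') ^ 2 * δ ^ 2) with hW
  have hW0 : 0 ≤ W := by positivity
  have hXsq : X ^ 2 ≤ (1 - G) * (A - A') ^ 2 := by
    rw [hX, mul_pow]
    apply mul_le_mul_of_nonneg_right _ (sq_nonneg _)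
    nlinarith
  have e4 : 12 * C ^ 2 * ((A + A') ^ 2 * δ ^ 2) = 3 * W := by rw [hW]; ring
  rw [e4]
  rcases eq_or_lt_of_le hG0 with h | h
  · have hY0 : Y ^ 2 ≤ 0 := by rw [← h] at hYsq; linarith
    have hY1 : Y = 0 := by nlinarith [sq_nonneg Y]
    rw [hY1, sub_zero, ← h]
    rw [← h] at hXsq
    linarith
  · -- `-2XY ≤ (G/2) (A-A')² + (2/G) Y²`
    have h1 : -(2 * X * Y) ≤ G / 2 * (A - A') ^ 2 + 2 * W := by
      have h2 : 0 ≤ G ^ 2 * (A - A') ^ 2 + 4 * (G * (A - A') * ((1 - G) * Y))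
          + 4 * ((1 - G) * Y) ^ 2 := by
        calc (0:ℝ) ≤ (G * (A - A') + 2 * ((1 - G) * Y)) ^ 2 := sq_nonneg _
          _ = _ := by ring
      have h3 : ((1 - G) * Y) ^ 2 ≤ Y ^ 2 := by
        rw [mul_pow]
        have : (1 - G) ^ 2 ≤ 1 := by nlinarith
        calc (1 - G) ^ 2 * Y ^ 2 ≤ 1 * Y ^ 2 := by gcongr
          _ = Y ^ 2 := one_mul _
      have h4 : 2 * G * (-(2 * X * Y)) ≤ 2 * G * (G / 2 * (A - A') ^ 2 + 2 * W) := by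
        have e5 : 2 * G * (-(2 * X * Y)) = -(4 * (G * (A - A') * ((1 - G) * Y))) := by
          rw [hX]; ring
        have e6 : 2 * G * (G / 2 * (A - A') ^ 2 + 2 * W) = G ^ 2 * (A - A') ^ 2 + 4 * (G * W) := by
          ring
        rw [e5, e6]
        linarith
      exact le_of_mul_le_mul_left h4 (by linarith)
    have h5 : Y ^ 2 ≤ W := by
      calc Y ^ 2 ≤ G * W := hYsq
        _ ≤ 1 * W := by gcongr
        _ = W := one_mul _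
    have h6 : (X - Y) ^ 2 = X ^ 2 + -(2 * X * Y) + Y ^ 2 := by ring
    have h7 : (1 - G / 2) * (A - A') ^ 2 + 3 * W
        = (1 - G) * (A - A') ^ 2 + (G / 2 * (A - A') ^ 2 + 2 * W) + W := by ring
    rw [h6, h7]
    linarith

/-- one-step telescoping inequality with gain. -/
lemma one_step (h0 : 0 ≤ θ) (h2 : θ ^ 2 ≤ 1 / 2) (h0' : 0 ≤ θ') (h2' : θ' ^ 2 ≤ 1 / 2)
    (ha : |a| ≤ 1) (hb : |b| ≤ 1) (ha' : |a'| ≤ 1) (hb' : |b'| ≤ 1) (A A' : ℝ) :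
    (rho θ a b * A - rho θ' a' b' * A') ^ 2
      ≤ (1 - (gain θ a b + gain θ' a' b') / 4) * (A - A') ^ 2
        + 12 * 10 ^ 12 * ((A + A') ^ 2 * (|a - a'| + |b - b'| + |θ - θ'|) ^ 2) := by
  rw [← one_sub_gain h0 h2 ha hb, ← one_sub_gain h0' h2' ha' hb']
  have := one_step_aux (A := A) (A' := A') (gain_nonneg h0 h2 ha hb) (gain_le_one h0 h2 ha hb)
    (gain_nonneg h0' h2' ha' hb') (gain_le_one h0' h2' ha' hb') (gain_ge h0 h2 ha hb)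
    (gain_ge h0' h2' ha' hb') (by positivity : 0 ≤ |a - a'| + |b - b'| + |θ - θ'|)
    (by norm_num : (0:ℝ) ≤ 10 ^ 6) (gain_diff h0 h2 h0' h2' ha hb ha' hb')
  calc _ ≤ _ := this
    _ = _ := by ring

/-! ### Logarithmic form -/

lemma abs_log_sub_log_le {u v κ : ℝ} (hκ : 0 < κ) (hu : κ ≤ u) (hv : κ ≤ v) :
    |Real.log u - Real.log v| ≤ |u - v| / κ := by
  have key : ∀ u v : ℝ, κ ≤ u → κ ≤ v → Real.log u - Real.log v ≤ |u - v| / κ := by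
    intro u v hu hv
    have hu0 : 0 < u := lt_of_lt_of_le hκ hu
    have hv0 : 0 < v := lt_of_lt_of_le hκ hv
    rw [← Real.log_div hu0.ne' hv0.ne']
    calc Real.log (u / v) ≤ u / v - 1 := Real.log_le_sub_one_of_pos (by positivity)
      _ = (u - v) / v := by field_simp
      _ ≤ |u - v| / v := by gcongr; exact le_abs_self _
      _ ≤ |u - v| / κ := by gcongr
  rw [abs_le]
  refine ⟨?_, key u v hu hv⟩
  have := key v u hv hu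
  rw [abs_sub_comm v u] at this
  linarith

lemma Rq_sub (h0 : 0 ≤ θ) (h2 : θ ^ 2 ≤ 1 / 2) (ha : |a| ≤ 1) (hb : |b| ≤ 1) :
    Rq θ a b = (1 - θ ^ 2)
      - 4 * (θ * ((a - θ * b) * (b - θ * a)) / (Rq θ a b + (1 - θ ^ 2))) := by
  have hR := Rq_sq h0 ha hb
  have hR0 : 0 ≤ Rq θ a b := Rq_nonneg
  rw [Dq_eq] at hR
  have hq : Rq θ a b + (1 - θ ^ 2) ≠ 0 := by
    have : 0 < Rq θ a b + (1 - θ ^ 2) := by linarith
    exact this.ne'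
  field_simp
  linear_combination hR

/-- `S = (B+R)/2 = 1 - θab - 2θ u v/(R+1-θ²)`. -/
lemma half_den (h0 : 0 ≤ θ) (h2 : θ ^ 2 ≤ 1 / 2) (ha : |a| ≤ 1) (hb : |b| ≤ 1) :
    (Bq θ a b + Rq θ a b) / 2 = 1 - a * b * θ
      - 2 * (θ * ((a - θ * b) * (b - θ * a)) / (Rq θ a b + (1 - θ ^ 2))) := by
  have h := Rq_sub h0 h2 ha hb
  have hB : Bq θ a b = 1 + θ ^ 2 - 2 * θ * a * b := rfl
  rw [hB]
  linarith

/-- the half denominator varies by `O(y(|da|+|db|+y|dθ|))` on `[-y,y]²`. -/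
lemma half_den_lip {y : ℝ} (hy1 : y ≤ 1) (h0 : 0 ≤ θ) (h2 : θ ^ 2 ≤ 1 / 2)
    (h0' : 0 ≤ θ') (h2' : θ' ^ 2 ≤ 1 / 2)
    (ha : |a| ≤ y) (hb : |b| ≤ y) (ha' : |a'| ≤ y) (hb' : |b'| ≤ y) :
    |(Bq θ a b + Rq θ a b) / 2 - (Bq θ' a' b' + Rq θ' a' b') / 2|
      ≤ 17000 * (y * (|a - a'| + |b - b'| + y * |θ - θ'|)) := by
  have hy0 : 0 ≤ y := le_trans (abs_nonneg _) ha
  have ha1 := ha.trans hy1
  have hb1 := hb.trans hy1
  have ha1' := ha'.trans hy1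
  have hb1' := hb'.trans hy1
  rw [half_den h0 h2 ha1 hb1, half_den h0' h2' ha1' hb1']
  have t1 := theta_abs_le h0 h2
  have t2 := theta_abs_le h0' h2'
  have d1 := abs_nonneg (a - a')
  have d2 := abs_nonneg (b - b')
  have d3 := abs_nonneg (θ - θ')
  set Δ := |a - a'| + |b - b'| + y * |θ - θ'| with hΔ
  have hΔ0 : 0 ≤ Δ := by positivity
  have hyΔ : y * (|a - a'| + |b - b'| + |θ - θ'|) ≤ Δ := by
    rw [hΔ]; nlinarith
  -- first piece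
  have p1 : |a * b - a' * b'| ≤ y * |b - b'| + y * |a - a'| := abs_mul_sub_mul_le' ha hb'
  have p2 : |a * b| ≤ y * y := by rw [abs_mul]; gcongr
  have p3 : |a * b * θ - a' * b' * θ'| ≤ y * y * |θ - θ'| + 3 / 4 * |a * b - a' * b'| :=
    abs_mul_sub_mul_le' p2 t2
  -- `u`, `v`
  have thb : |θ * b - θ' * b'| ≤ 3 / 4 * |b - b'| + y * |θ - θ'| := abs_mul_sub_mul_le' t1 hb'
  have tha : |θ * a - θ' * a'| ≤ 3 / 4 * |a - a'| + y * |θ - θ'| := abs_mul_sub_mul_le' t1 ha'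
  have u1 : |(a - θ * b) - (a' - θ' * b')| ≤ Δ := by
    have e : (a - θ * b) - (a' - θ' * b') = (a - a') - (θ * b - θ' * b') := by ring
    rw [e]
    have := abs_sub (a - a') (θ * b - θ' * b')
    linarith
  have v1 : |(b - θ * a) - (b' - θ' * a')| ≤ Δ := by
    have e : (b - θ * a) - (b' - θ' * a') = (b - b') - (θ * a - θ' * a') := by ring
    rw [e]
    have := abs_sub (b - b') (θ * a - θ' * a')
    linarith
  have ub : ∀ (θ a b : ℝ), |θ| ≤ 3 / 4 → |a| ≤ y → |b| ≤ y → |a - θ * b| ≤ 2 * y := by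
    intro θ a b hθ ha hb
    have := abs_sub a (θ * b)
    rw [abs_mul] at this
    have h5 : |θ| * |b| ≤ 3 / 4 * y := by gcongr
    linarith
  have w1 : |(a - θ * b) * (b - θ * a) - (a' - θ' * b') * (b' - θ' * a')|
      ≤ 2 * y * |(b - θ * a) - (b' - θ' * a')| + 2 * y * |(a - θ * b) - (a' - θ' * b')| :=
    abs_mul_sub_mul_le' (ub _ _ _ t1 ha hb) (ub _ _ _ t2 hb' ha')
  have w2 : |(a' - θ' * b') * (b' - θ' * a')| ≤ 4 * y * y := by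
    rw [abs_mul]
    calc _ ≤ (2 * y) * (2 * y) := by
          apply mul_le_mul (ub _ _ _ t2 ha' hb') (ub _ _ _ t2 hb' ha') (abs_nonneg _)
            (by positivity)
      _ = _ := by ring
  have w3 : |θ * ((a - θ * b) * (b - θ * a)) - θ' * ((a' - θ' * b') * (b' - θ' * a'))|
      ≤ 3 / 4 * |(a - θ * b) * (b - θ * a) - (a' - θ' * b') * (b' - θ' * a')|
        + 4 * y * y * |θ - θ'| := abs_mul_sub_mul_le' t1 w2
  have w4 : |θ' * ((a' - θ' * b') * (b' - θ' * a'))| ≤ 3 * y * y := by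
    rw [abs_mul]
    calc |θ'| * |(a' - θ' * b') * (b' - θ' * a')| ≤ 3 / 4 * (4 * y * y) := by gcongr
      _ = _ := by ring
  have k1 : (1:ℝ) / 2 ≤ Rq θ a b + (1 - θ ^ 2) := by
    have : 0 ≤ Rq θ a b := Rq_nonneg
    linarith
  have k2 : (1:ℝ) / 2 ≤ Rq θ' a' b' + (1 - θ' ^ 2) := by
    have : 0 ≤ Rq θ' a' b' := Rq_nonneg
    linarith
  have w5 := abs_div_sub_div_le' (p := θ * ((a - θ * b) * (b - θ * a)))
    (p' := θ' * ((a' - θ' * b') * (b' - θ' * a'))) (by norm_num) k1 k2 w4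
  have s3 := sq_sub_sq_abs_le t1 t2
  have w6 : |Rq θ a b + (1 - θ ^ 2) - (Rq θ' a' b' + (1 - θ' ^ 2))|
      ≤ 502 * (|a - a'| + |b - b'| + |θ - θ'|) := by
    have h3 := Rq_lip h0 h2 h0' h2' ha1 hb1 ha1' hb1'
    have e : Rq θ a b + (1 - θ ^ 2) - (Rq θ' a' b' + (1 - θ' ^ 2))
      = (Rq θ a b - Rq θ' a' b') - (θ ^ 2 - θ' ^ 2) := by ring
    rw [e]
    have := abs_sub (Rq θ a b - Rq θ' a' b') (θ ^ 2 - θ' ^ 2)
    linarith
  set P := θ * ((a - θ * b) * (b - θ * a)) / (Rq θ a b + (1 - θ ^ 2)) with hP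
  set P' := θ' * ((a' - θ' * b') * (b' - θ' * a')) / (Rq θ' a' b' + (1 - θ' ^ 2)) with hP'
  have e : 1 - a * b * θ - 2 * P - (1 - a' * b' * θ' - 2 * P')
      = -((a * b * θ - a' * b' * θ') + 2 * (P - P')) := by ring
  rw [e, abs_neg]
  have f1 := abs_add_le (a * b * θ - a' * b' * θ') (2 * (P - P'))
  rw [abs_mul 2, abs_of_pos (by norm_num : (0:ℝ) < 2)] at f1
  -- collect
  have g1 : 3 * y * y * |Rq θ a b + (1 - θ ^ 2) - (Rq θ' a' b' + (1 - θ' ^ 2))| / (1 / 2) ^ 2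
      ≤ 3 * y * y * (502 * (|a - a'| + |b - b'| + |θ - θ'|)) / (1 / 2) ^ 2 := by
    gcongr
  have g2 : 3 * y * y * (502 * (|a - a'| + |b - b'| + |θ - θ'|)) / (1 / 2) ^ 2
      = 6024 * (y * (y * (|a - a'| + |b - b'| + |θ - θ'|))) := by ring
  have g3 : y * (y * (|a - a'| + |b - b'| + |θ - θ'|)) ≤ y * Δ := by gcongr
  have g4 : y * |(b - θ * a) - (b' - θ' * a')| ≤ y * Δ := by gcongr
  have g5 : y * |(a - θ * b) - (a' - θ' * b')| ≤ y * Δ := by gcongr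
  have g6 : y * y * |θ - θ'| ≤ y * Δ := by
    rw [mul_assoc]
    exact mul_le_mul_of_nonneg_left (by linarith) hy0
  have g7 : y * |b - b'| + y * |a - a'| ≤ y * Δ := by
    rw [← mul_add]
    have h9 : 0 ≤ y * |θ - θ'| := by positivity
    exact mul_le_mul_of_nonneg_left (by linarith) hy0
  have g8 : |θ * ((a - θ * b) * (b - θ * a)) - θ' * ((a' - θ' * b') * (b' - θ' * a'))| / (1 / 2)
      = 2 * |θ * ((a - θ * b) * (b - θ * a)) - θ' * ((a' - θ' * b') * (b' - θ' * a'))| := by ring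
  rw [g8] at w5
  linarith

/-- the logarithm of `rr` on small magnetizations. -/
lemma log_rr_diff {y : ℝ} (hy1 : y ≤ 1 / 2) (h0 : 0 ≤ θ) (h2 : θ ^ 2 ≤ 1 / 2)
    (h0' : 0 ≤ θ') (h2' : θ' ^ 2 ≤ 1 / 2)
    (ha : |a| ≤ y) (hb : |b| ≤ y) (ha' : |a'| ≤ y) (hb' : |b'| ≤ y) :
    |Real.log (rr θ a b) - Real.log (rr θ' a' b')|
      ≤ 10 ^ 6 * (y * (|a - a'| + |b - b'| + y * |θ - θ'|)) := by
  have hy0 : 0 ≤ y := le_trans (abs_nonneg _) ha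
  have hy1' : y ≤ 1 := by linarith
  have ha1 := ha.trans hy1'
  have hb1 := hb.trans hy1'
  have ha1' := ha'.trans hy1'
  have hb1' := hb'.trans hy1'
  have v1 : ∀ a : ℝ, |a| ≤ y → 3 / 4 ≤ 1 - a ^ 2 := by
    intro a ha
    have : |a| ^ 2 ≤ (1 / 2) ^ 2 := by gcongr; linarith
    rw [sq_abs] at this
    linarith
  have dexp : ∀ θ a b : ℝ, 0 ≤ θ → θ ^ 2 ≤ 1 / 2 → |a| ≤ y → |b| ≤ y →
      Real.log (rr θ a b) = Real.log (1 - a ^ 2) + Real.log (1 - b ^ 2)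
        - 2 * Real.log ((Bq θ a b + Rq θ a b) / 2) := by
    intro θ a b h0 h2 ha hb
    have hd := den_pos h0 (theta_lt_one h0 h2) (ha.trans hy1') (hb.trans hy1')
    have hva := v1 a ha
    have hvb := v1 b hb
    have e : rr θ a b = (1 - a ^ 2) * (1 - b ^ 2) / ((Bq θ a b + Rq θ a b) / 2) ^ 2 := by
      unfold rr
      rw [div_pow, div_div_eq_mul_div]
      ring
    rw [e, Real.log_div (by nlinarith) (by positivity), Real.log_mul (by linarith) (by linarith),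
      Real.log_pow]
    norm_num
  rw [dexp θ a b h0 h2 ha hb, dexp θ' a' b' h0' h2' ha' hb']
  have k1 : (7:ℝ) / 100 ≤ (Bq θ a b + Rq θ a b) / 2 := by
    linarith [den_ge h0 ha1 hb1, one_sub_sq_ge h0 h2]
  have k2 : (7:ℝ) / 100 ≤ (Bq θ' a' b' + Rq θ' a' b') / 2 := by
    linarith [den_ge h0' ha1' hb1', one_sub_sq_ge h0' h2']
  have l1 := abs_log_sub_log_le (by norm_num) k1 k2
  have l2 := abs_log_sub_log_le (by norm_num) (v1 a ha) (v1 a' ha')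
  have l3 := abs_log_sub_log_le (by norm_num) (v1 b hb) (v1 b' hb')
  have s1 := sq_sub_sq_abs_le ha ha'
  have s2 := sq_sub_sq_abs_le hb hb'
  have e1 : |1 - a ^ 2 - (1 - a' ^ 2)| = |a ^ 2 - a' ^ 2| := by
    rw [← abs_neg]; congr 1; ring
  have e2 : |1 - b ^ 2 - (1 - b' ^ 2)| = |b ^ 2 - b' ^ 2| := by
    rw [← abs_neg]; congr 1; ring
  rw [e1] at l2
  rw [e2] at l3
  have hl := half_den_lip hy1' h0 h2 h0' h2' ha hb ha' hb'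
  have d1 := abs_nonneg (a - a')
  have d2 := abs_nonneg (b - b')
  have d3 := abs_nonneg (θ - θ')
  set Δ := |a - a'| + |b - b'| + y * |θ - θ'| with hΔ
  have g7 : y * |a - a'| + y * |b - b'| ≤ y * Δ := by
    rw [← mul_add]
    have h9 : 0 ≤ y * |θ - θ'| := by positivity
    exact mul_le_mul_of_nonneg_left (by linarith) hy0
  set La := Real.log (1 - a ^ 2) - Real.log (1 - a' ^ 2) with hLa
  set Lb := Real.log (1 - b ^ 2) - Real.log (1 - b' ^ 2) with hLb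
  set Ls := Real.log ((Bq θ a b + Rq θ a b) / 2) - Real.log ((Bq θ' a' b' + Rq θ' a' b') / 2)
    with hLs
  have e : Real.log (1 - a ^ 2) + Real.log (1 - b ^ 2)
        - 2 * Real.log ((Bq θ a b + Rq θ a b) / 2)
      - (Real.log (1 - a' ^ 2) + Real.log (1 - b' ^ 2)
        - 2 * Real.log ((Bq θ' a' b' + Rq θ' a' b') / 2)) = La + Lb - 2 * Ls := by
    rw [hLa, hLb, hLs]; ring
  rw [e]
  have f1 := abs_sub (La + Lb) (2 * Ls)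
  have f2 := abs_add_le La Lb
  rw [abs_mul 2, abs_of_pos (by norm_num : (0:ℝ) < 2)] at f1
  have m1 : |Ls| ≤ 17000 * (y * Δ) / (7 / 100) := l1.trans (by gcongr)
  have m2 : |La| ≤ (2 * y * |a - a'|) / (3 / 4) := l2.trans (by gcongr)
  have m3 : |Lb| ≤ (2 * y * |b - b'|) / (3 / 4) := l3.trans (by gcongr)
  have m4 : (17000 * (y * Δ) / (7 / 100) : ℝ) = 1700000 / 7 * (y * Δ) := by ring
  have m5 : (2 * y * |a - a'|) / (3 / 4) = 8 / 3 * (y * |a - a'|) := by ring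
  have m6 : (2 * y * |b - b'|) / (3 / 4) = 8 / 3 * (y * |b - b'|) := by ring
  rw [m4] at m1
  rw [m5] at m2
  rw [m6] at m3
  have hyΔ : 0 ≤ y * Δ := by positivity
  linarith

lemma rr_pos (h0 : 0 ≤ θ) (h1 : θ < 1) (ha : |a| < 1) (hb : |b| < 1) : 0 < rr θ a b := by
  have hd := den_pos h0 h1 ha.le hb.le
  have h3 : 0 < 1 - a ^ 2 := by
    have := (sq_lt_one_iff_abs_lt_one a).mpr ha; linarith
  have h4 : 0 < 1 - b ^ 2 := by
    have := (sq_lt_one_iff_abs_lt_one b).mpr hb; linarith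
  unfold rr
  positivity

lemma rr_nonneg (h0 : 0 ≤ θ) (h1 : θ < 1) (ha : |a| ≤ 1) (hb : |b| ≤ 1) : 0 ≤ rr θ a b := by
  rw [rr_eq]; exact mul_nonneg (rho_nonneg h0 h1 ha hb) (rho_nonneg h0 h1 hb ha)

lemma rr_le_one (h0 : 0 ≤ θ) (h2 : θ ^ 2 ≤ 1 / 2) (ha : |a| ≤ 1) (hb : |b| ≤ 1) :
    rr θ a b ≤ 1 := by
  rw [rr_eq]
  exact mul_le_one₀ (rho_le_one h0 h2 ha hb)
    (rho_nonneg h0 (theta_lt_one h0 h2) hb ha) (rho_le_one h0 h2 hb ha)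

end lipschitz

/-! ### Off-path biases -/

section offpath

variable {θ : ℝ}

lemma gam_sq_le (h0 : 0 ≤ θ) (h1 : θ < 1) {γ z : ℝ} (hγ : |γ| ≤ 1) (hz : |z| ≤ 1) :
    γ ^ 2 ≤ 8 * (mg θ γ z) ^ 2 + 2 * z ^ 2 := by
  have h := cav_den_pos h0 h1 hγ hz
  obtain ⟨h3, h4⟩ := mul_le_one_of_abs hγ hz
  have h5 : 1 + θ * γ * z ≤ 2 := by nlinarith
  have e : mg θ γ z * (1 + θ * γ * z) = γ + θ * z := by
    unfold mg; rw [div_mul_cancel₀ _ h.ne']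
  have h6 : γ ^ 2 ≤ 2 * (mg θ γ z * (1 + θ * γ * z)) ^ 2 + 2 * (θ * z) ^ 2 := by
    rw [e]
    nlinarith [sq_nonneg (γ + 2 * (θ * z))]
  have h7 : (1 + θ * γ * z) ^ 2 ≤ 4 := by nlinarith
  have h8 : (mg θ γ z * (1 + θ * γ * z)) ^ 2 ≤ (mg θ γ z) ^ 2 * 4 := by
    rw [mul_pow]
    exact mul_le_mul_of_nonneg_left h7 (sq_nonneg _)
  have h9 : (θ * z) ^ 2 ≤ z ^ 2 := by
    rw [mul_pow]
    have : θ ^ 2 ≤ 1 := by nlinarith
    calc θ ^ 2 * z ^ 2 ≤ 1 * z ^ 2 := by gcongr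
      _ = z ^ 2 := one_mul _
  linarith

lemma exp_neg_le {s : ℝ} (h0 : 0 ≤ s) (h1 : s ≤ 1) : Real.exp (-s) ≤ 1 - s / 2 := by
  have h2 : 0 < Real.exp s := Real.exp_pos s
  rw [Real.exp_neg, inv_le_comm₀ h2 (by linarith)]
  have h3 : 1 + s + s ^ 2 / 2 ≤ Real.exp s := Real.quadratic_le_exp_of_nonneg h0
  refine le_trans ?_ h3
  rw [inv_le_iff_one_le_mul₀ (by linarith)]
  nlinarith [mul_nonneg h0 h0, mul_nonneg (mul_nonneg h0 h0) (by linarith : 0 ≤ 1 - s)]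

lemma rho_le_exp (h0 : 0 ≤ θ) (h2 : θ ^ 2 ≤ 1 / 2) {η : ℝ} (hη : |η| ≤ 1) :
    (1 - η ^ 2) / (1 - θ ^ 2 * η ^ 2) ≤ Real.exp (-(η ^ 2 / 2)) := by
  have h1 := theta_lt_one h0 h2
  have h3 := theta_sq_mul_le h0 h1 hη
  have h4 := sq_le_one_of_abs hη
  have h5 : (1 - η ^ 2) / (1 - θ ^ 2 * η ^ 2) ≤ 1 - η ^ 2 / 2 := by
    rw [div_le_iff₀ h3]
    nlinarith [sq_nonneg η, mul_nonneg (sq_nonneg η) (sq_nonneg η)]
  have h6 := Real.add_one_le_exp (-(η ^ 2 / 2))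
  linarith

/-- product of the slopes along a path is dominated by the product of the (independent) factors
`1 - γ_j²/40` of the off-path biases: `η_j = γ_j ⊕ θ η_{j+1}` for `j + 1 < k`, `γ_{k-1} = η_{k-1}`. -/
lemma prod_rho_le (h0 : 0 ≤ θ) (h2 : θ ^ 2 ≤ 1 / 2) (k : ℕ) (η γ : ℕ → ℝ)
    (hη : ∀ j < k, |η j| ≤ 1) (hγ : ∀ j < k, |γ j| ≤ 1)
    (hrec : ∀ j, j + 1 < k → η j = mg θ (γ j) (η (j + 1)))
    (hlast : ∀ j, j + 1 = k → η j = γ j) :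
    ∏ j ∈ Finset.range k, (1 - η j ^ 2) / (1 - θ ^ 2 * η j ^ 2)
      ≤ ∏ j ∈ Finset.range k, (1 - γ j ^ 2 / 40) := by
  have h1 := theta_lt_one h0 h2
  have s1 : ∏ j ∈ Finset.range k, (1 - η j ^ 2) / (1 - θ ^ 2 * η j ^ 2)
      ≤ ∏ j ∈ Finset.range k, Real.exp (-(η j ^ 2 / 2)) := by
    apply Finset.prod_le_prod
    · intro j hj
      have hj' := hη j (Finset.mem_range.mp hj)
      exact div_nonneg (by linarith [sq_le_one_of_abs hj']) (theta_sq_mul_le h0 h1 hj').le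
    · intro j hj
      exact rho_le_exp h0 h2 (hη j (Finset.mem_range.mp hj))
  have s2 : ∏ j ∈ Finset.range k, Real.exp (-(γ j ^ 2 / 20))
      ≤ ∏ j ∈ Finset.range k, (1 - γ j ^ 2 / 40) := by
    apply Finset.prod_le_prod
    · intro j _; exact (Real.exp_pos _).le
    · intro j hj
      have hj' := sq_le_one_of_abs (hγ j (Finset.mem_range.mp hj))
      have := exp_neg_le (s := γ j ^ 2 / 20) (by positivity) (by linarith)
      linarith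
  refine s1.trans (le_trans ?_ s2)
  rw [← Real.exp_sum, ← Real.exp_sum]
  apply Real.exp_le_exp.mpr
  rw [Finset.sum_neg_distrib, Finset.sum_neg_distrib, neg_le_neg_iff]
  -- `∑ γ²/20 ≤ ∑ η²/2`
  have key : ∀ n, n ≤ k → ∑ j ∈ Finset.range n, γ j ^ 2 / 20
      ≤ ∑ j ∈ Finset.range n, η j ^ 2 * (2 / 5) + (if n < k then
        (∑ j ∈ Finset.range n, η (j + 1) ^ 2 * (1 / 10)) else
        (∑ j ∈ Finset.range (n - 1), η (j + 1) ^ 2 * (1 / 10))) := by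
    intro n hn
    split_ifs with hnk
    · rw [← Finset.sum_add_distrib]
      apply Finset.sum_le_sum
      intro j hj
      have hj1 : j + 1 < k := by have := Finset.mem_range.mp hj; omega
      have := gam_sq_le h0 h1 (hγ j (by omega)) (hη (j + 1) hj1)
      rw [← hrec j hj1] at this
      linarith
    · have hnk' : n = k := by omega
      rcases Nat.eq_zero_or_pos n with h | h
      · subst h; simp
      · obtain ⟨m, rfl⟩ : ∃ m, n = m + 1 := ⟨n - 1, by omega⟩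
        rw [Finset.sum_range_succ, Finset.sum_range_succ _ m]
        have hlast' := hlast m (by omega)
        have h5 : ∑ j ∈ Finset.range m, γ j ^ 2 / 20
          ≤ ∑ j ∈ Finset.range m, (η j ^ 2 * (2 / 5) + η (j + 1) ^ 2 * (1 / 10)) := by
          apply Finset.sum_le_sum
          intro j hj
          have hj1 : j + 1 < k := by have := Finset.mem_range.mp hj; omega
          have := gam_sq_le h0 h1 (hγ j (by omega)) (hη (j + 1) hj1)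
          rw [← hrec j hj1] at this
          linarith
        rw [Finset.sum_add_distrib] at h5
        simp only [Nat.add_sub_cancel]
        rw [hlast']
        nlinarith [sq_nonneg (γ m)]
  have h5 := key k le_rfl
  simp only [lt_irrefl, if_false] at h5
  refine h5.trans ?_
  rcases Nat.eq_zero_or_pos k with h | h
  · subst h; simp
  · obtain ⟨m, rfl⟩ : ∃ m, k = m + 1 := ⟨k - 1, by omega⟩
    simp only [Nat.add_sub_cancel]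
    have h6 : ∑ j ∈ Finset.range m, η (j + 1) ^ 2 * (1 / 10)
        ≤ ∑ j ∈ Finset.range (m + 1), η j ^ 2 * (1 / 10) := by
      rw [Finset.sum_range_succ' (fun j => η j ^ 2 * (1 / 10)) m]
      nlinarith [sq_nonneg (η 0)]
    have h7 : ∑ j ∈ Finset.range (m + 1), η j ^ 2 / 2
        = ∑ j ∈ Finset.range (m + 1), η j ^ 2 * (2 / 5)
          + ∑ j ∈ Finset.range (m + 1), η j ^ 2 * (1 / 10) := by
      rw [← Finset.sum_add_distrib]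
      apply Finset.sum_congr rfl
      intro j _; ring
    linarith

end offpath

end Crest.Agent.R160
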