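import Mathlib
import Crest.Agent.R160.Scalar

/-! # Row 160: more scalar facts (forms used in module G) -/

set_option autoImplicit false

namespace Crest.Agent.R160

open Real

variable {θ θ' a b a' b' : ℝ}

/-- `|ρ-ρ'|² ≤ C ((1-ρ)+(1-ρ')) (|da|+|db|+|dθ|)²`. -/
lemma rho_diff_sq (h0 : 0 ≤ θ) (h2 : θ ^ 2 ≤ 1 / 2) (h0' : 0 ≤ θ') (h2' : θ' ^ 2 ≤ 1 / 2)
    (ha : |a| ≤ 1) (hb : |b| ≤ 1) (ha' : |a'| ≤ 1) (hb' : |b'| ≤ 1) :
    (rho θ a b - rho θ' a' b') ^ 2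
      ≤ 8 * 10 ^ 12 * (((1 - rho θ a b) + (1 - rho θ' a' b'))
        * (|a - a'| + |b - b'| + |θ - θ'|) ^ 2) := by
  have hd := gain_diff h0 h2 h0' h2' ha hb ha' hb'
  have hy := gain_ge h0 h2 ha hb
  have hy' := gain_ge h0' h2' ha' hb'
  have e1 : 1 - rho θ a b = gain θ a b := by rw [← one_sub_gain h0 h2 ha hb]; ring
  have e2 : 1 - rho θ' a' b' = gain θ' a' b' := by rw [← one_sub_gain h0' h2' ha' hb']; ring
  have e3 : rho θ a b - rho θ' a' b' = -(gain θ a b - gain θ' a' b') := by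
    rw [← one_sub_gain h0 h2 ha hb, ← one_sub_gain h0' h2' ha' hb']; ring
  rw [e1, e2, e3, neg_sq]
  set g := gain θ a b with hg
  set g' := gain θ' a' b' with hg'
  set y := b - θ * a with hy_def
  set y' := b' - θ' * a' with hy'_def
  set δ := |a - a'| + |b - b'| + |θ - θ'| with hδ
  have h1 : (g - g') ^ 2 ≤ (10 ^ 6 * (|y| + |y'|) * δ) ^ 2 := by
    rw [← sq_abs (g - g')]
    gcongr
  have h3 : (|y| + |y'|) ^ 2 ≤ 8 * (g + g') := by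
    have : (|y| + |y'|) ^ 2 ≤ 2 * (y ^ 2 + y' ^ 2) := by
      rw [← sq_abs y, ← sq_abs y']
      nlinarith [sq_nonneg (|y| - |y'|)]
    linarith
  calc (g - g') ^ 2 ≤ (10 ^ 6 * (|y| + |y'|) * δ) ^ 2 := h1
    _ = 10 ^ 12 * ((|y| + |y'|) ^ 2 * δ ^ 2) := by ring
    _ ≤ 10 ^ 12 * ((8 * (g + g')) * δ ^ 2) := by gcongr
    _ = _ := by ring

/-- lower bound for `ρ` away from `|b| = 1`. -/
lemma rho_ge (h0 : 0 ≤ θ) (h2 : θ ^ 2 ≤ 1 / 2) (ha : |a| ≤ 1) (hb : |b| ≤ 1) :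
    (1 - b ^ 2) / 4 ≤ rho θ a b := by
  rw [rho_eq]
  have h1 := den_pos h0 (theta_lt_one h0 h2) ha hb
  have h3 := den_le h0 ha hb
  have h4 := sq_le_one_of_abs hb
  rw [le_div_iff₀ h1]
  have h5 : 2 * (1 + θ) ^ 2 ≤ 8 := by nlinarith
  nlinarith

lemma rho_pos (h0 : 0 ≤ θ) (h2 : θ ^ 2 ≤ 1 / 2) (ha : |a| ≤ 1) (hb : |b| < 1) :
    0 < rho θ a b := by
  have h := rho_ge h0 h2 ha hb.le
  have h3 : b ^ 2 < 1 := (sq_lt_one_iff_abs_lt_one b).mpr hb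
  linarith

lemma rho_ge_half (h0 : 0 ≤ θ) (h2 : θ ^ 2 ≤ 1 / 2) (ha : |a| ≤ 1) (hb : |b| ≤ 1 / 2) :
    3 / 16 ≤ rho θ a b := by
  have h := rho_ge h0 h2 ha (hb.trans (by norm_num))
  have h3 : |b| ^ 2 ≤ (1 / 2) ^ 2 := by gcongr
  rw [sq_abs] at h3
  linarith

/-- symmetric logarithmic edge function. -/
noncomputable def LL (θ a b : ℝ) : ℝ := (Real.log (rho θ a b) + Real.log (rho θ b a)) / 2

lemma LL_comm (θ a b : ℝ) : LL θ a b = LL θ b a := by unfold LL; ring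

lemma LL_neg (θ a b : ℝ) : LL θ (-a) (-b) = LL θ a b := by unfold LL; rw [rho_neg, rho_neg]

lemma LL_eq (h0 : 0 ≤ θ) (h2 : θ ^ 2 ≤ 1 / 2) (ha : |a| < 1) (hb : |b| < 1) :
    LL θ a b = Real.log (rr θ a b) / 2 := by
  unfold LL
  rw [rr_eq, Real.log_mul (rho_pos h0 h2 ha.le hb).ne' (rho_pos h0 h2 hb.le ha).ne']

lemma rho_zero (h2 : θ ^ 2 ≤ 1 / 2) : rho θ 0 0 = 1 := by
  have hR : Rq θ 0 0 = 1 - θ ^ 2 := by
    unfold Rq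
    have : Dq θ 0 0 = (1 - θ ^ 2) ^ 2 := by unfold Dq Bq; ring
    rw [this]
    exact Real.sqrt_sq (by linarith)
  have hB : Bq θ 0 0 = 1 + θ ^ 2 := by unfold Bq; ring
  rw [rho_eq, hR, hB]
  norm_num

lemma LL_zero (h2 : θ ^ 2 ≤ 1 / 2) : LL θ 0 0 = 0 := by
  unfold LL; rw [rho_zero h2]; norm_num

/-- `|L_θ(a,b) - L_θ'(a',b')| ≤ C(|a|+|b|+|a'|+|b'|)(|a-a'|+|b-b'|) + C (..)² |θ-θ'|`. -/
lemma LL_diff (h0 : 0 ≤ θ) (h2 : θ ^ 2 ≤ 1 / 2) (h0' : 0 ≤ θ') (h2' : θ' ^ 2 ≤ 1 / 2)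
    (ha : |a| ≤ 1 / 2) (hb : |b| ≤ 1 / 2) (ha' : |a'| ≤ 1 / 2) (hb' : |b'| ≤ 1 / 2) :
    |LL θ a b - LL θ' a' b'|
      ≤ 10 ^ 6 * ((|a| + |b| + |a'| + |b'|) * (|a - a'| + |b - b'|)
        + (|a| + |b| + |a'| + |b'|) ^ 2 * |θ - θ'|) := by
  set M := |a| + |b| + |a'| + |b'| with hM
  have n1 := abs_nonneg a
  have n2 := abs_nonneg b
  have n3 := abs_nonneg a'
  have n4 := abs_nonneg b'
  have hlt : ∀ x : ℝ, |x| ≤ 1 / 2 → |x| < 1 := fun x hx => lt_of_le_of_lt hx (by norm_num)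
  rw [LL_eq h0 h2 (hlt a ha) (hlt b hb), LL_eq h0' h2' (hlt a' ha') (hlt b' hb')]
  obtain ⟨y, hy1, ya, yb, ya', yb', hyM⟩ : ∃ y : ℝ, y ≤ 1 / 2 ∧ |a| ≤ y ∧ |b| ≤ y ∧ |a'| ≤ y
      ∧ |b'| ≤ y ∧ y ≤ M := by
    refine ⟨max (max |a| |b|) (max |a'| |b'|), ?_, ?_, ?_, ?_, ?_, ?_⟩
    · exact max_le (max_le ha hb) (max_le ha' hb')
    · simp
    · simp
    · simp
    · simp
    · simp only [max_le_iff]
      refine ⟨⟨?_, ?_⟩, ?_, ?_⟩ <;> linarith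
  have h := log_rr_diff hy1 h0 h2 h0' h2' ya yb ya' yb'
  have hy0 : 0 ≤ y := n1.trans ya
  have hM0 : 0 ≤ M := hy0.trans hyM
  have e : Real.log (rr θ a b) / 2 - Real.log (rr θ' a' b') / 2
      = (Real.log (rr θ a b) - Real.log (rr θ' a' b')) / 2 := by ring
  rw [e, abs_div, abs_of_pos (by norm_num : (0:ℝ) < 2)]
  have d1 := abs_nonneg (a - a')
  have d2 := abs_nonneg (b - b')
  have d3 := abs_nonneg (θ - θ')
  have k1 : y * (|a - a'| + |b - b'| + y * |θ - θ'|)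
      ≤ M * (|a - a'| + |b - b'|) + M ^ 2 * |θ - θ'| := by
    calc y * (|a - a'| + |b - b'| + y * |θ - θ'|)
        ≤ M * (|a - a'| + |b - b'| + M * |θ - θ'|) := by gcongr
      _ = _ := by ring
  have k2 : 0 ≤ M * (|a - a'| + |b - b'|) + M ^ 2 * |θ - θ'| := by positivity
  linarith

/-- cruder form. -/
lemma LL_diff' (h0 : 0 ≤ θ) (h2 : θ ^ 2 ≤ 1 / 2) (h0' : 0 ≤ θ') (h2' : θ' ^ 2 ≤ 1 / 2)
    (ha : |a| ≤ 1 / 2) (hb : |b| ≤ 1 / 2) (ha' : |a'| ≤ 1 / 2) (hb' : |b'| ≤ 1 / 2) :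
    |LL θ a b - LL θ' a' b'|
      ≤ 4 * 10 ^ 6 * ((|a| + |b| + |a'| + |b'|) * (|a - a'| + |b - b'|) + |θ - θ'|) := by
  have h := LL_diff h0 h2 h0' h2' ha hb ha' hb'
  set M := |a| + |b| + |a'| + |b'| with hM
  have n1 := abs_nonneg a
  have n2 := abs_nonneg b
  have n3 := abs_nonneg a'
  have n4 := abs_nonneg b'
  have d1 := abs_nonneg (a - a')
  have d2 := abs_nonneg (b - b')
  have d3 := abs_nonneg (θ - θ')
  have hM0 : 0 ≤ M := by positivity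
  have hM2 : M ≤ 2 := by linarith
  have k1 : M ^ 2 * |θ - θ'| ≤ 4 * |θ - θ'| := by
    apply mul_le_mul_of_nonneg_right _ d3
    nlinarith
  have k2 : 0 ≤ M * (|a - a'| + |b - b'|) := by positivity
  linarith

/-- `|L| ≤ C(a²+b²)`. -/
lemma abs_LL_le (h0 : 0 ≤ θ) (h2 : θ ^ 2 ≤ 1 / 2) (ha : |a| ≤ 1 / 2) (hb : |b| ≤ 1 / 2) :
    |LL θ a b| ≤ 2 * 10 ^ 6 * (a ^ 2 + b ^ 2) := by
  have h := LL_diff (a' := 0) (b' := 0) h0 h2 h0 h2 ha hb (by norm_num) (by norm_num)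
  rw [LL_zero h2] at h
  simp only [sub_zero, abs_zero, add_zero, sub_self, mul_zero] at h
  have e : (|a| + |b|) * (|a| + |b|) ≤ 2 * (a ^ 2 + b ^ 2) := by
    rw [← sq_abs a, ← sq_abs b]
    nlinarith [sq_nonneg (|a| - |b|)]
  linarith

lemma rho_le_one_LL (h0 : 0 ≤ θ) (h2 : θ ^ 2 ≤ 1 / 2) (ha : |a| < 1) (hb : |b| < 1) :
    LL θ a b ≤ 0 := by
  unfold LL
  have h1 := Real.log_nonpos (rho_nonneg h0 (theta_lt_one h0 h2) ha.le hb.le)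
    (rho_le_one h0 h2 ha.le hb.le)
  have h3 := Real.log_nonpos (rho_nonneg h0 (theta_lt_one h0 h2) hb.le ha.le)
    (rho_le_one h0 h2 hb.le ha.le)
  linarith

/-- `√(1-a²) ρ(a,b) = √(1-b²) exp (L(a,b))`. -/
lemma sqrt_mul_rho (h0 : 0 ≤ θ) (h2 : θ ^ 2 ≤ 1 / 2) (ha : |a| < 1) (hb : |b| < 1) :
    √(1 - a ^ 2) * rho θ a b = √(1 - b ^ 2) * Real.exp (LL θ a b) := by
  have hva : 0 < 1 - a ^ 2 := by
    have := (sq_lt_one_iff_abs_lt_one a).mpr ha; linarith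
  have hvb : 0 < 1 - b ^ 2 := by
    have := (sq_lt_one_iff_abs_lt_one b).mpr hb; linarith
  have hr := rho_pos h0 h2 ha.le hb
  have hr' := rho_pos h0 h2 hb.le ha
  have hrev := rho_rev θ a b
  have hE : Real.exp (LL θ a b) ^ 2 = rho θ a b * rho θ b a := by
    rw [← Real.exp_nat_mul]
    have : ((2:ℕ) : ℝ) * LL θ a b = Real.log (rho θ a b) + Real.log (rho θ b a) := by
      unfold LL; push_cast; ring
    rw [this, Real.exp_add, Real.exp_log hr, Real.exp_log hr']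
  have h1 : (√(1 - a ^ 2) * rho θ a b) ^ 2 = (√(1 - b ^ 2) * Real.exp (LL θ a b)) ^ 2 := by
    rw [mul_pow, mul_pow, Real.sq_sqrt hva.le, Real.sq_sqrt hvb.le, hE]
    calc (1 - a ^ 2) * rho θ a b ^ 2 = ((1 - a ^ 2) * rho θ a b) * rho θ a b := by ring
      _ = ((1 - b ^ 2) * rho θ b a) * rho θ a b := by rw [hrev]
      _ = _ := by ring
  have h3 : 0 ≤ √(1 - a ^ 2) * rho θ a b := by positivity
  have h4 : 0 ≤ √(1 - b ^ 2) * Real.exp (LL θ a b) := by positivity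
  nlinarith [sq_nonneg (√(1 - a ^ 2) * rho θ a b - √(1 - b ^ 2) * Real.exp (LL θ a b)),
    sq_nonneg (√(1 - a ^ 2) * rho θ a b + √(1 - b ^ 2) * Real.exp (LL θ a b))]

/-- `|√(1-a²) - √(1-a'²)| ≤ |a-a'|` for `|a|,|a'| ≤ 1/2`. -/
lemma sqrt_var_diff (ha : |a| ≤ 1 / 2) (ha' : |a'| ≤ 1 / 2) :
    |√(1 - a ^ 2) - √(1 - a' ^ 2)| ≤ |a - a'| := by
  have v1 : ∀ a : ℝ, |a| ≤ 1 / 2 → 3 / 4 ≤ 1 - a ^ 2 := by
    intro a ha
    have : |a| ^ 2 ≤ (1 / 2) ^ 2 := by gcongr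
    rw [sq_abs] at this
    linarith
  have w1 : ∀ a : ℝ, |a| ≤ 1 / 2 → 1 / 2 ≤ √(1 - a ^ 2) := by
    intro a ha
    apply Real.le_sqrt_of_sq_le
    have := v1 a ha
    linarith
  have h := abs_sqrt_sub_sqrt_le' (by norm_num) (w1 a ha) (w1 a' ha')
    (by linarith [v1 a ha]) (by linarith [v1 a' ha'])
  have s := sq_sub_sq_abs_le ha ha'
  have e1 : |1 - a ^ 2 - (1 - a' ^ 2)| = |a ^ 2 - a' ^ 2| := by
    rw [← abs_neg]; congr 1; ring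
  rw [e1] at h
  norm_num at h s ⊢
  linarith

end Crest.Agent.R160
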