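import Mathlib
import Crest.Agent.R160.Causal
import Crest.Agent.R160.Meas
import Crest.Agent.R160.Equiv
import Crest.Agent.R160.Resample
import Crest.Agent.R160.Incr
import Crest.Agent.R160.Product

/-! Row 160, module D: the interface to modules B and C (increment inequality, product formula). -/

set_option autoImplicit false
set_option linter.unusedSectionVars false

open MeasureTheory Finset

namespace Crest.Agent.R160.DI

open Crest.Agent.R160 Crest.Agent.R160.TreeAut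

open scoped Classical

variable {V : Type*} {G : SimpleGraph V}

/-- geodesic convexity -/
def GC (G : SimpleGraph V) (S : Finset V) : Prop := ∀ x ∈ S, ∀ y ∈ S, x ≠ y → par G x y ∈ S

theorem cov_eq_MM (hT : G.IsTree) {θ : ℝ} (h0 : 0 ≤ θ) (h1 : θ < 1) {S : Finset V}
    (hS : GC G S) {E : Finset (Ev V)} (hE : ∀ e ∈ E, e.1 ∈ S)
    {o : Ev V → ℝ} (ho : ∀ e ∈ E, |o e| < 1) {v w : V} (hv : v ∈ S) (hw : w ∈ S) :
    cov G θ S E o v w = MM G θ (mm G θ S E o) v w :=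
  Crest.Agent.R160.cov_eq_MM hT h0 h1 hS hE ho hv hw

/-- (C5) -/
theorem diff_incr (G : SimpleGraph V) {θ θ' : ℝ} (h0 : 0 ≤ θ) (h1 : θ < 1) (h0' : 0 ≤ θ')
    (h1' : θ' < 1)
    (S S' : Finset V) (R : ℕ) (v : V) (k : ℕ) {s t : ℝ} (hs : (k : ℝ) ≤ s) (hst : s ≤ t)
    (ht : t ≤ k + 1 / 2) (B : ℝ)
    (hB : ∀ r, s ≤ r → r ≤ t → ∑ w ∈ S ∪ S',
      ∫ ω, ((ct G θ S (evs S R) ω r v w - ct G θ' S' (evs S' R) ω r v w) ^ 2
        + (ct G θ S (evs S R) ω r v w) ^ 2 *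
          (mt G θ S (evs S R) ω r w - mt G θ' S' (evs S' R) ω r w) ^ 2) ∂(PP V) ≤ B) :
    ∫ ω, (mt G θ S (evs S R) ω t v - mt G θ' S' (evs S' R) ω t v) ^ 2 ∂(PP V) ≤
      ∫ ω, (mt G θ S (evs S R) ω s v - mt G θ' S' (evs S' R) ω s v) ^ 2 ∂(PP V)
        + 100 * (if k = 0 then t / 2 else 1 / 2) ^ 2 * (t - s) * B :=
  incr_sup G S S' (by rwa [abs_of_nonneg h0]) (by rwa [abs_of_nonneg h0']) R v k hs hst ht B hB

/-- (C6) -/
theorem diff_mono (G : SimpleGraph V) {θ θ' : ℝ} (h0 : 0 ≤ θ) (h1 : θ < 1) (h0' : 0 ≤ θ')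
    (h1' : θ' < 1) (S S' : Finset V) (R : ℕ) (v : V) {s t : ℝ} (hst : s ≤ t) :
    ∫ ω, (mt G θ S (evs S R) ω s v - mt G θ' S' (evs S' R) ω s v) ^ 2 ∂(PP V) ≤
      ∫ ω, (mt G θ S (evs S R) ω t v - mt G θ' S' (evs S' R) ω t v) ^ 2 ∂(PP V) :=
  mt_diff_mono G S S' (by rwa [abs_of_nonneg h0]) (by rwa [abs_of_nonneg h0']) _ _ hst v

end Crest.Agent.R160.DI
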