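import Mathlib

/-! Row 160, module D, abstract part: a weighted (sup-norm) Gronwall lemma for families of
nondecreasing functions indexed by the vertices of a finite set. -/

set_option autoImplicit false

open Finset

namespace Crest.Agent.R160

variable {V : Type*}

/-- One step of the weighted Gronwall lemma. -/
theorem gronwall_step (S : Finset V) (D : V → ℝ) (ψ : V → ℝ) (hψ : ∀ v, 0 < ψ v)
    (h A A' M : ℝ) (hh : 0 ≤ h) (hA' : 0 ≤ A') (hM : 0 ≤ M) (hA : h * A ≤ 1 / 2)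
    (K : V → V → ℝ) (hK0 : ∀ v x, 0 ≤ K v x)
    (hK : ∀ v ∈ S, ∑ x ∈ S, K v x * ψ x ≤ A * ψ v)
    (B : V → ℝ) (hB : ∀ v ∈ S, B v ≤ A' * ψ v)
    (hD : ∀ v ∈ S, D v ≤ M * ψ v + h * (∑ x ∈ S, K v x * D x + B v)) :
    ∀ v ∈ S, D v ≤ (2 * M + 2 * h * A') * ψ v := by
  rcases S.eq_empty_or_nonempty with rfl | hS
  · simp
  obtain ⟨v₀, hv₀, hmax⟩ := S.exists_max_image (fun v => D v / ψ v) hS
  set m : ℝ := max (D v₀ / ψ v₀) 0 with hm
  have hm0 : 0 ≤ m := le_max_right _ _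
  have hDm : ∀ v ∈ S, D v ≤ m * ψ v := by
    intro v hv
    have h1 := (hmax v hv).trans (le_max_left (D v₀ / ψ v₀) 0)
    rwa [div_le_iff₀ (hψ v)] at h1
  have h2 : ∀ v ∈ S, D v ≤ (M + (1 / 2) * m + h * A') * ψ v := by
    intro v hv
    have h3 : ∑ x ∈ S, K v x * D x ≤ m * (A * ψ v) := by
      calc ∑ x ∈ S, K v x * D x ≤ ∑ x ∈ S, K v x * (m * ψ x) :=
            Finset.sum_le_sum fun x hx => mul_le_mul_of_nonneg_left (hDm x hx) (hK0 v x)
        _ = m * ∑ x ∈ S, K v x * ψ x := by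
            rw [Finset.mul_sum]; exact Finset.sum_congr rfl fun x _ => by ring
        _ ≤ m * (A * ψ v) := mul_le_mul_of_nonneg_left (hK v hv) hm0
    calc D v ≤ M * ψ v + h * (∑ x ∈ S, K v x * D x + B v) := hD v hv
      _ ≤ M * ψ v + h * (m * (A * ψ v) + A' * ψ v) := by
          have := mul_le_mul_of_nonneg_left (add_le_add h3 (hB v hv)) hh
          linarith
      _ = (M + (h * A) * m + h * A') * ψ v := by ring
      _ ≤ (M + (1 / 2) * m + h * A') * ψ v := by
          refine mul_le_mul_of_nonneg_right ?_ (hψ v).le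
          have := mul_le_mul_of_nonneg_right hA hm0
          linarith
  have h4 : m ≤ M + (1 / 2) * m + h * A' := by
    refine max_le ?_ (by positivity)
    have := h2 v₀ hv₀
    rwa [← div_le_iff₀ (hψ v₀)] at this
  intro v hv
  refine (hDm v hv).trans (mul_le_mul_of_nonneg_right ?_ (hψ v).le)
  linarith

/-- The weighted Gronwall lemma: the constant depends only on `C, A, A', T`. -/
theorem exists_gronwall (C A A' T : ℝ) (hC : 0 ≤ C) (hA0 : 0 ≤ A) (hA' : 0 ≤ A') (hT : 0 ≤ T) :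
    ∃ c : ℝ, 0 ≤ c ∧ ∀ (S : Finset V) (D : ℝ → V → ℝ) (ψ : V → ℝ) (_ : ∀ v, 0 < ψ v)
      (K : V → V → ℝ) (_ : ∀ v x, 0 ≤ K v x)
      (_ : ∀ v ∈ S, ∑ x ∈ S, K v x * ψ x ≤ A * ψ v)
      (B : V → ℝ) (_ : ∀ v ∈ S, B v ≤ A' * ψ v)
      (_ : ∀ v ∈ S, D 0 v ≤ 0)
      (_ : ∀ r₀ r, 0 ≤ r₀ → r₀ ≤ r → r ≤ T → ∀ v ∈ S,
        D r v ≤ D r₀ v + C * (r - r₀) * (∑ x ∈ S, K v x * D r x + B v)),
      ∀ t, 0 ≤ t → t ≤ T → ∀ v ∈ S, D t v ≤ c * ψ v := by
  obtain ⟨n, hn⟩ := exists_nat_gt (2 * C * A * T)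
  have hn' : (0 : ℝ) < n + 1 := by positivity
  -- step length `h = t / (n+1)`
  set M : ℕ → ℝ := fun i => (2 ^ i - 1) * (2 * (C * T) * A') with hM
  have hMnn : ∀ i, 0 ≤ M i := by
    intro i
    have : (1 : ℝ) ≤ 2 ^ i := one_le_pow₀ (by norm_num)
    have h2 : (0 : ℝ) ≤ 2 * (C * T) * A' := by positivity
    exact mul_nonneg (by linarith) h2
  refine ⟨M (n + 1), hMnn _, ?_⟩
  intro S D ψ hψ K hK0 hK B hB hD0 hstep t ht htT
  set h : ℝ := t / (n + 1) with hh
  have hh0 : 0 ≤ h := by positivity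
  have hhT : h ≤ T / (n + 1) := by
    rw [hh]; gcongr
  have hhT' : h ≤ T := hhT.trans (div_le_self hT (by linarith [(Nat.cast_nonneg n : (0:ℝ) ≤ n)]))
  have key : ∀ i : ℕ, i ≤ n + 1 → ∀ v ∈ S, D (i * h) v ≤ M i * ψ v := by
    intro i
    induction i with
    | zero =>
      intro _ v hv
      simpa [hM] using hD0 v hv
    | succ i ih =>
      intro hi
      have ih' := ih (by omega)
      have hile : ((i + 1 : ℕ) : ℝ) * h ≤ t := by
        have h1 : ((i + 1 : ℕ) : ℝ) ≤ (n : ℝ) + 1 := by exact_mod_cast hi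
        calc ((i + 1 : ℕ) : ℝ) * h ≤ ((n : ℝ) + 1) * h := mul_le_mul_of_nonneg_right h1 hh0
          _ = t := by rw [hh]; field_simp
      have hdiff : ((i + 1 : ℕ) : ℝ) * h - (i : ℝ) * h = h := by push_cast; ring
      have hst := hstep ((i : ℝ) * h) (((i + 1 : ℕ) : ℝ) * h) (by positivity)
        (by push_cast; nlinarith) (hile.trans htT)
      rw [hdiff] at hst
      have := gronwall_step S (D (((i + 1 : ℕ) : ℝ) * h)) ψ hψ (C * h) A A' (M i)
        (by positivity) hA' (hMnn i) ?_ K hK0 hK B hB ?_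
      · intro v hv
        refine (this v hv).trans (mul_le_mul_of_nonneg_right ?_ (hψ v).le)
        have h5 : 2 * (C * h) * A' ≤ 2 * (C * T) * A' := by gcongr
        have h6 : M (i + 1) = 2 * M i + 2 * (C * T) * A' := by
          simp only [hM, pow_succ]; ring
        rw [h6]; linarith
      · -- `C h A ≤ 1/2`
        have h7 : C * h * A ≤ C * (T / (n + 1)) * A := by gcongr
        refine h7.trans ?_
        rw [mul_div_assoc', div_mul_eq_mul_div, div_le_iff₀ hn']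
        nlinarith
      · intro v hv
        refine (hst v hv).trans ?_
        have := ih' v hv
        linarith
  intro v hv
  have := key (n + 1) le_rfl v hv
  have h8 : (((n + 1 : ℕ) : ℝ)) * h = t := by
    rw [hh]; push_cast; field_simp
  rwa [h8] at this

end Crest.Agent.R160
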