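import Mathlib
import Crest.Agent.R160.TreeAut
import Crest.Agent.R160.Gronwall

/-! Row 160, module D: deterministic kernel sums on the `d`-regular tree. -/

set_option autoImplicit false

open Finset

namespace Crest.Agent.R160.Kern

open Crest.Agent.R160.TreeAut

set_option linter.unusedSectionVars false

variable {V : Type*} [DecidableEq V] {G : SimpleGraph V}

/-- the `i`-th vertex on the path from `w` to `v` -/
noncomputable def anc (G : SimpleGraph V) (v w : V) (i : ℕ) : V := (par G v)^[i] w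

@[simp] lemma anc_zero (v w : V) : anc G v w 0 = w := rfl

lemma anc_succ (v w : V) (i : ℕ) : anc G v w (i + 1) = anc G v (par G v w) i := by
  unfold anc
  rw [Function.iterate_succ_apply]

lemma anc_succ' (v w : V) (i : ℕ) : anc G v w (i + 1) = par G v (anc G v w i) := by
  unfold anc
  rw [Function.iterate_succ_apply']

lemma dist_anc (hT : G.IsTree) (v w : V) (i : ℕ) (hi : i ≤ G.dist v w) :
    G.dist v (anc G v w i) + i = G.dist v w := by
  induction i with
  | zero => simp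
  | succ i ih =>
    have h1 := ih (by omega)
    have h2 : anc G v w i ≠ v := by
      intro h
      rw [h, SimpleGraph.dist_self] at h1
      omega
    rw [anc_succ']
    have h3 := par_dist hT h2
    omega

/-! ### Sphere counting -/

lemma card_filter_dist_le [G.LocallyFinite] (hT : G.IsTree) {d : ℕ}
    (hreg : G.IsRegularOfDegree d) (hd : 2 ≤ d) (v : V) (k : ℕ) (S : Finset V)
    (hS : ∀ w ∈ S, G.dist v w = k) : S.card ≤ 2 * (d - 1) ^ k ∧ (1 ≤ k → S.card ≤ d * (d - 1) ^ (k - 1)) := by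
  induction k generalizing S with
  | zero =>
    refine ⟨?_, fun h => by omega⟩
    have : S ⊆ {v} := by
      intro w hw
      have h1 := hS w hw
      have := (hT.connected.dist_eq_zero_iff (u := v) (v := w)).1 h1
      simp [this]
    calc S.card ≤ ({v} : Finset V).card := Finset.card_le_card this
      _ ≤ 2 * (d - 1) ^ 0 := by simp
  | succ k ih =>
    have himg : ∀ u ∈ S.image (par G v), G.dist v u = k := by
      intro u hu
      obtain ⟨w, hw, rfl⟩ := Finset.mem_image.1 hu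
      have h1 := hS w hw
      have h2 : w ≠ v := by
        rintro rfl
        rw [SimpleGraph.dist_self] at h1
        omega
      have h3 := par_dist hT h2
      omega
    have hfib : ∀ u ∈ S.image (par G v), (S.filter fun w => par G v w = u).card ≤
        (if u = v then d else d - 1) := by
      intro u _
      have h1 : ((S.filter fun w => par G v w = u : Finset V) : Set V) ⊆ children G v u := by
        intro w hw
        simp only [Finset.coe_filter, Set.mem_ofPred_eq] at hw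
        refine ⟨?_, hw.2⟩
        rintro rfl
        have := hS _ hw.1
        rw [SimpleGraph.dist_self] at this
        omega
      have h2 := Set.ncard_le_ncard h1 (children_finite hT v u)
      rw [Set.ncard_coe_finset] at h2
      split_ifs with h
      · subst h
        rwa [ncard_children_root hT hreg] at h2
      · rwa [ncard_children hT hreg h] at h2
    have hmain : S.card ≤ d * (d - 1) ^ k := by
      rcases Nat.eq_zero_or_pos k with rfl | hk
      · have h1 : S.card ≤ d * (S.image (par G v)).card := by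
          refine Finset.card_le_mul_card_image S d ?_
          intro u hu
          refine (hfib u hu).trans ?_
          split_ifs <;> omega
        have h2 : (S.image (par G v)).card ≤ 1 := by
          have : S.image (par G v) ⊆ {v} := by
            intro w hw
            have h1 := himg w hw
            have := (hT.connected.dist_eq_zero_iff (u := v) (v := w)).1 h1
            simp [this]
          simpa using Finset.card_le_card this
        calc S.card ≤ d * (S.image (par G v)).card := h1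
          _ ≤ d * 1 := Nat.mul_le_mul_left _ h2
          _ = d * (d - 1) ^ 0 := by simp
      · have h1 : S.card ≤ (d - 1) * (S.image (par G v)).card := by
          refine Finset.card_le_mul_card_image S (d - 1) ?_
          intro u hu
          refine (hfib u hu).trans ?_
          have h3 := himg u hu
          have h4 : u ≠ v := by
            rintro rfl
            rw [SimpleGraph.dist_self] at h3
            omega
          rw [if_neg h4]
        have h2 := (ih (S.image (par G v)) himg).2 hk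
        calc S.card ≤ (d - 1) * (S.image (par G v)).card := h1
          _ ≤ (d - 1) * (d * (d - 1) ^ (k - 1)) := Nat.mul_le_mul_left _ h2
          _ = d * (d - 1) ^ ((k - 1) + 1) := by ring
          _ = d * (d - 1) ^ k := by rw [Nat.sub_add_cancel hk]
    refine ⟨?_, fun _ => by simpa using hmain⟩
    refine hmain.trans ?_
    have : d ≤ 2 * (d - 1) := by omega
    calc d * (d - 1) ^ k ≤ (2 * (d - 1)) * (d - 1) ^ k := Nat.mul_le_mul_right _ this
      _ = 2 * (d - 1) ^ (k + 1) := by ring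

/-- Sums over vertices of functions of the distance. -/
lemma sum_dist_le [G.LocallyFinite] (hT : G.IsTree) {d : ℕ}
    (hreg : G.IsRegularOfDegree d) (hd : 2 ≤ d) (v : V) (S : Finset V) (f : ℕ → ℝ)
    (hf : ∀ k, 0 ≤ f k) (hs : Summable fun k => ((d : ℝ) - 1) ^ k * f k) :
    ∑ w ∈ S, f (G.dist v w) ≤ 2 * ∑' k, ((d : ℝ) - 1) ^ k * f k := by
  have hb : (0 : ℝ) ≤ (d : ℝ) - 1 := by
    have : (2 : ℝ) ≤ d := by exact_mod_cast hd
    linarith
  have h1 : ∑ w ∈ S, f (G.dist v w) =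
      ∑ k ∈ S.image (G.dist v), ∑ w ∈ S with G.dist v w = k, f k := by
    rw [← Finset.sum_fiberwise_of_maps_to (g := G.dist v) (t := S.image (G.dist v))
      (fun w hw => Finset.mem_image_of_mem _ hw)]
    refine Finset.sum_congr rfl fun k _ => Finset.sum_congr rfl fun w hw => ?_
    rw [(Finset.mem_filter.1 hw).2]
  have h2 : ∀ k, ∑ w ∈ S with G.dist v w = k, f k ≤ 2 * (((d : ℝ) - 1) ^ k * f k) := by
    intro k
    rw [Finset.sum_const, nsmul_eq_mul]
    have h3 := (card_filter_dist_le hT hreg hd v k (S.filter fun w => G.dist v w = k)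
      (fun w hw => (Finset.mem_filter.1 hw).2)).1
    have h4 : ((S.filter fun w => G.dist v w = k).card : ℝ) ≤ 2 * ((d : ℝ) - 1) ^ k := by
      have h5 : ((S.filter fun w => G.dist v w = k).card : ℝ) ≤ ((2 * (d - 1) ^ k : ℕ) : ℝ) := by
        exact_mod_cast h3
      rw [Nat.cast_mul, Nat.cast_pow, Nat.cast_sub (by omega)] at h5
      simpa using h5
    calc _ ≤ (2 * ((d : ℝ) - 1) ^ k) * f k := mul_le_mul_of_nonneg_right h4 (hf k)
      _ = _ := by ring
  rw [h1]
  calc ∑ k ∈ S.image (G.dist v), ∑ w ∈ S with G.dist v w = k, f k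
      ≤ ∑ k ∈ S.image (G.dist v), 2 * (((d : ℝ) - 1) ^ k * f k) :=
        Finset.sum_le_sum fun k _ => h2 k
    _ = 2 * ∑ k ∈ S.image (G.dist v), ((d : ℝ) - 1) ^ k * f k := by rw [Finset.mul_sum]
    _ ≤ 2 * ∑' k, ((d : ℝ) - 1) ^ k * f k := by
        refine mul_le_mul_of_nonneg_left ?_ (by norm_num)
        exact hs.sum_le_tsum _ (fun k _ => mul_nonneg (pow_nonneg hb k) (hf k))

/-- The geometric boundary sum. -/
lemma sum_far_le [G.LocallyFinite] (hT : G.IsTree) {d : ℕ}
    (hreg : G.IsRegularOfDegree d) (hd : 2 ≤ d) {q : ℝ} (hq0 : 0 ≤ q)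
    (hq : ((d : ℝ) - 1) * q < 1) (v : V) (S : Finset V) (n : ℕ)
    (hS : ∀ w ∈ S, n ≤ G.dist v w) :
    ∑ w ∈ S, q ^ (G.dist v w) ≤
      2 * (1 - ((d : ℝ) - 1) * q)⁻¹ * (((d : ℝ) - 1) * q) ^ n := by
  have hb : (0 : ℝ) ≤ (d : ℝ) - 1 := by
    have : (2 : ℝ) ≤ d := by exact_mod_cast hd
    linarith
  have hbq : 0 ≤ ((d : ℝ) - 1) * q := mul_nonneg hb hq0
  set f : ℕ → ℝ := fun k => if n ≤ k then q ^ k else 0 with hf
  have hf0 : ∀ k, 0 ≤ f k := by
    intro k
    simp only [hf]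
    split_ifs <;> positivity
  have hfe : ∀ k, ((d : ℝ) - 1) ^ k * f k = if n ≤ k then (((d : ℝ) - 1) * q) ^ k else 0 := by
    intro k
    simp only [hf]
    split_ifs
    · rw [mul_pow]
    · simp
  have hsum0 : Summable fun k : ℕ => (((d : ℝ) - 1) * q) ^ k :=
    summable_geometric_of_lt_one hbq hq
  have hs : Summable fun k => ((d : ℝ) - 1) ^ k * f k := by
    refine Summable.of_nonneg_of_le (fun k => mul_nonneg (pow_nonneg hb k) (hf0 k)) ?_ hsum0
    intro k
    rw [hfe]
    split_ifs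
    · exact le_rfl
    · positivity
  have h1 := sum_dist_le hT hreg hd v S f hf0 hs
  have h2 : ∑ w ∈ S, q ^ (G.dist v w) = ∑ w ∈ S, f (G.dist v w) := by
    refine Finset.sum_congr rfl fun w hw => ?_
    simp only [hf]
    rw [if_pos (hS w hw)]
  have h3 : ∑' k, ((d : ℝ) - 1) ^ k * f k =
      (1 - ((d : ℝ) - 1) * q)⁻¹ * (((d : ℝ) - 1) * q) ^ n := by
    have h4 : ∑' k, ((d : ℝ) - 1) ^ k * f k =
        ∑' k, (if n ≤ k then (((d : ℝ) - 1) * q) ^ k else 0) :=
      tsum_congr hfe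
    rw [h4]
    have hs' : Summable (fun k : ℕ => (if n ≤ k then (((d : ℝ) - 1) * q) ^ k else 0)) := by
      refine hs.congr ?_
      intro k
      rw [← hfe]
    rw [← hs'.sum_add_tsum_nat_add n]
    have h5 : ∑ k ∈ Finset.range n, (if n ≤ k then (((d : ℝ) - 1) * q) ^ k else 0) = 0 := by
      refine Finset.sum_eq_zero fun k hk => ?_
      rw [if_neg (by simpa using hk)]
    rw [h5, zero_add]
    have h6 : ∀ k : ℕ, (if n ≤ k + n then (((d : ℝ) - 1) * q) ^ (k + n) else 0) =
        (((d : ℝ) - 1) * q) ^ k * (((d : ℝ) - 1) * q) ^ n := by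
      intro k
      rw [if_pos (by omega), pow_add]
    rw [tsum_congr h6, tsum_mul_right, tsum_geometric_of_lt_one hbq hq]
  rw [h2]
  refine h1.trans (le_of_eq ?_)
  rw [h3]
  ring


/-! ### Distance to the complement -/

/-- distance to the complement of `F` -/
noncomputable def rad (G : SimpleGraph V) (F : Finset V) (v : V) : ℕ :=
  sInf {n | ∃ w, w ∉ F ∧ G.dist v w = n}

lemma rad_spec [Infinite V] (G : SimpleGraph V) (F : Finset V) (v : V) :
    ∃ w, w ∉ F ∧ G.dist v w = rad G F v := by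
  obtain ⟨w, hw⟩ := F.exists_notMem
  exact Nat.sInf_mem (s := {n | ∃ w, w ∉ F ∧ G.dist v w = n}) ⟨_, w, hw, rfl⟩

lemma rad_le {F : Finset V} {v w : V} (hw : w ∉ F) : rad G F v ≤ G.dist v w :=
  Nat.sInf_le ⟨w, hw, rfl⟩

lemma lt_rad [Infinite V] {F : Finset V} {v : V} {n : ℕ} (h : ∀ w, G.dist v w ≤ n → w ∈ F) :
    n < rad G F v := by
  obtain ⟨w, hw, hd⟩ := rad_spec G F v
  by_contra h1
  exact hw (h w (by omega))

lemma rad_lipschitz [Infinite V] (hG : G.Connected) (F : Finset V) (v x : V) :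
    rad G F v ≤ rad G F x + G.dist v x := by
  obtain ⟨w, hw, hd⟩ := rad_spec G F x
  have h1 := rad_le (G := G) (v := v) hw
  have h2 := hG.dist_triangle (u := v) (v := x) (w := w)
  omega

/-! ### The kernel -/

/-- the kernel of the Gronwall inequality -/
noncomputable def ker (G : SimpleGraph V) (θ : ℝ) (F : Finset V) (v x : V) : ℝ :=
  ∑ w ∈ F, ((G.dist v w : ℝ) + 1) * θ ^ (2 * G.dist v w) *
    ∑ i ∈ Finset.range (G.dist v w + 1), if anc G v w i = x then 1 else 0

lemma ker_nonneg (θ : ℝ) (F : Finset V) (v x : V) : 0 ≤ ker G θ F v x := by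
  unfold ker
  refine Finset.sum_nonneg fun w _ => mul_nonneg (mul_nonneg (by positivity) ?_)
    (Finset.sum_nonneg fun i _ => by split_ifs <;> norm_num)
  rw [pow_mul]
  positivity

lemma sum_ker_mul_le (θ : ℝ) (F : Finset V) (v : V) (f : V → ℝ) (hf : ∀ x, 0 ≤ f x) :
    ∑ x ∈ F, ker G θ F v x * f x ≤ ∑ w ∈ F, ((G.dist v w : ℝ) + 1) * θ ^ (2 * G.dist v w) *
      ∑ i ∈ Finset.range (G.dist v w + 1), f (anc G v w i) := by
  unfold ker
  simp only [Finset.sum_mul]
  rw [Finset.sum_comm]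
  refine Finset.sum_le_sum fun w _ => ?_
  have h0 : 0 ≤ ((G.dist v w : ℝ) + 1) * θ ^ (2 * G.dist v w) := by
    rw [pow_mul]
    positivity
  simp only [mul_assoc]
  rw [← Finset.mul_sum, ← Finset.mul_sum]
  simp only [← mul_assoc]
  refine mul_le_mul_of_nonneg_left ?_ h0
  simp only [Finset.sum_mul]
  rw [Finset.sum_comm]
  refine Finset.sum_le_sum fun i _ => ?_
  simp only [ite_mul, one_mul, zero_mul]
  rw [Finset.sum_ite_eq]
  split_ifs
  · exact le_rfl
  · exact hf _

lemma sum_ker_mul_eq (θ : ℝ) (F : Finset V) (v : V)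
    (hF : ∀ w ∈ F, ∀ i ≤ G.dist v w, anc G v w i ∈ F) (f : V → ℝ) :
    ∑ x ∈ F, ker G θ F v x * f x = ∑ w ∈ F, ((G.dist v w : ℝ) + 1) * θ ^ (2 * G.dist v w) *
      ∑ i ∈ Finset.range (G.dist v w + 1), f (anc G v w i) := by
  unfold ker
  simp only [Finset.sum_mul]
  rw [Finset.sum_comm]
  refine Finset.sum_congr rfl fun w hw => ?_
  simp only [mul_assoc]
  rw [← Finset.mul_sum, ← Finset.mul_sum]
  congr 2
  simp only [Finset.sum_mul]
  rw [Finset.sum_comm]
  refine Finset.sum_congr rfl fun i hi => ?_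
  simp only [ite_mul, one_mul, zero_mul]
  rw [Finset.sum_ite_eq, if_pos (hF w hw i (by simpa [Nat.lt_succ_iff] using hi))]

/-- the constant of the kernel bound -/
noncomputable def AA (d : ℕ) (θ γ : ℝ) : ℝ :=
  2 * ∑' k : ℕ, ((d : ℝ) - 1) ^ k * (((k : ℝ) + 1) ^ 2 * (θ ^ 2 / γ) ^ k)

lemma summable_AA {d : ℕ} (hd : 2 ≤ d) {θ γ : ℝ} (hγ : 0 < γ)
    (h : ((d : ℝ) - 1) * θ ^ 2 < γ) :
    Summable fun k : ℕ => ((d : ℝ) - 1) ^ k * (((k : ℝ) + 1) ^ 2 * (θ ^ 2 / γ) ^ k) := by
  have hb : (0 : ℝ) ≤ (d : ℝ) - 1 := by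
    have : (2 : ℝ) ≤ d := by exact_mod_cast hd
    linarith
  set r : ℝ := ((d : ℝ) - 1) * (θ ^ 2 / γ) with hr
  have hr0 : 0 ≤ r := by positivity
  have hr1 : r < 1 := by
    rw [hr, mul_div_assoc', div_lt_one hγ]
    exact h
  have hs : Summable fun k : ℕ => ((k : ℝ) + 1) ^ 2 * r ^ k := by
    have h2 := summable_pow_mul_geometric_of_norm_lt_one (R := ℝ) 2 (r := r)
      (by rwa [Real.norm_eq_abs, abs_of_nonneg hr0])
    have h1 := summable_pow_mul_geometric_of_norm_lt_one (R := ℝ) 1 (r := r)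
      (by rwa [Real.norm_eq_abs, abs_of_nonneg hr0])
    have h0 := summable_geometric_of_lt_one hr0 hr1
    refine ((h2.add (h1.mul_left 2)).add h0).congr fun k => ?_
    ring
  refine hs.congr fun k => ?_
  rw [hr, mul_pow]
  ring

lemma AA_nonneg {d : ℕ} (hd : 2 ≤ d) {θ γ : ℝ} (hγ : 0 < γ) : 0 ≤ AA d θ γ := by
  have hb : (0 : ℝ) ≤ (d : ℝ) - 1 := by
    have : (2 : ℝ) ≤ d := by exact_mod_cast hd
    linarith
  unfold AA
  refine mul_nonneg (by norm_num) (tsum_nonneg fun k => ?_)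
  positivity

/-- The weighted kernel bound. -/
lemma sum_path_le [G.LocallyFinite] (hT : G.IsTree) {d : ℕ}
    (hreg : G.IsRegularOfDegree d) (hd : 2 ≤ d) {θ γ : ℝ} (hγ : 0 < γ)
    (h : ((d : ℝ) - 1) * θ ^ 2 < γ) (F : Finset V) (v : V) (ψ : V → ℝ)
    (hψ0 : 0 ≤ ψ v) (hψ : ∀ x, ψ x * γ ^ G.dist v x ≤ ψ v) (hγ1 : γ ≤ 1) :
    ∑ w ∈ F, ((G.dist v w : ℝ) + 1) * θ ^ (2 * G.dist v w) *
      ∑ i ∈ Finset.range (G.dist v w + 1), ψ (anc G v w i) ≤ AA d θ γ * ψ v := by
  set f : ℕ → ℝ := fun k => ((k : ℝ) + 1) ^ 2 * (θ ^ 2 / γ) ^ k with hf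
  have hf0 : ∀ k, 0 ≤ f k := fun k => by simp only [hf]; positivity
  have h1 : ∀ w ∈ F, ((G.dist v w : ℝ) + 1) * θ ^ (2 * G.dist v w) *
      ∑ i ∈ Finset.range (G.dist v w + 1), ψ (anc G v w i) ≤ f (G.dist v w) * ψ v := by
    intro w _
    have h2 : ∀ i ∈ Finset.range (G.dist v w + 1), ψ (anc G v w i) ≤
        ψ v * (γ ^ G.dist v w)⁻¹ := by
      intro i hi
      have hi' : i ≤ G.dist v w := by simpa [Nat.lt_succ_iff] using hi
      have h3 := dist_anc hT v w i hi'
      have h4 := hψ (anc G v w i)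
      rw [← div_eq_mul_inv, le_div_iff₀ (by positivity)]
      rcases le_or_gt 0 (ψ (anc G v w i)) with h5 | h5
      · refine le_trans (mul_le_mul_of_nonneg_left ?_ h5) h4
        exact pow_le_pow_of_le_one hγ.le hγ1 (by omega)
      · exact le_trans (mul_nonpos_of_nonpos_of_nonneg h5.le (by positivity)) hψ0
    have h3 : ∑ i ∈ Finset.range (G.dist v w + 1), ψ (anc G v w i) ≤
        ((G.dist v w : ℝ) + 1) * (ψ v * (γ ^ G.dist v w)⁻¹) := by
      refine (Finset.sum_le_sum h2).trans (le_of_eq ?_)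
      rw [Finset.sum_const, Finset.card_range, nsmul_eq_mul]
      push_cast
      ring
    have h0 : 0 ≤ ((G.dist v w : ℝ) + 1) * θ ^ (2 * G.dist v w) := by
      rw [pow_mul]
      positivity
    refine (mul_le_mul_of_nonneg_left h3 h0).trans (le_of_eq ?_)
    simp only [hf]
    rw [div_pow, ← pow_mul]
    field_simp
  refine (Finset.sum_le_sum h1).trans ?_
  rw [← Finset.sum_mul]
  refine mul_le_mul_of_nonneg_right ?_ hψ0
  exact sum_dist_le hT hreg hd v F f hf0 (summable_AA hd hγ h)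

/-- **Deterministic part of the volume convergence.** -/
theorem exists_volume_gronwall [G.LocallyFinite] [Infinite V] (hT : G.IsTree) {d : ℕ}
    (hreg : G.IsRegularOfDegree d) (hd : 2 ≤ d) {θ γ C T : ℝ} (hγ1 : γ < 1)
    (h : ((d : ℝ) - 1) * θ ^ 2 < γ) (hC : 0 ≤ C) (hTT : 0 ≤ T) :
    ∃ c : ℝ, 0 ≤ c ∧ ∀ (F F' : Finset V) (_ : F ⊆ F')
      (_ : ∀ v ∈ F, ∀ w ∈ F, ∀ i ≤ G.dist v w, anc G v w i ∈ F)
      (D : ℝ → V → ℝ) (_ : ∀ v ∈ F, D 0 v ≤ 0)
      (_ : ∀ r₀ r, 0 ≤ r₀ → r₀ ≤ r → r ≤ T → ∀ v ∈ F,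
        D r v ≤ D r₀ v + C * (r - r₀) *
          (∑ w ∈ F, ((G.dist v w : ℝ) + 1) * θ ^ (2 * G.dist v w) *
            ∑ i ∈ Finset.range (G.dist v w + 1), D r (anc G v w i) +
            ∑ w ∈ F' \ F, θ ^ (2 * G.dist v w))),
      ∀ t, 0 ≤ t → t ≤ T → ∀ v ∈ F, D t v ≤ c * γ ^ (rad G F v) := by
  have hb : (0 : ℝ) ≤ (d : ℝ) - 1 := by
    have : (2 : ℝ) ≤ d := by exact_mod_cast hd
    linarith
  have hγ : 0 < γ := lt_of_le_of_lt (mul_nonneg hb (sq_nonneg θ)) h
  have hq1 : ((d : ℝ) - 1) * θ ^ 2 < 1 := h.trans hγ1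
  set A' : ℝ := 2 * (1 - ((d : ℝ) - 1) * θ ^ 2)⁻¹ with hA'
  have hA'0 : 0 ≤ A' := by
    have : 0 < 1 - ((d : ℝ) - 1) * θ ^ 2 := by linarith
    positivity
  obtain ⟨c, hc0, hc⟩ := exists_gronwall (V := V) C (AA d θ γ) A' T hC (AA_nonneg hd hγ) hA'0 hTT
  refine ⟨c, hc0, ?_⟩
  intro F F' hFF' hconv D hD0 hstep
  have hψpos : ∀ v, 0 < γ ^ (rad G F v) := fun v => pow_pos hγ _
  refine hc F D (fun v => γ ^ (rad G F v)) hψpos (ker G θ F)
    (fun v x => ker_nonneg θ F v x) ?_ (fun v => ∑ w ∈ F' \ F, θ ^ (2 * G.dist v w)) ?_ hD0 ?_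
  · intro v hv
    refine (sum_ker_mul_le θ F v _ (fun x => (hψpos x).le)).trans ?_
    refine sum_path_le hT hreg hd hγ h F v (fun v => γ ^ (rad G F v)) (hψpos v).le ?_ hγ1.le
    intro x
    rw [← pow_add]
    refine pow_le_pow_of_le_one hγ.le hγ1.le ?_
    exact rad_lipschitz hT.connected F v x
  · intro v hv
    have h1 : ∑ w ∈ F' \ F, θ ^ (2 * G.dist v w) = ∑ w ∈ F' \ F, (θ ^ 2) ^ (G.dist v w) :=
      Finset.sum_congr rfl fun w _ => by rw [pow_mul]
    rw [h1]
    have h2 := sum_far_le hT hreg hd (sq_nonneg θ) hq1 v (F' \ F) (rad G F v)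
      (fun w hw => rad_le (Finset.mem_sdiff.1 hw).2)
    refine h2.trans ?_
    refine mul_le_mul_of_nonneg_left ?_ hA'0
    exact pow_le_pow_left₀ (mul_nonneg hb (sq_nonneg θ)) h.le _
  · intro r₀ r h0 h1 h2 v hv
    have h3 := hstep r₀ r h0 h1 h2 v hv
    rw [← sum_ker_mul_eq θ F v (hconv v hv) (D r)] at h3
    exact h3

end Crest.Agent.R160.Kern
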