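import Mathlib
import Crest.Agent.R160.Defs
import Crest.Agent.R160.Balls
import Crest.Agent.R160.Kern

/-! Row 160, module D: convexity of balls in the tree. -/

set_option autoImplicit false
set_option linter.unusedSectionVars false

open Finset
open scoped Classical

namespace Crest.Agent.R160.Kern

open Crest.Agent.R160.TreeAut Crest.Agent.R160

universe u

variable {V : Type u} {G : SimpleGraph V}

lemma isNB_anc (hT : G.IsTree) (v w : V) : IsNB G (G.dist v w) (anc G v w) := by
  have hne : ∀ i, i < G.dist v w → anc G v w i ≠ v := by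
    intro i hi h
    have := dist_anc hT v w i hi.le
    rw [h, SimpleGraph.dist_self] at this
    omega
  refine ⟨fun i hi => ?_, fun i hi h => ?_⟩
  · rw [anc_succ']
    exact par_adj hT (hne i hi)
  · have h1 := dist_anc hT v w i (by omega)
    have h2 := dist_anc hT v w (i + 2) (by omega)
    rw [h] at h2
    omega

lemma anc_last (hT : G.IsTree) (v w : V) : anc G v w (G.dist v w) = v := by
  have h := dist_anc hT v w (G.dist v w) le_rfl
  have h1 : G.dist v (anc G v w (G.dist v w)) = 0 := by omega
  exact ((hT.connected.dist_eq_zero_iff).1 h1).symm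

/-- The distance to a fixed vertex is convex along geodesics. -/
lemma IsNB_dist_le (hT : G.IsTree) {n : ℕ} {p : ℕ → V} (h : IsNB G n p) (r : V) (i : ℕ)
    (hi : i ≤ n) : G.dist r (p i) ≤ max (G.dist r (p 0)) (G.dist r (p n)) := by
  have hup : ∀ j, j + 2 ≤ n → G.dist r (p (j + 1)) = G.dist r (p j) + 1 →
      G.dist r (p (j + 2)) = G.dist r (p (j + 1)) + 1 := by
    intro j hj h1
    rcases hT.dist_eq_dist_add_one_of_adj r (h.adj (j + 1) (by omega)) with h2 | h2
    · exfalso
      have h3 := eq_par hT (h.adj j (by omega)).symm h1.symm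
      have h4 := eq_par hT (h.adj (j + 1) (by omega)) h2.symm
      exact h.nb j hj (h4.symm.trans h3)
    · exact h2
  have hA : ∀ i, i ≤ n → G.dist r (p i) ≤ G.dist r (p 0) ∨
      (1 ≤ i ∧ G.dist r (p i) = G.dist r (p (i - 1)) + 1) := by
    intro i
    induction i with
    | zero => intro _; left; exact le_rfl
    | succ i ih =>
      intro hi
      rcases hT.dist_eq_dist_add_one_of_adj r (h.adj i (by omega)) with h2 | h2
      · rcases ih (by omega) with h3 | ⟨h3, h4⟩
        · left; omega
        · exfalso
          obtain ⟨j, rfl⟩ : ∃ j, i = j + 1 := ⟨i - 1, by omega⟩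
          have h5 := hup j (by omega) (by simpa using h4)
          have h6 : G.dist r (p (j + 1)) = G.dist r (p (j + 2)) + 1 := h2
          omega
      · right
        exact ⟨by omega, by simpa using h2⟩
  have hB : ∀ i, 1 ≤ i → G.dist r (p i) = G.dist r (p (i - 1)) + 1 → ∀ k, i + k ≤ n →
      G.dist r (p (i + k)) = G.dist r (p i) + k ∧
        G.dist r (p (i + k)) = G.dist r (p (i + k - 1)) + 1 := by
    intro i hi1 hi2 k
    induction k with
    | zero => intro _; simpa using hi2
    | succ k ih =>
      intro hk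
      have h1 := ih (by omega)
      obtain ⟨j, hj⟩ : ∃ j, i + k = j + 1 := ⟨i + k - 1, by omega⟩
      have h2 := hup j (by omega) (by rw [← hj]; simpa [hj] using h1.2)
      have h3 : i + (k + 1) = j + 2 := by omega
      rw [h3]
      have h4 : j + 2 - 1 = j + 1 := by omega
      rw [h4]
      refine ⟨?_, h2⟩
      have h5 := h1.1
      rw [hj] at h5
      rw [h2, h5]
      omega
  rcases hA i hi with h1 | ⟨h1, h2⟩
  · exact h1.trans (le_max_left _ _)
  · have h3 := (hB i h1 h2 (n - i) (by omega)).1
    have h4 : i + (n - i) = n := by omega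
    rw [h4] at h3
    exact le_trans (by omega) (le_max_right _ _)

lemma anc_mem_bal [G.LocallyFinite] (hT : G.IsTree) (r : V) (n : ℕ) {v w : V}
    (hv : v ∈ bal G r n) (hw : w ∈ bal G r n) (i : ℕ) (hi : i ≤ G.dist v w) :
    anc G v w i ∈ bal G r n := by
  rw [mem_bal hT] at *
  have h1 := IsNB_dist_le hT (isNB_anc hT v w) r i hi
  rw [anc_last hT, anc_zero] at h1
  exact h1.trans (max_le hw hv)

lemma le_rad_bal [G.LocallyFinite] [Infinite V] (hT : G.IsTree) (v : V) (n : ℕ) (F : Finset V)
    (h : bal G v n ⊆ F) : n < rad G F v :=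
  lt_rad fun w hw => h ((mem_bal hT v w n).2 hw)

end Crest.Agent.R160.Kern
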