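import Mathlib
import Crest.Agent.R160.Defs
import Crest.Agent.R160.Convex

/-! Row 160, module D: Lipschitz bound for the covariance `MM` as a function of the
magnetizations on the path. -/

set_option autoImplicit false
set_option linter.unusedSectionVars false

open Finset

namespace Crest.Agent.R160.Kern

open Crest.Agent.R160 Crest.Agent.R160.TreeAut

open scoped Classical

variable {V : Type*} {G : SimpleGraph V}

lemma rprodN_eq (θ : ℝ) (m : V → ℝ) (r : V) (n : ℕ) (w : V) :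
    rprodN G θ m r n w =
      ∏ i ∈ Finset.range n, rho θ (m (anc G r w (i + 1))) (m (anc G r w i)) := by
  induction n generalizing w with
  | zero => simp [rprodN]
  | succ n ih =>
    rw [rprodN, ih, Finset.prod_range_succ']
    simp only [anc_succ, anc_zero]

lemma abs_prod_sub_prod_le (n : ℕ) (a b : ℕ → ℝ) (ha : ∀ i, 0 ≤ a i ∧ a i ≤ 1)
    (hb : ∀ i, 0 ≤ b i ∧ b i ≤ 1) :
    |∏ i ∈ Finset.range n, a i - ∏ i ∈ Finset.range n, b i| ≤
      ∑ i ∈ Finset.range n, |a i - b i| := by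
  induction n with
  | zero => simp
  | succ n ih =>
    rw [Finset.prod_range_succ, Finset.prod_range_succ, Finset.sum_range_succ]
    set A := ∏ i ∈ Finset.range n, a i
    set B := ∏ i ∈ Finset.range n, b i
    have hA0 : 0 ≤ A := Finset.prod_nonneg fun i _ => (ha i).1
    have hA1 : A ≤ 1 := Finset.prod_le_one (fun i _ => (ha i).1) fun i _ => (ha i).2
    have h1 : A * a n - B * b n = A * (a n - b n) + (A - B) * b n := by ring
    rw [h1]
    refine (abs_add_le _ _).trans ?_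
    rw [abs_mul, abs_mul, abs_of_nonneg hA0, abs_of_nonneg (hb n).1]
    have h2 : A * |a n - b n| ≤ |a n - b n| := mul_le_of_le_one_left (abs_nonneg _) hA1
    have h3 : |A - B| * b n ≤ |A - B| := mul_le_of_le_one_right (abs_nonneg _) (hb n).2
    linarith

section

variable {θ L : ℝ}
  (h01 : ∀ a b : ℝ, |a| ≤ 1 → |b| ≤ 1 → 0 ≤ rho θ a b ∧ rho θ a b ≤ 1)
  (hL : ∀ a b a' b' : ℝ, |a| ≤ 1 → |b| ≤ 1 → |a'| ≤ 1 → |b'| ≤ 1 →
    |rho θ a b - rho θ a' b'| ≤ L * (|a - a'| + |b - b'|))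

include h01 in
lemma rprod_mem {m : V → ℝ} (hm : ∀ x, |m x| ≤ 1) (r w : V) :
    0 ≤ rprod G θ m r w ∧ rprod G θ m r w ≤ 1 := by
  unfold rprod
  rw [rprodN_eq]
  exact ⟨Finset.prod_nonneg fun i _ => (h01 _ _ (hm _) (hm _)).1,
    Finset.prod_le_one (fun i _ => (h01 _ _ (hm _) (hm _)).1) fun i _ => (h01 _ _ (hm _) (hm _)).2⟩

include h01 in
lemma abs_MM_le (h0 : 0 ≤ θ) {m : V → ℝ} (hm : ∀ x, |m x| ≤ 1) (v w : V) :
    |MM G θ m v w| ≤ θ ^ G.dist v w := by
  have h1 := rprod_mem (G := G) h01 hm v w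
  have h2 : 0 ≤ 1 - m v ^ 2 ∧ 1 - m v ^ 2 ≤ 1 := by
    have := (sq_le_one_iff_abs_le_one _).2 (hm v)
    exact ⟨by linarith, by linarith [sq_nonneg (m v)]⟩
  unfold MM
  have h3 : 0 ≤ θ ^ G.dist v w := pow_nonneg h0 _
  rw [abs_of_nonneg (mul_nonneg (mul_nonneg h2.1 h3) h1.1)]
  calc (1 - m v ^ 2) * θ ^ G.dist v w * rprod G θ m v w
      ≤ (1 * θ ^ G.dist v w) * 1 := by
        apply mul_le_mul (mul_le_mul_of_nonneg_right h2.2 h3) h1.2 h1.1
        rw [one_mul]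
        exact h3
    _ = _ := by ring

include h01 hL in
lemma abs_rprod_sub_le (hL0 : 0 ≤ L) {m m' : V → ℝ} (hm : ∀ x, |m x| ≤ 1)
    (hm' : ∀ x, |m' x| ≤ 1) (r w : V) :
    |rprod G θ m r w - rprod G θ m' r w| ≤
      2 * L * ∑ i ∈ Finset.range (G.dist r w + 1), |m (anc G r w i) - m' (anc G r w i)| := by
  unfold rprod
  rw [rprodN_eq, rprodN_eq]
  refine (abs_prod_sub_prod_le _ _ _ (fun i => h01 _ _ (hm _) (hm _))
    (fun i => h01 _ _ (hm' _) (hm' _))).trans ?_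
  set D : ℕ → ℝ := fun i => |m (anc G r w i) - m' (anc G r w i)| with hD
  have h1 : ∀ i ∈ Finset.range (G.dist r w),
      |rho θ (m (anc G r w (i + 1))) (m (anc G r w i)) -
        rho θ (m' (anc G r w (i + 1))) (m' (anc G r w i))| ≤ L * (D (i + 1) + D i) :=
    fun i _ => hL _ _ _ _ (hm _) (hm _) (hm' _) (hm' _)
  refine (Finset.sum_le_sum h1).trans ?_
  rw [← Finset.mul_sum, Finset.sum_add_distrib]
  have h2 : ∑ i ∈ Finset.range (G.dist r w), D i ≤ ∑ i ∈ Finset.range (G.dist r w + 1), D i := by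
    rw [Finset.sum_range_succ]
    have : 0 ≤ D (G.dist r w) := abs_nonneg _
    linarith
  have h3 : ∑ i ∈ Finset.range (G.dist r w), D (i + 1) ≤
      ∑ i ∈ Finset.range (G.dist r w + 1), D i := by
    rw [Finset.sum_range_succ']
    have : 0 ≤ D 0 := abs_nonneg _
    linarith
  calc L * (∑ i ∈ Finset.range (G.dist r w), D (i + 1) + ∑ i ∈ Finset.range (G.dist r w), D i)
      ≤ L * (∑ i ∈ Finset.range (G.dist r w + 1), D i +
        ∑ i ∈ Finset.range (G.dist r w + 1), D i) :=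
        mul_le_mul_of_nonneg_left (add_le_add h3 h2) hL0
    _ = _ := by ring

include h01 hL in
lemma abs_MM_sub_le (hT : G.IsTree) (h0 : 0 ≤ θ) (hL0 : 0 ≤ L) {m m' : V → ℝ}
    (hm : ∀ x, |m x| ≤ 1) (hm' : ∀ x, |m' x| ≤ 1) (v w : V) :
    |MM G θ m v w - MM G θ m' v w| ≤ θ ^ G.dist v w * ((2 + 2 * L) *
      ∑ i ∈ Finset.range (G.dist v w + 1), |m (anc G v w i) - m' (anc G v w i)|) := by
  have h1 := rprod_mem (G := G) h01 hm v w
  have h1' := rprod_mem (G := G) h01 hm' v w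
  have h2 := abs_rprod_sub_le (G := G) h01 hL hL0 hm hm' v w
  set R := rprod G θ m v w
  set R' := rprod G θ m' v w
  set D : ℕ → ℝ := fun i => |m (anc G v w i) - m' (anc G v w i)| with hD
  have h3 : |m v - m' v| ≤ ∑ i ∈ Finset.range (G.dist v w + 1), D i := by
    have h4 : |m v - m' v| = D (G.dist v w) := by
      simp only [hD]
      rw [anc_last hT]
    rw [h4]
    exact Finset.single_le_sum (f := D) (fun i _ => abs_nonneg _)
      (Finset.mem_range.2 (Nat.lt_succ_self _))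
  have h4 : |m v ^ 2 - m' v ^ 2| ≤ 2 * |m v - m' v| := by
    have : m v ^ 2 - m' v ^ 2 = (m v + m' v) * (m v - m' v) := by ring
    rw [this, abs_mul]
    refine mul_le_mul_of_nonneg_right ?_ (abs_nonneg _)
    exact (abs_add_le _ _).trans (by linarith [hm v, hm' v])
  have h5 : 0 ≤ 1 - m' v ^ 2 ∧ 1 - m' v ^ 2 ≤ 1 := by
    have := (sq_le_one_iff_abs_le_one _).2 (hm' v)
    exact ⟨by linarith, by linarith [sq_nonneg (m' v)]⟩
  unfold MM
  have h6 : (1 - m v ^ 2) * θ ^ G.dist v w * R - (1 - m' v ^ 2) * θ ^ G.dist v w * R' =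
      θ ^ G.dist v w * (-(m v ^ 2 - m' v ^ 2) * R + (1 - m' v ^ 2) * (R - R')) := by ring
  rw [h6, abs_mul, abs_of_nonneg (pow_nonneg h0 _)]
  refine mul_le_mul_of_nonneg_left ?_ (pow_nonneg h0 _)
  refine (abs_add_le _ _).trans ?_
  rw [abs_mul, abs_mul, abs_neg, abs_of_nonneg h1.1, abs_of_nonneg h5.1]
  have h7 : |m v ^ 2 - m' v ^ 2| * R ≤ |m v ^ 2 - m' v ^ 2| :=
    mul_le_of_le_one_right (abs_nonneg _) h1.2
  have h8 : (1 - m' v ^ 2) * |R - R'| ≤ |R - R'| :=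
    mul_le_of_le_one_left (abs_nonneg _) h5.2
  nlinarith

include h01 hL in
lemma sq_MM_sub_le (hT : G.IsTree) (h0 : 0 ≤ θ) (hL0 : 0 ≤ L) {m m' : V → ℝ}
    (hm : ∀ x, |m x| ≤ 1) (hm' : ∀ x, |m' x| ≤ 1) (v w : V) :
    (MM G θ m v w - MM G θ m' v w) ^ 2 ≤ (2 + 2 * L) ^ 2 * (((G.dist v w : ℝ) + 1) *
      θ ^ (2 * G.dist v w) *
      ∑ i ∈ Finset.range (G.dist v w + 1), (m (anc G v w i) - m' (anc G v w i)) ^ 2) := by
  have h1 := abs_MM_sub_le (G := G) h01 hL hT h0 hL0 hm hm' v w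
  set D : ℕ → ℝ := fun i => |m (anc G v w i) - m' (anc G v w i)| with hD
  have h2 : (∑ i ∈ Finset.range (G.dist v w + 1), D i) ^ 2 ≤
      ((G.dist v w : ℝ) + 1) * ∑ i ∈ Finset.range (G.dist v w + 1), D i ^ 2 := by
    have := sq_sum_le_card_mul_sum_sq (s := Finset.range (G.dist v w + 1)) (f := D)
    rw [Finset.card_range] at this
    push_cast at this
    exact this
  have h3 : (MM G θ m v w - MM G θ m' v w) ^ 2 ≤ (θ ^ G.dist v w * ((2 + 2 * L) *
      ∑ i ∈ Finset.range (G.dist v w + 1), D i)) ^ 2 := by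
    rw [← sq_abs]
    exact pow_le_pow_left₀ (abs_nonneg _) h1 2
  refine h3.trans ?_
  have h4 : ∀ i, D i ^ 2 = (m (anc G v w i) - m' (anc G v w i)) ^ 2 := fun i => sq_abs _
  simp only [← h4]
  have h5 : (θ ^ G.dist v w * ((2 + 2 * L) * ∑ i ∈ Finset.range (G.dist v w + 1), D i)) ^ 2 =
      (2 + 2 * L) ^ 2 * (θ ^ (2 * G.dist v w) *
        (∑ i ∈ Finset.range (G.dist v w + 1), D i) ^ 2) := by ring
  rw [h5]
  refine mul_le_mul_of_nonneg_left ?_ (sq_nonneg _)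
  calc θ ^ (2 * G.dist v w) * (∑ i ∈ Finset.range (G.dist v w + 1), D i) ^ 2
      ≤ θ ^ (2 * G.dist v w) *
        (((G.dist v w : ℝ) + 1) * ∑ i ∈ Finset.range (G.dist v w + 1), D i ^ 2) :=
        mul_le_mul_of_nonneg_left h2 (pow_nonneg h0 _)
    _ = _ := by ring

end

end Crest.Agent.R160.Kern
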