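import Mathlib
import Crest.Agent.R160.MinfBasic
import Crest.Agent.R160.MMLip
import Crest.Agent.R160.Scalar
import Crest.Agent.R160.DIface

/-! Row 160, module D: the step inequality for two finite volumes. -/

set_option autoImplicit false
set_option linter.unusedSectionVars false

open MeasureTheory Finset Filter

namespace Crest.Agent.R160.Vol

open Crest.Agent.R160 Crest.Agent.R160.TreeAut Crest.Agent.R160.Kern Crest.Agent.R160.DI

open scoped Classical

variable {V : Type*} {G : SimpleGraph V}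

/-! ### a concatenation lemma -/

lemma concat (f : ℝ → ℝ) (c r₀ r : ℝ) (h0 : 0 ≤ r₀) (hr : r₀ ≤ r)
    (H : ∀ (j : ℕ) (s t : ℝ), (j : ℝ) / 2 ≤ s → s ≤ t → t ≤ ((j : ℝ) + 1) / 2 → r₀ ≤ s → t ≤ r →
      f t ≤ f s + c * (t - s)) : f r ≤ f r₀ + c * (r - r₀) := by
  have key : ∀ n : ℕ, ∀ t, r₀ ≤ t → t ≤ r → t ≤ (n : ℝ) / 2 → f t ≤ f r₀ + c * (t - r₀) := by
    intro n
    induction n with
    | zero =>
      intro t h1 h2 h3
      have : t = r₀ := by
        have : t ≤ 0 := by simpa using h3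
        linarith
      subst this
      simp
    | succ n ih =>
      intro t h1 h2 h3
      rcases le_total t ((n : ℝ) / 2) with h4 | h4
      · exact ih t h1 h2 h4
      · have h5 : f (max r₀ ((n : ℝ) / 2)) ≤ f r₀ + c * (max r₀ ((n : ℝ) / 2) - r₀) := by
          rcases le_total r₀ ((n : ℝ) / 2) with h6 | h6
          · rw [max_eq_right h6]
            exact ih _ h6 (h4.trans h2) le_rfl
          · rw [max_eq_left h6]
            simp
        have h6 := H n (max r₀ ((n : ℝ) / 2)) t (le_max_right _ _) (max_le h1 h4)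
          (by push_cast at h3; linarith) (le_max_left _ _) h2
        linarith
  obtain ⟨n, hn⟩ := exists_nat_gt (2 * r)
  exact key n r hr le_rfl (by linarith)

/-! ### convexity and product formula for the process -/

lemma anc_mem (hT : G.IsTree) {S : Finset V} (hS : GC G S) {v w : V} (hv : v ∈ S) (hw : w ∈ S)
    (i : ℕ) (hi : i ≤ G.dist v w) : anc G v w i ∈ S := by
  induction i with
  | zero => exact hw
  | succ i ih =>
    have h1 := ih (by omega)
    rw [anc_succ']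
    refine hS v hv _ h1 ?_
    intro h
    have h2 := dist_anc hT v w i (by omega)
    rw [← h, SimpleGraph.dist_self] at h2
    omega

lemma GC_bal [G.LocallyFinite] (hT : G.IsTree) (x : V) (n : ℕ) : GC G (bal G x n) := by
  intro v hv w hw hne
  have h1 : 1 ≤ G.dist v w := by
    rcases Nat.eq_zero_or_pos (G.dist v w) with h | h
    · exact absurd ((hT.connected.dist_eq_zero_iff).1 h) hne
    · exact h
  have h2 := anc_mem_bal hT x n hv hw 1 h1
  rwa [anc_succ', anc_zero] at h2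

lemma mem_evs_fst {S : Finset V} {R : ℕ} {e : Ev V} (he : e ∈ evs S R) : e.1 ∈ S := by
  unfold evs at he
  exact (Finset.mem_product.1 he).1

lemma ct_eq_MM (hT : G.IsTree) {θ : ℝ} (h0 : 0 ≤ θ) (h1 : θ < 1) {S : Finset V}
    (hS : GC G S) (R : ℕ) (ω : Om V) (t : ℝ) {v w : V} (hv : v ∈ S) (hw : w ∈ S) :
    ct G θ S (evs S R) ω t v w = MM G θ (fun x => mt G θ S (evs S R) ω t x) v w := by
  have hθ : |θ| < 1 := by rwa [abs_of_nonneg h0]
  unfold ct
  exact cov_eq_MM hT h0 h1 hS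
    (fun e he => mem_evs_fst (before_subset _ _ _ he))
    (fun e _ => obs_lt_one G S hθ _ ω e) hv hw

lemma sg_notMem {A : Finset V} {w : V} (h : w ∉ A) : sg A w = -1 := by
  unfold sg
  rw [if_neg h]

lemma cov_eq_zero {θ : ℝ} (hθ : |θ| < 1) {S : Finset V} {E : Finset (Ev V)} {o : Ev V → ℝ}
    (ho : ∀ e ∈ E, |o e| < 1) {v w : V} (hw : w ∉ S) : cov G θ S E o v w = 0 := by
  have hZ := ZZ_pos G S hθ ho
  have key : ∀ f : Finset V → ℝ, mean G θ S E o (fun A => f A * sg A w) = - mean G θ S E o f := by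
    intro f
    rw [mean_eq_num, mean_eq_num, ← neg_div]
    congr 1
    unfold num
    rw [← Finset.sum_neg_distrib]
    refine Finset.sum_congr rfl fun A hA => ?_
    have : w ∉ A := fun h => hw (Finset.mem_powerset.1 hA h)
    change f A * sg A w * (ew G θ S A * ow E o A) = _
    rw [sg_notMem this]
    ring
  have h1 : mean G θ S E o (fun A => sg A v * sg A w) = - mm G θ S E o v := key _
  have h2 : mm G θ S E o w = -1 := by
    have h3 := key (fun _ => 1)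
    have h4 : mean G θ S E o (fun _ => 1) = 1 := by
      rw [mean_eq_num, ZZ_eq_num]
      exact div_self hZ.ne'
    rw [h4] at h3
    unfold mm
    simpa using h3
  unfold cov
  rw [h1, h2]
  ring

lemma ct_eq_zero {θ : ℝ} (hθ : |θ| < 1) {S : Finset V} (E : Finset (Ev V)) (ω : Om V) (t : ℝ)
    {v w : V} (hw : w ∉ S) : ct G θ S E ω t v w = 0 :=
  cov_eq_zero hθ (fun e _ => obs_lt_one G S hθ _ ω e) hw

/-! ### scalar facts -/

lemma rho_h01 {θ : ℝ} (h0 : 0 ≤ θ) (h2 : θ ^ 2 ≤ 1 / 2) :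
    ∀ a b : ℝ, |a| ≤ 1 → |b| ≤ 1 → 0 ≤ rho θ a b ∧ rho θ a b ≤ 1 :=
  fun _ _ ha hb => ⟨rho_nonneg h0 (theta_lt_one h0 h2) ha hb, rho_le_one h0 h2 ha hb⟩

lemma rho_hL {θ : ℝ} (h0 : 0 ≤ θ) (h2 : θ ^ 2 ≤ 1 / 2) :
    ∀ a b a' b' : ℝ, |a| ≤ 1 → |b| ≤ 1 → |a'| ≤ 1 → |b'| ≤ 1 →
      |rho θ a b - rho θ a' b'| ≤ 10 ^ 5 * (|a - a'| + |b - b'|) := by
  intro a b a' b' ha hb ha' hb'
  have := rho_lip h0 h2 h0 h2 ha hb ha' hb'
  simpa using this

/-- the constant -/
def KK : ℝ := (2 + 2 * 10 ^ 5) ^ 2 + 1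

lemma KK_ge_one : 1 ≤ KK := by unfold KK; norm_num

/-! ### integrability -/

lemma integrable_of_bdd {f : Om V → ℝ} (hf : Measurable f) {C : ℝ} (h : ∀ ω, |f ω| ≤ C) :
    Integrable f (PP V) :=
  Integrable.of_bound hf.aestronglyMeasurable C (Eventually.of_forall h)

/-- mean square difference of two finite-volume magnetizations -/
noncomputable def DF (G : SimpleGraph V) (θ θ' : ℝ) (F F' : Finset V) (t : ℝ) (v : V) : ℝ :=
  ∫ ω, (mfin G θ F ω t v - mfin G θ' F' ω t v) ^ 2 ∂(PP V)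

lemma DF_nonneg (θ θ' : ℝ) (F F' : Finset V) (t : ℝ) (v : V) : 0 ≤ DF G θ θ' F F' t v :=
  integral_nonneg fun _ => sq_nonneg _

lemma DF_zero (θ θ' : ℝ) {F F' : Finset V} {v : V} (hv : v ∈ F) (hv' : v ∈ F') :
    DF G θ θ' F F' 0 v = 0 := by
  unfold DF
  have : ∀ ω : Om V, (mfin G θ F ω 0 v - mfin G θ' F' ω 0 v) ^ 2 = 0 := by
    intro ω
    rw [P2.mfin_zero G θ F ω hv, P2.mfin_zero G θ' F' ω hv']
    ring
  simp only [this, integral_zero]

lemma DF_eq_mt (θ θ' : ℝ) (F F' : Finset V) {t : ℝ} {R : ℕ} (h : t ≤ R) (v : V) :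
    DF G θ θ' F F' t v =
      ∫ ω, (mt G θ F (evs F R) ω t v - mt G θ' F' (evs F' R) ω t v) ^ 2 ∂(PP V) := by
  unfold DF
  simp only [mt_evs G _ h]

lemma DF_mono {θ θ' : ℝ} (h0 : 0 ≤ θ) (h1 : θ < 1) (h0' : 0 ≤ θ') (h1' : θ' < 1)
    (F F' : Finset V) (v : V) {s t : ℝ} (hst : s ≤ t) :
    DF G θ θ' F F' s v ≤ DF G θ θ' F F' t v := by
  rw [DF_eq_mt θ θ' F F' (hst.trans (Nat.le_ceil t)), DF_eq_mt θ θ' F F' (Nat.le_ceil t)]
  exact diff_mono G h0 h1 h0' h1' F F' _ v hst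

lemma sq_diff_le_four {x y : ℝ} (hx : |x| ≤ 1) (hy : |y| ≤ 1) : |(x - y) ^ 2| ≤ 4 := by
  have h1 := abs_le.1 hx
  have h2 := abs_le.1 hy
  rw [abs_of_nonneg (sq_nonneg _)]
  nlinarith

/-! ### the step inequality -/

section step

variable {θ : ℝ}

lemma pointwise_in (hT : G.IsTree) (h0 : 0 ≤ θ) (h2 : θ ^ 2 ≤ 1 / 2) {F F' : Finset V}
    (hFF' : F ⊆ F') (hF : GC G F) (hF' : GC G F') (R : ℕ) (ω : Om V) (t : ℝ) {v w : V}
    (hv : v ∈ F) (hw : w ∈ F) :
    (ct G θ F (evs F R) ω t v w - ct G θ F' (evs F' R) ω t v w) ^ 2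
        + (ct G θ F (evs F R) ω t v w) ^ 2 *
          (mt G θ F (evs F R) ω t w - mt G θ F' (evs F' R) ω t w) ^ 2 ≤
      KK * (((G.dist v w : ℝ) + 1) * θ ^ (2 * G.dist v w) *
        ∑ i ∈ Finset.range (G.dist v w + 1), (mt G θ F (evs F R) ω t (anc G v w i) -
          mt G θ F' (evs F' R) ω t (anc G v w i)) ^ 2) := by
  have h1 := theta_lt_one h0 h2
  have hθ : |θ| < 1 := by rwa [abs_of_nonneg h0]
  rw [ct_eq_MM hT h0 h1 hF R ω t hv hw, ct_eq_MM hT h0 h1 hF' R ω t (hFF' hv) (hFF' hw)]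
  set m : V → ℝ := fun x => mt G θ F (evs F R) ω t x with hm
  set m' : V → ℝ := fun x => mt G θ F' (evs F' R) ω t x with hm'
  have hm1 : ∀ x, |m x| ≤ 1 := fun x => abs_mt_le G F hθ _ ω t x
  have hm1' : ∀ x, |m' x| ≤ 1 := fun x => abs_mt_le G F' hθ _ ω t x
  have e1 := sq_MM_sub_le (G := G) (rho_h01 h0 h2) (rho_hL h0 h2) hT h0 (by norm_num) hm1 hm1' v w
  have e2 := abs_MM_le (G := G) (rho_h01 h0 h2) h0 hm1 v w
  have e3 : (MM G θ m v w) ^ 2 ≤ θ ^ (2 * G.dist v w) := by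
    rw [← sq_abs, mul_comm 2, pow_mul]
    exact pow_le_pow_left₀ (abs_nonneg _) e2 2
  set Sg : ℝ := ∑ i ∈ Finset.range (G.dist v w + 1), (m (anc G v w i) - m' (anc G v w i)) ^ 2
    with hSg
  have e4 : (m w - m' w) ^ 2 ≤ Sg := by
    have : (m w - m' w) ^ 2 = (m (anc G v w 0) - m' (anc G v w 0)) ^ 2 := by rw [anc_zero]
    rw [this]
    exact Finset.single_le_sum (f := fun i => (m (anc G v w i) - m' (anc G v w i)) ^ 2)
      (fun i _ => sq_nonneg _) (Finset.mem_range.2 (Nat.succ_pos _))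
  have hp : 0 ≤ θ ^ (2 * G.dist v w) := pow_nonneg h0 _
  have hSg0 : 0 ≤ Sg := Finset.sum_nonneg fun i _ => sq_nonneg _
  have e5 : (MM G θ m v w) ^ 2 * (m w - m' w) ^ 2 ≤
      ((G.dist v w : ℝ) + 1) * θ ^ (2 * G.dist v w) * Sg := by
    calc (MM G θ m v w) ^ 2 * (m w - m' w) ^ 2 ≤ θ ^ (2 * G.dist v w) * Sg :=
          mul_le_mul e3 e4 (sq_nonneg _) hp
      _ ≤ ((G.dist v w : ℝ) + 1) * (θ ^ (2 * G.dist v w) * Sg) := by
          refine le_mul_of_one_le_left (mul_nonneg hp hSg0) ?_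
          have : (0 : ℝ) ≤ (G.dist v w : ℝ) := Nat.cast_nonneg _
          linarith
      _ = _ := by ring
  have e6 : KK * (((G.dist v w : ℝ) + 1) * θ ^ (2 * G.dist v w) * Sg) =
      (2 + 2 * 10 ^ 5) ^ 2 * (((G.dist v w : ℝ) + 1) * θ ^ (2 * G.dist v w) * Sg) +
        ((G.dist v w : ℝ) + 1) * θ ^ (2 * G.dist v w) * Sg := by
    unfold KK
    ring
  rw [e6]
  exact add_le_add e1 e5

lemma pointwise_out (hT : G.IsTree) (h0 : 0 ≤ θ) (h2 : θ ^ 2 ≤ 1 / 2) {F F' : Finset V}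
    (hFF' : F ⊆ F') (hF' : GC G F') (R : ℕ) (ω : Om V) (t : ℝ) {v w : V}
    (hv : v ∈ F) (hw : w ∉ F) (hw' : w ∈ F') :
    (ct G θ F (evs F R) ω t v w - ct G θ F' (evs F' R) ω t v w) ^ 2
        + (ct G θ F (evs F R) ω t v w) ^ 2 *
          (mt G θ F (evs F R) ω t w - mt G θ F' (evs F' R) ω t w) ^ 2 ≤
      KK * θ ^ (2 * G.dist v w) := by
  have h1 := theta_lt_one h0 h2
  have hθ : |θ| < 1 := by rwa [abs_of_nonneg h0]
  rw [ct_eq_zero hθ _ ω t hw, ct_eq_MM hT h0 h1 hF' R ω t (hFF' hv) hw']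
  have hm1' : ∀ x, |mt G θ F' (evs F' R) ω t x| ≤ 1 := fun x => abs_mt_le G F' hθ _ ω t x
  have e2 := abs_MM_le (G := G) (rho_h01 h0 h2) h0 hm1' v w
  have e3 : (MM G θ (fun x => mt G θ F' (evs F' R) ω t x) v w) ^ 2 ≤ θ ^ (2 * G.dist v w) := by
    rw [← sq_abs, mul_comm 2, pow_mul]
    exact pow_le_pow_left₀ (abs_nonneg _) e2 2
  have hp : 0 ≤ θ ^ (2 * G.dist v w) := pow_nonneg h0 _
  have e4 : θ ^ (2 * G.dist v w) ≤ KK * θ ^ (2 * G.dist v w) :=
    le_mul_of_one_le_left hp KK_ge_one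
  calc _ = (MM G θ (fun x => mt G θ F' (evs F' R) ω t x) v w) ^ 2 := by ring
    _ ≤ _ := e3.trans e4

/-- the right hand side of the step inequality -/
noncomputable def rhs (G : SimpleGraph V) (θ : ℝ) (F F' : Finset V) (D : V → ℝ) (v : V) : ℝ :=
  ∑ w ∈ F, ((G.dist v w : ℝ) + 1) * θ ^ (2 * G.dist v w) *
    ∑ i ∈ Finset.range (G.dist v w + 1), D (anc G v w i) +
    ∑ w ∈ F' \ F, θ ^ (2 * G.dist v w)

lemma rhs_mono (h0 : 0 ≤ θ) (F F' : Finset V) {D D' : V → ℝ} (h : ∀ x, D x ≤ D' x) (v : V) :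
    rhs G θ F F' D v ≤ rhs G θ F F' D' v := by
  unfold rhs
  refine add_le_add (Finset.sum_le_sum fun w _ => ?_) le_rfl
  refine mul_le_mul_of_nonneg_left (Finset.sum_le_sum fun i _ => h _) ?_
  have : 0 ≤ θ ^ (2 * G.dist v w) := pow_nonneg h0 _
  positivity

lemma sum_integral_le (hT : G.IsTree) (h0 : 0 ≤ θ) (h2 : θ ^ 2 ≤ 1 / 2) {F F' : Finset V}
    (hFF' : F ⊆ F') (hF : GC G F) (hF' : GC G F') {R : ℕ} {t : ℝ} (ht : t ≤ R) {v : V}
    (hv : v ∈ F) :
    ∑ w ∈ F ∪ F', ∫ ω, ((ct G θ F (evs F R) ω t v w - ct G θ F' (evs F' R) ω t v w) ^ 2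
        + (ct G θ F (evs F R) ω t v w) ^ 2 *
          (mt G θ F (evs F R) ω t w - mt G θ F' (evs F' R) ω t w) ^ 2) ∂(PP V) ≤
      KK * rhs G θ F F' (DF G θ θ F F' t) v := by
  have h1 := theta_lt_one h0 h2
  have hθ : |θ| < 1 := by rwa [abs_of_nonneg h0]
  have hK : (0 : ℝ) ≤ KK := le_trans zero_le_one KK_ge_one
  have hu : F ∪ F' = F ∪ (F' \ F) := by
    rw [Finset.union_sdiff_self_eq_union]
  rw [hu, Finset.sum_union Finset.disjoint_sdiff]
  unfold rhs
  rw [mul_add, Finset.mul_sum, Finset.mul_sum]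
  have hmeas : ∀ w, Measurable fun ω : Om V =>
      (mt G θ F (evs F R) ω t w - mt G θ F' (evs F' R) ω t w) ^ 2 := fun w =>
    ((measurable_mt G θ F _ t w).sub (measurable_mt G θ F' _ t w)).pow_const 2
  have hbd : ∀ w, ∀ ω : Om V,
      |(mt G θ F (evs F R) ω t w - mt G θ F' (evs F' R) ω t w) ^ 2| ≤ 4 := fun w ω =>
    sq_diff_le_four (abs_mt_le G F hθ _ ω t w) (abs_mt_le G F' hθ _ ω t w)
  have hmeasc : ∀ w, Measurable fun ω : Om V =>
      (ct G θ F (evs F R) ω t v w - ct G θ F' (evs F' R) ω t v w) ^ 2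
        + (ct G θ F (evs F R) ω t v w) ^ 2 *
          (mt G θ F (evs F R) ω t w - mt G θ F' (evs F' R) ω t w) ^ 2 := fun w =>
    (((measurable_ct G θ F _ t v w).sub (measurable_ct G θ F' _ t v w)).pow_const 2).add
      (((measurable_ct G θ F _ t v w).pow_const 2).mul (hmeas w))
  have hnn : ∀ w, ∀ ω : Om V, 0 ≤
      (ct G θ F (evs F R) ω t v w - ct G θ F' (evs F' R) ω t v w) ^ 2
        + (ct G θ F (evs F R) ω t v w) ^ 2 *
          (mt G θ F (evs F R) ω t w - mt G θ F' (evs F' R) ω t w) ^ 2 := fun w ω => by positivity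
  refine add_le_add (Finset.sum_le_sum fun w hw => ?_) (Finset.sum_le_sum fun w hw => ?_)
  · have hint : Integrable (fun ω : Om V => KK * (((G.dist v w : ℝ) + 1) * θ ^ (2 * G.dist v w) *
        ∑ i ∈ Finset.range (G.dist v w + 1), (mt G θ F (evs F R) ω t (anc G v w i) -
          mt G θ F' (evs F' R) ω t (anc G v w i)) ^ 2)) (PP V) := by
      refine Integrable.const_mul (Integrable.const_mul ?_ _) _
      exact integrable_finsetSum _ fun i _ => integrable_of_bdd (hmeas _) (hbd _)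
    have e1 := integral_mono_of_nonneg (μ := PP V) (Eventually.of_forall (hnn w)) hint
      (Eventually.of_forall fun ω => pointwise_in hT h0 h2 hFF' hF hF' R ω t hv hw)
    refine e1.trans (le_of_eq ?_)
    rw [integral_const_mul, integral_const_mul, integral_finsetSum _
      fun i _ => integrable_of_bdd (hmeas _) (hbd _)]
    simp only [DF_eq_mt θ θ F F' ht]
  · rw [Finset.mem_sdiff] at hw
    have e1 := integral_mono_of_nonneg (μ := PP V) (Eventually.of_forall (hnn w))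
      (integrable_const (KK * θ ^ (2 * G.dist v w)))
      (Eventually.of_forall fun ω => pointwise_out hT h0 h2 hFF' hF' R ω t hv hw.2 hw.1)
    refine e1.trans (le_of_eq ?_)
    simp

lemma coef_le (k : ℕ) {t : ℝ} (h0 : 0 ≤ t) (ht : t ≤ k + 1 / 2) :
    100 * (if k = 0 then t / 2 else 1 / 2) ^ 2 ≤ (25 : ℝ) := by
  split_ifs with h
  · subst h
    have : t ≤ 1 / 2 := by simpa using ht
    nlinarith
  · norm_num

/-- **The step inequality.** -/
theorem step_ineq (hT : G.IsTree) (h0 : 0 ≤ θ) (h2 : θ ^ 2 ≤ 1 / 2) {F F' : Finset V}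
    (hFF' : F ⊆ F') (hF : GC G F) (hF' : GC G F') {r₀ r : ℝ} (hr0 : 0 ≤ r₀) (hr : r₀ ≤ r)
    {v : V} (hv : v ∈ F) :
    DF G θ θ F F' r v ≤ DF G θ θ F F' r₀ v +
      (25 * KK) * (r - r₀) * rhs G θ F F' (DF G θ θ F F' r) v := by
  have h1 := theta_lt_one h0 h2
  have hK : (0 : ℝ) ≤ KK := le_trans zero_le_one KK_ge_one
  have hD0 : ∀ x, 0 ≤ DF G θ θ F F' r x := fun x => DF_nonneg _ _ _ _ _ _
  have hr1 : 0 ≤ rhs G θ F F' (DF G θ θ F F' r) v := by
    unfold rhs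
    refine add_nonneg (Finset.sum_nonneg fun w _ => ?_) (Finset.sum_nonneg fun w _ => ?_)
    · have : 0 ≤ θ ^ (2 * G.dist v w) := pow_nonneg h0 _
      have h3 : 0 ≤ ∑ i ∈ Finset.range (G.dist v w + 1), DF G θ θ F F' r (anc G v w i) :=
        Finset.sum_nonneg fun i _ => hD0 _
      positivity
    · exact pow_nonneg h0 _
  set B : ℝ := KK * rhs G θ F F' (DF G θ θ F F' r) v with hB
  have hB0 : 0 ≤ B := mul_nonneg hK hr1
  have key := concat (fun t => DF G θ θ F F' t v) (25 * B) r₀ r hr0 hr ?_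
  · refine key.trans (le_of_eq ?_)
    rw [hB]
    ring
  · intro j s t hjs hst htj hrs htr
    rcases Nat.even_or_odd' j with ⟨k, hk | hk⟩
    · have hks : (k : ℝ) ≤ s := by
        rw [hk] at hjs
        push_cast at hjs
        linarith
      have hkt : t ≤ (k : ℝ) + 1 / 2 := by
        rw [hk] at htj
        push_cast at htj
        linarith
      have ht0 : t ≤ (⌈t⌉₊ : ℝ) := Nat.le_ceil t
      have e1 := diff_incr G h0 h1 h0 h1 F F' ⌈t⌉₊ v k hks hst hkt B ?_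
      · simp only [DF_eq_mt θ θ F F' ht0, DF_eq_mt θ θ F F' (hst.trans ht0)]
        refine e1.trans ?_
        have e2 := coef_le k (by linarith : (0 : ℝ) ≤ t) hkt
        have e3 : 100 * (if k = 0 then t / 2 else 1 / 2) ^ 2 * (t - s) * B ≤
            25 * (t - s) * B := by
          refine mul_le_mul_of_nonneg_right (mul_le_mul_of_nonneg_right e2 ?_) hB0
          linarith
        linarith
      · intro q hq1 hq2
        refine (sum_integral_le hT h0 h2 hFF' hF hF' (hq2.trans ht0) hv).trans ?_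
        rw [hB]
        refine mul_le_mul_of_nonneg_left ?_ hK
        exact rhs_mono h0 F F' (fun x => DF_mono h0 h1 h0 h1 F F' x (hq2.trans htr)) v
    · have hks : (k : ℝ) + 1 / 2 ≤ s := by
        rw [hk] at hjs
        push_cast at hjs
        linarith
      have hkt : t ≤ (k : ℝ) + 1 := by
        rw [hk] at htj
        push_cast at htj
        linarith
      have e1 : DF G θ θ F F' t v = DF G θ θ F F' s v := by
        unfold DF
        refine integral_congr_ae (Eventually.of_forall fun ω => ?_)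
        simp only [P2.mfin_idle G θ F hks hst hkt, P2.mfin_idle G θ F' hks hst hkt]
      simp only [e1]
      have : 0 ≤ 25 * B * (t - s) := mul_nonneg (by linarith) (by linarith)
      linarith

end step

/-- **Exponential convergence of the finite volume magnetizations.** -/
theorem exists_DF_le [G.LocallyFinite] [Infinite V] (hT : G.IsTree) {b : ℕ} (hb : 2 ≤ b)
    (hreg : G.IsRegularOfDegree (b + 1)) {θ : ℝ} (h0 : 0 ≤ θ) (h1 : (b : ℝ) * θ ^ 2 < 1) {T : ℝ}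
    (hTT : 0 ≤ T) :
    ∃ c γ : ℝ, 0 ≤ c ∧ 0 < γ ∧ γ < 1 ∧ ∀ (F F' : Finset V), F ⊆ F' → GC G F → GC G F' →
      ∀ t, 0 ≤ t → t ≤ T → ∀ v ∈ F, DF G θ θ F F' t v ≤ c * γ ^ (rad G F v) := by
  have hb' : (2 : ℝ) ≤ b := by exact_mod_cast hb
  have h2 : θ ^ 2 ≤ 1 / 2 := by nlinarith [sq_nonneg θ]
  set γ : ℝ := ((b : ℝ) * θ ^ 2 + 1) / 2 with hγ
  have hγ1 : γ < 1 := by rw [hγ]; linarith
  have hγ0 : 0 < γ := by rw [hγ]; positivity
  have hd : (((b + 1 : ℕ) : ℝ) - 1) * θ ^ 2 < γ := by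
    push_cast
    rw [hγ]
    linarith
  have hK : (0 : ℝ) ≤ KK := le_trans zero_le_one KK_ge_one
  obtain ⟨c, hc0, hc⟩ := exists_volume_gronwall (V := V) hT hreg (by omega) (C := 25 * KK) (T := T)
    hγ1 hd (by positivity) hTT
  refine ⟨c, γ, hc0, hγ0, hγ1, ?_⟩
  intro F F' hFF' hF hF' t ht0 htT v hv
  refine hc F F' hFF' (fun v hv w hw i hi => anc_mem hT hF hv hw i hi)
    (fun t v => DF G θ θ F F' t v) ?_ ?_ t ht0 htT v hv
  · intro x hx
    exact (DF_zero θ θ hx (hFF' hx)).le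
  · intro r₀ r hr0 hr _ x hx
    exact step_ineq hT h0 h2 hFF' hF hF' hr0 hr hx

end Crest.Agent.R160.Vol
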