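import Mathlib
import Crest.Agent.R160.VolStep
import Crest.Agent.R160.FinalAbs

/-! Row 160, module D: infinite-volume limit of the finite-volume magnetizations. -/

set_option autoImplicit false
set_option linter.unusedSectionVars false

open MeasureTheory Finset Filter Topology

namespace Crest.Agent.R160.Vol

open Crest.Agent.R160 Crest.Agent.R160.TreeAut Crest.Agent.R160.Kern Crest.Agent.R160.DI

open scoped Classical

variable {V : Type*} {G : SimpleGraph V} [G.LocallyFinite]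

lemma infinite_of_regular (hT : G.IsTree) {b : ℕ} (hb : 1 ≤ b)
    (hreg : G.IsRegularOfDegree (b + 1)) : Infinite V := by
  obtain ⟨v⟩ : Nonempty V := hT.connected.nonempty
  have h : ∀ n : ℕ, ∃ w, w ∈ sph G v n := fun n => sph_nonempty hT hb hreg v n
  choose f hf using h
  refine Infinite.of_injective f fun n m hnm => ?_
  have h1 := (mem_sph hT v (f n) n).1 (hf n)
  have h2 := (mem_sph hT v (f m) m).1 (hf m)
  rw [hnm, h2] at h1
  exact h1.symm

lemma sq_bound_mfin {θ θ' : ℝ} (hθ : |θ| < 1) (hθ' : |θ'| < 1) (F F' : Finset V) (t : ℝ) (v : V)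
    (ω : Om V) : |(mfin G θ F ω t v - mfin G θ' F' ω t v) ^ 2| ≤ 4 :=
  sq_diff_le_four (abs_mfin_le G hθ F ω t v) (abs_mfin_le G hθ' F' ω t v)

/-- `L¹` norm is bounded by the `L²` norm. -/
lemma integral_abs_le_sqrt {f : Om V → ℝ} (hf : Measurable f) {C : ℝ} (hC : ∀ ω, |f ω| ≤ C) :
    ∫ ω, |f ω| ∂(PP V) ≤ Real.sqrt (∫ ω, (f ω) ^ 2 ∂(PP V)) := by
  have hi1 : Integrable (fun ω => |f ω|) (PP V) :=
    integrable_of_bdd hf.abs (C := C) fun ω => by rw [abs_abs]; exact hC ω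
  have hi2 : Integrable (fun ω => (f ω) ^ 2) (PP V) :=
    integrable_of_bdd (hf.pow_const 2) (C := C ^ 2) fun ω => by
      rw [abs_of_nonneg (sq_nonneg _), ← sq_abs]
      exact pow_le_pow_left₀ (abs_nonneg _) (hC ω) 2
  apply Real.le_sqrt_of_sq_le
  set a := ∫ ω, |f ω| ∂(PP V) with ha
  have h1 : 0 ≤ ∫ ω, (|f ω| - a) ^ 2 ∂(PP V) := integral_nonneg fun _ => sq_nonneg _
  have h2 : ∫ ω, (|f ω| - a) ^ 2 ∂(PP V) = ∫ ω, (f ω) ^ 2 ∂(PP V) - a ^ 2 := by
    have h3 : ∀ ω, (|f ω| - a) ^ 2 = (f ω) ^ 2 - 2 * a * |f ω| + a ^ 2 := by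
      intro ω
      rw [← sq_abs (f ω)]
      ring
    have h4 : Integrable (fun ω => (f ω) ^ 2 - 2 * a * |f ω|) (PP V) :=
      hi2.sub (hi1.const_mul (2 * a))
    have h5 : ∫ ω, (|f ω| - a) ^ 2 ∂(PP V) = ∫ ω, ((f ω) ^ 2 - 2 * a * |f ω| + a ^ 2) ∂(PP V) :=
      integral_congr_ae (Eventually.of_forall h3)
    rw [h5, integral_add h4 (integrable_const _),
      integral_sub hi2 (hi1.const_mul (2 * a)), integral_const_mul, ← ha]
    simp
    ring
  linarith

/-- abbreviation: the approximating sequence -/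
lemma measurable_app (θ t : ℝ) (v : V) (n : ℕ) :
    Measurable fun ω : Om V => mfin G θ (bal G v n) ω t v := measurable_mfin G θ _ t v

section

variable {θ : ℝ} {c γ : ℝ} {T : ℝ}

/-- a.e. convergence from the exponential bound -/
lemma ae_tendsto_minf [Infinite V] (hT : G.IsTree) (hθ : |θ| < 1) (hγ : 0 < γ) (hγ1 : γ < 1)
    (hc : 0 ≤ c) {t : ℝ} (v : V)
    (H : ∀ n m : ℕ, n ≤ m → DF G θ θ (bal G v n) (bal G v m) t v ≤ c * γ ^ n) :
    ∀ᵐ ω ∂(PP V), Tendsto (fun n => mfin G θ (bal G v n) ω t v) atTop (𝓝 (minf G θ t v ω)) := by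
  have hs : Summable fun n => ∫ ω, |mfin G θ (bal G v n) ω t v -
      mfin G θ (bal G v (n + 1)) ω t v| ∂(PP V) := by
    have hg : Summable fun n : ℕ => Real.sqrt c * (Real.sqrt γ) ^ n := by
      refine Summable.mul_left _ (summable_geometric_of_lt_one (Real.sqrt_nonneg _) ?_)
      rw [Real.sqrt_lt' one_pos]
      simpa using hγ1
    refine Summable.of_nonneg_of_le (fun n => integral_nonneg fun _ => abs_nonneg _) ?_ hg
    intro n
    refine (integral_abs_le_sqrt ((measurable_app θ t v n).sub (measurable_app θ t v (n + 1)))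
      (C := 2) fun ω => ?_).trans ?_
    · have h1 := abs_le.1 (abs_mfin_le G hθ (bal G v n) ω t v)
      have h2 := abs_le.1 (abs_mfin_le G hθ (bal G v (n + 1)) ω t v)
      change |mfin G θ (bal G v n) ω t v - mfin G θ (bal G v (n + 1)) ω t v| ≤ 2
      rw [abs_le]
      constructor <;> linarith
    · have h1 := H n (n + 1) (Nat.le_succ n)
      unfold DF at h1
      refine (Real.sqrt_le_sqrt h1).trans (le_of_eq ?_)
      rw [Real.sqrt_mul hc]
      congr 1
      rw [Real.sqrt_eq_iff_mul_self_eq (by positivity) (by positivity), ← mul_pow,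
        Real.mul_self_sqrt hγ.le]
  have h1 := ae_tendsto_of_summable (P := PP V) (m := fun n ω => mfin G θ (bal G v n) ω t v)
    (fun n => measurable_app θ t v n) (fun n ω => abs_mfin_le G hθ _ ω t v) hs
  filter_upwards [h1] with ω hω
  obtain ⟨l, hl⟩ := hω
  unfold minf
  rwa [hl.limsup_eq]

/-- the `L²` bound for the limit -/
lemma integral_minf_le [Infinite V] (hT : G.IsTree) (h0 : 0 ≤ θ) (h1 : θ < 1) (hγ : 0 < γ)
    (hγ1 : γ < 1) (hc : 0 ≤ c) {t : ℝ} (v : V)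
    (H : ∀ n m : ℕ, n ≤ m → DF G θ θ (bal G v n) (bal G v m) t v ≤ c * γ ^ n) (n : ℕ) :
    ∫ ω, (mfin G θ (bal G v n) ω t v - minf G θ t v ω) ^ 2 ∂(PP V) ≤ c * γ ^ n := by
  have hθ : |θ| < 1 := by rwa [abs_of_nonneg h0]
  have hae := ae_tendsto_minf hT hθ hγ hγ1 hc v H
  have hlim : Tendsto (fun m => DF G θ θ (bal G v n) (bal G v m) t v) atTop
      (𝓝 (∫ ω, (mfin G θ (bal G v n) ω t v - minf G θ t v ω) ^ 2 ∂(PP V))) := by
    unfold DF
    refine tendsto_integral_of_dominated_convergence (fun _ => 4) ?_ (integrable_const _) ?_ ?_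
    · intro m
      exact (((measurable_app θ t v n).sub (measurable_app θ t v m)).pow_const 2).aestronglyMeasurable
    · intro m
      exact Eventually.of_forall fun ω => sq_bound_mfin hθ hθ _ _ t v ω
    · filter_upwards [hae] with ω hω
      exact (tendsto_const_nhds.sub hω).pow 2
  refine le_of_tendsto hlim ?_
  filter_upwards [eventually_ge_atTop n] with m hm
  exact H n m hm

end

lemma DF_tri
    {f g h : Om V → ℝ} (hf : Measurable f) (hg : Measurable g) (hh : Measurable h)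
    (bf : ∀ ω, |f ω| ≤ 1) (bg : ∀ ω, |g ω| ≤ 1) (bh : ∀ ω, |h ω| ≤ 1) :
    ∫ ω, (f ω - h ω) ^ 2 ∂(PP V) ≤
      2 * ∫ ω, (f ω - g ω) ^ 2 ∂(PP V) + 2 * ∫ ω, (g ω - h ω) ^ 2 ∂(PP V) := by
  have i1 : Integrable (fun ω => (f ω - g ω) ^ 2) (PP V) :=
    integrable_of_bdd ((hf.sub hg).pow_const 2) fun ω => sq_diff_le_four (bf ω) (bg ω)
  have i2 : Integrable (fun ω => (g ω - h ω) ^ 2) (PP V) :=
    integrable_of_bdd ((hg.sub hh).pow_const 2) fun ω => sq_diff_le_four (bg ω) (bh ω)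
  have i3 : Integrable (fun ω => (f ω - h ω) ^ 2) (PP V) :=
    integrable_of_bdd ((hf.sub hh).pow_const 2) fun ω => sq_diff_le_four (bf ω) (bh ω)
  rw [← integral_const_mul, ← integral_const_mul, ← integral_add (i1.const_mul 2) (i2.const_mul 2)]
  refine integral_mono i3 ((i1.const_mul 2).add (i2.const_mul 2)) fun ω => ?_
  simp only
  nlinarith [sq_nonneg ((f ω - g ω) - (g ω - h ω))]

/-- **Volume limit** with explicit exponential rate. -/
theorem exists_vol_le (hT : G.IsTree) {b : ℕ} (hb : 2 ≤ b) (hreg : G.IsRegularOfDegree (b + 1))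
    {θ : ℝ} (h0 : 0 ≤ θ) (h1 : (b : ℝ) * θ ^ 2 < 1) (T : ℝ) :
    ∃ c γ : ℝ, 0 ≤ c ∧ 0 < γ ∧ γ < 1 ∧ ∀ t, 0 ≤ t → t ≤ T → ∀ (v x : V) (n r : ℕ),
      bal G v r ⊆ bal G x n →
      ∫ ω, (mfin G θ (bal G x n) ω t v - minf G θ t v ω) ^ 2 ∂(PP V) ≤ c * γ ^ r := by
  have : Infinite V := infinite_of_regular hT (by omega) hreg
  have hb' : (2 : ℝ) ≤ b := by exact_mod_cast hb
  have hlt : θ < 1 := theta_lt_one h0 (by nlinarith [sq_nonneg θ])
  have hθ : |θ| < 1 := by rwa [abs_of_nonneg h0]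
  rcases lt_or_ge T 0 with hT0 | hT0
  · exact ⟨0, 1 / 2, le_rfl, by norm_num, by norm_num, fun t ht htT => absurd (ht.trans htT)
      (not_le.2 hT0)⟩
  obtain ⟨c, γ, hc, hγ, hγ1, H⟩ := exists_DF_le (G := G) hT hb hreg h0 h1 hT0
  have hball : ∀ (t : ℝ), 0 ≤ t → t ≤ T → ∀ (v : V) (F : Finset V) (r : ℕ), bal G v r ⊆ F →
      GC G F → DF G θ θ (bal G v r) F t v ≤ c * γ ^ r := by
    intro t ht htT v F r hr hF
    refine (H (bal G v r) F hr (GC_bal hT v r) hF t ht htT v (self_mem_bal' v r)).trans ?_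
    refine mul_le_mul_of_nonneg_left ?_ hc
    exact pow_le_pow_of_le_one hγ.le hγ1.le (le_rad_bal hT v r _ (Finset.Subset.refl _)).le
  have hmono : ∀ (v : V) {n m : ℕ}, n ≤ m → bal G v n ⊆ bal G v m := by
    intro v n m hnm w hw
    rw [mem_bal hT] at hw ⊢
    omega
  refine ⟨4 * c, γ, by positivity, hγ, hγ1, ?_⟩
  intro t ht htT v x n r hr
  have e1 := integral_minf_le (G := G) hT h0 hlt hγ hγ1 hc v
    (fun n m hnm => hball t ht htT v (bal G v m) n (hmono v hnm) (GC_bal hT v m)) r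
  have e2 := hball t ht htT v (bal G x n) r hr (GC_bal hT x n)
  have e3 := DF_tri (V := V) (f := fun ω => mfin G θ (bal G x n) ω t v)
    (g := fun ω => mfin G θ (bal G v r) ω t v) (h := fun ω => minf G θ t v ω)
    (measurable_mfin G θ _ t v) (measurable_mfin G θ _ t v) (measurable_minf G θ t v)
    (fun ω => abs_mfin_le G hθ _ ω t v) (fun ω => abs_mfin_le G hθ _ ω t v)
    (fun ω => abs_minf_le h0 hlt t v ω)
  have e4 : ∫ ω, (mfin G θ (bal G x n) ω t v - mfin G θ (bal G v r) ω t v) ^ 2 ∂(PP V) =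
      DF G θ θ (bal G v r) (bal G x n) t v := by
    unfold DF
    refine integral_congr_ae (Eventually.of_forall fun ω => ?_)
    simp only
    ring
  rw [e4] at e3
  refine e3.trans ?_
  linarith

end Crest.Agent.R160.Vol

namespace Crest.Agent.R160

variable {V : Type*} {G : SimpleGraph V} [G.LocallyFinite]

/-- L2 convergence of the finite-volume magnetizations, exponentially fast, uniformly in `t ≤ T` -/
theorem vol_limit (hT : G.IsTree) {b : ℕ} (hb : 2 ≤ b) (hreg : G.IsRegularOfDegree (b + 1))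
    {θ : ℝ} (h0 : 0 ≤ θ) (h1 : (b : ℝ) * θ ^ 2 < 1) (T : ℝ) :
    ∃ C la : ℝ, 0 < C ∧ 0 < la ∧ ∀ t, 0 ≤ t → t ≤ T → ∀ (v x : V) (n r : ℕ),
      bal G v r ⊆ bal G x n →
      ∫ ω, (mfin G θ (bal G x n) ω t v - minf G θ t v ω) ^ 2 ∂(PP V) ≤ C * Real.exp (-la * r) := by
  obtain ⟨c, γ, hc, hγ, hγ1, H⟩ := Vol.exists_vol_le (G := G) hT hb hreg h0 h1 T
  refine ⟨c + 1, -Real.log γ, by positivity, by linarith [Real.log_neg hγ hγ1], ?_⟩
  intro t ht htT v x n r hr
  refine (H t ht htT v x n r hr).trans ?_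
  have : Real.exp (-(-Real.log γ) * r) = γ ^ r := by
    rw [neg_neg, mul_comm, Real.exp_nat_mul, Real.exp_log hγ]
  rw [this]
  exact mul_le_mul_of_nonneg_right (by linarith) (by positivity)

end Crest.Agent.R160
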