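import Mathlib
import Crest.Agent.R160.VolLim

/-! Row 160, module D: monotonicity and the increment inequality in infinite volume. -/

set_option autoImplicit false
set_option linter.unusedSectionVars false

open MeasureTheory Finset Filter Topology

namespace Crest.Agent.R160.Vol

open Crest.Agent.R160 Crest.Agent.R160.TreeAut Crest.Agent.R160.Kern Crest.Agent.R160.DI

open scoped Classical

variable {V : Type*} {G : SimpleGraph V} [G.LocallyFinite]

lemma bal_subset (hT : G.IsTree) (v : V) {n m : ℕ} (hnm : n ≤ m) : bal G v n ⊆ bal G v m := by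
  intro w hw
  rw [mem_bal hT] at hw ⊢
  omega

lemma bal_sub_bal (hT : G.IsTree) (v x : V) {n r : ℕ} (h : G.dist v x + r ≤ n) :
    bal G x r ⊆ bal G v n := by
  intro w hw
  rw [mem_bal hT] at hw ⊢
  have := hT.connected.dist_triangle (u := v) (v := x) (w := w)
  omega

/-- a.e. convergence along balls -/
lemma ae_tendsto (hT : G.IsTree) {b : ℕ} (hb : 2 ≤ b) (hreg : G.IsRegularOfDegree (b + 1))
    {θ : ℝ} (h0 : 0 ≤ θ) (h1 : (b : ℝ) * θ ^ 2 < 1) {t : ℝ} (ht : 0 ≤ t) (v : V) :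
    ∀ᵐ ω ∂(PP V), Tendsto (fun n => mfin G θ (bal G v n) ω t v) atTop (𝓝 (minf G θ t v ω)) := by
  have : Infinite V := infinite_of_regular hT (by omega) hreg
  have hb' : (2 : ℝ) ≤ b := by exact_mod_cast hb
  have hlt : θ < 1 := theta_lt_one h0 (by nlinarith [sq_nonneg θ])
  have hθ : |θ| < 1 := by rwa [abs_of_nonneg h0]
  obtain ⟨c, γ, hc, hγ, hγ1, H⟩ := exists_DF_le (G := G) hT hb hreg h0 h1 ht
  refine ae_tendsto_minf hT hθ hγ hγ1 hc v ?_
  intro n m hnm
  refine (H (bal G v n) _ (bal_subset hT v hnm) (GC_bal hT v n) (GC_bal hT v m) t ht le_rfl v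
    (self_mem_bal' v n)).trans ?_
  refine mul_le_mul_of_nonneg_left ?_ hc
  exact pow_le_pow_of_le_one hγ.le hγ1.le (le_rad_bal hT v n _ (Finset.Subset.refl _)).le

lemma tendsto_DF (hT : G.IsTree) {b : ℕ} (hb : 2 ≤ b) (hreg : G.IsRegularOfDegree (b + 1))
    {θ θ' : ℝ} (h0 : 0 ≤ θ) (h1 : (b : ℝ) * θ ^ 2 < 1) (h0' : 0 ≤ θ') (h1' : (b : ℝ) * θ' ^ 2 < 1)
    {t : ℝ} (ht : 0 ≤ t) (v : V) :
    Tendsto (fun n => DF G θ θ' (bal G v n) (bal G v n) t v) atTop (𝓝 (DD G θ θ' t v)) := by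
  have hb' : (2 : ℝ) ≤ b := by exact_mod_cast hb
  have hlt : θ < 1 := theta_lt_one h0 (by nlinarith [sq_nonneg θ])
  have hθ : |θ| < 1 := by rwa [abs_of_nonneg h0]
  have hlt' : θ' < 1 := theta_lt_one h0' (by nlinarith [sq_nonneg θ'])
  have hθ' : |θ'| < 1 := by rwa [abs_of_nonneg h0']
  unfold DF DD
  refine tendsto_integral_of_dominated_convergence (fun _ => 4) ?_ (integrable_const _) ?_ ?_
  · intro m
    exact (((measurable_app θ t v m).sub (measurable_app θ' t v m)).pow_const 2).aestronglyMeasurable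
  · intro m
    exact Eventually.of_forall fun ω => sq_bound_mfin hθ hθ' _ _ t v ω
  · filter_upwards [ae_tendsto hT hb hreg h0 h1 ht v, ae_tendsto hT hb hreg h0' h1' ht v]
      with ω hω hω'
    exact (hω.sub hω').pow 2

/-! ### the functional in the increment inequality -/

/-- the functional -/
def Phi (A A' a a' : ℝ) : ℝ := (A - A') ^ 2 + A ^ 2 * (a - a') ^ 2

lemma Phi_le {A A' B B' a a' c c' : ℝ} (hA : |A| ≤ 1) (hA' : |A'| ≤ 1) (hB : |B| ≤ 1)
    (hB' : |B'| ≤ 1) (ha : |a| ≤ 1) (ha' : |a'| ≤ 1) (hc : |c| ≤ 1) (hc' : |c'| ≤ 1) :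
    Phi A A' a a' ≤ Phi B B' c c' + 12 * (|A - B| + |A' - B'|) + 4 * (|a - c| + |a' - c'|) := by
  have e1 : (A - A') ^ 2 - (B - B') ^ 2 ≤ 4 * (|A - B| + |A' - B'|) := by
    have h1 : (A - A') ^ 2 - (B - B') ^ 2 = ((A - B) - (A' - B')) * ((A - A') + (B - B')) := by
      ring
    rw [h1]
    refine (le_abs_self _).trans ?_
    rw [abs_mul]
    have h2 : |(A - B) - (A' - B')| ≤ |A - B| + |A' - B'| := abs_sub _ _
    have h3 : |(A - A') + (B - B')| ≤ 4 := by
      have := abs_le.1 hA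
      have := abs_le.1 hA'
      have := abs_le.1 hB
      have := abs_le.1 hB'
      rw [abs_le]
      constructor <;> linarith
    calc _ ≤ (|A - B| + |A' - B'|) * 4 := mul_le_mul h2 h3 (abs_nonneg _) (by positivity)
      _ = _ := by ring
  have e2 : A ^ 2 * (a - a') ^ 2 - B ^ 2 * (c - c') ^ 2 ≤
      8 * |A - B| + 4 * (|a - c| + |a' - c'|) := by
    have h1 : A ^ 2 * (a - a') ^ 2 - B ^ 2 * (c - c') ^ 2 =
        A ^ 2 * (((a - c) - (a' - c')) * ((a - a') + (c - c'))) +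
          ((A - B) * (A + B)) * (c - c') ^ 2 := by ring
    rw [h1]
    have hA2 : A ^ 2 ≤ 1 := (sq_le_one_iff_abs_le_one _).2 hA
    have b1 := abs_le.1 ha
    have b2 := abs_le.1 ha'
    have b3 := abs_le.1 hc
    have b4 := abs_le.1 hc'
    have b5 := abs_le.1 hA
    have b6 := abs_le.1 hB
    have h2 : A ^ 2 * (((a - c) - (a' - c')) * ((a - a') + (c - c'))) ≤
        4 * (|a - c| + |a' - c'|) := by
      refine (le_abs_self _).trans ?_
      rw [abs_mul, abs_mul, abs_of_nonneg (sq_nonneg A)]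
      have h3 : |(a - c) - (a' - c')| ≤ |a - c| + |a' - c'| := abs_sub _ _
      have h4 : |(a - a') + (c - c')| ≤ 4 := by
        rw [abs_le]
        constructor <;> linarith
      calc A ^ 2 * (|(a - c) - (a' - c')| * |(a - a') + (c - c')|)
          ≤ 1 * ((|a - c| + |a' - c'|) * 4) := by
            refine mul_le_mul hA2 ?_ (by positivity) zero_le_one
            exact mul_le_mul h3 h4 (abs_nonneg _) (by positivity)
        _ = _ := by ring
    have h5 : ((A - B) * (A + B)) * (c - c') ^ 2 ≤ 8 * |A - B| := by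
      refine (le_abs_self _).trans ?_
      rw [abs_mul, abs_mul, abs_of_nonneg (sq_nonneg (c - c'))]
      have h6 : |A + B| ≤ 2 := by
        rw [abs_le]
        constructor <;> linarith
      have h7 : (c - c') ^ 2 ≤ 4 := by
        have := sq_diff_le_four hc hc'
        rwa [abs_of_nonneg (sq_nonneg _)] at this
      calc |A - B| * |A + B| * (c - c') ^ 2 ≤ |A - B| * 2 * 4 := by
            refine mul_le_mul ?_ h7 (sq_nonneg _) (by positivity)
            exact mul_le_mul_of_nonneg_left h6 (abs_nonneg _)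
        _ = _ := by ring
    linarith
  have := abs_nonneg (A' - B')
  unfold Phi
  linarith

lemma Phi_le_pow {A A' a a' p p' : ℝ} (hA : |A| ≤ p) (hA' : |A'| ≤ p') (ha : |a| ≤ 1)
    (ha' : |a'| ≤ 1) : Phi A A' a a' ≤ 6 * p ^ 2 + 2 * p' ^ 2 := by
  have h1 : A ^ 2 ≤ p ^ 2 := by
    rw [← sq_abs A]
    exact pow_le_pow_left₀ (abs_nonneg _) hA 2
  have h2 : A' ^ 2 ≤ p' ^ 2 := by
    rw [← sq_abs A']
    exact pow_le_pow_left₀ (abs_nonneg _) hA' 2
  have h3 : (a - a') ^ 2 ≤ 4 := by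
    have := sq_diff_le_four ha ha'
    rwa [abs_of_nonneg (sq_nonneg _)] at this
  have h4 : A ^ 2 * (a - a') ^ 2 ≤ A ^ 2 * 4 := mul_le_mul_of_nonneg_left h3 (sq_nonneg _)
  unfold Phi
  nlinarith [sq_nonneg (A + A')]

/-- one vertex of the increment functional, for fields `m`, `m'` -/
noncomputable def PhiM (G : SimpleGraph V) (θ θ' : ℝ) (m m' : V → ℝ) (v w : V) : ℝ :=
  Phi (MM G θ m v w) (MM G θ' m' v w) (m w) (m' w)

/-- the Lipschitz constant -/
def LC : ℝ := 12 * (2 + 2 * 10 ^ 5) + 4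

lemma LC_pos : 0 < LC := by unfold LC; norm_num

lemma MM_abs_le_one (hT : G.IsTree) {θ : ℝ} (h0 : 0 ≤ θ) (h2 : θ ^ 2 ≤ 1 / 2) {m : V → ℝ}
    (hm : ∀ x, |m x| ≤ 1) (v w : V) : |MM G θ m v w| ≤ 1 :=
  (abs_MM_le (G := G) (rho_h01 h0 h2) h0 hm v w).trans
    (pow_le_one₀ h0 (theta_lt_one h0 h2).le)

lemma PhiM_sub_le (hT : G.IsTree) {θ θ' : ℝ} (h0 : 0 ≤ θ) (h2 : θ ^ 2 ≤ 1 / 2) (h0' : 0 ≤ θ')
    (h2' : θ' ^ 2 ≤ 1 / 2) {m m' n n' : V → ℝ} (hm : ∀ x, |m x| ≤ 1) (hm' : ∀ x, |m' x| ≤ 1)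
    (hn : ∀ x, |n x| ≤ 1) (hn' : ∀ x, |n' x| ≤ 1) (v w : V) :
    PhiM G θ θ' m m' v w ≤ PhiM G θ θ' n n' v w + LC *
      ∑ i ∈ Finset.range (G.dist v w + 1), (|m (anc G v w i) - n (anc G v w i)| +
        |m' (anc G v w i) - n' (anc G v w i)|) := by
  have a1 := MM_abs_le_one hT h0 h2 hm v w
  have a2 := MM_abs_le_one hT h0' h2' hm' v w
  have a3 := MM_abs_le_one hT h0 h2 hn v w
  have a4 := MM_abs_le_one hT h0' h2' hn' v w
  have e1 := Phi_le a1 a2 a3 a4 (hm w) (hm' w) (hn w) (hn' w)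
  have e2 := abs_MM_sub_le (G := G) (rho_h01 h0 h2) (rho_hL h0 h2) hT h0 (by norm_num) hm hn v w
  have e3 := abs_MM_sub_le (G := G) (rho_h01 h0' h2') (rho_hL h0' h2') hT h0' (by norm_num)
    hm' hn' v w
  set Sg : ℝ := ∑ i ∈ Finset.range (G.dist v w + 1), |m (anc G v w i) - n (anc G v w i)| with hSg
  set Sg' : ℝ := ∑ i ∈ Finset.range (G.dist v w + 1), |m' (anc G v w i) - n' (anc G v w i)|
    with hSg'
  have s0 : 0 ≤ Sg := Finset.sum_nonneg fun i _ => abs_nonneg _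
  have s0' : 0 ≤ Sg' := Finset.sum_nonneg fun i _ => abs_nonneg _
  have e4 : |MM G θ m v w - MM G θ n v w| ≤ (2 + 2 * 10 ^ 5) * Sg := by
    refine e2.trans ?_
    refine mul_le_of_le_one_left (by positivity) (pow_le_one₀ h0 (theta_lt_one h0 h2).le)
  have e5 : |MM G θ' m' v w - MM G θ' n' v w| ≤ (2 + 2 * 10 ^ 5) * Sg' := by
    refine e3.trans ?_
    refine mul_le_of_le_one_left (by positivity) (pow_le_one₀ h0' (theta_lt_one h0' h2').le)
  have e6 : |m w - n w| ≤ Sg := by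
    have : |m w - n w| = |m (anc G v w 0) - n (anc G v w 0)| := by rw [anc_zero]
    rw [this]
    exact Finset.single_le_sum (f := fun i => |m (anc G v w i) - n (anc G v w i)|)
      (fun i _ => abs_nonneg _) (Finset.mem_range.2 (Nat.succ_pos _))
  have e7 : |m' w - n' w| ≤ Sg' := by
    have : |m' w - n' w| = |m' (anc G v w 0) - n' (anc G v w 0)| := by rw [anc_zero]
    rw [this]
    exact Finset.single_le_sum (f := fun i => |m' (anc G v w i) - n' (anc G v w i)|)
      (fun i _ => abs_nonneg _) (Finset.mem_range.2 (Nat.succ_pos _))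
  rw [Finset.sum_add_distrib, ← hSg, ← hSg']
  unfold PhiM LC
  refine e1.trans ?_
  linarith

lemma PhiM_le_pow (hT : G.IsTree) {θ θ' : ℝ} (h0 : 0 ≤ θ) (h2 : θ ^ 2 ≤ 1 / 2) (h0' : 0 ≤ θ')
    (h2' : θ' ^ 2 ≤ 1 / 2) {m m' : V → ℝ} (hm : ∀ x, |m x| ≤ 1) (hm' : ∀ x, |m' x| ≤ 1)
    (v w : V) :
    PhiM G θ θ' m m' v w ≤ 6 * (θ ^ 2) ^ G.dist v w + 2 * (θ' ^ 2) ^ G.dist v w := by
  have := Phi_le_pow (abs_MM_le (G := G) (rho_h01 h0 h2) h0 hm v w)
    (abs_MM_le (G := G) (rho_h01 h0' h2') h0' hm' v w) (hm w) (hm' w)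
  unfold PhiM
  refine this.trans (le_of_eq ?_)
  have e : ∀ x : ℝ, (x ^ G.dist v w) ^ 2 = (x ^ 2) ^ G.dist v w := fun x => by
    rw [← pow_mul, ← pow_mul, mul_comm]
  rw [e, e]

lemma PhiM_nonneg {θ θ' : ℝ} {m m' : V → ℝ} (v w : V) : 0 ≤ PhiM G θ θ' m m' v w := by
  unfold PhiM Phi
  positivity

lemma measurable_rho {θ : ℝ} {f g : Om V → ℝ} (hf : Measurable f) (hg : Measurable g) :
    Measurable fun ω => rho θ (f ω) (g ω) := by
  unfold rho
  fun_prop

lemma measurable_MM {θ : ℝ} {m : Om V → V → ℝ} (hm : ∀ x, Measurable fun ω => m ω x) (v w : V) :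
    Measurable fun ω => MM G θ (m ω) v w := by
  unfold MM rprod
  refine (((hm v).pow_const 2).const_sub 1 |>.mul_const _).mul ?_
  simp only [rprodN_eq]
  refine Finset.measurable_fun_prod _ fun i _ => ?_
  exact measurable_rho (hm _) (hm _)

lemma measurable_PhiM {θ θ' : ℝ} {m m' : Om V → V → ℝ} (hm : ∀ x, Measurable fun ω => m ω x)
    (hm' : ∀ x, Measurable fun ω => m' ω x) (v w : V) :
    Measurable fun ω => PhiM G θ θ' (m ω) (m' ω) v w := by
  unfold PhiM Phi
  exact (((measurable_MM hm v w).sub (measurable_MM hm' v w)).pow_const 2).add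
    (((measurable_MM hm v w).pow_const 2).mul (((hm w).sub (hm' w)).pow_const 2))

lemma integrable_PhiM (hT : G.IsTree) {θ θ' : ℝ} (h0 : 0 ≤ θ) (h2 : θ ^ 2 ≤ 1 / 2) (h0' : 0 ≤ θ')
    (h2' : θ' ^ 2 ≤ 1 / 2) {m m' : Om V → V → ℝ} (hm : ∀ ω x, |m ω x| ≤ 1)
    (hm' : ∀ ω x, |m' ω x| ≤ 1) (mm : ∀ x, Measurable fun ω => m ω x)
    (mm' : ∀ x, Measurable fun ω => m' ω x) (v w : V) :
    Integrable (fun ω => PhiM G θ θ' (m ω) (m' ω) v w) (PP V) := by
  refine integrable_of_bdd (measurable_PhiM mm mm' v w) (C := 8) fun ω => ?_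
  rw [abs_of_nonneg (PhiM_nonneg v w)]
  have h3 := PhiM_le_pow hT h0 h2 h0' h2' (hm ω) (hm' ω) v w
  have h4 : (θ ^ 2) ^ G.dist v w ≤ 1 := pow_le_one₀ (sq_nonneg _) (by linarith)
  have h5 : (θ' ^ 2) ^ G.dist v w ≤ 1 := pow_le_one₀ (sq_nonneg _) (by linarith)
  linarith

/-- the tail of the sum over far vertices -/
lemma exists_tail (hT : G.IsTree) {b : ℕ} (hb : 2 ≤ b) (hreg : G.IsRegularOfDegree (b + 1))
    {θ θ' : ℝ} (h1 : (b : ℝ) * θ ^ 2 < 1) (h1' : (b : ℝ) * θ' ^ 2 < 1) (v : V) {δ : ℝ}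
    (hδ : 0 < δ) :
    ∃ N : ℕ, ∀ S : Finset V, (∀ w ∈ S, N ≤ G.dist v w) →
      ∑ w ∈ S, (6 * (θ ^ 2) ^ G.dist v w + 2 * (θ' ^ 2) ^ G.dist v w) ≤ δ := by
  have hcast : (((b + 1 : ℕ) : ℝ) - 1) = b := by push_cast; ring
  have key : ∀ q : ℝ, 0 ≤ q → (b : ℝ) * q < 1 → ∀ S : Finset V, ∀ N : ℕ,
      (∀ w ∈ S, N ≤ G.dist v w) → ∑ w ∈ S, q ^ G.dist v w ≤
        2 * (1 - (b : ℝ) * q)⁻¹ * ((b : ℝ) * q) ^ N := by
    intro q hq hq1 S N hS
    have := sum_far_le hT hreg (by omega) hq (by rw [hcast]; exact hq1) v S N hS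
    rwa [hcast] at this
  have hlim : Tendsto (fun N : ℕ => 6 * (2 * (1 - (b : ℝ) * θ ^ 2)⁻¹ * ((b : ℝ) * θ ^ 2) ^ N) +
      2 * (2 * (1 - (b : ℝ) * θ' ^ 2)⁻¹ * ((b : ℝ) * θ' ^ 2) ^ N)) atTop (𝓝 0) := by
    have t1 := tendsto_pow_atTop_nhds_zero_of_lt_one (r := (b : ℝ) * θ ^ 2) (by positivity) h1
    have t2 := tendsto_pow_atTop_nhds_zero_of_lt_one (r := (b : ℝ) * θ' ^ 2) (by positivity) h1'
    have := ((t1.const_mul (2 * (1 - (b : ℝ) * θ ^ 2)⁻¹)).const_mul 6).add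
      ((t2.const_mul (2 * (1 - (b : ℝ) * θ' ^ 2)⁻¹)).const_mul 2)
    simpa using this
  obtain ⟨N, hN⟩ := ((tendsto_order.1 hlim).2 δ hδ).exists
  refine ⟨N, fun S hS => ?_⟩
  rw [Finset.sum_add_distrib, ← Finset.mul_sum, ← Finset.mul_sum]
  have e1 := key (θ ^ 2) (sq_nonneg _) h1 S N hS
  have e2 := key (θ' ^ 2) (sq_nonneg _) h1' S N hS
  linarith

lemma sum_range_sph (hT : G.IsTree) (v : V) (N : ℕ) (f : V → ℝ) (hf : ∀ w, 0 ≤ f w)
    (S : Finset V) (hS : ∀ w ∈ S, G.dist v w < N) :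
    ∑ w ∈ S, f w ≤ ∑ n ∈ Finset.range N, ∑ w ∈ sph G v n, f w := by
  rw [← Finset.sum_biUnion]
  · refine Finset.sum_le_sum_of_subset_of_nonneg ?_ fun w _ _ => hf w
    intro w hw
    rw [Finset.mem_biUnion]
    exact ⟨G.dist v w, Finset.mem_range.2 (hS w hw), (mem_sph hT v w _).2 rfl⟩
  · intro n _ m _ hnm
    rw [Function.onFun, Finset.disjoint_left]
    intro w hw hw'
    exact hnm (((mem_sph hT v w n).1 hw).symm.trans ((mem_sph hT v w m).1 hw'))

/-- the key uniform approximation -/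
lemma exists_approx (hT : G.IsTree) {b : ℕ} (hb : 2 ≤ b) (hreg : G.IsRegularOfDegree (b + 1))
    {θ θ' : ℝ} (h0 : 0 ≤ θ) (h1 : (b : ℝ) * θ ^ 2 < 1) (h0' : 0 ≤ θ') (h1' : (b : ℝ) * θ' ^ 2 < 1)
    (v : V) (T : ℝ) {δ : ℝ} (hδ : 0 < δ) :
    ∃ n₀ N : ℕ, ∀ n, n₀ ≤ n → ∀ r, 0 ≤ r → r ≤ T →
      ∑ w ∈ bal G v n, ∫ ω, PhiM G θ θ' (fun x => mfin G θ (bal G v n) ω r x)
        (fun x => mfin G θ' (bal G v n) ω r x) v w ∂(PP V) ≤
      (∑ k ∈ Finset.range N, ∑ w ∈ sph G v k, ∫ ω, PhiM G θ θ' (fun x => minf G θ r x ω)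
        (fun x => minf G θ' r x ω) v w ∂(PP V)) + δ := by
  have hb' : (2 : ℝ) ≤ b := by exact_mod_cast hb
  have h2 : θ ^ 2 ≤ 1 / 2 := by nlinarith [sq_nonneg θ]
  have h2' : θ' ^ 2 ≤ 1 / 2 := by nlinarith [sq_nonneg θ']
  have hlt := theta_lt_one h0 h2
  have hlt' := theta_lt_one h0' h2'
  have hθ : |θ| < 1 := by rwa [abs_of_nonneg h0]
  have hθ' : |θ'| < 1 := by rwa [abs_of_nonneg h0']
  obtain ⟨N, hN⟩ := exists_tail hT hb hreg h1 h1' v (half_pos hδ)
  obtain ⟨c, γ, hc, hγ, hγ1, H⟩ := exists_vol_le (G := G) hT hb hreg h0 h1 T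
  obtain ⟨c', γ', hc', hγ', hγ1', H'⟩ := exists_vol_le (G := G) hT hb hreg h0' h1' T
  -- error for one vertex
  set E : ℕ → ℝ := fun j => Real.sqrt (c * γ ^ j) + Real.sqrt (c' * γ' ^ j) with hE
  have hE0 : ∀ j, 0 ≤ E j := fun j => by simp only [hE]; positivity
  have hElim : Tendsto E atTop (𝓝 0) := by
    have t1 := (tendsto_pow_atTop_nhds_zero_of_lt_one hγ.le hγ1).const_mul c
    have t2 := (tendsto_pow_atTop_nhds_zero_of_lt_one hγ'.le hγ1').const_mul c'
    have := (t1.sqrt).add (t2.sqrt)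
    simpa using this
  set M : ℝ := ((bal G v N).card : ℝ) * (LC * ((N : ℝ) + 1)) + 1 with hM
  have hM0 : 0 < M := by
    have := LC_pos
    positivity
  obtain ⟨j₀, hj₀⟩ := ((tendsto_order.1 hElim).2 (δ / 2 / M) (by positivity)).exists
  have hEanti : ∀ j, j₀ ≤ j → E j ≤ E j₀ := by
    intro j hj
    simp only [hE]
    refine add_le_add (Real.sqrt_le_sqrt ?_) (Real.sqrt_le_sqrt ?_)
    · exact mul_le_mul_of_nonneg_left (pow_le_pow_of_le_one hγ.le hγ1.le hj) hc
    · exact mul_le_mul_of_nonneg_left (pow_le_pow_of_le_one hγ'.le hγ1'.le hj) hc'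
  refine ⟨N + j₀, N, fun n hn r hr hrT => ?_⟩
  -- L¹ bounds
  have L1 : ∀ x, G.dist v x ≤ N →
      ∫ ω, |mfin G θ (bal G v n) ω r x - minf G θ r x ω| ∂(PP V) +
      ∫ ω, |mfin G θ' (bal G v n) ω r x - minf G θ' r x ω| ∂(PP V) ≤ δ / 2 / M := by
    intro x hx
    have hsub : bal G x j₀ ⊆ bal G v n := bal_sub_bal hT v x (by omega)
    have e1 := H r hr hrT x v n j₀ hsub
    have e2 := H' r hr hrT x v n j₀ hsub
    have e3 := integral_abs_le_sqrt (V := V)
      (f := fun ω => mfin G θ (bal G v n) ω r x - minf G θ r x ω)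
      ((measurable_mfin G θ _ r x).sub (measurable_minf G θ r x)) (C := 2) (fun ω => by
        have a1 := abs_le.1 (abs_mfin_le G hθ (bal G v n) ω r x)
        have a2 := abs_le.1 (abs_minf_le (G := G) h0 hlt r x ω)
        rw [abs_le]
        constructor <;> linarith)
    have e4 := integral_abs_le_sqrt (V := V)
      (f := fun ω => mfin G θ' (bal G v n) ω r x - minf G θ' r x ω)
      ((measurable_mfin G θ' _ r x).sub (measurable_minf G θ' r x)) (C := 2) (fun ω => by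
        have a1 := abs_le.1 (abs_mfin_le G hθ' (bal G v n) ω r x)
        have a2 := abs_le.1 (abs_minf_le (G := G) h0' hlt' r x ω)
        rw [abs_le]
        constructor <;> linarith)
    have e5 := e3.trans (Real.sqrt_le_sqrt e1)
    have e6 := e4.trans (Real.sqrt_le_sqrt e2)
    have e7 : E j₀ < δ / 2 / M := hj₀
    simp only [hE] at e7
    linarith
  -- near vertices
  have near : ∀ w, G.dist v w < N →
      ∫ ω, PhiM G θ θ' (fun x => mfin G θ (bal G v n) ω r x)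
        (fun x => mfin G θ' (bal G v n) ω r x) v w ∂(PP V) ≤
      ∫ ω, PhiM G θ θ' (fun x => minf G θ r x ω) (fun x => minf G θ' r x ω) v w ∂(PP V) +
        LC * ((N : ℝ) + 1) * (δ / 2 / M) := by
    intro w hw
    have i1 : Integrable (fun ω => PhiM G θ θ' (fun x => mfin G θ (bal G v n) ω r x)
        (fun x => mfin G θ' (bal G v n) ω r x) v w) (PP V) :=
      integrable_PhiM hT h0 h2 h0' h2' (fun ω x => abs_mfin_le G hθ _ ω r x)
        (fun ω x => abs_mfin_le G hθ' _ ω r x) (fun x => measurable_mfin G θ _ r x)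
        (fun x => measurable_mfin G θ' _ r x) v w
    have i2 : Integrable (fun ω => PhiM G θ θ' (fun x => minf G θ r x ω)
        (fun x => minf G θ' r x ω) v w) (PP V) :=
      integrable_PhiM hT h0 h2 h0' h2' (fun ω x => abs_minf_le h0 hlt r x ω)
        (fun ω x => abs_minf_le h0' hlt' r x ω) (fun x => measurable_minf G θ r x)
        (fun x => measurable_minf G θ' r x) v w
    have i3 : ∀ x, Integrable (fun ω => |mfin G θ (bal G v n) ω r x - minf G θ r x ω|) (PP V) :=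
      fun x => integrable_of_bdd
        ((measurable_mfin G θ _ r x).sub (measurable_minf G θ r x)).abs (C := 2) fun ω => by
          rw [abs_abs]
          have a1 := abs_le.1 (abs_mfin_le G hθ (bal G v n) ω r x)
          have a2 := abs_le.1 (abs_minf_le (G := G) h0 hlt r x ω)
          rw [abs_le]
          constructor <;> linarith
    have i4 : ∀ x, Integrable (fun ω => |mfin G θ' (bal G v n) ω r x - minf G θ' r x ω|) (PP V) :=
      fun x => integrable_of_bdd
        ((measurable_mfin G θ' _ r x).sub (measurable_minf G θ' r x)).abs (C := 2) fun ω => by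
          rw [abs_abs]
          have a1 := abs_le.1 (abs_mfin_le G hθ' (bal G v n) ω r x)
          have a2 := abs_le.1 (abs_minf_le (G := G) h0' hlt' r x ω)
          rw [abs_le]
          constructor <;> linarith
    have i5 : Integrable (fun ω => LC * ∑ i ∈ Finset.range (G.dist v w + 1),
        (|mfin G θ (bal G v n) ω r (anc G v w i) - minf G θ r (anc G v w i) ω| +
          |mfin G θ' (bal G v n) ω r (anc G v w i) - minf G θ' r (anc G v w i) ω|)) (PP V) :=
      (integrable_finsetSum _ fun i _ => (i3 _).add (i4 _)).const_mul _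
    have e1 := integral_mono i1 (i2.add i5) fun ω =>
      PhiM_sub_le hT h0 h2 h0' h2' (m := fun x => mfin G θ (bal G v n) ω r x)
        (m' := fun x => mfin G θ' (bal G v n) ω r x) (n := fun x => minf G θ r x ω)
        (n' := fun x => minf G θ' r x ω) (fun x => abs_mfin_le G hθ _ ω r x)
        (fun x => abs_mfin_le G hθ' _ ω r x) (fun x => abs_minf_le h0 hlt r x ω)
        (fun x => abs_minf_le h0' hlt' r x ω) v w
    refine e1.trans ?_
    have e2 : ∫ ω, ((fun ω => PhiM G θ θ' (fun x => minf G θ r x ω)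
        (fun x => minf G θ' r x ω) v w) + fun ω => LC * ∑ i ∈ Finset.range (G.dist v w + 1),
        (|mfin G θ (bal G v n) ω r (anc G v w i) - minf G θ r (anc G v w i) ω| +
          |mfin G θ' (bal G v n) ω r (anc G v w i) - minf G θ' r (anc G v w i) ω|)) ω ∂(PP V) =
        ∫ ω, PhiM G θ θ' (fun x => minf G θ r x ω) (fun x => minf G θ' r x ω) v w ∂(PP V) +
        LC * ∑ i ∈ Finset.range (G.dist v w + 1),
          (∫ ω, |mfin G θ (bal G v n) ω r (anc G v w i) - minf G θ r (anc G v w i) ω| ∂(PP V) +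
          ∫ ω, |mfin G θ' (bal G v n) ω r (anc G v w i) - minf G θ' r (anc G v w i) ω| ∂(PP V)) := by
      have i6 : ∀ i ∈ Finset.range (G.dist v w + 1), Integrable (fun ω =>
          (|mfin G θ (bal G v n) ω r (anc G v w i) - minf G θ r (anc G v w i) ω| +
          |mfin G θ' (bal G v n) ω r (anc G v w i) - minf G θ' r (anc G v w i) ω|)) (PP V) :=
        fun i _ => (i3 _).add (i4 _)
      rw [integral_add' i2 i5, integral_const_mul, integral_finsetSum _ i6]
      congr 2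
      refine Finset.sum_congr rfl fun i _ => ?_
      exact integral_add (i3 _) (i4 _)
    rw [e2]
    refine add_le_add le_rfl ?_
    rw [mul_assoc]
    refine mul_le_mul_of_nonneg_left ?_ LC_pos.le
    have hp : 0 ≤ δ / 2 / M := by positivity
    calc ∑ i ∈ Finset.range (G.dist v w + 1),
          (∫ ω, |mfin G θ (bal G v n) ω r (anc G v w i) - minf G θ r (anc G v w i) ω| ∂(PP V) +
          ∫ ω, |mfin G θ' (bal G v n) ω r (anc G v w i) - minf G θ' r (anc G v w i) ω| ∂(PP V))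
        ≤ ∑ i ∈ Finset.range (G.dist v w + 1), δ / 2 / M := by
          refine Finset.sum_le_sum fun i hi => L1 _ ?_
          have hi' : i ≤ G.dist v w := by simpa [Nat.lt_succ_iff] using hi
          have := dist_anc hT v w i hi'
          omega
      _ = ((G.dist v w : ℝ) + 1) * (δ / 2 / M) := by
          rw [Finset.sum_const, Finset.card_range, nsmul_eq_mul]
          push_cast
          ring
      _ ≤ ((N : ℝ) + 1) * (δ / 2 / M) := by
          refine mul_le_mul_of_nonneg_right ?_ hp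
          have : (G.dist v w : ℝ) ≤ N := by exact_mod_cast hw.le
          linarith
  -- far vertices
  have far : ∀ w, ∫ ω, PhiM G θ θ' (fun x => mfin G θ (bal G v n) ω r x)
        (fun x => mfin G θ' (bal G v n) ω r x) v w ∂(PP V) ≤
        6 * (θ ^ 2) ^ G.dist v w + 2 * (θ' ^ 2) ^ G.dist v w := by
    intro w
    have e1 := integral_mono_of_nonneg (μ := PP V)
      (Eventually.of_forall fun ω => PhiM_nonneg (G := G) (θ := θ) (θ' := θ')
        (m := fun x => mfin G θ (bal G v n) ω r x) (m' := fun x => mfin G θ' (bal G v n) ω r x) v w)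
      (integrable_const (6 * (θ ^ 2) ^ G.dist v w + 2 * (θ' ^ 2) ^ G.dist v w))
      (Eventually.of_forall fun ω => PhiM_le_pow hT h0 h2 h0' h2'
        (m := fun x => mfin G θ (bal G v n) ω r x) (m' := fun x => mfin G θ' (bal G v n) ω r x)
        (fun x => abs_mfin_le G hθ _ ω r x) (fun x => abs_mfin_le G hθ' _ ω r x) v w)
    refine e1.trans (le_of_eq ?_)
    simp
  rw [← Finset.sum_filter_add_sum_filter_not (bal G v n) (fun w => G.dist v w < N)]
  have p1 : ∑ w ∈ (bal G v n).filter (fun w => G.dist v w < N),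
      ∫ ω, PhiM G θ θ' (fun x => mfin G θ (bal G v n) ω r x)
        (fun x => mfin G θ' (bal G v n) ω r x) v w ∂(PP V) ≤
      (∑ k ∈ Finset.range N, ∑ w ∈ sph G v k, ∫ ω, PhiM G θ θ' (fun x => minf G θ r x ω)
        (fun x => minf G θ' r x ω) v w ∂(PP V)) + δ / 2 := by
    have q1 : ∑ w ∈ (bal G v n).filter (fun w => G.dist v w < N),
        ∫ ω, PhiM G θ θ' (fun x => mfin G θ (bal G v n) ω r x)
        (fun x => mfin G θ' (bal G v n) ω r x) v w ∂(PP V) ≤
        ∑ w ∈ (bal G v n).filter (fun w => G.dist v w < N),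
        (∫ ω, PhiM G θ θ' (fun x => minf G θ r x ω) (fun x => minf G θ' r x ω) v w ∂(PP V) +
        LC * ((N : ℝ) + 1) * (δ / 2 / M)) :=
      Finset.sum_le_sum fun w hw => near w (Finset.mem_filter.1 hw).2
    rw [Finset.sum_add_distrib, Finset.sum_const, nsmul_eq_mul] at q1
    have q2 := sum_range_sph hT v N (fun w => ∫ ω, PhiM G θ θ' (fun x => minf G θ r x ω)
      (fun x => minf G θ' r x ω) v w ∂(PP V)) (fun w => integral_nonneg fun ω => PhiM_nonneg v w)
      ((bal G v n).filter (fun w => G.dist v w < N)) (fun w hw => (Finset.mem_filter.1 hw).2)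
    have q3 : (((bal G v n).filter (fun w => G.dist v w < N)).card : ℝ) ≤
        ((bal G v N).card : ℝ) := by
      have : (bal G v n).filter (fun w => G.dist v w < N) ⊆ bal G v N := by
        intro w hw
        rw [mem_bal hT]
        exact (Finset.mem_filter.1 hw).2.le
      exact_mod_cast Finset.card_le_card this
    have q4 : (((bal G v n).filter (fun w => G.dist v w < N)).card : ℝ) *
        (LC * ((N : ℝ) + 1) * (δ / 2 / M)) ≤ δ / 2 := by
      have hp : 0 ≤ LC * ((N : ℝ) + 1) * (δ / 2 / M) := by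
        have := LC_pos
        positivity
      calc (((bal G v n).filter (fun w => G.dist v w < N)).card : ℝ) *
          (LC * ((N : ℝ) + 1) * (δ / 2 / M)) ≤ ((bal G v N).card : ℝ) *
          (LC * ((N : ℝ) + 1) * (δ / 2 / M)) := mul_le_mul_of_nonneg_right q3 hp
        _ = (((bal G v N).card : ℝ) * (LC * ((N : ℝ) + 1))) * (δ / 2 / M) := by ring
        _ ≤ M * (δ / 2 / M) := by
            refine mul_le_mul_of_nonneg_right ?_ (by positivity)
            rw [hM]
            linarith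
        _ = δ / 2 := by field_simp
    linarith
  have p2 : ∑ w ∈ (bal G v n).filter (fun w => ¬ G.dist v w < N),
      ∫ ω, PhiM G θ θ' (fun x => mfin G θ (bal G v n) ω r x)
        (fun x => mfin G θ' (bal G v n) ω r x) v w ∂(PP V) ≤ δ / 2 :=
    (Finset.sum_le_sum fun w _ => far w).trans
      (hN _ fun w hw => not_lt.1 (Finset.mem_filter.1 hw).2)
  linarith

end Crest.Agent.R160.Vol

namespace Crest.Agent.R160

open Crest.Agent.R160.Vol Crest.Agent.R160.DI

open scoped Classical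

variable {V : Type*} {G : SimpleGraph V} [G.LocallyFinite]

/-- monotonicity in time -/
theorem DD_mono (hT : G.IsTree) {b : ℕ} (hb : 2 ≤ b) (hreg : G.IsRegularOfDegree (b + 1))
    {θ θ' : ℝ} (h0 : 0 ≤ θ) (h1 : (b : ℝ) * θ ^ 2 < 1) (h0' : 0 ≤ θ') (h1' : (b : ℝ) * θ' ^ 2 < 1)
    (v : V) {s t : ℝ} (hs : 0 ≤ s) (hst : s ≤ t) : DD G θ θ' s v ≤ DD G θ θ' t v := by
  have hb' : (2 : ℝ) ≤ b := by exact_mod_cast hb
  have hlt : θ < 1 := theta_lt_one h0 (by nlinarith [sq_nonneg θ])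
  have hlt' : θ' < 1 := theta_lt_one h0' (by nlinarith [sq_nonneg θ'])
  exact le_of_tendsto_of_tendsto' (tendsto_DF hT hb hreg h0 h1 h0' h1' hs v)
    (tendsto_DF hT hb hreg h0 h1 h0' h1' (hs.trans hst) v)
    fun n => DF_mono h0 hlt h0' hlt' _ _ v hst

/-- increment inequality in infinite volume, sup form -/
theorem DD_incr (hT : G.IsTree) {b : ℕ} (hb : 2 ≤ b) (hreg : G.IsRegularOfDegree (b + 1))
    {θ θ' : ℝ} (h0 : 0 ≤ θ) (h1 : (b : ℝ) * θ ^ 2 < 1) (h0' : 0 ≤ θ') (h1' : (b : ℝ) * θ' ^ 2 < 1)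
    (v : V) (k : ℕ) {s t : ℝ} (hs : (k : ℝ) ≤ s) (hst : s ≤ t) (ht : t ≤ k + 1 / 2) (B : ℝ)
    (hB : ∀ r, s ≤ r → r ≤ t → ∀ N : ℕ,
      ∑ n ∈ Finset.range N, ∑ w ∈ sph G v n,
        ∫ ω, ((MM G θ (fun x => minf G θ r x ω) v w - MM G θ' (fun x => minf G θ' r x ω) v w) ^ 2
          + (MM G θ (fun x => minf G θ r x ω) v w) ^ 2
              * (minf G θ r w ω - minf G θ' r w ω) ^ 2) ∂(PP V) ≤ B) :
    DD G θ θ' t v ≤ DD G θ θ' s v
      + 100 * (if k = 0 then t / 2 else 1 / 2) ^ 2 * (t - s) * B := by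
  have hb' : (2 : ℝ) ≤ b := by exact_mod_cast hb
  have h2 : θ ^ 2 ≤ 1 / 2 := by nlinarith [sq_nonneg θ]
  have h2' : θ' ^ 2 ≤ 1 / 2 := by nlinarith [sq_nonneg θ']
  have hlt := theta_lt_one h0 h2
  have hlt' := theta_lt_one h0' h2'
  have hk0 : (0 : ℝ) ≤ k := Nat.cast_nonneg k
  have hs0 : 0 ≤ s := hk0.trans hs
  set K : ℝ := 100 * (if k = 0 then t / 2 else 1 / 2) ^ 2 * (t - s) with hK
  have hK0 : 0 ≤ K := mul_nonneg (mul_nonneg (by norm_num) (sq_nonneg _)) (by linarith)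
  have main : ∀ δ : ℝ, 0 < δ → DD G θ θ' t v ≤ DD G θ θ' s v + K * (B + δ) := by
    intro δ hδ
    obtain ⟨n₀, N, H⟩ := exists_approx hT hb hreg h0 h1 h0' h1' v t hδ
    have fin : ∀ n, n₀ ≤ n → DF G θ θ' (bal G v n) (bal G v n) t v ≤
        DF G θ θ' (bal G v n) (bal G v n) s v + K * (B + δ) := by
      intro n hn
      have ht0 : t ≤ (⌈t⌉₊ : ℝ) := Nat.le_ceil t
      have hv := self_mem_bal' (G := G) v n
      have e1 := diff_incr G h0 hlt h0' hlt' (bal G v n) (bal G v n) ⌈t⌉₊ v k hs hst ht (B + δ) ?_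
      · simp only [DF_eq_mt θ θ' _ _ ht0, DF_eq_mt θ θ' _ _ (hst.trans ht0)]
        exact e1
      · intro r hr1 hr2
        have e2 := H n hn r (hs0.trans hr1) hr2
        have e3 := hB r hr1 hr2 N
        rw [Finset.union_self]
        have e4 : ∀ w ∈ bal G v n, ∫ ω, ((ct G θ (bal G v n) (evs (bal G v n) ⌈t⌉₊) ω r v w -
            ct G θ' (bal G v n) (evs (bal G v n) ⌈t⌉₊) ω r v w) ^ 2
            + (ct G θ (bal G v n) (evs (bal G v n) ⌈t⌉₊) ω r v w) ^ 2 *
            (mt G θ (bal G v n) (evs (bal G v n) ⌈t⌉₊) ω r w -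
              mt G θ' (bal G v n) (evs (bal G v n) ⌈t⌉₊) ω r w) ^ 2) ∂(PP V) =
            ∫ ω, PhiM G θ θ' (fun x => mfin G θ (bal G v n) ω r x)
              (fun x => mfin G θ' (bal G v n) ω r x) v w ∂(PP V) := by
          intro w hw
          refine integral_congr_ae (Eventually.of_forall fun ω => ?_)
          simp only
          rw [ct_eq_MM hT h0 hlt (GC_bal hT v n) _ ω r hv hw,
            ct_eq_MM hT h0' hlt' (GC_bal hT v n) _ ω r hv hw]
          simp only [mt_evs G _ (hr2.trans ht0)]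
          rfl
        rw [Finset.sum_congr rfl e4]
        refine e2.trans ?_
        have e5 : (∑ k ∈ Finset.range N, ∑ w ∈ sph G v k, ∫ ω, PhiM G θ θ'
            (fun x => minf G θ r x ω) (fun x => minf G θ' r x ω) v w ∂(PP V)) ≤ B := e3
        linarith
    refine le_of_tendsto_of_tendsto (tendsto_DF hT hb hreg h0 h1 h0' h1' (hs0.trans hst) v)
      ((tendsto_DF hT hb hreg h0 h1 h0' h1' hs0 v).add_const _) ?_
    filter_upwards [eventually_ge_atTop n₀] with n hn
    exact fin n hn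
  have hlim : Tendsto (fun δ : ℝ => DD G θ θ' s v + K * (B + δ)) (𝓝[>] 0)
      (𝓝 (DD G θ θ' s v + K * (B + 0))) := by
    refine Tendsto.mono_left ?_ nhdsWithin_le_nhds
    exact ((tendsto_const_nhds.add tendsto_id).const_mul K).const_add _
  have := ge_of_tendsto hlim (by
    filter_upwards [self_mem_nhdsWithin] with δ hδ
    exact main δ hδ)
  simpa using this

end Crest.Agent.R160
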