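import Crest.Agent.R160.FinalAbs
import Crest.Agent.R160.TreeAut

/-! Row 160, module H: diagonal selection. -/

set_option autoImplicit false

namespace Crest.Agent.R160

open MeasureTheory ProbabilityTheory Filter Topology
open Crest.ProbabilityR.TreeIsing Crest.ProbabilityR.Labels

/-- A locally finite tree is countable. -/
theorem countable_of_isTree {V : Type*} (G : SimpleGraph V) [G.LocallyFinite] (hT : G.IsTree) :
    Countable V := by
  classical
  obtain ⟨o⟩ := hT.connected.nonempty
  have hfin : ∀ n, {v | G.dist o v = n}.Finite := by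
    intro n
    induction n with
    | zero =>
      refine (Set.finite_singleton o).subset fun v hv => ?_
      have := hT.connected.dist_eq_zero_iff.1 hv
      exact this.symm
    | succ n ih =>
      refine (ih.biUnion (t := fun u => (G.neighborFinset u : Set V))
        fun u _ => Finset.finite_toSet _).subset fun v hv => ?_
      have hv' : v ≠ o := by
        rintro rfl
        simp at hv
      have h1 := TreeAut.par_adj hT hv'
      have h2 := TreeAut.par_dist hT hv'
      simp only [Set.mem_ofPred_eq] at hv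
      simp only [Set.mem_iUnion]
      refine ⟨TreeAut.par G o v, ?_, ?_⟩
      · simp only [Set.mem_ofPred_eq]; omega
      · simpa using h1.symm
  have : (Set.univ : Set V) = ⋃ n, {v | G.dist o v = n} := by
    ext v; simp
  rw [← Set.countable_univ_iff, this]
  exact Set.countable_iUnion fun n => (hfin n).countable

/-- The Ising weight is continuous in the parameter. -/
theorem continuous_isingWeight {V : Type*} (G : SimpleGraph V) (S : Finset V) (η : V → Bool) :
    Continuous fun θ => isingWeight G θ S η := by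
  unfold isingWeight
  refine continuous_const.mul (continuous_finsetProd _ fun e _ => ?_)
  split_ifs <;> fun_prop

/-- Relabelling by a permutation preserves the iid law. -/
theorem measurePreserving_comp_equiv {V E : Type*} [MeasurableSpace E] (κ : Measure E)
    [IsProbabilityMeasure κ] (g : V ≃ V) :
    MeasurePreserving (fun x : V → E => x ∘ g) (Measure.infinitePi fun _ : V => κ)
      (Measure.infinitePi fun _ : V => κ) := by
  refine ⟨by fun_prop, ?_⟩
  have hmeas : Measurable (fun x : V → E => x ∘ g) := by fun_prop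
  refine Measure.eq_infinitePi _ fun s t ht => ?_
  rw [Measure.map_apply hmeas (MeasurableSet.pi s.countable_toSet fun i _ => ht i)]
  have : (fun x : V → E => x ∘ g) ⁻¹' (Set.pi s t) =
      Set.pi ((s.map g.toEmbedding : Finset V) : Set V) (fun v => t (g.symm v)) := by
    ext x
    simp only [Set.mem_preimage, Set.mem_pi, Finset.mem_coe, Function.comp_apply,
      Finset.mem_map_equiv]
    constructor
    · intro h i hi
      have := h (g.symm i) hi
      simpa using this
    · intro h i hi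
      have := h (g i) (by simpa using hi)
      simpa using this
  rw [this, Measure.infinitePi_pi _ fun v _ => ht _]
  simp

theorem integral_comp_equiv {V E : Type*} [MeasurableSpace E] (κ : Measure E)
    [IsProbabilityMeasure κ] (g : V ≃ V) {f : (V → E) → ℝ} (hf : Measurable f) :
    ∫ x, f (x ∘ g) ∂(Measure.infinitePi fun _ : V => κ) =
      ∫ x, f x ∂(Measure.infinitePi fun _ : V => κ) := by
  have h := measurePreserving_comp_equiv κ g
  conv_rhs => rw [← h.map_eq]
  rw [integral_map h.measurable.aemeasurable hf.aestronglyMeasurable]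

/-- **Selection lemma + abstract assembly.** `M k t N v` is the magnetization of `v` at time `t`
computed from the labels in the ball of radius `N` for the parameter `θ_k`. -/
theorem final_select {V : Type*} (G : SimpleGraph V) [G.LocallyFinite] (hT : G.IsTree) {d : ℕ}
    (hreg : G.IsRegularOfDegree d) (θ : ℝ) (θs : ℕ → ℝ) (hθs : Tendsto θs atTop (𝓝 θ))
    {E : Type*} [Nonempty E] [MeasurableSpace E] [StandardBorelSpace E] (κ : Measure E)
    [IsProbabilityMeasure κ] (M : ℕ → ℕ → ℕ → V → (V → E) → ℝ) (ρ : ℕ → ℝ)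
    (hρ : Tendsto ρ atTop (𝓝 0))
    (hm : ∀ k t N v, Measurable (M k t N v)) (hb : ∀ k t N v x, |M k t N v x| ≤ 1)
    (heq : ∀ k t N v (g : G ≃g G) (x : V → E), M k t N v (x ∘ g) = M k t N (g v) x)
    (o : V)
    -- convergence of the volume
    (hV1 : ∀ k t, ∀ ε > 0, ∃ N₀, ∀ N ≥ N₀, ∀ N' ≥ N₀,
      ∫ x, |M k t N o x - M k t N' o x| ∂(Measure.infinitePi fun _ : V => κ) ≤ ε)
    -- convergence of the parameter
    (hV2 : ∀ t, ∀ ε > 0, ∃ K, ∀ k ≥ K, ∀ k' ≥ K, ∃ N₀, ∀ N ≥ N₀,
      ∫ x, |M k t N o x - M k' t N o x| ∂(Measure.infinitePi fun _ : V => κ) ≤ ε)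
    -- convergence of the time
    (hV3 : ∀ k t t' N, t ≤ t' →
      ∫ x, |M k t N o x - M k t' N o x| ∂(Measure.infinitePi fun _ : V => κ) ≤ ρ t)
    (hV4 : ∀ k t N,
      ∫ x, (1 - (M k t N o x) ^ 2) ∂(Measure.infinitePi fun _ : V => κ) ≤ ρ t)
    -- laws
    (hV5 : ∀ S : Finset V, (G.induce (S : Set V)).Connected → ∃ ρS : ℕ → ℝ,
      Tendsto ρS atTop (𝓝 0) ∧ ∀ k t, ∀ ε > 0, ∃ N₀,
      ∀ N ≥ N₀, ∀ η : V → Bool, |((Measure.infinitePi fun _ : V => κ)
        {x | ∀ v ∈ S, (0 < M k t N v x ↔ η v = true)}).toReal -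
          isingWeight G (θs k) S η| ≤ ρS t + ε) :
    ∃ Φ : (V → unitInterval) → (V → Bool), Measurable Φ ∧
      (∀ (g : G ≃g G) (x : V → unitInterval), Φ (x ∘ ⇑g) = Φ x ∘ ⇑g) ∧
      ∀ (S : Finset V) (η : V → Bool), (G.induce (S : Set V)).Connected →
        (labelMeasure V).map Φ {σ | ∀ v ∈ S, σ v = η v} =
          ENNReal.ofReal (isingWeight G θ S η) := by
  classical
  have : Countable V := countable_of_isTree G hT
  set P : Measure (V → E) := Measure.infinitePi (fun _ : V => κ) with hP
  -- choice of the parameters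
  have hε : ∀ n : ℕ, (0 : ℝ) < (1 / 2) ^ n := fun n => by positivity
  choose N1 hN1 using fun (k t n : ℕ) => hV1 k t ((1 / 2) ^ n) (hε n)
  choose K2 hK2 using fun (t n : ℕ) => hV2 t ((1 / 2) ^ n) (hε n)
  have hT3 : ∀ n : ℕ, ∃ t, ∀ t' ≥ t, ρ t' ≤ (1 / 2) ^ n := by
    intro n
    have := hρ.eventually_lt_const (hε n)
    obtain ⟨t, ht⟩ := eventually_atTop.1 this
    exact ⟨t, fun t' ht' => (ht t' ht').le⟩
  choose T3 hT3 using hT3
  let tt : ℕ → ℕ := fun n => ∑ i ∈ Finset.range (n + 1), T3 i + n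
  have htt_ge : ∀ n, T3 n ≤ tt n := by
    intro n
    have := Finset.single_le_sum (f := T3) (s := Finset.range (n + 1)) (fun i _ => Nat.zero_le _)
      (Finset.self_mem_range_succ n)
    simp only [tt]; omega
  have htt_mono : ∀ n, tt n ≤ tt (n + 1) := by
    intro n
    simp only [tt]
    rw [Finset.sum_range_succ _ (n + 1)]
    omega
  have htt_tend : Tendsto tt atTop atTop := by
    refine tendsto_atTop_mono (fun n => ?_) tendsto_id
    simp only [tt, id]; omega
  let kk : ℕ → ℕ := fun n => ∑ i ∈ Finset.range (n + 1), K2 (tt i) i + n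
  have hkk_ge : ∀ n, K2 (tt n) n ≤ kk n := by
    intro n
    have := Finset.single_le_sum (f := fun i => K2 (tt i) i) (s := Finset.range (n + 1))
      (fun i _ => Nat.zero_le _) (Finset.self_mem_range_succ n)
    simp only [kk]; omega
  have hkk_mono : ∀ n, kk n ≤ kk (n + 1) := by
    intro n
    simp only [kk]
    rw [Finset.sum_range_succ _ (n + 1)]
    omega
  have hkk_tend : Tendsto kk atTop atTop := by
    refine tendsto_atTop_mono (fun n => ?_) tendsto_id
    simp only [kk, id]; omega
  -- enumeration of the finite sets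
  have : Nonempty (Finset V) := ⟨∅⟩
  obtain ⟨Se, hSe⟩ := exists_surjective_nat (Finset V)
  have hV5' : ∀ j : ℕ, ∃ C : ℕ → ℝ, (G.induce (Se j : Set V)).Connected →
      Tendsto C atTop (𝓝 0) ∧ ∀ k t, ∀ ε > 0, ∃ N₀,
      ∀ N ≥ N₀, ∀ η : V → Bool, |(P {x | ∀ v ∈ Se j, (0 < M k t N v x ↔ η v = true)}).toReal -
          isingWeight G (θs k) (Se j) η| ≤ C t + ε := by
    intro j
    by_cases h : (G.induce (Se j : Set V)).Connected
    · obtain ⟨C, hC⟩ := hV5 (Se j) h
      exact ⟨C, fun _ => hC⟩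
    · exact ⟨0, fun h' => absurd h' h⟩
  choose C5 hC5 using hV5'
  have hN5 : ∀ j k t n : ℕ, ∃ N₀, (G.induce (Se j : Set V)).Connected → ∀ N ≥ N₀,
      ∀ η : V → Bool, |(P {x | ∀ v ∈ Se j, (0 < M k t N v x ↔ η v = true)}).toReal -
          isingWeight G (θs k) (Se j) η| ≤ C5 j t + (1 / 2) ^ n := by
    intro j k t n
    by_cases h : (G.induce (Se j : Set V)).Connected
    · obtain ⟨N₀, hN₀⟩ := (hC5 j h).2 k t _ (hε n)
      exact ⟨N₀, fun _ => hN₀⟩
    · exact ⟨0, fun h' => absurd h' h⟩
  choose N5 hN5 using hN5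
  let NN : ℕ → ℕ := fun n => N1 (kk n) (tt n) n +
    ∑ j ∈ Finset.range (n + 1), N5 j (kk n) (tt n) n
  let m : ℕ → V → (V → E) → ℝ := fun n v => M (kk n) (tt n) (NN n) v
  -- integrability
  have hint : ∀ k t N v k' t' N' v', Integrable
      (fun x => |M k t N v x - M k' t' N' v' x|) P := by
    intro k t N v k' t' N' v'
    refine Integrable.of_bound ((hm k t N v).sub (hm k' t' N' v')).abs.aestronglyMeasurable 2
      (Eventually.of_forall fun x => ?_)
    rw [Real.norm_eq_abs, abs_abs]
    have h1 := abs_le.1 (hb k t N v x)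
    have h2 := abs_le.1 (hb k' t' N' v' x)
    exact abs_le.2 ⟨by linarith, by linarith⟩
  -- transitivity
  have htrans : ∀ v : V, ∀ k t N k' t' N',
      ∫ x, |M k t N v x - M k' t' N' v x| ∂P = ∫ x, |M k t N o x - M k' t' N' o x| ∂P := by
    intro v k t N k' t' N'
    obtain ⟨g, hg⟩ := TreeAut.exists_aut_vertex hT hreg o v
    rw [← hg]
    simp_rw [← heq]
    exact integral_comp_equiv κ g.toEquiv
      (f := fun x => |M k t N o x - M k' t' N' o x|)
      ((hm k t N o).sub (hm k' t' N' o)).abs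
  have htrans2 : ∀ v : V, ∀ k t N,
      ∫ x, (1 - (M k t N v x) ^ 2) ∂P = ∫ x, (1 - (M k t N o x) ^ 2) ∂P := by
    intro v k t N
    obtain ⟨g, hg⟩ := TreeAut.exists_aut_vertex hT hreg o v
    rw [← hg]
    simp_rw [← heq]
    exact integral_comp_equiv κ g.toEquiv
      (f := fun x => (1 - (M k t N o x) ^ 2)) (measurable_const.sub ((hm k t N o).pow_const 2))
  have htri : ∀ a b c : ℕ × ℕ × ℕ,
      ∫ x, |M a.1 a.2.1 a.2.2 o x - M c.1 c.2.1 c.2.2 o x| ∂P ≤
        ∫ x, |M a.1 a.2.1 a.2.2 o x - M b.1 b.2.1 b.2.2 o x| ∂P +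
        ∫ x, |M b.1 b.2.1 b.2.2 o x - M c.1 c.2.1 c.2.2 o x| ∂P := by
    intro a b c
    rw [← integral_add (hint _ _ _ _ _ _ _ _) (hint _ _ _ _ _ _ _ _)]
    refine integral_mono (hint _ _ _ _ _ _ _ _)
      ((hint _ _ _ _ _ _ _ _).add (hint _ _ _ _ _ _ _ _)) fun x => ?_
    exact abs_sub_le _ _ _
  -- the increments
  have hinc : ∀ n, ∫ x, |m n o x - m (n + 1) o x| ∂P ≤ 4 * (1 / 2) ^ n := by
    intro n
    obtain ⟨N₀, hN₀⟩ := hK2 (tt n) n (kk n) (hkk_ge n) (kk (n + 1))
      ((hkk_ge n).trans (hkk_mono n))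
    let N : ℕ := NN n + NN (n + 1) + N₀ + N1 (kk (n + 1)) (tt (n + 1)) (n + 1)
    have b1 : ∫ x, |M (kk n) (tt n) (NN n) o x - M (kk n) (tt n) N o x| ∂P ≤ (1 / 2) ^ n := by
      apply hN1
      · simp only [NN]; omega
      · simp only [N, NN]; omega
    have b2 : ∫ x, |M (kk n) (tt n) N o x - M (kk (n + 1)) (tt n) N o x| ∂P ≤ (1 / 2) ^ n := by
      apply hN₀
      simp only [N]; omega
    have b3 : ∫ x, |M (kk (n + 1)) (tt n) N o x - M (kk (n + 1)) (tt (n + 1)) N o x| ∂P ≤
        (1 / 2) ^ n :=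
      (hV3 _ _ _ _ (htt_mono n)).trans (hT3 n _ (htt_ge n))
    have b4 : ∫ x, |M (kk (n + 1)) (tt (n + 1)) N o x -
        M (kk (n + 1)) (tt (n + 1)) (NN (n + 1)) o x| ∂P ≤ (1 / 2) ^ (n + 1) := by
      apply hN1
      · simp only [N]; omega
      · simp only [NN]; omega
    have c1 := htri (kk n, tt n, NN n) (kk n, tt n, N) (kk (n + 1), tt (n + 1), NN (n + 1))
    have c2 := htri (kk n, tt n, N) (kk (n + 1), tt n, N) (kk (n + 1), tt (n + 1), NN (n + 1))
    have c3 := htri (kk (n + 1), tt n, N) (kk (n + 1), tt (n + 1), N)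
      (kk (n + 1), tt (n + 1), NN (n + 1))
    simp only at c1 c2 c3
    have h5 : ((1 : ℝ) / 2) ^ (n + 1) ≤ (1 / 2) ^ n := by
      rw [pow_succ]
      have := hε n
      linarith
    simp only [m]
    linarith
  refine final_abs G θ κ m (fun n v => hm _ _ _ _) (fun n v x => hb _ _ _ _ _)
    (fun n v g x => heq _ _ _ _ _ _) ?_ ?_ ?_
  · intro v
    have hsum : Summable fun n : ℕ => (4 : ℝ) * (1 / 2) ^ n :=
      (summable_geometric_of_lt_one (by norm_num) (by norm_num)).mul_left 4
    refine Summable.of_nonneg_of_le (fun n => integral_nonneg fun x => abs_nonneg _)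
      (fun n => ?_) hsum
    rw [htrans v]
    exact hinc n
  · intro v
    have h0 : ∀ n, 0 ≤ ∫ x, (1 - (m n v x) ^ 2) ∂P := by
      intro n
      refine integral_nonneg fun x => ?_
      have h4 : (m n v x) ^ 2 ≤ 1 := by
        have h5 : |m n v x| ≤ 1 := hb _ _ _ _ _
        rw [← sq_abs]
        nlinarith [abs_nonneg (m n v x)]
      simp only [Pi.zero_apply]
      linarith
    refine squeeze_zero h0 (fun n => ?_) (hρ.comp htt_tend)
    rw [htrans2 v]
    exact hV4 _ _ _
  · intro S η hS
    obtain ⟨j, rfl⟩ := hSe S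
    have hw : Tendsto (fun n => isingWeight G (θs (kk n)) (Se j) η) atTop
        (𝓝 (isingWeight G θ (Se j) η)) :=
      ((continuous_isingWeight G (Se j) η).tendsto θ).comp (hθs.comp hkk_tend)
    have herr : Tendsto (fun n => C5 j (tt n) + (1 / 2 : ℝ) ^ n) atTop (𝓝 0) := by
      have h1 := ((hC5 j hS).1.comp htt_tend).add
        (tendsto_pow_atTop_nhds_zero_of_lt_one (by norm_num : (0 : ℝ) ≤ 1 / 2)
          (by norm_num : (1 / 2 : ℝ) < 1))
      simpa using h1
    have hdiff : Tendsto (fun n => (P {x | ∀ v ∈ Se j, (0 < m n v x ↔ η v = true)}).toReal -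
        isingWeight G (θs (kk n)) (Se j) η) atTop (𝓝 0) := by
      rw [tendsto_zero_iff_abs_tendsto_zero]
      refine squeeze_zero' (Eventually.of_forall fun n => abs_nonneg _) ?_ herr
      filter_upwards [eventually_ge_atTop j] with n hn
      refine hN5 j (kk n) (tt n) n hS (NN n) ?_ η
      have := Finset.single_le_sum (f := fun j => N5 j (kk n) (tt n) n)
        (s := Finset.range (n + 1)) (fun i _ => Nat.zero_le _)
        (Finset.mem_range.2 (by omega : j < n + 1))
      simp only [NN]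
      omega
    have := hdiff.add hw
    simpa using this

end Crest.Agent.R160
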