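import Crest.Agent.R160.Defs
import Crest.Agent.R160.Balls
import Crest.Agent.R160.FinalSel

/-! # Row 160, module G: homogeneity (invariance under automorphisms, relocation of expectations)
and the path products `rprod`. -/

set_option autoImplicit false

open MeasureTheory
open scoped Classical

namespace Crest.Agent.R160

open Crest.Agent.R160.TreeAut

section path

variable {V : Type*} {G : SimpleGraph V}

theorem rho_nonneg' {θ a b : ℝ} (h0 : 0 ≤ θ) (h1 : θ < 1) (ha : |a| ≤ 1) (hb : |b| ≤ 1) :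
    0 ≤ rho θ a b := by
  have hab : a * b ≤ 1 := by
    have := abs_mul a b
    have h2 : |a * b| ≤ 1 := by rw [this]; nlinarith [abs_nonneg a, abs_nonneg b]
    exact (le_abs_self _).trans h2
  have hA : 0 ≤ 1 + θ ^ 2 - 2 * θ * a * b := by nlinarith [sq_nonneg (1 - θ)]
  have hb2 : b ^ 2 ≤ 1 := by rw [← sq_abs]; nlinarith [abs_nonneg b]
  unfold rho
  have := Real.sqrt_nonneg ((1 + θ ^ 2 - 2 * θ * a * b) ^ 2 - 4 * θ ^ 2 * (1 - a ^ 2) * (1 - b ^ 2))
  apply div_nonneg
  · nlinarith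
  · linarith

theorem rho_rev' (θ a b : ℝ) : (1 - a ^ 2) * rho θ a b = (1 - b ^ 2) * rho θ b a := by
  unfold rho
  have e1 : 1 + θ ^ 2 - 2 * θ * b * a = 1 + θ ^ 2 - 2 * θ * a * b := by ring
  have e2 : 4 * θ ^ 2 * (1 - b ^ 2) * (1 - a ^ 2) = 4 * θ ^ 2 * (1 - a ^ 2) * (1 - b ^ 2) := by ring
  rw [e1, e2]
  ring

theorem rho_le_one' {θ a b : ℝ} (h0 : 0 ≤ θ) (h1 : θ < 1) (ha : |a| ≤ 1) (hb : |b| ≤ 1) :
    rho θ a b ≤ 1 := by
  have ha2 : a ^ 2 ≤ 1 := by rw [← sq_abs]; nlinarith [abs_nonneg a]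
  have hb2 : b ^ 2 ≤ 1 := by rw [← sq_abs]; nlinarith [abs_nonneg b]
  have hab : a * b ≤ 1 := by
    have := abs_mul a b
    have h2 : |a * b| ≤ 1 := by rw [this]; nlinarith [abs_nonneg a, abs_nonneg b]
    exact (le_abs_self _).trans h2
  set A := 1 + θ ^ 2 - 2 * θ * a * b with hA
  have hApos : 0 < A := by nlinarith [sq_nonneg (1 - θ), mul_pos (sub_pos.2 h1) (sub_pos.2 h1)]
  unfold rho
  rw [← hA]
  have hs := Real.sqrt_nonneg (A ^ 2 - 4 * θ ^ 2 * (1 - a ^ 2) * (1 - b ^ 2))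
  rw [div_le_one (by linarith)]
  have key : 2 * (1 - b ^ 2) - A ≤ √(A ^ 2 - 4 * θ ^ 2 * (1 - a ^ 2) * (1 - b ^ 2)) := by
    apply Real.le_sqrt_of_sq_le
    have : 0 ≤ (1 - b ^ 2) * (b - θ * a) ^ 2 := mul_nonneg (by linarith) (sq_nonneg _)
    nlinarith
  linarith

theorem rprod_self (θ : ℝ) (m : V → ℝ) (r : V) : rprod G θ m r r = 1 := by
  unfold rprod
  rw [SimpleGraph.dist_self]
  rfl

theorem rprod_succ (hT : G.IsTree) (θ : ℝ) (m : V → ℝ) {r v : V} (hv : v ≠ r) :
    rprod G θ m r v = rprod G θ m r (par G r v) * rho θ (m (par G r v)) (m v) := by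
  unfold rprod
  rw [← par_dist hT hv]
  rfl

theorem rprod_path (hT : G.IsTree) (θ : ℝ) (m : V → ℝ) {n : ℕ} {p : ℕ → V} (hp : IsNB G n p) :
    rprod G θ m (p 0) (p n) = ∏ i ∈ Finset.range n, rho θ (m (p i)) (m (p (i + 1))) := by
  induction n with
  | zero => simp [rprod_self]
  | succ n ih =>
    have h1 := hp.dist_par hT (n + 1) le_rfl
    have hne : p (n + 1) ≠ p 0 := by
      intro h
      rw [h, SimpleGraph.dist_self] at h1
      omega
    rw [rprod_succ hT θ m hne, h1.2 (by omega), Finset.prod_range_succ, Nat.add_sub_cancel,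
      ih (hp.mono (by omega))]

theorem rprod_path_from (hT : G.IsTree) (θ : ℝ) (m : V → ℝ) {n : ℕ} {p : ℕ → V} (hp : IsNB G n p)
    {i : ℕ} (hi : i ≤ n) :
    rprod G θ m (p i) (p n) = ∏ k ∈ Finset.Ico i n, rho θ (m (p k)) (m (p (k + 1))) := by
  have h := rprod_path hT θ m (hp.shift i hi)
  simp only [add_zero] at h
  rw [show i + (n - i) = n by omega] at h
  rw [h, Finset.prod_Ico_eq_prod_range]
  rfl

theorem rprod_path_to (hT : G.IsTree) (θ : ℝ) (m : V → ℝ) {n : ℕ} {p : ℕ → V} (hp : IsNB G n p)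
    {i : ℕ} (hi : i ≤ n) :
    rprod G θ m (p 0) (p i) = ∏ k ∈ Finset.range i, rho θ (m (p k)) (m (p (k + 1))) :=
  rprod_path hT θ m (hp.mono hi)

/-- reversal of a path product -/
theorem rprod_rev (hT : G.IsTree) (θ : ℝ) (m : V → ℝ) (u v : V) :
    (1 - m u ^ 2) * rprod G θ m u v = (1 - m v ^ 2) * rprod G θ m v u := by
  obtain ⟨p, hp, h0, h1⟩ := exists_geodesic hT u v
  set n := G.dist u v with hn
  have e1 := rprod_path hT θ m hp
  have e2 := rprod_path hT θ m hp.reverse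
  simp only [Nat.sub_zero, Nat.sub_self] at e2
  rw [h0, h1] at e1 e2
  rw [e1, e2]
  have key : ∀ k ≤ n, (1 - m (p 0) ^ 2) * ∏ i ∈ Finset.range k, rho θ (m (p i)) (m (p (i + 1)))
      = (1 - m (p k) ^ 2) * ∏ i ∈ Finset.range k, rho θ (m (p (i + 1))) (m (p i)) := by
    intro k
    induction k with
    | zero => intro _; simp
    | succ k ih =>
      intro hk
      rw [Finset.prod_range_succ, Finset.prod_range_succ, ← mul_assoc, ih (by omega)]
      have := rho_rev' θ (m (p k)) (m (p (k + 1)))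
      linear_combination (∏ i ∈ Finset.range k, rho θ (m (p (i + 1))) (m (p i))) * this
  have h := key n le_rfl
  rw [h0, h1] at h
  rw [h]
  congr 1
  rw [← Finset.prod_range_reflect]
  apply Finset.prod_congr rfl
  intro i hi
  rw [Finset.mem_range] at hi
  rw [show n - 1 - i + 1 = n - i by omega, show n - 1 - i = n - (i + 1) by omega]

theorem rprod_mem (hT : G.IsTree) {θ : ℝ} (h0 : 0 ≤ θ) (h1 : θ < 1) {m : V → ℝ}
    (hm : ∀ v, |m v| ≤ 1) (u v : V) : 0 ≤ rprod G θ m u v ∧ rprod G θ m u v ≤ 1 := by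
  obtain ⟨p, hp, h0', h1'⟩ := exists_geodesic hT u v
  have e1 := rprod_path hT θ m hp
  rw [h0', h1'] at e1
  rw [e1]
  constructor
  · exact Finset.prod_nonneg fun i _ => rho_nonneg' h0 h1 (hm _) (hm _)
  · exact Finset.prod_le_one (fun i _ => rho_nonneg' h0 h1 (hm _) (hm _))
      fun i _ => rho_le_one' h0 h1 (hm _) (hm _)

theorem measurable_rho (θ : ℝ) : Measurable fun p : ℝ × ℝ => rho θ p.1 p.2 := by
  unfold rho
  fun_prop

theorem measurable_rprod {Ω : Type*} [MeasurableSpace Ω] (θ : ℝ) {m : V → Ω → ℝ}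
    (hm : ∀ v, Measurable (m v)) (u v : V) :
    Measurable fun ω => rprod G θ (fun x => m x ω) u v := by
  have key : ∀ n v, Measurable fun ω => rprodN G θ (fun x => m x ω) u n v := by
    intro n
    induction n with
    | zero => intro v; exact measurable_const
    | succ n ih =>
      intro v
      simp only [rprodN]
      refine (ih _).mul ?_
      exact (measurable_rho θ).comp ((hm _).prodMk (hm _))
  exact key _ v

theorem measurable_MM {Ω : Type*} [MeasurableSpace Ω] (θ : ℝ) {m : V → Ω → ℝ}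
    (hm : ∀ v, Measurable (m v)) (u v : V) :
    Measurable fun ω => MM G θ (fun x => m x ω) u v := by
  unfold MM
  exact ((measurable_const.sub ((hm u).pow_const 2)).mul_const _).mul (measurable_rprod θ hm u v)

theorem MM_mem (hT : G.IsTree) {θ : ℝ} (h0 : 0 ≤ θ) (h1 : θ < 1) {m : V → ℝ}
    (hm : ∀ v, |m v| ≤ 1) (u v : V) : 0 ≤ MM G θ m u v ∧ MM G θ m u v ≤ 1 := by
  have h := rprod_mem hT h0 h1 hm u v
  have hu : (m u) ^ 2 ≤ 1 := by rw [← sq_abs]; nlinarith [abs_nonneg (m u), hm u]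
  have hu' := sq_nonneg (m u)
  have hp0 : 0 ≤ θ ^ G.dist u v := pow_nonneg h0 _
  have hp1 : θ ^ G.dist u v ≤ 1 := pow_le_one₀ h0 h1.le
  unfold MM
  constructor
  · exact mul_nonneg (mul_nonneg (by linarith) hp0) h.1
  · have h2 : (1 - m u ^ 2) * θ ^ G.dist u v ≤ 1 := by nlinarith
    have h3 : 0 ≤ (1 - m u ^ 2) * θ ^ G.dist u v := mul_nonneg (by linarith) hp0
    nlinarith [h.1, h.2]

theorem rprod_map (hT : G.IsTree) (θ : ℝ) (m : V → ℝ) (g : G ≃g G) (r v : V) :
    rprod G θ m (g r) (g v) = rprod G θ (fun x => m (g x)) r v := by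
  induction v using par_induction hT r with
  | h0 => rw [rprod_self, rprod_self]
  | hs v hv ih =>
    have hv' : g v ≠ g r := fun h => hv (g.injective h)
    rw [rprod_succ hT θ m hv', rprod_succ hT θ _ hv, par_map hT g hv, ih]

theorem MM_map (hT : G.IsTree) (θ : ℝ) (m : V → ℝ) (g : G ≃g G) (r v : V) :
    MM G θ m (g r) (g v) = MM G θ (fun x => m (g x)) r v := by
  unfold MM
  rw [rprod_map hT, dist_map]

end path

section level

variable {V : Type*} {G : SimpleGraph V} [G.LocallyFinite]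

theorem Alev_map (hT : G.IsTree) (b : ℕ) (θ : ℝ) (m : V → ℝ) (g : G ≃g G) (o : V) (k : ℕ) :
    Alev G b θ m (g o) k = Alev G b θ (fun x => m (g x)) o k := by
  unfold Alev
  rw [sph_map hT, Finset.sum_map]
  congr 1
  apply Finset.sum_congr rfl
  intro w _
  exact rprod_map hT θ m g o w

theorem measurable_Alev {Ω : Type*} [MeasurableSpace Ω] (b : ℕ) (θ : ℝ) {m : V → Ω → ℝ}
    (hm : ∀ v, Measurable (m v)) (o : V) (k : ℕ) :
    Measurable fun ω => Alev G b θ (fun x => m x ω) o k := by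
  unfold Alev
  exact (Finset.measurable_fun_sum _ fun w _ => measurable_rprod θ hm o w).const_mul _

theorem Alev_mem (hT : G.IsTree) {b : ℕ} (hb : 1 ≤ b) (hreg : G.IsRegularOfDegree (b + 1))
    {θ : ℝ} (h0 : 0 ≤ θ) (h1 : θ < 1) {m : V → ℝ}
    (hm : ∀ v, |m v| ≤ 1) (o : V) (k : ℕ) : 0 ≤ Alev G b θ m o k ∧ Alev G b θ m o k ≤ 2 := by
  have hb0 : (0 : ℝ) < b := by exact_mod_cast hb
  unfold Alev
  constructor
  · apply mul_nonneg (by positivity)
    exact Finset.sum_nonneg fun w _ => (rprod_mem hT h0 h1 hm o w).1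
  · have h2 : ∑ w ∈ sph G o k, rprod G θ m o w ≤ ∑ w ∈ sph G o k, 1 :=
      Finset.sum_le_sum fun w _ => (rprod_mem hT h0 h1 hm o w).2
    have h3 : ∑ w ∈ sph G o k, (1 : ℝ) ≤ 2 * (b : ℝ) ^ k := by
      rw [Finset.sum_const, nsmul_eq_mul, mul_one]
      exact_mod_cast card_sph_le' hT hb hreg o k
    calc ((b : ℝ)⁻¹) ^ k * ∑ w ∈ sph G o k, rprod G θ m o w
        ≤ ((b : ℝ)⁻¹) ^ k * (2 * (b : ℝ) ^ k) :=
          mul_le_mul_of_nonneg_left (h2.trans h3) (by positivity)
      _ = 2 := by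
          rw [inv_pow]
          field_simp

/-- first step of the geodesic: level sums through the neighbours -/
theorem sum_sph_succ_le (hT : G.IsTree) {θ : ℝ} (h0 : 0 ≤ θ) (h1 : θ < 1) {m : V → ℝ}
    (hm : ∀ v, |m v| ≤ 1) {b : ℕ} (hb : 1 ≤ b) (o : V) (k : ℕ) :
    ∑ w ∈ sph G o (k + 1), rprod G θ m (gpt G o w 1) w
      ≤ ∑ y ∈ G.neighborFinset o, (b : ℝ) ^ k * Alev G b θ m y k := by
  have hb0 : (0 : ℝ) < b := by exact_mod_cast hb
  have h2 : ∑ w ∈ sph G o (k + 1), rprod G θ m (gpt G o w 1) w =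
      ∑ y ∈ G.neighborFinset o, ∑ w ∈ (sph G o (k + 1)).filter (fun w => gpt G o w 1 = y),
        rprod G θ m y w := by
    rw [← Finset.sum_fiberwise_of_maps_to (s := sph G o (k + 1)) (t := G.neighborFinset o)
      (g := fun w => gpt G o w 1)]
    · refine Finset.sum_congr rfl fun x _ => Finset.sum_congr rfl fun w hw => ?_
      rw [(Finset.mem_filter.1 hw).2]
    · intro w hw
      rw [mem_sph hT] at hw
      rw [SimpleGraph.mem_neighborFinset, ← SimpleGraph.dist_eq_one_iff_adj]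
      exact dist_gpt hT (by omega)
  rw [h2]
  refine Finset.sum_le_sum fun y _ => ?_
  have h3 : (b : ℝ) ^ k * Alev G b θ m y k = ∑ w ∈ sph G y k, rprod G θ m y w := by
    unfold Alev
    rw [← mul_assoc, ← mul_pow, mul_inv_cancel₀ hb0.ne', one_pow, one_mul]
  rw [h3]
  refine Finset.sum_le_sum_of_subset_of_nonneg ?_ fun w _ _ => (rprod_mem hT h0 h1 hm y w).1
  intro w hw
  rw [Finset.mem_filter, mem_sph hT] at hw
  rw [mem_sph hT, ← hw.2, gpt_dist hT (by omega), hw.1]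
  rfl

end level

/-! ### pairs of fields with jointly invariant law -/

/-- a pair of `[-1,1]`-valued fields on the same probability space, jointly invariant -/
structure HomPair {V Ω : Type*} [MeasurableSpace Ω] (G : SimpleGraph V) (P : Measure Ω)
    (m m' : V → Ω → ℝ) : Prop where
  meas : ∀ v, Measurable (m v)
  meas' : ∀ v, Measurable (m' v)
  le : ∀ v ω, |m v ω| ≤ 1
  le' : ∀ v ω, |m' v ω| ≤ 1
  inv : ∀ g : G ≃g G, ∃ T : Ω → Ω, MeasurePreserving T P P ∧
    ∀ v ω, m v (T ω) = m (g v) ω ∧ m' v (T ω) = m' (g v) ω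

section inv

variable {V Ω : Type*} [MeasurableSpace Ω] {G : SimpleGraph V} {P : Measure Ω}
  {m m' : V → Ω → ℝ}

theorem HomPair.symm (h : HomPair G P m m') : HomPair G P m' m where
  meas := h.meas'
  meas' := h.meas
  le := h.le'
  le' := h.le
  inv := fun g => by
    obtain ⟨T, hT, h2⟩ := h.inv g
    exact ⟨T, hT, fun v ω => ⟨(h2 v ω).2, (h2 v ω).1⟩⟩

/-- expectations of functionals of the two fields are invariant -/
theorem HomPair.integral_map (h : HomPair G P m m') (g : G ≃g G)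
    (Ψ : (V → ℝ) → (V → ℝ) → ℝ)
    (hΨ : Measurable fun ω => Ψ (fun x => m x ω) (fun x => m' x ω)) :
    ∫ ω, Ψ (fun x => m (g x) ω) (fun x => m' (g x) ω) ∂P
      = ∫ ω, Ψ (fun x => m x ω) (fun x => m' x ω) ∂P := by
  obtain ⟨T, hT, h2⟩ := h.inv g
  have h3 : ∫ ω, Ψ (fun x => m x (T ω)) (fun x => m' x (T ω)) ∂P =
      ∫ ω, Ψ (fun x => m (g x) ω) (fun x => m' (g x) ω) ∂P := by
    congr 1
    funext ω
    have e1 : (fun x => m x (T ω)) = fun x => m (g x) ω := funext fun x => (h2 x ω).1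
    have e2 : (fun x => m' x (T ω)) = fun x => m' (g x) ω := funext fun x => (h2 x ω).2
    rw [e1, e2]
  rw [← h3]
  conv_rhs => rw [← hT.map_eq]
  rw [MeasureTheory.integral_map hT.measurable.aemeasurable hΨ.aestronglyMeasurable]

end inv

end Crest.Agent.R160
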