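import Mathlib
import Crest.Agent.R160.Homog
import Crest.Agent.R160.Scalar2

/-! # Row 160, module GA: deterministic part

Comparison of the two covariances along one path on the event that all magnetizations on the
path are at most `1/2` in absolute value. -/

set_option autoImplicit false

open Finset
open scoped Classical

namespace Crest.Agent.R160.GA

open Crest.Agent.R160 Crest.Agent.R160.TreeAut

/-- clipping at level `1/2` -/
noncomputable def cl (x : ℝ) : ℝ := max (-(1 / 2)) (min (1 / 2) x)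

lemma abs_cl_le (x : ℝ) : |cl x| ≤ 1 / 2 := by
  unfold cl
  rw [abs_le]
  exact ⟨le_max_left _ _, max_le (by norm_num) (min_le_left _ _)⟩

lemma cl_of_le {x : ℝ} (h : |x| ≤ 1 / 2) : cl x = x := by
  unfold cl
  rw [abs_le] at h
  rw [min_eq_right h.2, max_eq_right h.1]

lemma abs_cl_le_abs (x : ℝ) : |cl x| ≤ |x| := by
  by_cases h : |x| ≤ 1 / 2
  · rw [cl_of_le h]
  · push Not at h
    exact (abs_cl_le x).trans h.le

lemma abs_cl_sub_le (x y : ℝ) : |cl x - cl y| ≤ |x - y| := by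
  unfold cl
  have h1 : |max (-(1 / 2 : ℝ)) (min (1 / 2) x) - max (-(1 / 2)) (min (1 / 2) y)|
      ≤ |min (1 / 2) x - min (1 / 2) y| := by
    have := abs_max_sub_max_le_abs (min (1 / 2 : ℝ) x) (min (1 / 2) y) (-(1 / 2))
    rwa [max_comm, max_comm (min (1 / 2 : ℝ) y)] at this
  have h2 : |min (1 / 2 : ℝ) x - min (1 / 2) y| ≤ |x - y| := by
    have := abs_min_sub_min_le_max (1 / 2 : ℝ) x (1 / 2) y
    simpa using this
  exact h1.trans h2

lemma measurable_cl : Measurable cl := by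
  unfold cl
  fun_prop

lemma continuous_cl : Continuous cl := by
  unfold cl
  fun_prop

variable {V : Type*} {G : SimpleGraph V}

/-- exponential form of the covariance on the event that everything is small on the path -/
theorem MM_path_exp (hT : G.IsTree) {θ : ℝ} (h0 : 0 ≤ θ) (h2 : θ ^ 2 ≤ 1 / 2) {m : V → ℝ} {n : ℕ}
    {p : ℕ → V} (hp : IsNB G n p) (hm : ∀ i ≤ n, |m (p i)| ≤ 1 / 2) :
    MM G θ m (p 0) (p n) = √(1 - m (p 0) ^ 2) * √(1 - m (p n) ^ 2) * θ ^ n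
      * Real.exp (∑ i ∈ range n, LL θ (m (p i)) (m (p (i + 1)))) := by
  have hdist : G.dist (p 0) (p n) = n := by
    have := hp.dist hT (Nat.zero_le n) le_rfl
    simpa using this
  have hlt : ∀ i ≤ n, |m (p i)| < 1 := fun i hi => (hm i hi).trans_lt (by norm_num)
  have key : ∀ k ≤ n, √(1 - m (p 0) ^ 2) * ∏ i ∈ range k, rho θ (m (p i)) (m (p (i + 1)))
      = √(1 - m (p k) ^ 2) * Real.exp (∑ i ∈ range k, LL θ (m (p i)) (m (p (i + 1)))) := by
    intro k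
    induction k with
    | zero => intro _; simp
    | succ k ih =>
      intro hk
      rw [prod_range_succ, ← mul_assoc, ih (by omega), sum_range_succ, Real.exp_add]
      have := sqrt_mul_rho h0 h2 (hlt k (by omega)) (hlt (k + 1) hk)
      calc √(1 - m (p k) ^ 2) * Real.exp (∑ i ∈ range k, LL θ (m (p i)) (m (p (i + 1))))
            * rho θ (m (p k)) (m (p (k + 1)))
          = (√(1 - m (p k) ^ 2) * rho θ (m (p k)) (m (p (k + 1))))
            * Real.exp (∑ i ∈ range k, LL θ (m (p i)) (m (p (i + 1)))) := by ring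
        _ = _ := by rw [this]; ring
  unfold MM
  rw [hdist, rprod_path hT θ m hp]
  have hnn : 0 ≤ 1 - m (p 0) ^ 2 := by
    have := (sq_lt_one_iff_abs_lt_one (m (p 0))).mpr (hlt 0 (Nat.zero_le n))
    linarith
  have e1 : (1 - m (p 0) ^ 2) = √(1 - m (p 0) ^ 2) * √(1 - m (p 0) ^ 2) :=
    (Real.mul_self_sqrt hnn).symm
  calc (1 - m (p 0) ^ 2) * θ ^ n * ∏ i ∈ range n, rho θ (m (p i)) (m (p (i + 1)))
      = (√(1 - m (p 0) ^ 2) * √(1 - m (p 0) ^ 2)) * θ ^ n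
        * ∏ i ∈ range n, rho θ (m (p i)) (m (p (i + 1))) := by rw [← e1]
    _ = √(1 - m (p 0) ^ 2) * θ ^ n
        * (√(1 - m (p 0) ^ 2) * ∏ i ∈ range n, rho θ (m (p i)) (m (p (i + 1)))) := by ring
    _ = _ := by rw [key n le_rfl]; ring

lemma abs_exp_sub_exp_le {x y : ℝ} (hx : x ≤ 0) (hy : y ≤ 0) :
    |Real.exp x - Real.exp y| ≤ |x - y| := by
  wlog h : y ≤ x generalizing x y
  · rw [abs_sub_comm, abs_sub_comm x y]
    exact this hy hx (le_of_not_ge h)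
  rw [abs_of_nonneg (by linarith [Real.exp_le_exp.2 h]), abs_of_nonneg (by linarith)]
  have h1 : Real.exp y = Real.exp x * Real.exp (y - x) := by rw [← Real.exp_add]; ring_nf
  have h2 := Real.add_one_le_exp (y - x)
  have h3 : Real.exp x ≤ 1 := Real.exp_le_one_iff.2 hx
  have h4 := Real.exp_pos x
  rw [h1]
  nlinarith

/-- comparison of the two exponential forms -/
lemma comp_exp {A B A' B' θ θ' τ X X' : ℝ} (n : ℕ) (hA : 0 ≤ A) (hA1 : A ≤ 1) (hB : 0 ≤ B)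
    (hB1 : B ≤ 1) (hA' : 0 ≤ A') (hA1' : A' ≤ 1) (hB' : 0 ≤ B') (hB1' : B' ≤ 1) (h0 : 0 ≤ θ)
    (h0' : 0 ≤ θ') (hτ : θ ≤ τ) (hτ' : θ' ≤ τ) (hτ0 : 0 < τ) (hX : X ≤ 0) (hX' : X' ≤ 0) :
    |A * B * θ ^ n * Real.exp X - A' * B' * θ' ^ n * Real.exp X'|
      ≤ τ ^ n * (|A - A'| + |B - B'| + n * |θ - θ'| / τ + |X - X'|) := by
  have e1 : Real.exp X ≤ 1 := Real.exp_le_one_iff.2 hX
  have e1' : Real.exp X' ≤ 1 := Real.exp_le_one_iff.2 hX'
  have e0 := Real.exp_pos X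
  have e0' := Real.exp_pos X'
  have p1 : θ ^ n ≤ τ ^ n := pow_le_pow_left₀ h0 hτ n
  have p1' : θ' ^ n ≤ τ ^ n := pow_le_pow_left₀ h0' hτ' n
  have p0 : 0 ≤ θ ^ n := by positivity
  have p0' : 0 ≤ θ' ^ n := by positivity
  have hτn : 0 < τ ^ n := by positivity
  have hpow : |θ ^ n - θ' ^ n| ≤ τ ^ n * (n * |θ - θ'| / τ) := by
    cases n with
    | zero => simp
    | succ k =>
      have := abs_pow_sub_pow_le θ θ' (k + 1)
      refine this.trans ?_
      have h3 : max |θ| |θ'| ≤ τ := by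
        rw [abs_of_nonneg h0, abs_of_nonneg h0']
        exact max_le hτ hτ'
      have h4 : max |θ| |θ'| ^ (k + 1 - 1) ≤ τ ^ k := by
        simp only [Nat.add_sub_cancel]
        exact pow_le_pow_left₀ (le_max_of_le_left (abs_nonneg _)) h3 k
      have h5 : τ ^ (k + 1) * (((k + 1 : ℕ) : ℝ) * |θ - θ'| / τ) = |θ - θ'| * ((k + 1 : ℕ) : ℝ) * τ ^ k := by
        field_simp
        ring
      rw [h5]
      exact mul_le_mul_of_nonneg_left h4 (by positivity)
  have hAB : |A * B - A' * B'| ≤ |A - A'| + |B - B'| := by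
    have : A * B - A' * B' = (A - A') * B + A' * (B - B') := by ring
    rw [this]
    refine (abs_add_le _ _).trans ?_
    rw [abs_mul, abs_mul, abs_of_nonneg hB, abs_of_nonneg hA']
    nlinarith [abs_nonneg (A - A'), abs_nonneg (B - B')]
  have hXX := abs_exp_sub_exp_le hX hX'
  have hsplit : A * B * θ ^ n * Real.exp X - A' * B' * θ' ^ n * Real.exp X'
      = (A * B - A' * B') * (θ ^ n * Real.exp X) + (A' * B') * Real.exp X * (θ ^ n - θ' ^ n)
        + (A' * B') * θ' ^ n * (Real.exp X - Real.exp X') := by ring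
  rw [hsplit]
  have hAB1 : A' * B' ≤ 1 := mul_le_one₀ hA1' hB' hB1'
  have hAB0 : 0 ≤ A' * B' := mul_nonneg hA' hB'
  have q1 : |(A * B - A' * B') * (θ ^ n * Real.exp X)| ≤ τ ^ n * (|A - A'| + |B - B'|) := by
    rw [abs_mul, abs_of_nonneg (show 0 ≤ θ ^ n * Real.exp X by positivity), mul_comm]
    apply mul_le_mul _ hAB (abs_nonneg _) hτn.le
    calc θ ^ n * Real.exp X ≤ τ ^ n * 1 := mul_le_mul p1 e1 e0.le hτn.le
      _ = τ ^ n := mul_one _
  have q2 : |(A' * B') * Real.exp X * (θ ^ n - θ' ^ n)| ≤ τ ^ n * (n * |θ - θ'| / τ) := by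
    rw [abs_mul, abs_of_nonneg (show 0 ≤ (A' * B') * Real.exp X by positivity)]
    calc (A' * B') * Real.exp X * |θ ^ n - θ' ^ n| ≤ 1 * (τ ^ n * (n * |θ - θ'| / τ)) :=
          mul_le_mul (mul_le_one₀ hAB1 e0.le e1) hpow (abs_nonneg _) zero_le_one
      _ = _ := one_mul _
  have q3 : |(A' * B') * θ' ^ n * (Real.exp X - Real.exp X')| ≤ τ ^ n * |X - X'| := by
    rw [abs_mul, abs_of_nonneg (show 0 ≤ (A' * B') * θ' ^ n by positivity)]
    apply mul_le_mul _ hXX (abs_nonneg _) hτn.le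
    calc (A' * B') * θ' ^ n ≤ 1 * τ ^ n := mul_le_mul hAB1 p1' p0' zero_le_one
      _ = τ ^ n := one_mul _
  refine (abs_add_three _ _ _).trans ?_
  have : τ ^ n * (|A - A'| + |B - B'| + n * |θ - θ'| / τ + |X - X'|)
      = τ ^ n * (|A - A'| + |B - B'|) + τ ^ n * (n * |θ - θ'| / τ) + τ ^ n * |X - X'| := by ring
  rw [this]
  linarith

/-- comparison of the covariances along a path, good event -/
theorem MM_sub_sq_le (hT : G.IsTree) {θ θ' τ : ℝ} (h0 : 0 ≤ θ) (h2 : θ ^ 2 ≤ 1 / 2) (h0' : 0 ≤ θ')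
    (h2' : θ' ^ 2 ≤ 1 / 2) (hτ : θ ≤ τ) (hτ' : θ' ≤ τ) (hτ0 : 0 < τ)
    {m m' : V → ℝ} {n : ℕ} {p : ℕ → V} (hp : IsNB G n p)
    (hm : ∀ i ≤ n, |m (p i)| ≤ 1 / 2) (hm' : ∀ i ≤ n, |m' (p i)| ≤ 1 / 2) (β : ℝ) :
    (MM G θ m (p 0) (p n) - MM G θ' m' (p 0) (p n)) ^ 2
      ≤ 5 * (τ ^ 2) ^ n * ((m (p 0) - m' (p 0)) ^ 2 + (m (p n) - m' (p n)) ^ 2
        + n ^ 2 * (|θ - θ'| / τ) ^ 2
        + (∑ i ∈ range n, ((LL θ (cl (m (p i))) (cl (m (p (i + 1))))
            - LL θ' (cl (m' (p i))) (cl (m' (p (i + 1))))) - β)) ^ 2 + n ^ 2 * β ^ 2) := by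
  have hc : ∀ i ≤ n, cl (m (p i)) = m (p i) := fun i hi => cl_of_le (hm i hi)
  have hc' : ∀ i ≤ n, cl (m' (p i)) = m' (p i) := fun i hi => cl_of_le (hm' i hi)
  rw [MM_path_exp hT h0 h2 hp hm, MM_path_exp hT h0' h2' hp hm']
  set X := ∑ i ∈ range n, LL θ (m (p i)) (m (p (i + 1))) with hXdef
  set X' := ∑ i ∈ range n, LL θ' (m' (p i)) (m' (p (i + 1))) with hXdef'
  have hX : X ≤ 0 := sum_nonpos fun i hi => rho_le_one_LL h0 h2
    ((hm i (by rw [mem_range] at hi; omega)).trans_lt (by norm_num))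
    ((hm (i + 1) (by rw [mem_range] at hi; omega)).trans_lt (by norm_num))
  have hX' : X' ≤ 0 := sum_nonpos fun i hi => rho_le_one_LL h0' h2'
    ((hm' i (by rw [mem_range] at hi; omega)).trans_lt (by norm_num))
    ((hm' (i + 1) (by rw [mem_range] at hi; omega)).trans_lt (by norm_num))
  have hS : ∑ i ∈ range n, ((LL θ (cl (m (p i))) (cl (m (p (i + 1))))
            - LL θ' (cl (m' (p i))) (cl (m' (p (i + 1))))) - β) = X - X' - n * β := by
    rw [sum_sub_distrib, sum_sub_distrib, sum_const, card_range, nsmul_eq_mul]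
    congr 2
    · exact sum_congr rfl fun i hi => by
        rw [mem_range] at hi; rw [hc i (by omega), hc (i + 1) (by omega)]
    · exact sum_congr rfl fun i hi => by
        rw [mem_range] at hi; rw [hc' i (by omega), hc' (i + 1) (by omega)]
  rw [hS]
  have hs1 : ∀ x : ℝ, √(1 - x ^ 2) ≤ 1 := fun x => by
    rw [Real.sqrt_le_iff]
    exact ⟨zero_le_one, by nlinarith [sq_nonneg x]⟩
  have h := comp_exp (X := X) (X' := X') n (Real.sqrt_nonneg (1 - m (p 0) ^ 2)) (hs1 _)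
    (Real.sqrt_nonneg (1 - m (p n) ^ 2)) (hs1 _) (Real.sqrt_nonneg (1 - m' (p 0) ^ 2)) (hs1 _)
    (Real.sqrt_nonneg (1 - m' (p n) ^ 2)) (hs1 _) h0 h0' hτ hτ' hτ0 hX hX'
  have v1 := sqrt_var_diff (hm 0 (Nat.zero_le n)) (hm' 0 (Nat.zero_le n))
  have v2 := sqrt_var_diff (hm n le_rfl) (hm' n le_rfl)
  set Q := √(1 - m (p 0) ^ 2) * √(1 - m (p n) ^ 2) * θ ^ n * Real.exp X
    - √(1 - m' (p 0) ^ 2) * √(1 - m' (p n) ^ 2) * θ' ^ n * Real.exp X' with hQ
  have h3 : |Q| ≤ τ ^ n * (|m (p 0) - m' (p 0)| + |m (p n) - m' (p n)| + n * (|θ - θ'| / τ)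
      + |X - X' - n * β| + n * |β|) := by
    refine h.trans ?_
    apply mul_le_mul_of_nonneg_left _ (by positivity)
    have h4 : |X - X'| ≤ |X - X' - n * β| + n * |β| := by
      have : X - X' = (X - X' - n * β) + n * β := by ring
      calc |X - X'| = |(X - X' - n * β) + n * β| := by rw [← this]
        _ ≤ |X - X' - n * β| + |n * β| := abs_add_le _ _
        _ = _ := by rw [abs_mul, Nat.abs_cast]
    have h5 : (n : ℝ) * |θ - θ'| / τ = n * (|θ - θ'| / τ) := by ring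
    linarith
  have hsq : Q ^ 2 ≤ (τ ^ n * (|m (p 0) - m' (p 0)| + |m (p n) - m' (p n)| + n * (|θ - θ'| / τ)
      + |X - X' - n * β| + n * |β|)) ^ 2 := by
    rw [← sq_abs Q]
    exact pow_le_pow_left₀ (abs_nonneg _) h3 2
  refine hsq.trans ?_
  rw [mul_pow, show (τ ^ n) ^ 2 = (τ ^ 2) ^ n by rw [← pow_mul, ← pow_mul, mul_comm]]
  have h5 : ∀ a b c d e : ℝ, (a + b + c + d + e) ^ 2
      ≤ 5 * (a ^ 2 + b ^ 2 + c ^ 2 + d ^ 2 + e ^ 2) := by
    intro a b c d e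
    nlinarith [sq_nonneg (a - b), sq_nonneg (a - c), sq_nonneg (a - d), sq_nonneg (a - e),
      sq_nonneg (b - c), sq_nonneg (b - d), sq_nonneg (b - e), sq_nonneg (c - d),
      sq_nonneg (c - e), sq_nonneg (d - e)]
  have h6 := h5 |m (p 0) - m' (p 0)| |m (p n) - m' (p n)| (n * (|θ - θ'| / τ))
    |X - X' - n * β| (n * |β|)
  simp only [mul_pow, sq_abs] at h6 ⊢
  have h7 : 0 ≤ (τ ^ 2) ^ n := by positivity
  calc (τ ^ 2) ^ n * (|m (p 0) - m' (p 0)| + |m (p n) - m' (p n)| + ↑n * (|θ - θ'| / τ)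
        + |X - X' - ↑n * β| + ↑n * |β|) ^ 2
      ≤ (τ ^ 2) ^ n * (5 * ((m (p 0) - m' (p 0)) ^ 2 + (m (p n) - m' (p n)) ^ 2
        + n ^ 2 * (|θ - θ'| / τ) ^ 2 + (X - X' - n * β) ^ 2 + n ^ 2 * β ^ 2)) :=
        mul_le_mul_of_nonneg_left h6 h7
    _ = _ := by ring

end Crest.Agent.R160.GA
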