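import Mathlib
import Crest.Agent.R160.GADet
import Crest.Agent.R160.BSVNoise
import Crest.Agent.R160.MinfBasic

/-! # Row 160, module GA: the fixed-time inequality (A) for small times -/

set_option autoImplicit false

open MeasureTheory Finset
open scoped Classical

namespace Crest.Agent.R160.GA

open Crest.Agent.R160 Crest.Agent.R160.TreeAut Crest.Agent.R160.BSVNoise

/-! ### scalar facts -/

lemma thc_sq {b : ℕ} (hb : 2 ≤ b) : thc b ^ 2 = 1 / b := by
  unfold thc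
  rw [div_pow, one_pow, Real.sq_sqrt (Nat.cast_nonneg b)]

lemma thc_pos {b : ℕ} (hb : 2 ≤ b) : 0 < thc b := by
  unfold thc
  have : (0 : ℝ) < b := by exact_mod_cast (by omega : 0 < b)
  positivity

lemma theta_facts {b : ℕ} (hb : 2 ≤ b) {θ : ℝ} (h1 : thc b / 2 ≤ θ) (h2 : θ < thc b) :
    0 < θ ∧ θ < 1 ∧ θ ^ 2 ≤ 1 / 2 ∧ (b : ℝ) * θ ^ 2 < 1 ∧ 1 / (4 * (b : ℝ)) ≤ θ ^ 2 := by
  have hb0 : (0 : ℝ) < b := by exact_mod_cast (by omega : 0 < b)
  have hb2 : (2 : ℝ) ≤ b := by exact_mod_cast hb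
  have h3 := thc_sq hb
  have h4 := thc_pos hb
  have hθ : 0 < θ := by linarith
  have h5 : θ ^ 2 < thc b ^ 2 := by
    apply pow_lt_pow_left₀ h2 hθ.le (by norm_num)
  have h6 : (b : ℝ) * θ ^ 2 < 1 := by
    calc (b : ℝ) * θ ^ 2 < b * (thc b ^ 2) := by apply mul_lt_mul_of_pos_left h5 hb0
      _ = 1 := by rw [h3]; field_simp
  have h7 : θ ^ 2 ≤ 1 / 2 := by
    have : thc b ^ 2 ≤ 1 / 2 := by
      rw [h3]
      apply one_div_le_one_div_of_le (by norm_num) hb2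
    linarith
  refine ⟨hθ, by nlinarith, h7, h6, ?_⟩
  have h8 : (thc b / 2) ^ 2 ≤ θ ^ 2 := pow_le_pow_left₀ (by positivity) h1 2
  have h9 : (thc b / 2) ^ 2 = 1 / (4 * (b : ℝ)) := by
    rw [div_pow, h3]; field_simp; norm_num
  linarith

lemma pow_mul_exp_le (k : ℕ) {c x : ℝ} (hc : 0 < c) (hx : 0 ≤ x) :
    x ^ k * Real.exp (-c * x) ≤ (k.factorial * (2 / c) ^ k) * Real.exp (-(c / 2) * x) := by
  have h1 := Real.pow_div_factorial_le_exp (c / 2 * x) (by positivity) k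
  have hf : (0 : ℝ) < k.factorial := by exact_mod_cast Nat.factorial_pos k
  rw [div_le_iff₀ hf, mul_pow] at h1
  have h2 : x ^ k ≤ (k.factorial * (2 / c) ^ k) * Real.exp (c / 2 * x) := by
    have h3 : (2 / c) ^ k * ((c / 2) ^ k * x ^ k) = x ^ k := by
      rw [← mul_assoc, ← mul_pow]
      have : 2 / c * (c / 2) = 1 := by field_simp
      rw [this, one_pow, one_mul]
    calc x ^ k = (2 / c) ^ k * ((c / 2) ^ k * x ^ k) := h3.symm
      _ ≤ (2 / c) ^ k * (Real.exp (c / 2 * x) * k.factorial) :=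
        mul_le_mul_of_nonneg_left h1 (by positivity)
      _ = _ := by ring
  calc x ^ k * Real.exp (-c * x)
      ≤ ((k.factorial * (2 / c) ^ k) * Real.exp (c / 2 * x)) * Real.exp (-c * x) :=
        mul_le_mul_of_nonneg_right h2 (Real.exp_pos _).le
    _ = (k.factorial * (2 / c) ^ k) * (Real.exp (c / 2 * x) * Real.exp (-c * x)) := by ring
    _ = _ := by rw [← Real.exp_add]; congr 2; ring

lemma rpow_mul_exp_le (k : ℕ) {c r : ℝ} (hc : 0 < c) (hr : 0 < r) :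
    r ^ (-((k : ℝ) / 8)) * Real.exp (-c * r ^ (-(1 / 8) : ℝ))
      ≤ (k.factorial * (2 / c) ^ k) * Real.exp (-(c / 2) * r ^ (-(1 / 8) : ℝ)) := by
  have h := pow_mul_exp_le k hc (Real.rpow_nonneg hr.le (-(1 / 8) : ℝ))
  rw [← Real.rpow_natCast (r ^ (-(1 / 8) : ℝ)) k, ← Real.rpow_mul hr.le] at h
  have e : (-(1 / 8) : ℝ) * k = -((k : ℝ) / 8) := by ring
  rwa [e] at h

/-! ### the edge function -/

variable {V : Type*} {G : SimpleGraph V} [G.LocallyFinite]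

lemma meas_minf (θ t : ℝ) (v : V) : Measurable (minf G θ t v) := by
  first
    | exact measurable_minf θ t v
    | exact measurable_minf G θ t v

/-- difference of the clipped logarithmic edge functions -/
noncomputable def FF (G : SimpleGraph V) [G.LocallyFinite] (θ θ' r : ℝ) (x y : V) (ω : Om V) : ℝ :=
  LL θ (cl (minf G θ r x ω)) (cl (minf G θ r y ω))
    - LL θ' (cl (minf G θ' r x ω)) (cl (minf G θ' r y ω))

lemma measurable_LL (θ : ℝ) : Measurable fun p : ℝ × ℝ => LL θ p.1 p.2 := by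
  unfold LL
  have h1 := (measurable_rho θ).log
  have h2 := ((measurable_rho θ).comp measurable_swap).log
  exact (h1.add h2).div_const 2

lemma measurable_LLm (θ r : ℝ) (x y : V) :
    Measurable fun ω : Om V => LL θ (cl (minf G θ r x ω)) (cl (minf G θ r y ω)) := by
  have h1 : Measurable fun ω : Om V => cl (minf G θ r x ω) :=
    measurable_cl.comp (meas_minf θ r x)
  have h2 : Measurable fun ω : Om V => cl (minf G θ r y ω) :=
    measurable_cl.comp (meas_minf θ r y)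
  change Measurable ((fun p : ℝ × ℝ => LL θ p.1 p.2) ∘
    fun ω : Om V => (cl (minf G θ r x ω), cl (minf G θ r y ω)))
  exact (measurable_LL θ).comp (h1.prodMk h2)

lemma measurable_FF (θ θ' r : ℝ) (x y : V) : Measurable (FF G θ θ' r x y) :=
  (measurable_LLm θ r x y).sub (measurable_LLm θ' r x y)

lemma abs_LL_cl_le {θ : ℝ} (h0 : 0 ≤ θ) (h2 : θ ^ 2 ≤ 1 / 2) (x y : ℝ) :
    |LL θ (cl x) (cl y)| ≤ 10 ^ 6 := by
  have h := abs_LL_le h0 h2 (abs_cl_le x) (abs_cl_le y)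
  have e1 : (cl x) ^ 2 ≤ (1 / 2) ^ 2 := by
    rw [← sq_abs]; exact pow_le_pow_left₀ (abs_nonneg _) (abs_cl_le x) 2
  have e2 : (cl y) ^ 2 ≤ (1 / 2) ^ 2 := by
    rw [← sq_abs]; exact pow_le_pow_left₀ (abs_nonneg _) (abs_cl_le y) 2
  linarith

lemma abs_FF_le {θ θ' : ℝ} (h0 : 0 ≤ θ) (h2 : θ ^ 2 ≤ 1 / 2) (h0' : 0 ≤ θ')
    (h2' : θ' ^ 2 ≤ 1 / 2) (r : ℝ) (x y : V) (ω : Om V) : |FF G θ θ' r x y ω| ≤ 2 * 10 ^ 6 := by
  unfold FF
  have h1 := abs_LL_cl_le h0 h2 (minf G θ r x ω) (minf G θ r y ω)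
  have h3 := abs_LL_cl_le h0' h2' (minf G θ' r x ω) (minf G θ' r y ω)
  refine (abs_sub _ _).trans ?_
  linarith

lemma FF_comm (θ θ' r : ℝ) (x y : V) (ω : Om V) : FF G θ θ' r x y ω = FF G θ θ' r y x ω := by
  unfold FF
  rw [LL_comm θ, LL_comm θ']

lemma FF_act (hT : G.IsTree) (θ θ' r : ℝ) (g : G ≃g G) (x y : V) (ω : Om V) :
    FF G θ θ' r x y (act g ω) = FF G θ θ' r (g x) (g y) ω := by
  unfold FF
  simp only [minf_equivariant hT]

lemma integral_FF_eq (hT : G.IsTree) {d : ℕ} (hreg : G.IsRegularOfDegree d) (θ θ' r : ℝ)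
    {x y x' y' : V} (h : G.Adj x y) (h' : G.Adj x' y') :
    ∫ ω, FF G θ θ' r x y ω ∂(PP V) = ∫ ω, FF G θ θ' r x' y' ω ∂(PP V) := by
  obtain ⟨g, h1, h2⟩ := exists_aut_dart hT hreg h h'
  rw [← h1, ← h2, ← integral_act g]
  exact integral_congr_ae (Filter.Eventually.of_forall fun ω => FF_act hT θ θ' r g x y ω)

lemma DD_vertex (hT : G.IsTree) {d : ℕ} (hreg : G.IsRegularOfDegree d) (θ θ' r : ℝ) (u v : V) :
    DD G θ θ' r u = DD G θ θ' r v := by
  obtain ⟨g, h1⟩ := exists_aut_vertex hT hreg u v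
  unfold DD
  rw [← h1, ← integral_act g]
  refine integral_congr_ae (Filter.Eventually.of_forall fun ω => ?_)
  simp only [minf_equivariant hT]

lemma integrable_of_bdd {f : Om V → ℝ} (hf : Measurable f) (C : ℝ) (h : ∀ ω, |f ω| ≤ C) :
    Integrable f (PP V) :=
  Integrable.of_bound hf.aestronglyMeasurable C (Filter.Eventually.of_forall h)

lemma DD_nonneg (θ θ' r : ℝ) (v : V) : 0 ≤ DD G θ θ' r v :=
  integral_nonneg fun _ => sq_nonneg _

/-- the indicator of a set of noises -/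
lemma integral_ind {s : Set (Om V)} (hs : MeasurableSet s) :
    ∫ ω, s.indicator (fun _ => (1 : ℝ)) ω ∂(PP V) = (PP V).real s := by
  rw [integral_indicator hs]
  simp

lemma measurableSet_gt (a θ r : ℝ) (x : V) :
    MeasurableSet {ω : Om V | a < |minf G θ r x ω|} :=
  measurableSet_lt measurable_const (meas_minf θ r x).abs

/-- indicator of the event `|m_x| > a` -/
noncomputable def ind (G : SimpleGraph V) [G.LocallyFinite] (a θ r : ℝ) (x : V) (ω : Om V) : ℝ :=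
  {ω : Om V | a < |minf G θ r x ω|}.indicator (fun _ => (1 : ℝ)) ω

lemma measurable_ind (a θ r : ℝ) (x : V) : Measurable (ind G a θ r x) :=
  measurable_const.indicator (measurableSet_gt a θ r x)

lemma ind_nonneg (a θ r : ℝ) (x : V) (ω : Om V) : 0 ≤ ind G a θ r x ω := by
  unfold ind
  exact Set.indicator_nonneg (fun _ _ => zero_le_one) ω

lemma ind_le_one (a θ r : ℝ) (x : V) (ω : Om V) : ind G a θ r x ω ≤ 1 := by
  unfold ind
  exact Set.indicator_le_self' (fun _ _ => zero_le_one) ω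

lemma ind_of_lt {a θ r : ℝ} {x : V} {ω : Om V} (h : a < |minf G θ r x ω|) :
    ind G a θ r x ω = 1 := by
  unfold ind
  rw [Set.indicator_of_mem]
  exact h

lemma integrable_ind (a θ r : ℝ) (x : V) : Integrable (ind G a θ r x) (PP V) :=
  integrable_of_bdd (measurable_ind a θ r x) 1 fun ω => by
    rw [abs_of_nonneg (ind_nonneg a θ r x ω)]
    exact ind_le_one a θ r x ω

lemma integral_ind' (a θ r : ℝ) (x : V) :
    ∫ ω, ind G a θ r x ω ∂(PP V) = (PP V).real {ω : Om V | a < |minf G θ r x ω|} := by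
  unfold ind
  exact integral_ind (measurableSet_gt a θ r x)

/-- pointwise bound of the squared edge function -/
lemma ptw {F a dt mx my mx' my' cx cy cx' cy' i1 i2 i3 i4 : ℝ} (ha0 : 0 < a)
    (hF : |F| ≤ 4 * 10 ^ 6 * ((|cx| + |cy| + |cx'| + |cy'|) * (|cx - cx'| + |cy - cy'|) + |dt|))
    (c1 : |cx| ≤ 1 / 2) (c2 : |cy| ≤ 1 / 2) (c3 : |cx'| ≤ 1 / 2) (c4 : |cy'| ≤ 1 / 2)
    (d1 : |cx| ≤ |mx|) (d2 : |cy| ≤ |my|) (d3 : |cx'| ≤ |mx'|) (d4 : |cy'| ≤ |my'|)
    (l1 : |cx - cx'| ≤ |mx - mx'|) (l2 : |cy - cy'| ≤ |my - my'|)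
    (h1 : 0 ≤ i1) (h2 : 0 ≤ i2) (h3 : 0 ≤ i3) (h4 : 0 ≤ i4)
    (e1 : a < |mx| → i1 = 1) (e2 : a < |my| → i2 = 1) (e3 : a < |mx'| → i3 = 1)
    (e4 : a < |my'| → i4 = 1) :
    F ^ 2 ≤ 32 * 10 ^ 12 * (32 * a ^ 2 * ((mx - mx') ^ 2 + (my - my') ^ 2)
      + 16 * (i1 + i2 + i3 + i4) + dt ^ 2) := by
  set S := |cx| + |cy| + |cx'| + |cy'| with hS
  have hA0 : 0 ≤ |cx| := abs_nonneg _
  have hB0 : 0 ≤ |cy| := abs_nonneg _
  have hA0' : 0 ≤ |cx'| := abs_nonneg _
  have hB0' : 0 ≤ |cy'| := abs_nonneg _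
  have hfx0 : 0 ≤ |mx - mx'| := abs_nonneg _
  have hfy0 : 0 ≤ |my - my'| := abs_nonneg _
  set T := |cx - cx'| + |cy - cy'| with hTd
  have hT0 : 0 ≤ T := by positivity
  have hT1 : T ≤ |mx - mx'| + |my - my'| := by rw [hTd]; linarith
  have hT2 : T ≤ 2 := by
    have e1 : |cx - cx'| ≤ |cx| + |cx'| := abs_sub _ _
    have e2 : |cy - cy'| ≤ |cy| + |cy'| := abs_sub _ _
    rw [hTd]; linarith
  have hS0 : 0 ≤ S := by positivity
  have hS2 : S ≤ 2 := by rw [hS]; linarith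
  have hF2 : F ^ 2 ≤ (4 * 10 ^ 6 * (S * T + |dt|)) ^ 2 := by
    rw [← sq_abs F]
    exact pow_le_pow_left₀ (abs_nonneg _) hF 2
  have hF3 : (4 * 10 ^ 6 * (S * T + |dt|)) ^ 2 ≤ 32 * 10 ^ 12 * (S ^ 2 * T ^ 2 + dt ^ 2) := by
    have e : dt ^ 2 = |dt| ^ 2 := (sq_abs _).symm
    rw [e]
    have := sq_nonneg (S * T - |dt|)
    have e5 : 32 * 10 ^ 12 * (S ^ 2 * T ^ 2 + |dt| ^ 2) - (4 * 10 ^ 6 * (S * T + |dt|)) ^ 2
      = 16 * 10 ^ 12 * (S * T - |dt|) ^ 2 := by ring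
    have e6 : 0 ≤ 16 * 10 ^ 12 * (S * T - |dt|) ^ 2 := by positivity
    linarith
  have hST : S ^ 2 * T ^ 2 ≤ 32 * a ^ 2 * ((mx - mx') ^ 2 + (my - my') ^ 2)
      + 16 * (i1 + i2 + i3 + i4) := by
    have e7 : 0 ≤ 32 * a ^ 2 * ((mx - mx') ^ 2 + (my - my') ^ 2) := by positivity
    have e8 : S ^ 2 * T ^ 2 ≤ 16 := by
      have s1 : S ^ 2 ≤ 2 ^ 2 := pow_le_pow_left₀ hS0 hS2 2
      have s2 : T ^ 2 ≤ 2 ^ 2 := pow_le_pow_left₀ hT0 hT2 2
      calc S ^ 2 * T ^ 2 ≤ 2 ^ 2 * 2 ^ 2 := mul_le_mul s1 s2 (by positivity) (by norm_num)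
        _ = 16 := by norm_num
    by_cases b1 : a < |mx|
    · rw [e1 b1]; linarith
    by_cases b2 : a < |my|
    · rw [e2 b2]; linarith
    by_cases b3 : a < |mx'|
    · rw [e3 b3]; linarith
    by_cases b4 : a < |my'|
    · rw [e4 b4]; linarith
    push Not at b1 b2 b3 b4
    have s1 : S ^ 2 ≤ 16 * a ^ 2 := by
      have : S ≤ 4 * a := by rw [hS]; linarith
      calc S ^ 2 ≤ (4 * a) ^ 2 := pow_le_pow_left₀ hS0 this 2
        _ = 16 * a ^ 2 := by ring
    have s2 : T ^ 2 ≤ 2 * (|mx - mx'| ^ 2 + |my - my'| ^ 2) := by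
      calc T ^ 2 ≤ (|mx - mx'| + |my - my'|) ^ 2 := pow_le_pow_left₀ hT0 hT1 2
        _ ≤ 2 * (|mx - mx'| ^ 2 + |my - my'| ^ 2) := add_sq_le
    have s3 : S ^ 2 * T ^ 2 ≤ (16 * a ^ 2) * (2 * (|mx - mx'| ^ 2 + |my - my'| ^ 2)) :=
      mul_le_mul s1 s2 (by positivity) (by positivity)
    rw [sq_abs, sq_abs] at s3
    linarith
  linarith

/-- second moment of the edge function -/
lemma integral_FF_sq_le (hT : G.IsTree) {d : ℕ} (hreg : G.IsRegularOfDegree d) {θ θ' : ℝ}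
    (h0 : 0 ≤ θ) (h1 : θ < 1) (h2 : θ ^ 2 ≤ 1 / 2) (h0' : 0 ≤ θ') (h1' : θ' < 1)
    (h2' : θ' ^ 2 ≤ 1 / 2) {r : ℝ} (hr : 0 < r) (x y v : V) (P : ℝ)
    (hP : ∀ u : V, (PP V).real {ω : Om V | r ^ (1 / 4 : ℝ) < |minf G θ r u ω|} ≤ P)
    (hP' : ∀ u : V, (PP V).real {ω : Om V | r ^ (1 / 4 : ℝ) < |minf G θ' r u ω|} ≤ P) :
    ∫ ω, (FF G θ θ' r x y ω) ^ 2 ∂(PP V)
      ≤ 32 * 10 ^ 12 * (64 * r ^ (1 / 2 : ℝ) * DD G θ θ' r v + 64 * P + (θ - θ') ^ 2) := by
  set a : ℝ := r ^ (1 / 4 : ℝ) with ha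
  have ha0 : 0 < a := Real.rpow_pos_of_pos hr _
  have ha2 : a ^ 2 = r ^ (1 / 2 : ℝ) := by
    rw [ha, ← Real.rpow_natCast, ← Real.rpow_mul hr.le]; norm_num
  have hle : ∀ u ω, |minf G θ r u ω| ≤ 1 := fun u ω => abs_minf_le h0 h1 r u ω
  have hle' : ∀ u ω, |minf G θ' r u ω| ≤ 1 := fun u ω => abs_minf_le h0' h1' r u ω
  have hpt : ∀ ω, (FF G θ θ' r x y ω) ^ 2 ≤ 32 * 10 ^ 12 * (32 * a ^ 2 *
      ((minf G θ r x ω - minf G θ' r x ω) ^ 2 + (minf G θ r y ω - minf G θ' r y ω) ^ 2)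
      + 16 * (ind G a θ r x ω + ind G a θ r y ω + ind G a θ' r x ω + ind G a θ' r y ω)
      + (θ - θ') ^ 2) := by
    intro ω
    have hF := LL_diff' h0 h2 h0' h2' (abs_cl_le (minf G θ r x ω)) (abs_cl_le (minf G θ r y ω))
      (abs_cl_le (minf G θ' r x ω)) (abs_cl_le (minf G θ' r y ω))
    have l1 := abs_cl_sub_le (minf G θ r x ω) (minf G θ' r x ω)
    have l2 := abs_cl_sub_le (minf G θ r y ω) (minf G θ' r y ω)
    exact ptw ha0 hF (abs_cl_le _) (abs_cl_le _) (abs_cl_le _) (abs_cl_le _)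
      (abs_cl_le_abs _) (abs_cl_le_abs _) (abs_cl_le_abs _) (abs_cl_le_abs _) l1 l2
      (ind_nonneg a θ r x ω) (ind_nonneg a θ r y ω) (ind_nonneg a θ' r x ω)
      (ind_nonneg a θ' r y ω) ind_of_lt ind_of_lt ind_of_lt ind_of_lt
  have hfsq : ∀ u : V, Integrable (fun ω => (minf G θ r u ω - minf G θ' r u ω) ^ 2) (PP V) := by
    intro u
    refine integrable_of_bdd (((meas_minf θ r u).sub (meas_minf θ' r u)).pow_const 2)
      4 fun ω => ?_
    have e1 := abs_le.1 (hle u ω)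
    have e2 := abs_le.1 (hle' u ω)
    rw [abs_of_nonneg (sq_nonneg _)]
    nlinarith
  have hDx : ∀ u : V, ∫ ω, (minf G θ r u ω - minf G θ' r u ω) ^ 2 ∂(PP V) = DD G θ θ' r v :=
    fun u => DD_vertex hT hreg θ θ' r u v
  have hint : Integrable (fun ω => 32 * 10 ^ 12 * (32 * a ^ 2 *
      ((minf G θ r x ω - minf G θ' r x ω) ^ 2 + (minf G θ r y ω - minf G θ' r y ω) ^ 2)
      + 16 * (ind G a θ r x ω + ind G a θ r y ω + ind G a θ' r x ω + ind G a θ' r y ω)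
      + (θ - θ') ^ 2)) (PP V) := by
    refine Integrable.const_mul ?_ _
    refine Integrable.add (Integrable.add ?_ ?_) (integrable_const _)
    · exact ((hfsq x).add (hfsq y)).const_mul _
    · exact ((((integrable_ind a θ r x).add (integrable_ind a θ r y)).add
        (integrable_ind a θ' r x)).add (integrable_ind a θ' r y)).const_mul _
  have hFint : Integrable (fun ω => (FF G θ θ' r x y ω) ^ 2) (PP V) := by
    refine integrable_of_bdd ((measurable_FF θ θ' r x y).pow_const 2) ((2 * 10 ^ 6) ^ 2)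
      fun ω => ?_
    rw [abs_of_nonneg (sq_nonneg _), ← sq_abs]
    exact pow_le_pow_left₀ (abs_nonneg _) (abs_FF_le h0 h2 h0' h2' r x y ω) 2
  refine (integral_mono hFint hint hpt).trans ?_
  rw [integral_const_mul]
  refine mul_le_mul_of_nonneg_left ?_ (by norm_num)
  rw [integral_add, integral_add, integral_const_mul, integral_const_mul, integral_add (hfsq x) (hfsq y),
    integral_add, integral_add, integral_add, integral_const, hDx, hDx, integral_ind',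
    integral_ind', integral_ind', integral_ind', ha2]
  · have q1 := hP x
    have q2 := hP y
    have q3 := hP' x
    have q4 := hP' y
    simp only [probReal_univ, smul_eq_mul, one_mul]
    linarith
  · exact integrable_ind a θ r x
  · exact integrable_ind a θ r y
  · exact (integrable_ind a θ r x).add (integrable_ind a θ r y)
  · exact integrable_ind a θ' r x
  · exact ((integrable_ind a θ r x).add (integrable_ind a θ r y)).add (integrable_ind a θ' r x)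
  · exact integrable_ind a θ' r y
  · exact ((hfsq x).add (hfsq y)).const_mul _
  · exact ((((integrable_ind a θ r x).add (integrable_ind a θ r y)).add
        (integrable_ind a θ' r x)).add (integrable_ind a θ' r y)).const_mul _
  · exact (((hfsq x).add (hfsq y)).const_mul _).add
      (((((integrable_ind a θ r x).add (integrable_ind a θ r y)).add
        (integrable_ind a θ' r x)).add (integrable_ind a θ' r y)).const_mul _)
  · exact integrable_const _

end Crest.Agent.R160.GA
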