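import Mathlib
import Crest.Agent.R160.GA

/-! # Row 160, module GA: level bounds -/

set_option autoImplicit false

open MeasureTheory Finset
open scoped Classical

namespace Crest.Agent.R160.GA

open Crest.Agent.R160 Crest.Agent.R160.TreeAut Crest.Agent.R160.BSVNoise

variable {V : Type*} {G : SimpleGraph V}

lemma MM_le_pow (hT : G.IsTree) {θ : ℝ} (h0 : 0 ≤ θ) (h1 : θ < 1) {m : V → ℝ}
    (hm : ∀ v, |m v| ≤ 1) (u v : V) : 0 ≤ MM G θ m u v ∧
      MM G θ m u v ≤ θ ^ G.dist u v * rprod G θ m u v ∧ MM G θ m u v ≤ θ ^ G.dist u v := by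
  have h := rprod_mem hT h0 h1 hm u v
  have hu : (m u) ^ 2 ≤ 1 := by rw [← sq_abs]; nlinarith [abs_nonneg (m u), hm u]
  have hu' := sq_nonneg (m u)
  have hp0 : 0 ≤ θ ^ G.dist u v := pow_nonneg h0 _
  unfold MM
  have e1 : (1 - m u ^ 2) * θ ^ G.dist u v * rprod G θ m u v
      = (1 - m u ^ 2) * (θ ^ G.dist u v * rprod G θ m u v) := by ring
  have e2 : 0 ≤ θ ^ G.dist u v * rprod G θ m u v := mul_nonneg hp0 h.1
  have e3 : (1 - m u ^ 2) * θ ^ G.dist u v * rprod G θ m u v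
      ≤ θ ^ G.dist u v * rprod G θ m u v := by
    rw [e1]
    exact mul_le_of_le_one_left e2 (by linarith)
  refine ⟨?_, e3, e3.trans (mul_le_of_le_one_right hp0 h.2)⟩
  rw [e1]
  exact mul_nonneg (by linarith) e2

variable [G.LocallyFinite]

set_option maxHeartbeats 1000000 in
/-- comparison of the two covariances along a path, in expectation -/
theorem path_sq_le (hT : G.IsTree) {d : ℕ} (hreg : G.IsRegularOfDegree d) {θ θ' τ : ℝ}
    (h0 : 0 ≤ θ) (h1 : θ < 1) (h2 : θ ^ 2 ≤ 1 / 2) (h0' : 0 ≤ θ') (h1' : θ' < 1)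
    (h2' : θ' ^ 2 ≤ 1 / 2) (hτ : θ ≤ τ) (hτ' : θ' ≤ τ) (hτ0 : 0 < τ) (r : ℝ) {x y v : V}
    (hxy : G.Adj x y) (P E Cb : ℝ) (hCb : 0 < Cb)
    (hP : ∀ u : V, (PP V).real {ω : Om V | 1 / 2 < |minf G θ r u ω|} ≤ P)
    (hP' : ∀ u : V, (PP V).real {ω : Om V | 1 / 2 < |minf G θ' r u ω|} ≤ P)
    (hE : ∫ ω, (FF G θ θ' r x y ω) ^ 2 ∂(PP V) ≤ E)
    (n : ℕ) (p : ℕ → V) (hp : IsNB G n p)
    (hbsv : ∫ ω, (∑ i ∈ range n, (FF G θ θ' r (p i) (p (i + 1)) ω
          - ∫ ω', FF G θ θ' r (p i) (p (i + 1)) ω' ∂(PP V))) ^ 2 ∂(PP V)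
        ≤ Cb * n * ∫ ω, (FF G θ θ' r x y ω - ∫ ω', FF G θ θ' r x y ω' ∂(PP V)) ^ 2 ∂(PP V)) :
    ∫ ω, (MM G θ (fun u => minf G θ r u ω) (p 0) (p n)
        - MM G θ' (fun u => minf G θ' r u ω) (p 0) (p n)) ^ 2 ∂(PP V)
      ≤ (τ ^ 2) ^ n * (5 * (2 * DD G θ θ' r v + n ^ 2 * (|θ - θ'| / τ) ^ 2 + Cb * n * E
        + n ^ 2 * (∫ ω, FF G θ θ' r x y ω ∂(PP V)) ^ 2) + 2 * (n + 1) * P) := by
  set β : ℝ := ∫ ω, FF G θ θ' r x y ω ∂(PP V) with hβ
  have hle : ∀ u ω, |minf G θ r u ω| ≤ 1 := fun u ω => abs_minf_le h0 h1 r u ω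
  have hle' : ∀ u ω, |minf G θ' r u ω| ≤ 1 := fun u ω => abs_minf_le h0' h1' r u ω
  have hdist : G.dist (p 0) (p n) = n := by
    have := hp.dist hT (Nat.zero_le n) le_rfl
    simpa using this
  have hmean : ∀ i < n, ∫ ω', FF G θ θ' r (p i) (p (i + 1)) ω' ∂(PP V) = β := fun i hi =>
    integral_FF_eq hT hreg θ θ' r (hp.adj i hi) hxy
  -- pointwise bound
  have hpt : ∀ ω, (MM G θ (fun u => minf G θ r u ω) (p 0) (p n)
        - MM G θ' (fun u => minf G θ' r u ω) (p 0) (p n)) ^ 2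
      ≤ 5 * (τ ^ 2) ^ n * ((minf G θ r (p 0) ω - minf G θ' r (p 0) ω) ^ 2
        + (minf G θ r (p n) ω - minf G θ' r (p n) ω) ^ 2
        + n ^ 2 * (|θ - θ'| / τ) ^ 2
        + (∑ i ∈ range n, (FF G θ θ' r (p i) (p (i + 1)) ω - β)) ^ 2 + n ^ 2 * β ^ 2)
        + (τ ^ 2) ^ n * ∑ i ∈ range (n + 1),
          (ind G (1 / 2) θ r (p i) ω + ind G (1 / 2) θ' r (p i) ω) := by
    intro ω
    have hs0 : 0 ≤ (τ ^ 2) ^ n * ∑ i ∈ range (n + 1),
          (ind G (1 / 2) θ r (p i) ω + ind G (1 / 2) θ' r (p i) ω) :=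
      mul_nonneg (by positivity) (sum_nonneg fun i _ =>
        add_nonneg (ind_nonneg _ _ _ _ _) (ind_nonneg _ _ _ _ _))
    by_cases hgood : (∀ i ≤ n, |minf G θ r (p i) ω| ≤ 1 / 2) ∧
        (∀ i ≤ n, |minf G θ' r (p i) ω| ≤ 1 / 2)
    · have := MM_sub_sq_le hT h0 h2 h0' h2' hτ hτ' hτ0 (m := fun u => minf G θ r u ω)
        (m' := fun u => minf G θ' r u ω) hp hgood.1 hgood.2 β
      unfold FF
      linarith
    · have hbad : 1 ≤ ∑ i ∈ range (n + 1),
          (ind G (1 / 2) θ r (p i) ω + ind G (1 / 2) θ' r (p i) ω) := by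
        rw [not_and_or] at hgood
        push Not at hgood
        rcases hgood with ⟨i, hi, hlt⟩ | ⟨i, hi, hlt⟩
        · have e1 : ind G (1 / 2) θ r (p i) ω = 1 := ind_of_lt hlt
          have e2 := single_le_sum (f := fun i => ind G (1 / 2) θ r (p i) ω
            + ind G (1 / 2) θ' r (p i) ω) (s := range (n + 1))
            (fun i _ => add_nonneg (ind_nonneg _ _ _ _ _) (ind_nonneg _ _ _ _ _))
            (mem_range.2 (by omega : i < n + 1))
          have e3 := ind_nonneg (G := G) (1 / 2) θ' r (p i) ω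
          linarith
        · have e1 : ind G (1 / 2) θ' r (p i) ω = 1 := ind_of_lt hlt
          have e2 := single_le_sum (f := fun i => ind G (1 / 2) θ r (p i) ω
            + ind G (1 / 2) θ' r (p i) ω) (s := range (n + 1))
            (fun i _ => add_nonneg (ind_nonneg _ _ _ _ _) (ind_nonneg _ _ _ _ _))
            (mem_range.2 (by omega : i < n + 1))
          have e3 := ind_nonneg (G := G) (1 / 2) θ r (p i) ω
          linarith
      obtain ⟨a0, _, a1⟩ := MM_le_pow hT h0 h1 (m := fun u => minf G θ r u ω)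
        (fun u => hle u ω) (p 0) (p n)
      obtain ⟨b0, _, b1⟩ := MM_le_pow hT h0' h1' (m := fun u => minf G θ' r u ω)
        (fun u => hle' u ω) (p 0) (p n)
      rw [hdist] at a1 b1
      have a2 : θ ^ n ≤ τ ^ n := pow_le_pow_left₀ h0 hτ n
      have b2 : θ' ^ n ≤ τ ^ n := pow_le_pow_left₀ h0' hτ' n
      have e4 : (MM G θ (fun u => minf G θ r u ω) (p 0) (p n)
        - MM G θ' (fun u => minf G θ' r u ω) (p 0) (p n)) ^ 2 ≤ (τ ^ n) ^ 2 := by
        rw [← sq_abs]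
        apply pow_le_pow_left₀ (abs_nonneg _)
        rw [abs_le]
        constructor <;> linarith
      have e5 : (τ ^ n) ^ 2 = (τ ^ 2) ^ n := by rw [← pow_mul, ← pow_mul, mul_comm]
      have e6 : (τ ^ 2) ^ n ≤ (τ ^ 2) ^ n * ∑ i ∈ range (n + 1),
          (ind G (1 / 2) θ r (p i) ω + ind G (1 / 2) θ' r (p i) ω) :=
        le_mul_of_one_le_right (by positivity) hbad
      have e7 : 0 ≤ 5 * (τ ^ 2) ^ n * ((minf G θ r (p 0) ω - minf G θ' r (p 0) ω) ^ 2
        + (minf G θ r (p n) ω - minf G θ' r (p n) ω) ^ 2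
        + n ^ 2 * (|θ - θ'| / τ) ^ 2
        + (∑ i ∈ range n, (FF G θ θ' r (p i) (p (i + 1)) ω - β)) ^ 2 + n ^ 2 * β ^ 2) := by
        positivity
      linarith
  -- integrability
  have hfsq : ∀ u : V, Integrable (fun ω => (minf G θ r u ω - minf G θ' r u ω) ^ 2) (PP V) := by
    intro u
    refine integrable_of_bdd (((meas_minf θ r u).sub (meas_minf θ' r u)).pow_const 2)
      4 fun ω => ?_
    have e1 := abs_le.1 (hle u ω)
    have e2 := abs_le.1 (hle' u ω)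
    rw [abs_of_nonneg (sq_nonneg _)]
    nlinarith
  have hDx : ∀ u : V, ∫ ω, (minf G θ r u ω - minf G θ' r u ω) ^ 2 ∂(PP V) = DD G θ θ' r v :=
    fun u => DD_vertex hT hreg θ θ' r u v
  have hSint : Integrable (fun ω =>
      (∑ i ∈ range n, (FF G θ θ' r (p i) (p (i + 1)) ω - β)) ^ 2) (PP V) := by
    refine integrable_of_bdd ((Finset.measurable_fun_sum _ fun i _ =>
      (measurable_FF θ θ' r (p i) (p (i + 1))).sub_const β).pow_const 2)
      ((∑ i ∈ range n, (2 * 10 ^ 6 + |β|)) ^ 2) fun ω => ?_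
    rw [abs_of_nonneg (sq_nonneg _), ← sq_abs]
    apply pow_le_pow_left₀ (abs_nonneg _)
    refine (abs_sum_le_sum_abs _ _).trans (sum_le_sum fun i _ => ?_)
    refine (abs_sub _ _).trans ?_
    have := abs_FF_le (G := G) h0 h2 h0' h2' r (p i) (p (i + 1)) ω
    linarith
  have hIint : Integrable (fun ω => ∑ i ∈ range (n + 1),
          (ind G (1 / 2) θ r (p i) ω + ind G (1 / 2) θ' r (p i) ω)) (PP V) :=
    integrable_finsetSum _ fun i _ => (integrable_ind _ _ _ _).add (integrable_ind _ _ _ _)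
  have hMint : Integrable (fun ω => (MM G θ (fun u => minf G θ r u ω) (p 0) (p n)
        - MM G θ' (fun u => minf G θ' r u ω) (p 0) (p n)) ^ 2) (PP V) := by
    refine integrable_of_bdd (((measurable_MM θ (fun u => meas_minf θ r u) _ _).sub
      (measurable_MM θ' (fun u => meas_minf θ' r u) _ _)).pow_const 2) 1 fun ω => ?_
    have a := MM_mem hT h0 h1 (m := fun u => minf G θ r u ω) (fun u => hle u ω) (p 0) (p n)
    have b := MM_mem hT h0' h1' (m := fun u => minf G θ' r u ω) (fun u => hle' u ω) (p 0) (p n)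
    rw [abs_of_nonneg (sq_nonneg _)]
    nlinarith [a.1, a.2, b.1, b.2]
  have hI1 : Integrable (fun ω => (minf G θ r (p 0) ω - minf G θ' r (p 0) ω) ^ 2
        + (minf G θ r (p n) ω - minf G θ' r (p n) ω) ^ 2
        + n ^ 2 * (|θ - θ'| / τ) ^ 2
        + (∑ i ∈ range n, (FF G θ θ' r (p i) (p (i + 1)) ω - β)) ^ 2 + n ^ 2 * β ^ 2) (PP V) :=
    ((((hfsq _).add (hfsq _)).add (integrable_const _)).add hSint).add (integrable_const _)
  refine (integral_mono hMint ((hI1.const_mul _).add (hIint.const_mul _)) hpt).trans ?_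
  rw [integral_add' (hI1.const_mul _) (hIint.const_mul _), integral_const_mul, integral_const_mul]
  have j1 : ∫ ω, ((minf G θ r (p 0) ω - minf G θ' r (p 0) ω) ^ 2
        + (minf G θ r (p n) ω - minf G θ' r (p n) ω) ^ 2
        + n ^ 2 * (|θ - θ'| / τ) ^ 2
        + (∑ i ∈ range n, (FF G θ θ' r (p i) (p (i + 1)) ω - β)) ^ 2 + n ^ 2 * β ^ 2) ∂(PP V)
      = DD G θ θ' r v + DD G θ θ' r v + n ^ 2 * (|θ - θ'| / τ) ^ 2
        + ∫ ω, (∑ i ∈ range n, (FF G θ θ' r (p i) (p (i + 1)) ω - β)) ^ 2 ∂(PP V)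
        + n ^ 2 * β ^ 2 := by
    rw [integral_add, integral_add, integral_add, integral_add (hfsq _) (hfsq _), hDx, hDx,
      integral_const, integral_const]
    · simp
    · exact (hfsq _).add (hfsq _)
    · exact integrable_const _
    · exact ((hfsq _).add (hfsq _)).add (integrable_const _)
    · exact hSint
    · exact (((hfsq _).add (hfsq _)).add (integrable_const _)).add hSint
    · exact integrable_const _
  have j2 : ∫ ω, (∑ i ∈ range n, (FF G θ θ' r (p i) (p (i + 1)) ω - β)) ^ 2 ∂(PP V)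
      ≤ Cb * n * E := by
    have e1 : ∫ ω, (∑ i ∈ range n, (FF G θ θ' r (p i) (p (i + 1)) ω - β)) ^ 2 ∂(PP V)
        = ∫ ω, (∑ i ∈ range n, (FF G θ θ' r (p i) (p (i + 1)) ω
          - ∫ ω', FF G θ θ' r (p i) (p (i + 1)) ω' ∂(PP V))) ^ 2 ∂(PP V) := by
      refine integral_congr_ae (Filter.Eventually.of_forall fun ω => ?_)
      simp only
      congr 1
      exact sum_congr rfl fun i hi => by rw [hmean i (mem_range.1 hi)]
    rw [e1]
    refine hbsv.trans ?_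
    apply mul_le_mul_of_nonneg_left _ (by positivity)
    refine le_trans ?_ hE
    have hFi : Integrable (FF G θ θ' r x y) (PP V) :=
      integrable_of_bdd (measurable_FF θ θ' r x y) (2 * 10 ^ 6) (abs_FF_le h0 h2 h0' h2' r x y)
    have hF2 : Integrable (fun ω => (FF G θ θ' r x y ω) ^ 2) (PP V) := by
      refine integrable_of_bdd ((measurable_FF θ θ' r x y).pow_const 2) ((2 * 10 ^ 6) ^ 2)
        fun ω => ?_
      rw [abs_of_nonneg (sq_nonneg _), ← sq_abs]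
      exact pow_le_pow_left₀ (abs_nonneg _) (abs_FF_le h0 h2 h0' h2' r x y ω) 2
    have e2 : ∫ ω, (FF G θ θ' r x y ω - β) ^ 2 ∂(PP V)
        = ∫ ω, (((FF G θ θ' r x y ω) ^ 2 - 2 * β * FF G θ θ' r x y ω) + β ^ 2) ∂(PP V) := by
      refine integral_congr_ae (Filter.Eventually.of_forall fun ω => ?_)
      simp only
      ring
    have e3 : ∫ ω, (((FF G θ θ' r x y ω) ^ 2 - 2 * β * FF G θ θ' r x y ω) + β ^ 2) ∂(PP V)
        = ∫ ω, ((FF G θ θ' r x y ω) ^ 2 - 2 * β * FF G θ θ' r x y ω) ∂(PP V)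
          + ∫ _ω : Om V, β ^ 2 ∂(PP V) :=
      integral_add (hF2.sub (hFi.const_mul _)) (integrable_const _)
    have e4 : ∫ ω, ((FF G θ θ' r x y ω) ^ 2 - 2 * β * FF G θ θ' r x y ω) ∂(PP V)
        = ∫ ω, (FF G θ θ' r x y ω) ^ 2 ∂(PP V) - ∫ ω, 2 * β * FF G θ θ' r x y ω ∂(PP V) :=
      integral_sub hF2 (hFi.const_mul _)
    rw [e2, e3, e4, integral_const_mul, ← hβ, integral_const]
    simp only [probReal_univ, smul_eq_mul, one_mul]
    nlinarith [sq_nonneg β]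
  have j3 : ∫ ω, ∑ i ∈ range (n + 1),
          (ind G (1 / 2) θ r (p i) ω + ind G (1 / 2) θ' r (p i) ω) ∂(PP V) ≤ 2 * (n + 1) * P := by
    have e0 : ∫ ω, ∑ i ∈ range (n + 1),
          (ind G (1 / 2) θ r (p i) ω + ind G (1 / 2) θ' r (p i) ω) ∂(PP V)
        = ∑ i ∈ range (n + 1), ∫ ω, (ind G (1 / 2) θ r (p i) ω
          + ind G (1 / 2) θ' r (p i) ω) ∂(PP V) :=
      integral_finsetSum _ fun i _ => (integrable_ind _ _ _ _).add (integrable_ind _ _ _ _)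
    rw [e0]
    have e1 : ∀ i ∈ range (n + 1), ∫ ω, (ind G (1 / 2) θ r (p i) ω
        + ind G (1 / 2) θ' r (p i) ω) ∂(PP V) ≤ 2 * P := by
      intro i _
      rw [integral_add (integrable_ind _ _ _ _) (integrable_ind _ _ _ _), integral_ind',
        integral_ind']
      linarith [hP (p i), hP' (p i)]
    refine (sum_le_sum e1).trans ?_
    rw [sum_const, card_range, nsmul_eq_mul]
    push_cast
    linarith
  rw [j1]
  have hτn : 0 < (τ ^ 2) ^ n := by positivity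
  have k1 : (τ ^ 2) ^ n * ∫ ω, ∑ i ∈ range (n + 1),
          (ind G (1 / 2) θ r (p i) ω + ind G (1 / 2) θ' r (p i) ω) ∂(PP V)
      ≤ (τ ^ 2) ^ n * (2 * (n + 1) * P) := mul_le_mul_of_nonneg_left j3 hτn.le
  have k2 : (τ ^ 2) ^ n * ∫ ω, (∑ i ∈ range n, (FF G θ θ' r (p i) (p (i + 1)) ω - β)) ^ 2 ∂(PP V)
      ≤ (τ ^ 2) ^ n * (Cb * n * E) := mul_le_mul_of_nonneg_left j2 hτn.le
  have e8 : 5 * (τ ^ 2) ^ n * (DD G θ θ' r v + DD G θ θ' r v + n ^ 2 * (|θ - θ'| / τ) ^ 2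
        + ∫ ω, (∑ i ∈ range n, (FF G θ θ' r (p i) (p (i + 1)) ω - β)) ^ 2 ∂(PP V)
        + n ^ 2 * β ^ 2)
      = (τ ^ 2) ^ n * (5 * (2 * DD G θ θ' r v + n ^ 2 * (|θ - θ'| / τ) ^ 2 + n ^ 2 * β ^ 2))
        + 5 * ((τ ^ 2) ^ n
          * ∫ ω, (∑ i ∈ range n, (FF G θ θ' r (p i) (p (i + 1)) ω - β)) ^ 2 ∂(PP V)) := by ring
  rw [e8]
  have e9 : (τ ^ 2) ^ n * (5 * (2 * DD G θ θ' r v + n ^ 2 * (|θ - θ'| / τ) ^ 2 + Cb * n * E
        + n ^ 2 * β ^ 2) + 2 * (n + 1) * P)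
      = (τ ^ 2) ^ n * (5 * (2 * DD G θ θ' r v + n ^ 2 * (|θ - θ'| / τ) ^ 2 + n ^ 2 * β ^ 2))
        + 5 * ((τ ^ 2) ^ n * (Cb * n * E)) + (τ ^ 2) ^ n * (2 * (n + 1) * P) := by ring
  rw [e9]
  linarith

end Crest.Agent.R160.GA
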