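import Mathlib
import Crest.Agent.R160.GA2

/-! # Row 160, module GA: the inequality (A) -/

set_option autoImplicit false

open MeasureTheory Finset
open scoped Classical

namespace Crest.Agent.R160.GA

open Crest.Agent.R160 Crest.Agent.R160.TreeAut Crest.Agent.R160.BSVNoise

variable {V : Type*} {G : SimpleGraph V} [G.LocallyFinite]

/-- the summand of one level -/
noncomputable def Slev (G : SimpleGraph V) [G.LocallyFinite] (θ θ' r : ℝ) (v : V) (n : ℕ) : ℝ :=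
  ∑ w ∈ sph G v n,
    ∫ ω, ((MM G θ (fun x => minf G θ r x ω) v w - MM G θ' (fun x => minf G θ' r x ω) v w) ^ 2
      + (MM G θ (fun x => minf G θ r x ω) v w) ^ 2
        * (minf G θ r w ω - minf G θ' r w ω) ^ 2) ∂(PP V)

lemma integrable_MM_sq (hT : G.IsTree) {θ : ℝ} (h0 : 0 ≤ θ) (h1 : θ < 1) (r : ℝ) (v w : V) :
    Integrable (fun ω => (MM G θ (fun x => minf G θ r x ω) v w) ^ 2) (PP V) := by
  refine integrable_of_bdd ((measurable_MM θ (fun u => meas_minf θ r u) _ _).pow_const 2) 1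
    fun ω => ?_
  have a := MM_mem hT h0 h1 (m := fun u => minf G θ r u ω) (fun u => abs_minf_le h0 h1 r u ω) v w
  rw [abs_of_nonneg (sq_nonneg _)]
  nlinarith [a.1, a.2]

lemma integrable_MM_diff_sq (hT : G.IsTree) {θ θ' : ℝ} (h0 : 0 ≤ θ) (h1 : θ < 1) (h0' : 0 ≤ θ')
    (h1' : θ' < 1) (r : ℝ) (v w : V) :
    Integrable (fun ω => (MM G θ (fun x => minf G θ r x ω) v w
      - MM G θ' (fun x => minf G θ' r x ω) v w) ^ 2) (PP V) := by
  refine integrable_of_bdd (((measurable_MM θ (fun u => meas_minf θ r u) _ _).sub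
    (measurable_MM θ' (fun u => meas_minf θ' r u) _ _)).pow_const 2) 1 fun ω => ?_
  have a := MM_mem hT h0 h1 (m := fun u => minf G θ r u ω) (fun u => abs_minf_le h0 h1 r u ω) v w
  have b := MM_mem hT h0' h1' (m := fun u => minf G θ' r u ω)
    (fun u => abs_minf_le h0' h1' r u ω) v w
  rw [abs_of_nonneg (sq_nonneg _)]
  nlinarith [a.1, a.2, b.1, b.2]

lemma integrable_f_sq {θ θ' : ℝ} (h0 : 0 ≤ θ) (h1 : θ < 1) (h0' : 0 ≤ θ')
    (h1' : θ' < 1) (r : ℝ) (u : V) :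
    Integrable (fun ω : Om V => (minf G θ r u ω - minf G θ' r u ω) ^ 2) (PP V) := by
  refine integrable_of_bdd (((meas_minf θ r u).sub (meas_minf θ' r u)).pow_const 2)
    4 fun ω => ?_
  have e1 := abs_le.1 (abs_minf_le (G := G) h0 h1 r u ω)
  have e2 := abs_le.1 (abs_minf_le (G := G) h0' h1' r u ω)
  rw [abs_of_nonneg (sq_nonneg _)]
  nlinarith

lemma integrable_MM_sq_mul (hT : G.IsTree) {θ θ' : ℝ} (h0 : 0 ≤ θ) (h1 : θ < 1) (h0' : 0 ≤ θ')
    (h1' : θ' < 1) (r : ℝ) (v w : V) :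
    Integrable (fun ω => (MM G θ (fun x => minf G θ r x ω) v w) ^ 2
      * (minf G θ r w ω - minf G θ' r w ω) ^ 2) (PP V) := by
  refine integrable_of_bdd (((measurable_MM θ (fun u => meas_minf θ r u) _ _).pow_const
    2).mul (((meas_minf θ r w).sub (meas_minf θ' r w)).pow_const 2)) 4 fun ω => ?_
  have a := MM_mem hT h0 h1 (m := fun u => minf G θ r u ω) (fun u => abs_minf_le h0 h1 r u ω) v w
  have e1 := abs_le.1 (abs_minf_le (G := G) h0 h1 r w ω)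
  have e2 := abs_le.1 (abs_minf_le (G := G) h0' h1' r w ω)
  have e3 : (MM G θ (fun x => minf G θ r x ω) v w) ^ 2 ≤ 1 := by nlinarith [a.1, a.2]
  have e4 : (minf G θ r w ω - minf G θ' r w ω) ^ 2 ≤ 4 := by nlinarith
  rw [abs_of_nonneg (mul_nonneg (sq_nonneg _) (sq_nonneg _))]
  calc (MM G θ (fun x => minf G θ r x ω) v w) ^ 2 * (minf G θ r w ω - minf G θ' r w ω) ^ 2
      ≤ 1 * 4 := mul_le_mul e3 e4 (sq_nonneg _) zero_le_one
    _ = 4 := by norm_num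

/-- second moment of the covariances on a sphere -/
lemma sum_MM_sq_le (hT : G.IsTree) {b : ℕ} (hb : 2 ≤ b) {θ : ℝ} (h0 : 0 ≤ θ) (h1 : θ < 1) (r : ℝ)
    (v : V) (n : ℕ) :
    ∑ w ∈ sph G v n, ∫ ω, (MM G θ (fun x => minf G θ r x ω) v w) ^ 2 ∂(PP V)
      ≤ ((b : ℝ) * θ ^ 2) ^ n * ∫ ω, Alev G b θ (fun x => minf G θ r x ω) v n ∂(PP V) := by
  have hb0 : (0 : ℝ) < b := by exact_mod_cast (by omega : 0 < b)
  have hint : ∀ w : V, Integrable (fun ω => rprod G θ (fun x => minf G θ r x ω) v w) (PP V) := by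
    intro w
    refine integrable_of_bdd (measurable_rprod θ (fun u => meas_minf θ r u) v w) 1
      fun ω => ?_
    have := rprod_mem hT h0 h1 (m := fun u => minf G θ r u ω)
      (fun u => abs_minf_le h0 h1 r u ω) v w
    rw [abs_of_nonneg this.1]
    exact this.2
  have e1 : ((b : ℝ) * θ ^ 2) ^ n * ∫ ω, Alev G b θ (fun x => minf G θ r x ω) v n ∂(PP V)
      = ∑ w ∈ sph G v n, (θ ^ 2) ^ n * ∫ ω, rprod G θ (fun x => minf G θ r x ω) v w ∂(PP V) := by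
    unfold Alev
    rw [integral_const_mul, integral_finsetSum _ fun w _ => hint w, mul_sum, mul_sum]
    refine sum_congr rfl fun w _ => ?_
    rw [mul_pow, ← mul_assoc]
    congr 1
    rw [inv_pow]
    field_simp
  rw [e1]
  refine sum_le_sum fun w hw => ?_
  rw [← integral_const_mul]
  refine integral_mono (integrable_MM_sq hT h0 h1 r v w) ((hint w).const_mul _) fun ω => ?_
  rw [mem_sph hT] at hw
  obtain ⟨a0, a1, a2⟩ := MM_le_pow hT h0 h1 (m := fun u => minf G θ r u ω)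
    (fun u => abs_minf_le h0 h1 r u ω) v w
  rw [hw] at a1 a2
  have e2 : (θ ^ 2) ^ n = θ ^ n * θ ^ n := by rw [← pow_mul, ← pow_add]; congr 1; omega
  simp only
  rw [e2, sq]
  calc MM G θ (fun x => minf G θ r x ω) v w * MM G θ (fun x => minf G θ r x ω) v w
      ≤ θ ^ n * (θ ^ n * rprod G θ (fun x => minf G θ r x ω) v w) :=
        mul_le_mul a2 a1 a0 (by positivity)
    _ = _ := by ring

/-- far levels -/
lemma Slev_far (hT : G.IsTree) {b : ℕ} (hb : 2 ≤ b) {θ θ' : ℝ} (h0 : 0 ≤ θ) (h1 : θ < 1)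
    (h0' : 0 ≤ θ') (h1' : θ' < 1) (r : ℝ) (v : V) (n : ℕ) (A : ℝ)
    (hA : ((b : ℝ) * θ ^ 2) ^ n * ∫ ω, Alev G b θ (fun x => minf G θ r x ω) v n ∂(PP V) ≤ A)
    (hA' : ((b : ℝ) * θ' ^ 2) ^ n * ∫ ω, Alev G b θ' (fun x => minf G θ' r x ω) v n ∂(PP V) ≤ A) :
    Slev G θ θ' r v n ≤ 8 * A := by
  have key : Slev G θ θ' r v n ≤ 6 * ∑ w ∈ sph G v n,
      ∫ ω, (MM G θ (fun x => minf G θ r x ω) v w) ^ 2 ∂(PP V)
      + 2 * ∑ w ∈ sph G v n, ∫ ω, (MM G θ' (fun x => minf G θ' r x ω) v w) ^ 2 ∂(PP V) := by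
    unfold Slev
    rw [mul_sum, mul_sum, ← sum_add_distrib]
    refine sum_le_sum fun w _ => ?_
    rw [← integral_const_mul, ← integral_const_mul, ← integral_add
      ((integrable_MM_sq hT h0 h1 r v w).const_mul _)
      ((integrable_MM_sq hT h0' h1' r v w).const_mul _)]
    refine integral_mono ((integrable_MM_diff_sq hT h0 h1 h0' h1' r v w).add
      (integrable_MM_sq_mul hT h0 h1 h0' h1' r v w))
      (((integrable_MM_sq hT h0 h1 r v w).const_mul _).add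
      ((integrable_MM_sq hT h0' h1' r v w).const_mul _)) fun ω => ?_
    simp only
    have e1 := abs_le.1 (abs_minf_le (G := G) h0 h1 r w ω)
    have e2 := abs_le.1 (abs_minf_le (G := G) h0' h1' r w ω)
    have e4 : (minf G θ r w ω - minf G θ' r w ω) ^ 2 ≤ 4 := by nlinarith
    set M := MM G θ (fun x => minf G θ r x ω) v w
    set M' := MM G θ' (fun x => minf G θ' r x ω) v w
    have e5 : M ^ 2 * (minf G θ r w ω - minf G θ' r w ω) ^ 2 ≤ M ^ 2 * 4 :=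
      mul_le_mul_of_nonneg_left e4 (sq_nonneg _)
    nlinarith [sq_nonneg (M + M')]
  have h2 := sum_MM_sq_le hT hb h0 h1 r v n
  have h3 := sum_MM_sq_le hT hb h0' h1' r v n
  linarith

/-- near levels -/
lemma Slev_near (hT : G.IsTree) {b : ℕ} (hb : 2 ≤ b) (hreg : G.IsRegularOfDegree (b + 1))
    {θ θ' τ : ℝ} (h0 : 0 ≤ θ) (h1 : θ < 1) (h2 : θ ^ 2 ≤ 1 / 2) (h0' : 0 ≤ θ') (h1' : θ' < 1)
    (h2' : θ' ^ 2 ≤ 1 / 2) (hτ : θ ≤ τ) (hτ' : θ' ≤ τ) (hτ0 : 0 < τ) (hτ1 : (b : ℝ) * τ ^ 2 ≤ 1)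
    (r : ℝ) {x y v : V}
    (hxy : G.Adj x y) (P E Cb : ℝ) (hCb : 0 < Cb)
    (hP : ∀ u : V, (PP V).real {ω : Om V | 1 / 2 < |minf G θ r u ω|} ≤ P)
    (hP' : ∀ u : V, (PP V).real {ω : Om V | 1 / 2 < |minf G θ' r u ω|} ≤ P)
    (hE : ∫ ω, (FF G θ θ' r x y ω) ^ 2 ∂(PP V) ≤ E)
    (hbsv : ∀ (n : ℕ) (p : ℕ → V), IsNB G n p →
      ∫ ω, (∑ i ∈ range n, (FF G θ θ' r (p i) (p (i + 1)) ω
          - ∫ ω', FF G θ θ' r (p i) (p (i + 1)) ω' ∂(PP V))) ^ 2 ∂(PP V)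
        ≤ Cb * n * ∫ ω, (FF G θ θ' r x y ω - ∫ ω', FF G θ θ' r x y ω' ∂(PP V)) ^ 2 ∂(PP V))
    (n : ℕ) :
    Slev G θ θ' r v n ≤ 2 * (5 * (2 * DD G θ θ' r v + n ^ 2 * (|θ - θ'| / τ) ^ 2 + Cb * n * E
        + n ^ 2 * (∫ ω, FF G θ θ' r x y ω ∂(PP V)) ^ 2) + 2 * (n + 1) * P)
        + 2 * DD G θ θ' r v := by
  have hb0 : (0 : ℝ) < b := by exact_mod_cast (by omega : 0 < b)
  set X : ℝ := 5 * (2 * DD G θ θ' r v + n ^ 2 * (|θ - θ'| / τ) ^ 2 + Cb * n * E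
        + n ^ 2 * (∫ ω, FF G θ θ' r x y ω ∂(PP V)) ^ 2) + 2 * (n + 1) * P with hX
  have hD0 : 0 ≤ DD G θ θ' r v := DD_nonneg _ _ _ _
  have hE0 : 0 ≤ E := (integral_nonneg fun _ => sq_nonneg _).trans hE
  have hP0 : 0 ≤ P := measureReal_nonneg.trans (hP v)
  have hX0 : 0 ≤ X := by positivity
  have hcard : ((sph G v n).card : ℝ) ≤ 2 * (b : ℝ) ^ n := by
    exact_mod_cast card_sph_le' hT (by omega) hreg v n
  have hterm : ∀ w ∈ sph G v n, ∫ ω, ((MM G θ (fun x => minf G θ r x ω) v w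
      - MM G θ' (fun x => minf G θ' r x ω) v w) ^ 2
      + (MM G θ (fun x => minf G θ r x ω) v w) ^ 2
        * (minf G θ r w ω - minf G θ' r w ω) ^ 2) ∂(PP V)
      ≤ (τ ^ 2) ^ n * (X + DD G θ θ' r v) := by
    intro w hw
    rw [mem_sph hT] at hw
    obtain ⟨p, hp, hp0, hpn⟩ := exists_geodesic hT v w
    rw [hw] at hp hpn
    have h3 := path_sq_le hT hreg h0 h1 h2 h0' h1' h2' hτ hτ' hτ0 r (v := v) hxy P E Cb hCb hP
      hP' hE n p hp (hbsv n p hp)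
    rw [hp0, hpn] at h3
    rw [integral_add (integrable_MM_diff_sq hT h0 h1 h0' h1' r v w)
      (integrable_MM_sq_mul hT h0 h1 h0' h1' r v w)]
    have h4 : ∫ ω, (MM G θ (fun x => minf G θ r x ω) v w) ^ 2
        * (minf G θ r w ω - minf G θ' r w ω) ^ 2 ∂(PP V) ≤ (τ ^ 2) ^ n * DD G θ θ' r v := by
      rw [← DD_vertex hT hreg θ θ' r w v]
      unfold DD
      rw [← integral_const_mul]
      refine integral_mono (integrable_MM_sq_mul hT h0 h1 h0' h1' r v w)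
        ((integrable_f_sq h0 h1 h0' h1' r w).const_mul _) fun ω => ?_
      refine mul_le_mul_of_nonneg_right ?_ (sq_nonneg _)
      obtain ⟨a0, _, a2⟩ := MM_le_pow hT h0 h1 (m := fun u => minf G θ r u ω)
        (fun u => abs_minf_le h0 h1 r u ω) v w
      rw [hw] at a2
      have a3 : θ ^ n ≤ τ ^ n := pow_le_pow_left₀ h0 hτ n
      calc (MM G θ (fun x => minf G θ r x ω) v w) ^ 2 ≤ (τ ^ n) ^ 2 :=
            pow_le_pow_left₀ a0 (a2.trans a3) 2
        _ = (τ ^ 2) ^ n := by rw [← pow_mul, ← pow_mul, mul_comm]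
    rw [mul_add]
    exact add_le_add h3 h4
  unfold Slev
  refine (sum_le_sum hterm).trans ?_
  rw [sum_const, nsmul_eq_mul]
  have h5 : ((sph G v n).card : ℝ) * (τ ^ 2) ^ n ≤ 2 := by
    calc ((sph G v n).card : ℝ) * (τ ^ 2) ^ n ≤ 2 * (b : ℝ) ^ n * (τ ^ 2) ^ n :=
          mul_le_mul_of_nonneg_right hcard (by positivity)
      _ = 2 * ((b : ℝ) * τ ^ 2) ^ n := by rw [mul_pow]; ring
      _ ≤ 2 * 1 := by
          apply mul_le_mul_of_nonneg_left _ (by norm_num)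
          exact pow_le_one₀ (by positivity) hτ1
      _ = 2 := by norm_num
  calc ((sph G v n).card : ℝ) * ((τ ^ 2) ^ n * (X + DD G θ θ' r v))
      = (((sph G v n).card : ℝ) * (τ ^ 2) ^ n) * (X + DD G θ θ' r v) := by ring
    _ ≤ 2 * (X + DD G θ θ' r v) := mul_le_mul_of_nonneg_right h5 (by positivity)
    _ = _ := by ring

/-- probability of exceeding `1/2` -/
lemma half_tail {θ r : ℝ} (hr : 0 < r) (u : V) (Ct ct : ℝ) (hCt : 0 < Ct) (hct : 0 < ct)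
    (h : (PP V).real {ω : Om V | r ^ (1 / 4 : ℝ) < |minf G θ r u ω|}
      ≤ Ct * Real.exp (-ct * r ^ (-(1 / 8) : ℝ))) :
    (PP V).real {ω : Om V | 1 / 2 < |minf G θ r u ω|}
      ≤ (Ct + Real.exp (2 * ct)) * Real.exp (-ct * r ^ (-(1 / 8) : ℝ)) := by
  have he := Real.exp_pos (-ct * r ^ (-(1 / 8) : ℝ))
  have he2 := Real.exp_pos (2 * ct)
  by_cases hr16 : r ≤ 1 / 16
  · have h1 : r ^ (1 / 4 : ℝ) ≤ 1 / 2 := by
      have : r ^ (1 / 4 : ℝ) ≤ (1 / 16 : ℝ) ^ (1 / 4 : ℝ) :=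
        Real.rpow_le_rpow hr.le hr16 (by norm_num)
      refine this.trans (le_of_eq ?_)
      rw [show (1 / 16 : ℝ) = (1 / 2) ^ (4 : ℝ) by norm_num, ← Real.rpow_mul (by norm_num)]
      norm_num
    have h2 : (PP V).real {ω : Om V | 1 / 2 < |minf G θ r u ω|}
        ≤ (PP V).real {ω : Om V | r ^ (1 / 4 : ℝ) < |minf G θ r u ω|} :=
      measureReal_mono fun ω hω => lt_of_le_of_lt h1 hω
    nlinarith
  · push Not at hr16
    have h1 : r ^ (-(1 / 8) : ℝ) ≤ 2 := by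
      have : r ^ (-(1 / 8) : ℝ) ≤ (1 / 16 : ℝ) ^ (-(1 / 8) : ℝ) :=
        Real.rpow_le_rpow_of_nonpos (by norm_num) hr16.le (by norm_num)
      refine this.trans ?_
      rw [show (1 / 16 : ℝ) = (2 : ℝ) ^ (-4 : ℝ) by norm_num, ← Real.rpow_mul (by norm_num)]
      have : (2 : ℝ) ^ ((-4 : ℝ) * -(1 / 8)) ≤ 2 ^ (1 : ℝ) :=
        Real.rpow_le_rpow_of_exponent_le (by norm_num) (by norm_num)
      simpa using this
    have h2 : (PP V).real {ω : Om V | 1 / 2 < |minf G θ r u ω|} ≤ 1 := measureReal_le_one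
    have h3 : 1 ≤ Real.exp (2 * ct) * Real.exp (-ct * r ^ (-(1 / 8) : ℝ)) := by
      rw [← Real.exp_add]
      apply Real.one_le_exp
      nlinarith
    nlinarith

end Crest.Agent.R160.GA
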