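import Mathlib
import Crest.Agent.R160.GA3

/-! # Row 160, module GA: the inequality (A), final form -/

set_option autoImplicit false

open MeasureTheory Finset
open scoped Classical

namespace Crest.Agent.R160.GA

open Crest.Agent.R160 Crest.Agent.R160.TreeAut Crest.Agent.R160.BSVNoise

/-- splitting of the sum over the levels -/
lemma sum_split (S : ℕ → ℝ) (K M : ℕ) (B A q : ℝ) (hB : 0 ≤ B) (hA : 0 ≤ A) (hq0 : 0 ≤ q)
    (hq1 : q < 1) (hnear : ∀ n < K, S n ≤ B) (hfar : ∀ n, S n ≤ A * q ^ n) :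
    ∑ n ∈ range M, S n ≤ K * B + A * (q ^ K / (1 - q)) := by
  have h1 : ∀ n ∈ range M, S n ≤ (if n < K then B else 0) + (if K ≤ n then A * q ^ n else 0) := by
    intro n _
    by_cases h : n < K
    · rw [if_pos h, if_neg (by omega), add_zero]; exact hnear n h
    · rw [if_neg h, if_pos (by omega), zero_add]; exact hfar n
  refine (sum_le_sum h1).trans ?_
  rw [sum_add_distrib]
  have h2 : ∑ n ∈ range M, (if n < K then B else 0) ≤ K * B := by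
    rw [← sum_filter, sum_const, nsmul_eq_mul]
    apply mul_le_mul_of_nonneg_right _ hB
    have : ((range M).filter fun n => n < K) ⊆ range K := by
      intro n hn
      rw [mem_filter] at hn
      exact mem_range.2 hn.2
    have h3 := card_le_card this
    rw [card_range] at h3
    exact_mod_cast h3
  have h3 : ∑ n ∈ range M, (if K ≤ n then A * q ^ n else 0) ≤ A * (q ^ K / (1 - q)) := by
    have hs : Summable fun n : ℕ => A * q ^ (K + n) := by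
      have := (summable_geometric_of_lt_one hq0 hq1).mul_left (A * q ^ K)
      refine this.congr fun n => ?_
      rw [pow_add]; ring
    have h4 : ∑ n ∈ range M, (if K ≤ n then A * q ^ n else 0) ≤ ∑ n ∈ range M, A * q ^ (K + n) := by
      rw [← sum_filter]
      have e1 : ((range M).filter fun n => K ≤ n) ⊆ (range M).image fun n => K + n := by
        intro n hn
        rw [mem_filter, mem_range] at hn
        rw [mem_image]
        exact ⟨n - K, mem_range.2 (by omega), by omega⟩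
      refine (sum_le_sum_of_subset_of_nonneg e1 fun n _ _ => by positivity).trans ?_
      rw [sum_image fun a _ b _ h => by omega]
    refine h4.trans ?_
    refine (hs.sum_le_tsum _ fun n _ => by positivity).trans ?_
    have e2 : ∑' n : ℕ, A * q ^ (K + n) = A * (q ^ K / (1 - q)) := by
      have : (fun n : ℕ => A * q ^ (K + n)) = fun n : ℕ => (A * q ^ K) * q ^ n := by
        funext n; rw [pow_add]; ring
      rw [this, tsum_mul_left, tsum_geometric_of_lt_one hq0 hq1]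
      rw [div_eq_mul_inv]; ring
    rw [e2]
  linarith

/-- the pure real-variable part of the near bound -/
lemma near_real {n K D dt b Cb E R P A₀ β τ : ℝ} (hn0 : 0 ≤ n) (hnK : n + 1 ≤ K) (hD : 0 ≤ D)
    (hb : 0 ≤ b) (hCb : 0 ≤ Cb) (hP : 0 ≤ P) (hR : 0 ≤ R) (hA0 : 0 ≤ A₀)
    (hτ : (|dt| / τ) ^ 2 ≤ 4 * b * dt ^ 2)
    (hE : E = A₀ * (64 * R * D + 64 * P + dt ^ 2)) :
    2 * (5 * (2 * D + n ^ 2 * (|dt| / τ) ^ 2 + Cb * n * E + n ^ 2 * β ^ 2) + 2 * (n + 1) * P)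
        + 2 * D
      ≤ (22 + 640 * Cb * A₀ * K * R) * D + (40 * b + 10 * Cb * A₀) * K ^ 2 * dt ^ 2
        + 10 * K ^ 2 * β ^ 2 + (640 * Cb * A₀ + 4) * K * P := by
  have hnK' : n ≤ K := by linarith
  have hK0 : 0 ≤ K := hn0.trans hnK'
  have h1K : 1 ≤ K := by linarith
  have hn2 : n ^ 2 ≤ K ^ 2 := pow_le_pow_left₀ hn0 hnK' 2
  have hnK2 : n ≤ K ^ 2 := by nlinarith
  have a1 : n ^ 2 * (|dt| / τ) ^ 2 ≤ K ^ 2 * (4 * b * dt ^ 2) :=
    mul_le_mul hn2 hτ (sq_nonneg _) (by positivity)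
  have a2 : n ^ 2 * β ^ 2 ≤ K ^ 2 * β ^ 2 := mul_le_mul_of_nonneg_right hn2 (sq_nonneg _)
  have a3 : (n + 1) * P ≤ K * P := mul_le_mul_of_nonneg_right hnK hP
  have a4 : Cb * n * E ≤ Cb * A₀ * (64 * (K * R * D) + 64 * (K * P) + K ^ 2 * dt ^ 2) := by
    rw [hE]
    have e1 : Cb * n * (A₀ * (64 * R * D + 64 * P + dt ^ 2))
        = Cb * A₀ * (64 * (n * (R * D)) + 64 * (n * P) + n * dt ^ 2) := by ring
    rw [e1]
    apply mul_le_mul_of_nonneg_left _ (by positivity)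
    have b1 : n * (R * D) ≤ K * (R * D) := mul_le_mul_of_nonneg_right hnK' (by positivity)
    have b2 : n * P ≤ K * P := mul_le_mul_of_nonneg_right hnK' hP
    have b3 : n * dt ^ 2 ≤ K ^ 2 * dt ^ 2 := mul_le_mul_of_nonneg_right hnK2 (sq_nonneg _)
    linarith
  have e2 : (22 + 640 * Cb * A₀ * K * R) * D + (40 * b + 10 * Cb * A₀) * K ^ 2 * dt ^ 2
        + 10 * K ^ 2 * β ^ 2 + (640 * Cb * A₀ + 4) * K * P
      = 22 * D + 10 * (K ^ 2 * (4 * b * dt ^ 2)) + 10 * (K ^ 2 * β ^ 2) + 4 * (K * P)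
        + 10 * (Cb * A₀ * (64 * (K * R * D) + 64 * (K * P) + K ^ 2 * dt ^ 2)) := by ring
  rw [e2]
  linarith

set_option maxHeartbeats 1000000 in
/-- the pure real-variable part of the final bound -/
lemma final_real {r c ct cl CP Cl D β dt b Cb A₀ : ℝ} (hr : 0 < r) (hr1 : r ≤ 1 / 2) (hct : 0 < ct)
    (hcl : 0 < cl) (hc : c = min ct cl / 2) (hCP : 0 ≤ CP) (hCl : 0 ≤ Cl) (hD : 0 ≤ D)
    (hb : 0 ≤ b) (hCb : 0 ≤ Cb) (hA0 : 0 ≤ A₀) (K : ℕ) (hK : K = ⌈r ^ (-(13 / 8) : ℝ)⌉₊) :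
    K * ((22 + 640 * Cb * A₀ * K * r ^ (1 / 2 : ℝ)) * D + (40 * b + 10 * Cb * A₀) * K ^ 2 * dt ^ 2
        + 10 * K ^ 2 * β ^ 2
        + (640 * Cb * A₀ + 4) * K * (CP * Real.exp (-ct * r ^ (-(1 / 8) : ℝ))))
      + (8 * Cl) * (Real.exp (-cl * r ^ (3 / 2 : ℝ)) ^ K / (1 - Real.exp (-cl * r ^ (3 / 2 : ℝ))))
    ≤ ((44 + 4 * 640 * Cb * A₀) + 8 * (40 * b + 10 * Cb * A₀ + 10)
        + (640 * Cb * A₀ + 4) * 4 * CP * ((26 : ℕ).factorial * (2 / ct) ^ 26)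
        + 8 * Cl * ((1 + cl) / cl) * ((12 : ℕ).factorial * (2 / cl) ^ 12))
      * (r ^ (-(11 / 4) : ℝ) * D + r ^ (-(39 / 8) : ℝ) * (β ^ 2 + dt ^ 2)
        + Real.exp (-c * r ^ (-(1 / 8) : ℝ))) := by
  have hr1' : r ≤ 1 := by linarith
  set κ : ℝ := r ^ (-(13 / 8) : ℝ) with hκ
  have hκ1 : 1 ≤ κ := Real.one_le_rpow_of_pos_of_le_one_of_nonpos hr hr1' (by norm_num)
  have hK1 : κ ≤ K := by rw [hK]; exact Nat.le_ceil _
  have hK2 : (K : ℝ) ≤ 2 * κ := by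
    have := Nat.ceil_lt_add_one (show (0 : ℝ) ≤ κ by linarith)
    rw [← hK] at this
    linarith
  have hK0 : (0 : ℝ) ≤ K := Nat.cast_nonneg _
  have hKsq : (K : ℝ) ^ 2 ≤ 4 * κ ^ 2 := by
    calc (K : ℝ) ^ 2 ≤ (2 * κ) ^ 2 := pow_le_pow_left₀ hK0 hK2 2
      _ = 4 * κ ^ 2 := by ring
  have hKcu : (K : ℝ) ^ 3 ≤ 8 * κ ^ 3 := by
    calc (K : ℝ) ^ 3 ≤ (2 * κ) ^ 3 := pow_le_pow_left₀ hK0 hK2 3
      _ = 8 * κ ^ 3 := by ring
  have hκ2 : κ ^ 2 = r ^ (-(13 / 4) : ℝ) := by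
    rw [hκ, ← Real.rpow_natCast, ← Real.rpow_mul hr.le]; norm_num
  have hκ3 : κ ^ 3 = r ^ (-(39 / 8) : ℝ) := by
    rw [hκ, ← Real.rpow_natCast, ← Real.rpow_mul hr.le]; norm_num
  have hκ4 : κ ≤ r ^ (-(11 / 4) : ℝ) :=
    Real.rpow_le_rpow_of_exponent_ge hr hr1' (by norm_num)
  have hκ5 : κ ^ 2 * r ^ (1 / 2 : ℝ) = r ^ (-(11 / 4) : ℝ) := by
    rw [hκ2, ← Real.rpow_add hr]; norm_num
  set ρ : ℝ := r ^ (-(11 / 4) : ℝ) with hρ
  set σ : ℝ := r ^ (-(39 / 8) : ℝ) with hσ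
  have hρ0 : 0 < ρ := Real.rpow_pos_of_pos hr _
  have hσ0 : 0 < σ := Real.rpow_pos_of_pos hr _
  set x : ℝ := r ^ (-(1 / 8) : ℝ) with hx
  have hx0 : 0 < x := Real.rpow_pos_of_pos hr _
  set g : ℝ := Real.exp (-c * x) with hg
  have hg0 : 0 < g := Real.exp_pos _
  have hct' : c ≤ ct / 2 := by
    rw [hc]; have := min_le_left ct cl; linarith
  have hcl' : c ≤ cl / 2 := by
    rw [hc]; have := min_le_right ct cl; linarith
  -- the exponential terms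
  have hE1 : κ ^ 2 * Real.exp (-ct * x) ≤ ((26 : ℕ).factorial * (2 / ct) ^ 26) * g := by
    have h := rpow_mul_exp_le 26 hct hr
    have e : (-(((26 : ℕ) : ℝ) / 8)) = (-(13 / 4) : ℝ) := by norm_num
    rw [e, ← hκ2] at h
    refine h.trans ?_
    apply mul_le_mul_of_nonneg_left _ (by positivity)
    apply Real.exp_le_exp.2
    nlinarith
  have hE2 : r ^ (-(3 / 2) : ℝ) * Real.exp (-cl * x) ≤ ((12 : ℕ).factorial * (2 / cl) ^ 12) * g := by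
    have h := rpow_mul_exp_le 12 hcl hr
    have e : (-(((12 : ℕ) : ℝ) / 8)) = (-(3 / 2) : ℝ) := by norm_num
    rw [e] at h
    refine h.trans ?_
    apply mul_le_mul_of_nonneg_left _ (by positivity)
    apply Real.exp_le_exp.2
    nlinarith
  -- the geometric series
  set y : ℝ := cl * r ^ (3 / 2 : ℝ) with hy
  have hr32 : 0 < r ^ (3 / 2 : ℝ) := Real.rpow_pos_of_pos hr _
  have hr32' : r ^ (3 / 2 : ℝ) ≤ 1 := Real.rpow_le_one hr.le hr1' (by norm_num)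
  have hy0 : 0 < y := by positivity
  have hycl : y ≤ cl := by rw [hy]; nlinarith
  have hgeo : Real.exp (-cl * r ^ (3 / 2 : ℝ)) ^ K / (1 - Real.exp (-cl * r ^ (3 / 2 : ℝ)))
      ≤ ((1 + cl) / cl) * (r ^ (-(3 / 2) : ℝ) * Real.exp (-cl * x)) := by
    have e1 : -cl * r ^ (3 / 2 : ℝ) = -y := by rw [hy]; ring
    rw [e1]
    have h1 : Real.exp (-y) ^ K ≤ Real.exp (-cl * x) := by
      rw [← Real.exp_nat_mul]
      apply Real.exp_le_exp.2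
      have h2 : y * κ = cl * x := by
        rw [hy, hκ, hx, mul_assoc, ← Real.rpow_add hr]; norm_num
      nlinarith
    have h2 : y / (1 + cl) ≤ 1 - Real.exp (-y) := by
      have h3 : Real.exp (-y) ≤ 1 / (1 + y) := by
        rw [Real.exp_neg, ← one_div]
        apply one_div_le_one_div_of_le (by linarith)
        linarith [Real.add_one_le_exp y]
      have h4 : y / (1 + cl) ≤ y / (1 + y) := by
        apply div_le_div_of_nonneg_left hy0.le (by linarith) (by linarith)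
      have h5 : y / (1 + y) = 1 - 1 / (1 + y) := by field_simp; ring
      linarith
    have h3 : 0 < y / (1 + cl) := by positivity
    have h4 : 0 < 1 - Real.exp (-y) := lt_of_lt_of_le h3 h2
    calc Real.exp (-y) ^ K / (1 - Real.exp (-y)) ≤ Real.exp (-cl * x) / (y / (1 + cl)) :=
          div_le_div₀ (Real.exp_pos _).le h1 h3 h2
      _ = ((1 + cl) / cl) * (r ^ (-(3 / 2) : ℝ) * Real.exp (-cl * x)) := by
          rw [Real.rpow_neg hr.le, hy]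
          field_simp
  -- assemble
  have p1 : (K : ℝ) * (22 * D) ≤ 44 * (ρ * D) := by
    have : (K : ℝ) ≤ 2 * ρ := by linarith
    nlinarith
  have p2 : (K : ℝ) ^ 2 * r ^ (1 / 2 : ℝ) ≤ 4 * ρ := by
    have hrh : 0 ≤ r ^ (1 / 2 : ℝ) := (Real.rpow_pos_of_pos hr _).le
    calc (K : ℝ) ^ 2 * r ^ (1 / 2 : ℝ) ≤ 4 * κ ^ 2 * r ^ (1 / 2 : ℝ) :=
          mul_le_mul_of_nonneg_right hKsq hrh
      _ = 4 * (κ ^ 2 * r ^ (1 / 2 : ℝ)) := by ring
      _ = 4 * ρ := by rw [hκ5]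
  have p3 : (K : ℝ) ^ 3 ≤ 8 * σ := by rw [← hκ3]; exact hKcu
  have p4 : (K : ℝ) ^ 2 * Real.exp (-ct * x) ≤ 4 * (((26 : ℕ).factorial * (2 / ct) ^ 26) * g) := by
    calc (K : ℝ) ^ 2 * Real.exp (-ct * x) ≤ (4 * κ ^ 2) * Real.exp (-ct * x) :=
          mul_le_mul_of_nonneg_right hKsq (Real.exp_pos _).le
      _ = 4 * (κ ^ 2 * Real.exp (-ct * x)) := by ring
      _ ≤ _ := by linarith
  set F26 : ℝ := ((26 : ℕ).factorial * (2 / ct) ^ 26) with hF26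
  set F12 : ℝ := ((12 : ℕ).factorial * (2 / cl) ^ 12) with hF12
  have hF26' : 0 ≤ F26 := by positivity
  have hF12' : 0 ≤ F12 := by positivity
  set T1 : ℝ := ρ * D with hT1
  set T2 : ℝ := σ * (β ^ 2 + dt ^ 2) with hT2
  have hT1' : 0 ≤ T1 := by positivity
  have hT2' : 0 ≤ T2 := by positivity
  have q1 : (K : ℝ) * ((22 + 640 * Cb * A₀ * K * r ^ (1 / 2 : ℝ)) * D)
      ≤ (44 + 4 * 640 * Cb * A₀) * T1 := by
    have e : (K : ℝ) * ((22 + 640 * Cb * A₀ * K * r ^ (1 / 2 : ℝ)) * D)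
      = (K : ℝ) * (22 * D) + (640 * Cb * A₀ * D) * ((K : ℝ) ^ 2 * r ^ (1 / 2 : ℝ)) := by ring
    rw [e]
    have := mul_le_mul_of_nonneg_left p2 (show 0 ≤ 640 * Cb * A₀ * D by positivity)
    have e2 : (44 + 4 * 640 * Cb * A₀) * T1 = 44 * (ρ * D) + (640 * Cb * A₀ * D) * (4 * ρ) := by
      rw [hT1]; ring
    rw [e2]
    linarith
  have q2 : (K : ℝ) * ((40 * b + 10 * Cb * A₀) * K ^ 2 * dt ^ 2 + 10 * K ^ 2 * β ^ 2)
      ≤ 8 * (40 * b + 10 * Cb * A₀ + 10) * T2 := by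
    have e : (K : ℝ) * ((40 * b + 10 * Cb * A₀) * K ^ 2 * dt ^ 2 + 10 * K ^ 2 * β ^ 2)
      = ((40 * b + 10 * Cb * A₀) * dt ^ 2 + 10 * β ^ 2) * (K : ℝ) ^ 3 := by ring
    rw [e]
    have h1 := mul_le_mul_of_nonneg_left p3
      (show 0 ≤ (40 * b + 10 * Cb * A₀) * dt ^ 2 + 10 * β ^ 2 by positivity)
    refine h1.trans ?_
    have e3 : 8 * (40 * b + 10 * Cb * A₀ + 10) * T2
      - ((40 * b + 10 * Cb * A₀) * dt ^ 2 + 10 * β ^ 2) * (8 * σ)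
      = 8 * σ * (10 * dt ^ 2 + (40 * b + 10 * Cb * A₀) * β ^ 2) := by rw [hT2]; ring
    have e4 : 0 ≤ 8 * σ * (10 * dt ^ 2 + (40 * b + 10 * Cb * A₀) * β ^ 2) := by positivity
    linarith
  have q3 : (K : ℝ) * ((640 * Cb * A₀ + 4) * K * (CP * Real.exp (-ct * x)))
      ≤ (640 * Cb * A₀ + 4) * 4 * CP * F26 * g := by
    have e : (K : ℝ) * ((640 * Cb * A₀ + 4) * K * (CP * Real.exp (-ct * x)))
      = ((640 * Cb * A₀ + 4) * CP) * ((K : ℝ) ^ 2 * Real.exp (-ct * x)) := by ring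
    rw [e]
    have h1 := mul_le_mul_of_nonneg_left p4 (show 0 ≤ (640 * Cb * A₀ + 4) * CP by positivity)
    refine h1.trans (le_of_eq ?_)
    ring
  have q4 : (8 * Cl) * (Real.exp (-cl * r ^ (3 / 2 : ℝ)) ^ K
      / (1 - Real.exp (-cl * r ^ (3 / 2 : ℝ)))) ≤ 8 * Cl * ((1 + cl) / cl) * F12 * g := by
    have h1 := mul_le_mul_of_nonneg_left hgeo (show 0 ≤ 8 * Cl by positivity)
    refine h1.trans ?_
    have h2 := mul_le_mul_of_nonneg_left hE2 (show 0 ≤ 8 * Cl * ((1 + cl) / cl) by positivity)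
    calc 8 * Cl * ((1 + cl) / cl * (r ^ (-(3 / 2) : ℝ) * Real.exp (-cl * x)))
        = 8 * Cl * ((1 + cl) / cl) * (r ^ (-(3 / 2) : ℝ) * Real.exp (-cl * x)) := by ring
      _ ≤ _ := h2
      _ = _ := by ring
  have c1 : 0 ≤ 44 + 4 * 640 * Cb * A₀ := by positivity
  have c2 : 0 ≤ 8 * (40 * b + 10 * Cb * A₀ + 10) := by positivity
  have c3 : 0 ≤ (640 * Cb * A₀ + 4) * 4 * CP * F26 := by positivity
  have c4 : 0 ≤ 8 * Cl * ((1 + cl) / cl) * F12 := by positivity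
  set a1 := 44 + 4 * 640 * Cb * A₀
  set a2 := 8 * (40 * b + 10 * Cb * A₀ + 10)
  set a3 := (640 * Cb * A₀ + 4) * 4 * CP * F26
  set a4 := 8 * Cl * ((1 + cl) / cl) * F12
  have hexp : (a1 + a2 + a3 + a4) * (T1 + T2 + g)
      = a1 * T1 + a2 * T2 + a3 * g + a4 * g
        + (a1 * T2 + a1 * g + a2 * T1 + a2 * g + a3 * T1 + a3 * T2 + a4 * T1 + a4 * T2) := by ring
  have hrest : 0 ≤ a1 * T2 + a1 * g + a2 * T1 + a2 * g + a3 * T1 + a3 * T2 + a4 * T1 + a4 * T2 := by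
    positivity
  rw [hexp]
  have hsum : (K : ℝ) * ((22 + 640 * Cb * A₀ * K * r ^ (1 / 2 : ℝ)) * D
      + (40 * b + 10 * Cb * A₀) * K ^ 2 * dt ^ 2
        + 10 * K ^ 2 * β ^ 2
        + (640 * Cb * A₀ + 4) * K * (CP * Real.exp (-ct * x)))
      = (K : ℝ) * ((22 + 640 * Cb * A₀ * K * r ^ (1 / 2 : ℝ)) * D)
        + (K : ℝ) * ((40 * b + 10 * Cb * A₀) * K ^ 2 * dt ^ 2 + 10 * K ^ 2 * β ^ 2)
        + (K : ℝ) * ((640 * Cb * A₀ + 4) * K * (CP * Real.exp (-ct * x))) := by ring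
  rw [hsum]
  linarith

variable {V : Type*} {G : SimpleGraph V} [G.LocallyFinite]

/-- mean of the clipped edge function -/
noncomputable def bet (G : SimpleGraph V) [G.LocallyFinite] (θ r : ℝ) (x y : V) : ℝ :=
  ∫ ω, LL θ (cl (minf G θ r x ω)) (cl (minf G θ r y ω)) ∂(PP V)

lemma integral_FF (hT : G.IsTree) {θ θ' : ℝ} (h0 : 0 ≤ θ) (h2 : θ ^ 2 ≤ 1 / 2) (h0' : 0 ≤ θ')
    (h2' : θ' ^ 2 ≤ 1 / 2) (r : ℝ) (x y : V) :
    ∫ ω, FF G θ θ' r x y ω ∂(PP V) = bet G θ r x y - bet G θ' r x y := by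
  unfold FF bet
  refine integral_sub ?_ ?_
  · exact integrable_of_bdd (measurable_LLm θ r x y) (10 ^ 6) fun ω => abs_LL_cl_le h0 h2 _ _
  · exact integrable_of_bdd (measurable_LLm θ' r x y) (10 ^ 6) fun ω => abs_LL_cl_le h0' h2' _ _

set_option maxHeartbeats 1000000 in
/-- **inequality (A)** -/
theorem GA_main (hT : G.IsTree) {b : ℕ} (hb : 2 ≤ b) (hreg : G.IsRegularOfDegree (b + 1))
    (htail : ∃ C c : ℝ, 0 < C ∧ 0 < c ∧ ∀ θ, 0 ≤ θ → (b : ℝ) * θ ^ 2 < 1 → ∀ t, 0 < t →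
      t ≤ 1 / 2 → ∀ v : V, (PP V).real {ω | t ^ (1 / 4 : ℝ) < |minf G θ t v ω|}
        ≤ C * Real.exp (-c * t ^ (-(1 / 8) : ℝ)))
    (hlev : ∃ C c : ℝ, 0 < C ∧ 0 < c ∧ ∀ θ, thc b / 2 ≤ θ → θ < thc b → ∀ t, 0 < t → t ≤ 1 / 2 →
      ∀ (o : V) (k : ℕ),
      ((b : ℝ) * θ ^ 2) ^ k * ∫ ω, Alev G b θ (fun x => minf G θ t x ω) o k ∂(PP V)
        ≤ C * Real.exp (-c * t ^ (3 / 2 : ℝ) * k)) :
    ∃ C c : ℝ, 0 < C ∧ 0 < c ∧ ∀ θ θ', thc b / 2 ≤ θ → θ < thc b → thc b / 2 ≤ θ' → θ' < thc b →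
      ∀ (x y : V), G.Adj x y → ∀ r, 0 < r → r ≤ 1 / 2 → ∀ (v : V) (M : ℕ),
      ∑ n ∈ range M, Slev G θ θ' r v n ≤ C * (r ^ (-(11 / 4) : ℝ) * DD G θ θ' r v
        + r ^ (-(39 / 8) : ℝ) * ((bet G θ r x y - bet G θ' r x y) ^ 2 + (θ - θ') ^ 2)
        + Real.exp (-c * r ^ (-(1 / 8) : ℝ))) := by
  obtain ⟨Ct, ct, hCt, hct, htail⟩ := htail
  obtain ⟨Cl, cl', hCl, hcl, hlev⟩ := hlev
  obtain ⟨Cb, hCb, hbsv⟩ := bsv_noise hT hb hreg
  set A₀ : ℝ := 32 * 10 ^ 12 with hA₀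
  set CP : ℝ := Ct + Real.exp (2 * ct) with hCP
  have hb0 : (0 : ℝ) < b := by exact_mod_cast (by omega : 0 < b)
  have hCP0 : 0 < CP := by positivity
  refine ⟨(44 + 4 * 640 * Cb * A₀) + 8 * (40 * b + 10 * Cb * A₀ + 10)
        + (640 * Cb * A₀ + 4) * 4 * CP * ((26 : ℕ).factorial * (2 / ct) ^ 26)
        + 8 * Cl * ((1 + cl') / cl') * ((12 : ℕ).factorial * (2 / cl') ^ 12), min ct cl' / 2,
        by positivity, by positivity, ?_⟩
  intro θ θ' hθ1 hθ2 hθ1' hθ2' x y hxy r hr hr1 v M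
  obtain ⟨f0, f1, f2, f3, f4⟩ := theta_facts hb hθ1 hθ2
  obtain ⟨f0', f1', f2', f3', f4'⟩ := theta_facts hb hθ1' hθ2'
  set τ : ℝ := max θ θ' with hτd
  have hτ : θ ≤ τ := le_max_left _ _
  have hτ' : θ' ≤ τ := le_max_right _ _
  have hτ0 : 0 < τ := lt_of_lt_of_le f0 hτ
  have hτ1 : (b : ℝ) * τ ^ 2 ≤ 1 := by
    rcases max_cases θ θ' with ⟨h, _⟩ | ⟨h, _⟩
    · rw [hτd, h]; exact f3.le
    · rw [hτd, h]; exact f3'.le
  have hτ2 : 1 / (4 * (b : ℝ)) ≤ τ ^ 2 := f4.trans (pow_le_pow_left₀ f0.le hτ 2)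
  have hdt : (|θ - θ'| / τ) ^ 2 ≤ 4 * b * (θ - θ') ^ 2 := by
    rw [div_pow, sq_abs, div_le_iff₀ (by positivity)]
    have h1 : 1 ≤ 4 * b * τ ^ 2 := by
      rw [div_le_iff₀ (by positivity)] at hτ2
      linarith
    nlinarith [sq_nonneg (θ - θ')]
  set P : ℝ := CP * Real.exp (-ct * r ^ (-(1 / 8) : ℝ)) with hP
  have hPpos : 0 ≤ P := by positivity
  have hP1 : ∀ u : V, (PP V).real {ω : Om V | r ^ (1 / 4 : ℝ) < |minf G θ r u ω|} ≤ P :=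
    fun u => (htail θ f0.le f3 r hr hr1 u).trans (by
      rw [hP, hCP]
      have e1 := Real.exp_pos (-ct * r ^ (-(1 / 8) : ℝ))
      have e2 := Real.exp_pos (2 * ct)
      nlinarith)
  have hP1' : ∀ u : V, (PP V).real {ω : Om V | r ^ (1 / 4 : ℝ) < |minf G θ' r u ω|} ≤ P :=
    fun u => (htail θ' f0'.le f3' r hr hr1 u).trans (by
      rw [hP, hCP]
      have e1 := Real.exp_pos (-ct * r ^ (-(1 / 8) : ℝ))
      have e2 := Real.exp_pos (2 * ct)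
      nlinarith)
  have hP2 : ∀ u : V, (PP V).real {ω : Om V | 1 / 2 < |minf G θ r u ω|} ≤ P :=
    fun u => half_tail hr u Ct ct hCt hct (htail θ f0.le f3 r hr hr1 u)
  have hP2' : ∀ u : V, (PP V).real {ω : Om V | 1 / 2 < |minf G θ' r u ω|} ≤ P :=
    fun u => half_tail hr u Ct ct hCt hct (htail θ' f0'.le f3' r hr hr1 u)
  set β : ℝ := bet G θ r x y - bet G θ' r x y with hβ
  have hβ' : ∫ ω, FF G θ θ' r x y ω ∂(PP V) = β := integral_FF hT f0.le f2 f0'.le f2' r x y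
  have hD0 := DD_nonneg (G := G) θ θ' r v
  set E : ℝ := A₀ * (64 * r ^ (1 / 2 : ℝ) * DD G θ θ' r v + 64 * P + (θ - θ') ^ 2) with hE
  have hE' : ∫ ω, (FF G θ θ' r x y ω) ^ 2 ∂(PP V) ≤ E :=
    integral_FF_sq_le hT hreg f0.le f1 f2 f0'.le f1' f2' hr x y v P hP1 hP1'
  have hbsv' : ∀ (n : ℕ) (p : ℕ → V), IsNB G n p →
      ∫ ω, (∑ i ∈ range n, (FF G θ θ' r (p i) (p (i + 1)) ω
          - ∫ ω', FF G θ θ' r (p i) (p (i + 1)) ω' ∂(PP V))) ^ 2 ∂(PP V)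
        ≤ Cb * n * ∫ ω, (FF G θ θ' r x y ω - ∫ ω', FF G θ θ' r x y ω' ∂(PP V)) ^ 2 ∂(PP V) :=
    fun n p hp => hbsv (fun x y ω => FF G θ θ' r x y ω) (2 * 10 ^ 6)
      (fun x y => measurable_FF θ θ' r x y) (fun x y ω => abs_FF_le f0.le f2 f0'.le f2' r x y ω)
      (fun x y ω _ => FF_comm θ θ' r x y ω) (fun g x y ω => FF_act hT θ θ' r g x y ω) x y hxy n p hp
  set K : ℕ := ⌈r ^ (-(13 / 8) : ℝ)⌉₊ with hK
  have hrh : 0 ≤ r ^ (1 / 2 : ℝ) := (Real.rpow_pos_of_pos hr _).le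
  set B : ℝ := (22 + 640 * Cb * A₀ * K * r ^ (1 / 2 : ℝ)) * DD G θ θ' r v
      + (40 * b + 10 * Cb * A₀) * K ^ 2 * (θ - θ') ^ 2 + 10 * K ^ 2 * β ^ 2
      + (640 * Cb * A₀ + 4) * K * P with hB
  have hA₀' : 0 ≤ A₀ := by positivity
  have hB0 : 0 ≤ B := by positivity
  have hnear : ∀ n < K, Slev G θ θ' r v n ≤ B := by
    intro n hn
    have h3 := Slev_near hT hb hreg f0.le f1 f2 f0'.le f1' f2' hτ hτ' hτ0 hτ1 r (v := v) hxy P E Cb
      hCb hP2 hP2' hE' hbsv' n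
    rw [hβ'] at h3
    have hnK : (n : ℝ) + 1 ≤ K := by exact_mod_cast hn
    exact h3.trans (near_real (Nat.cast_nonneg n) hnK hD0 hb0.le hCb.le hPpos hrh hA₀' hdt rfl)
  have hfar : ∀ n, Slev G θ θ' r v n
      ≤ (8 * Cl) * Real.exp (-cl' * r ^ (3 / 2 : ℝ)) ^ n := by
    intro n
    have h3 := Slev_far hT hb f0.le f1 f0'.le f1' r v n
      (Cl * Real.exp (-cl' * r ^ (3 / 2 : ℝ) * n)) (hlev θ hθ1 hθ2 r hr hr1 v n)
      (hlev θ' hθ1' hθ2' r hr hr1 v n)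
    refine h3.trans (le_of_eq ?_)
    rw [← Real.exp_nat_mul]
    have : (n : ℝ) * (-cl' * r ^ (3 / 2 : ℝ)) = -cl' * r ^ (3 / 2 : ℝ) * n := by ring
    rw [this]; ring
  have hr32 : 0 < r ^ (3 / 2 : ℝ) := Real.rpow_pos_of_pos hr _
  have hq1 : Real.exp (-cl' * r ^ (3 / 2 : ℝ)) < 1 := by
    rw [Real.exp_lt_one_iff]
    nlinarith
  have hsplit := sum_split (fun n => Slev G θ θ' r v n) K M B (8 * Cl)
    (Real.exp (-cl' * r ^ (3 / 2 : ℝ))) hB0 (by positivity) (Real.exp_pos _).le hq1 hnear hfar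
  refine hsplit.trans ?_
  exact final_real hr hr1 hct hcl rfl hCP0.le hCl.le hD0 hb0.le hCb.le hA₀' K hK

end Crest.Agent.R160.GA
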