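import Mathlib
import Crest.Agent.R160.Calc

/-! # Row 160: abstract conclusion of the dynamic part

From the increment inequality (sup form), the two fixed-time inequalities (A) and (B) to
`D p t → 0` along the filter `F` (`p = (θ, θ')`). -/

set_option autoImplicit false

open Filter Topology

namespace Crest.Agent.R160.GC

/-- telescoping over a fine partition -/
theorem partition_le (f : ℝ → ℝ) (s t κ δ : ℝ) (hδ : 0 < δ) (hst : s ≤ t)
    (h : ∀ p q, s ≤ p → p ≤ q → q ≤ t → q - p ≤ δ → f q - f p ≤ κ * (q - p)) :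
    f t - f s ≤ κ * (t - s) := by
  have key : ∀ n : ℕ, ∀ x, s ≤ x → x ≤ t → x - s ≤ n * δ → f x - f s ≤ κ * (x - s) := by
    intro n
    induction n with
    | zero =>
      intro x h1 h2 h3
      have : x = s := by
        simp only [Nat.cast_zero, zero_mul] at h3
        linarith
      subst this
      simp
    | succ n ih =>
      intro x h1 h2 h3
      push_cast at h3
      by_cases hx : x - δ ≤ s
      · exact h s x le_rfl h1 h2 (by linarith)
      · push Not at hx
        have e1 := ih (x - δ) hx.le (by linarith) (by linarith)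
        have e2 := h (x - δ) x hx.le (by linarith) h2 (by linarith)
        linarith
  obtain ⟨n, hn⟩ := exists_nat_ge ((t - s) / δ)
  exact key n t hst le_rfl (by rwa [div_le_iff₀ hδ] at hn)

/-- limsup helper -/
theorem limsup_le_of_ev {ι : Type*} {F : Filter ι} [F.NeBot] {D : ι → ℝ} (h0 : ∀ p, 0 ≤ D p)
    {L : ℝ} (h : ∀ᶠ p in F, D p ≤ L) : limsup D F ≤ L :=
  limsup_le_of_le (isCoboundedUnder_le_of_le F (x := 0) h0) h

theorem ev_le_limsup {ι : Type*} {F : Filter ι} [F.NeBot] {D : ι → ℝ} {B : ℝ}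
    (h4 : ∀ p, D p ≤ B) {ε : ℝ} (hε : 0 < ε) : ∀ᶠ p in F, D p ≤ limsup D F + ε := by
  have hb : F.IsBoundedUnder (· ≤ ·) D := isBoundedUnder_of ⟨B, h4⟩
  exact (eventually_lt_of_limsup_lt (show limsup D F < limsup D F + ε by linarith) hb).mono
    fun p hp => hp.le

/-- passing an increment inequality to the limsup -/
theorem limsup_incr {ι : Type*} {F : Filter ι} [F.NeBot] {D1 D2 : ι → ℝ}
    (h20 : ∀ p, 0 ≤ D2 p) {B : ℝ} (h1B : ∀ p, D1 p ≤ B)
    (h2B : ∀ p, D2 p ≤ B) {κ e : ℝ} (hκ : 0 ≤ κ)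
    (h : ∀ ε > 0, ∀ᶠ p in F, D2 p - D1 p ≤ κ * D2 p + e + ε) :
    limsup D2 F - limsup D1 F ≤ κ * limsup D2 F + e := by
  refine le_of_forall_pos_le_add fun ε hε => ?_
  have hδ : 0 < ε / (κ + 2) := by positivity
  have hδe : ε / (κ + 2) * (κ + 2) = ε := by field_simp
  set δ := ε / (κ + 2)
  have h1 : limsup D2 F ≤ (limsup D1 F + δ) + (κ * (limsup D2 F + δ) + e + δ) := by
    apply limsup_le_of_ev h20
    filter_upwards [h δ hδ, ev_le_limsup h1B hδ, ev_le_limsup h2B hδ] with p hp1 hp2 hp3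
    have : κ * D2 p ≤ κ * (limsup D2 F + δ) := mul_le_mul_of_nonneg_left hp3 hκ
    linarith
  nlinarith

theorem aux_ineq (q a l T : ℝ) (hq : 0 ≤ q) (ha : 0 ≤ a) (hl : 0 ≤ l) (hT : 0 ≤ T) :
    q * l + 2 * (T * a) + (1 + T) * a ≤ (3 * (1 + T) * (1 + q)) * (a + l) := by
  have h1 : 0 ≤ (1 + T) * q * a := by positivity
  have h2 : 0 ≤ (1 + T) * l := by positivity
  have h3 : 0 ≤ T * (q * l) := by positivity
  have h4 : 0 ≤ q * l := by positivity
  have e : (3 * (1 + T) * (1 + q)) * (a + l) = 3 * a + 3 * (T * a) + 3 * ((1 + T) * q * a)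
      + 3 * ((1 + T) * l) + 3 * (q * l) + 3 * (T * (q * l)) := by ring
  rw [e]
  linarith

set_option maxHeartbeats 1600000 in
/-- **abstract conclusion** -/
theorem conclude {ι : Type*} (F : Filter ι) [F.NeBot] (D : ι → ℝ → ℝ) (S : ι → ℝ → ℕ → ℝ)
    (e : ι → ℝ → ℝ) (C c : ℝ) (hC : 0 < C) (hc : 0 < c)
    (hD0 : ∀ p t, 0 ≤ D p t) (hD4 : ∀ p t, D p t ≤ 4)
    (hmono : ∀ᶠ p in F, ∀ s t, 0 ≤ s → s ≤ t → D p s ≤ D p t)
    (hsmall : ∀ ε > 0, ∃ t, 0 < t ∧ ∀ᶠ p in F, D p t ≤ ε)
    (hincr : ∀ᶠ p in F, ∀ (k : ℕ) (s t B : ℝ), (k : ℝ) ≤ s → s ≤ t → t ≤ k + 1 / 2 →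
      (∀ r, s ≤ r → r ≤ t → ∀ M, S p r M ≤ B) →
      D p t ≤ D p s + 100 * (if k = 0 then t / 2 else 1 / 2) ^ 2 * (t - s) * B)
    (hidle : ∀ᶠ p in F, ∀ (k : ℕ) (s t : ℝ), (k : ℝ) + 1 / 2 ≤ s → s ≤ t → t ≤ k + 1 →
      D p t = D p s)
    (hGA : ∀ᶠ p in F, ∀ r, 0 < r → r ≤ 1 / 2 → ∀ M,
      S p r M ≤ C * (r ^ (-(11 / 4) : ℝ) * D p r + r ^ (-(39 / 8) : ℝ) * e p r
        + Real.exp (-c * r ^ (-(1 / 8) : ℝ))))
    (he0 : ∀ p r, 0 ≤ e p r)
    (he : ∀ t0 > 0, ∀ ε > 0, ∀ᶠ p in F, ∀ r, t0 ≤ r → e p r ≤ ε)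
    (hGB : ∀ s0 > 0, ∀ (N : ℕ), ∀ ε > 0, ∀ᶠ p in F, ∀ r, s0 ≤ r → ∀ M,
      S p r M ≤ C * ((N : ℝ) ^ 2 + ((min r 1) ^ 3)⁻¹) * D p r
        + C * ((min r 1) ^ 3)⁻¹ * Real.exp (-Real.exp (c * N)) + ε) :
    ∀ t, 0 < t → Tendsto (fun p => D p t) F (𝓝 0) := by
  intro t₀ ht₀
  set Db : ℝ → ℝ := fun t => limsup (fun p => D p t) F with hDb
  have hDb0 : ∀ t, 0 ≤ Db t := fun t =>
    le_limsup_of_frequently_le (Eventually.of_forall fun p => hD0 p t).frequently
      (isBoundedUnder_of ⟨4, fun p => hD4 p t⟩)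
  set T : ℝ := max t₀ 1 with hT
  have hT1 : 1 ≤ T := le_max_right _ _
  -- small times
  have h0 : Tendsto Db (𝓝[>] 0) (𝓝 0) := by
    rw [Metric.tendsto_nhdsWithin_nhds]
    intro ε hε
    obtain ⟨t1, ht1, hev⟩ := hsmall (ε / 2) (by positivity)
    refine ⟨t1, ht1, fun t ht htd => ?_⟩
    have ht' : t < t1 := by
      rw [Real.dist_eq, sub_zero, abs_of_pos ht] at htd
      exact htd
    rw [Real.dist_eq, sub_zero, abs_of_nonneg (hDb0 t)]
    have : Db t ≤ ε / 2 := by
      apply limsup_le_of_ev (fun p => hD0 p t)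
      filter_upwards [hev, hmono] with p hp hm
      exact (hm t t1 (le_of_lt ht) ht'.le).trans hp
    linarith
  -- (A)
  have hA : ∀ s t, 0 < s → s ≤ t → t ≤ 2 * s → t ≤ 1 / 2 →
      Db t - Db s ≤ (100 * C) * (t - s) *
        (s ^ (-1 + 1 / 4 : ℝ) * Db t + Real.exp (-(c / 2) * s ^ (-(1 / 8 : ℝ)))) := by
    intro s t hs hst hts ht
    have hts0 : 0 ≤ t - s := by linarith
    have ht1 : t ≤ 1 := by linarith
    have hs1 : s ≤ 1 := by linarith
    have key := limsup_incr (F := F) (D1 := fun p => D p s) (D2 := fun p => D p t)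
      (fun p => hD0 p t) (fun p => hD4 p s) (fun p => hD4 p t)
      (κ := (100 * C) * (t - s) * s ^ (-1 + 1 / 4 : ℝ))
      (e := (100 * C) * (t - s) * Real.exp (-(c / 2) * s ^ (-(1 / 8 : ℝ)))) (by positivity) ?_
    · show limsup (fun p => D p t) F - limsup (fun p => D p s) F ≤ _
      refine key.trans (le_of_eq ?_)
      ring
    · intro ε hε
      set ε' : ℝ := ε / (100 * C * (s ^ (-(39 / 8) : ℝ)) * 1 + 1) with hε'
      have hs39 : 0 < s ^ (-(39 / 8) : ℝ) := Real.rpow_pos_of_pos hs _
      have hε'0 : 0 < ε' := by positivity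
      filter_upwards [hincr, hGA, hmono, he s hs ε' hε'0] with p h1 h2 h3 h4
      set B : ℝ := C * (s ^ (-(11 / 4) : ℝ) * D p t + s ^ (-(39 / 8) : ℝ) * ε'
        + Real.exp (-(c / 2) * s ^ (-(1 / 8) : ℝ))) with hB
      have hB' : ∀ r, s ≤ r → r ≤ t → ∀ M, S p r M ≤ B := by
        intro r hr1 hr2 M
        have hr0 : 0 < r := by linarith
        refine (h2 r hr0 (by linarith) M).trans ?_
        rw [hB]
        refine mul_le_mul_of_nonneg_left ?_ hC.le
        have a1 : r ^ (-(11 / 4) : ℝ) ≤ s ^ (-(11 / 4) : ℝ) :=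
          Real.rpow_le_rpow_of_nonpos hs hr1 (by norm_num)
        have a2 : r ^ (-(39 / 8) : ℝ) ≤ s ^ (-(39 / 8) : ℝ) :=
          Real.rpow_le_rpow_of_nonpos hs hr1 (by norm_num)
        have a3 : D p r ≤ D p t := h3 r t hr0.le hr2
        have a4 : s ^ (-(1 / 8) : ℝ) / 2 ≤ r ^ (-(1 / 8) : ℝ) := by
          have b1 : (2 * s) ^ (-(1 / 8) : ℝ) ≤ r ^ (-(1 / 8) : ℝ) :=
            Real.rpow_le_rpow_of_nonpos hr0 (by linarith) (by norm_num)
          have b2 : (2 * s) ^ (-(1 / 8) : ℝ) = 2 ^ (-(1 / 8) : ℝ) * s ^ (-(1 / 8) : ℝ) :=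
            Real.mul_rpow (by norm_num) hs.le
          have b3 : (1 / 2 : ℝ) ≤ 2 ^ (-(1 / 8) : ℝ) := by
            have : (2 : ℝ) ^ (-1 : ℝ) ≤ 2 ^ (-(1 / 8) : ℝ) :=
              Real.rpow_le_rpow_of_exponent_le (by norm_num) (by norm_num)
            rw [Real.rpow_neg_one] at this
            linarith
          have b4 : 0 < s ^ (-(1 / 8) : ℝ) := Real.rpow_pos_of_pos hs _
          rw [b2] at b1
          nlinarith
        have a5 : Real.exp (-c * r ^ (-(1 / 8) : ℝ)) ≤ Real.exp (-(c / 2) * s ^ (-(1 / 8) : ℝ)) := by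
          apply Real.exp_le_exp.2
          nlinarith
        have a6 : r ^ (-(11 / 4) : ℝ) * D p r ≤ s ^ (-(11 / 4) : ℝ) * D p t :=
          mul_le_mul a1 a3 (hD0 p r) (Real.rpow_pos_of_pos hs _).le
        have a7 : r ^ (-(39 / 8) : ℝ) * e p r ≤ s ^ (-(39 / 8) : ℝ) * ε' :=
          mul_le_mul a2 (h4 r hr1) (he0 p r) hs39.le
        linarith
      have h5 := h1 0 s t B (by simpa using hs.le) hst (by simpa using ht) hB'
      simp only [if_true] at h5
      have hBnn : 0 ≤ B := by
        have := hD0 p t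
        positivity
      have h6 : (t / 2) ^ 2 ≤ s ^ 2 := by
        apply pow_le_pow_left₀ (by linarith) (by linarith)
      have h7 : 100 * (t / 2) ^ 2 * (t - s) * B ≤ 100 * s ^ 2 * (t - s) * B := by
        apply mul_le_mul_of_nonneg_right _ hBnn
        apply mul_le_mul_of_nonneg_right _ hts0
        linarith
      have h8 : s ^ 2 * s ^ (-(11 / 4) : ℝ) ≤ s ^ (-1 + 1 / 4 : ℝ) := by
        rw [← Real.rpow_natCast s 2, ← Real.rpow_add hs]
        norm_num
      have h9 : s ^ 2 ≤ 1 := pow_le_one₀ hs.le hs1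
      have h10 : 100 * s ^ 2 * (t - s) * B ≤ (100 * C) * (t - s) * s ^ (-1 + 1 / 4 : ℝ) * D p t
          + (100 * C) * (t - s) * Real.exp (-(c / 2) * s ^ (-(1 / 8 : ℝ)))
          + 100 * C * s ^ (-(39 / 8) : ℝ) * ε' := by
        rw [hB]
        have c1 : 100 * s ^ 2 * (t - s) * (C * (s ^ (-(11 / 4) : ℝ) * D p t
            + s ^ (-(39 / 8) : ℝ) * ε' + Real.exp (-(c / 2) * s ^ (-(1 / 8) : ℝ))))
            = (100 * C * (t - s) * D p t) * (s ^ 2 * s ^ (-(11 / 4) : ℝ))
              + (100 * C * (t - s) * Real.exp (-(c / 2) * s ^ (-(1 / 8) : ℝ))) * s ^ 2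
              + (100 * C * s ^ (-(39 / 8) : ℝ) * ε') * (s ^ 2 * (t - s)) := by ring
        rw [c1]
        have d1 : (100 * C * (t - s) * D p t) * (s ^ 2 * s ^ (-(11 / 4) : ℝ))
            ≤ (100 * C * (t - s) * D p t) * s ^ (-1 + 1 / 4 : ℝ) :=
          mul_le_mul_of_nonneg_left h8 (by have := hD0 p t; positivity)
        have d2 : (100 * C * (t - s) * Real.exp (-(c / 2) * s ^ (-(1 / 8) : ℝ))) * s ^ 2
            ≤ (100 * C * (t - s) * Real.exp (-(c / 2) * s ^ (-(1 / 8) : ℝ))) * 1 :=
          mul_le_mul_of_nonneg_left h9 (by positivity)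
        have d3 : (100 * C * s ^ (-(39 / 8) : ℝ) * ε') * (s ^ 2 * (t - s))
            ≤ (100 * C * s ^ (-(39 / 8) : ℝ) * ε') * 1 := by
          apply mul_le_mul_of_nonneg_left _ (by positivity)
          calc s ^ 2 * (t - s) ≤ 1 * 1 := mul_le_mul h9 (by linarith) hts0 zero_le_one
            _ = 1 := one_mul 1
        have e1 : -(1 / 8 : ℝ) = (-(1 / 8) : ℝ) := rfl
        linarith
      have h11 : 100 * C * s ^ (-(39 / 8) : ℝ) * ε' ≤ ε := by
        rw [hε', ← mul_div_assoc, div_le_iff₀ (by positivity)]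
        nlinarith [mul_pos (mul_pos (by norm_num : (0:ℝ) < 100) hC) hs39]
      linarith
  -- (B)
  have hB : ∀ s t L, 0 < s → s ≤ t → t ≤ T → 1 ≤ L →
      Db t - Db s ≤ (100 * C * (3 * (1 + T) * (1 + 2 / c ^ 2))) * (t - s)
        * ((1 / s + (Real.log L) ^ 2) * Db t + Real.exp (-1 * L) / s) := by
    intro s t L hs hst htT hL
    have hts0 : 0 ≤ t - s := by linarith
    have hlog : 0 ≤ Real.log L := Real.log_nonneg hL
    set N : ℕ := ⌈Real.log L / c⌉₊ with hN
    have hN1 : Real.log L / c ≤ N := Nat.le_ceil _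
    have hN2 : (N : ℝ) < Real.log L / c + 1 := Nat.ceil_lt_add_one (by positivity)
    have hexp : Real.exp (-Real.exp (c * N)) ≤ Real.exp (-1 * L) := by
      apply Real.exp_le_exp.2
      have : L ≤ Real.exp (c * N) := by
        rw [← Real.log_le_iff_le_exp (by linarith)]
        rw [div_le_iff₀ hc] at hN1
        linarith
      linarith
    have hNsq : (N : ℝ) ^ 2 ≤ 2 * ((Real.log L) ^ 2 / c ^ 2) + 2 := by
      have h1 : (N : ℝ) ^ 2 ≤ (Real.log L / c + 1) ^ 2 :=
        pow_le_pow_left₀ (Nat.cast_nonneg _) hN2.le 2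
      have h2 : (Real.log L / c) ^ 2 = (Real.log L) ^ 2 / c ^ 2 := by rw [div_pow]
      nlinarith [sq_nonneg (Real.log L / c - 1)]
    set K : ℝ := C * ((N : ℝ) ^ 2 + (1 + T) / s) with hK
    have hK0 : 0 ≤ K := by positivity
    set E : ℝ := C * ((1 + T) / s) * Real.exp (-1 * L) with hE
    have hE0 : 0 ≤ E := by positivity
    have key := limsup_incr (F := F) (D1 := fun p => D p s) (D2 := fun p => D p t)
      (fun p => hD0 p t) (fun p => hD4 p s) (fun p => hD4 p t)
      (κ := 100 * (t - s) * K)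
      (e := 100 * (t - s) * E) (by positivity) ?_
    · show limsup (fun p => D p t) F - limsup (fun p => D p s) F ≤ _
      refine key.trans ?_
      have hDt := hDb0 t
      have f0 : (1 : ℝ) ≤ T / s := by rw [le_div_iff₀ hs]; linarith
      have f1 : K ≤ C * (3 * (1 + T) * (1 + 2 / c ^ 2)) * (1 / s + (Real.log L) ^ 2) := by
        have g1 : (N : ℝ) ^ 2 + (1 + T) / s
            ≤ (3 * (1 + T) * (1 + 2 / c ^ 2)) * (1 / s + (Real.log L) ^ 2) := by
          have g2 : (2 : ℝ) ≤ 2 * (T / s) := by linarith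
          have g6 : 2 * ((Real.log L) ^ 2 / c ^ 2) = (2 / c ^ 2) * (Real.log L) ^ 2 := by ring
          have g7 : T / s = T * (1 / s) := by ring
          have g8 : (1 + T) / s = (1 + T) * (1 / s) := by ring
          have g0 := aux_ineq (2 / c ^ 2) (1 / s) ((Real.log L) ^ 2) T (by positivity)
            (by positivity) (by positivity) (by positivity)
          linarith
        calc K = C * ((N : ℝ) ^ 2 + (1 + T) / s) := rfl
          _ ≤ C * ((3 * (1 + T) * (1 + 2 / c ^ 2)) * (1 / s + (Real.log L) ^ 2)) :=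
            mul_le_mul_of_nonneg_left g1 hC.le
          _ = _ := by ring
      have f2 : E ≤ C * (3 * (1 + T) * (1 + 2 / c ^ 2)) * (Real.exp (-1 * L) / s) := by
        have g1 : (1 + T) ≤ 3 * (1 + T) * (1 + 2 / c ^ 2) := by
          have : 0 ≤ 2 / c ^ 2 := by positivity
          nlinarith
        calc E = (C * (Real.exp (-1 * L) / s)) * (1 + T) := by rw [hE]; ring
          _ ≤ (C * (Real.exp (-1 * L) / s)) * (3 * (1 + T) * (1 + 2 / c ^ 2)) :=
            mul_le_mul_of_nonneg_left g1 (by positivity)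
          _ = _ := by ring
      have f3 : K * Db t ≤ C * (3 * (1 + T) * (1 + 2 / c ^ 2)) * (1 / s + (Real.log L) ^ 2) * Db t :=
        mul_le_mul_of_nonneg_right f1 hDt
      have f4 : 100 * (t - s) * (K * Db t + E) ≤ 100 * (t - s) *
          (C * (3 * (1 + T) * (1 + 2 / c ^ 2)) * (1 / s + (Real.log L) ^ 2) * Db t
            + C * (3 * (1 + T) * (1 + 2 / c ^ 2)) * (Real.exp (-1 * L) / s)) :=
        mul_le_mul_of_nonneg_left (by linarith) (by positivity)
      calc 100 * (t - s) * K * Db t + 100 * (t - s) * E = 100 * (t - s) * (K * Db t + E) := by ring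
        _ ≤ _ := f4
        _ = _ := by ring
    · intro ε hε
      set ε' : ℝ := ε / (100 * (t - s) + 1) with hε'
      have hε'0 : 0 < ε' := by positivity
      filter_upwards [hincr, hidle, hmono, hGB s hs N ε' hε'0] with p h1 h2 h3 h4
      have hκ0 : 0 ≤ 100 * (K * D p t + E + ε') := by
        have := hD0 p t
        positivity
      -- half-round windows
      have hwin : ∀ (j : ℕ) (x y : ℝ), s ≤ x → x ≤ y → y ≤ t → y ≤ 2 * x → (j : ℝ) / 2 ≤ x →
          y ≤ ((j : ℝ) + 1) / 2 → D p y - D p x ≤ 100 * (K * D p t + E + ε') * (y - x) := by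
        intro j x y hsx hxy hyt hyx hjx hyj
        have hx0 : 0 < x := by linarith
        have hyx0 : 0 ≤ y - x := by linarith
        obtain ⟨k, hk | hk⟩ := Nat.even_or_odd' j
        · -- active
          have hkx : (k : ℝ) ≤ x := by rw [hk] at hjx; push_cast at hjx; linarith
          have hyk : y ≤ k + 1 / 2 := by rw [hk] at hyj; push_cast at hyj; linarith
          have hmx : 0 < min x 1 := lt_min hx0 one_pos
          set B : ℝ := C * ((N : ℝ) ^ 2 + ((min x 1) ^ 3)⁻¹) * D p t
            + C * ((min x 1) ^ 3)⁻¹ * Real.exp (-1 * L) + ε' with hBd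
          have hBnn : 0 ≤ B := by
            have := hD0 p t
            positivity
          have hB' : ∀ r, x ≤ r → r ≤ y → ∀ M, S p r M ≤ B := by
            intro r hr1 hr2 M
            refine (h4 r (by linarith) M).trans ?_
            have a0 : min x 1 ≤ min r 1 := min_le_min_right _ hr1
            have a1 : ((min r 1) ^ 3)⁻¹ ≤ ((min x 1) ^ 3)⁻¹ := by
              apply inv_anti₀ (by positivity)
              exact pow_le_pow_left₀ hmx.le a0 3
            have a2 : D p r ≤ D p t := h3 r t (by linarith) (by linarith)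
            have a3 : 0 ≤ ((min r 1) ^ 3)⁻¹ := by
              have : 0 < min r 1 := lt_of_lt_of_le hmx a0
              positivity
            rw [hBd]
            have b1 : C * ((N : ℝ) ^ 2 + ((min r 1) ^ 3)⁻¹) * D p r
                ≤ C * ((N : ℝ) ^ 2 + ((min x 1) ^ 3)⁻¹) * D p t := by
              apply mul_le_mul _ a2 (hD0 p r) (by positivity)
              apply mul_le_mul_of_nonneg_left _ hC.le
              linarith
            have b2 : C * ((min r 1) ^ 3)⁻¹ * Real.exp (-Real.exp (c * N))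
                ≤ C * ((min x 1) ^ 3)⁻¹ * Real.exp (-1 * L) := by
              apply mul_le_mul _ hexp (Real.exp_pos _).le (by positivity)
              exact mul_le_mul_of_nonneg_left a1 hC.le
            linarith
          have h5 := h1 k x y B hkx hxy hyk hB'
          -- strength bound
          have h6 : (if k = 0 then y / 2 else 1 / 2 : ℝ) ^ 2 ≤ (min x 1) ^ 2 := by
            apply pow_le_pow_left₀
            · split_ifs <;> linarith
            · split_ifs with hk0
              · apply le_min (by linarith)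
                subst hk0
                simp only [Nat.cast_zero, zero_add] at hyk
                linarith
              · have : (1 : ℝ) ≤ k := by exact_mod_cast Nat.one_le_iff_ne_zero.2 hk0
                apply le_min <;> linarith
          have h7 : 100 * (if k = 0 then y / 2 else 1 / 2 : ℝ) ^ 2 * (y - x) * B
              ≤ 100 * (min x 1) ^ 2 * (y - x) * B := by
            apply mul_le_mul_of_nonneg_right _ hBnn
            apply mul_le_mul_of_nonneg_right _ hyx0
            linarith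
          have h8 : (min x 1) ^ 2 * ((min x 1) ^ 3)⁻¹ ≤ (1 + T) / s := by
            have : (min x 1) ^ 2 * ((min x 1) ^ 3)⁻¹ = (min x 1)⁻¹ := by
              field_simp
            rw [this, inv_eq_one_div, div_le_div_iff₀ hmx hs, one_mul]
            rcases min_cases x 1 with ⟨h, _⟩ | ⟨h, _⟩
            · rw [h]; nlinarith
            · rw [h]; nlinarith
          have h9 : (min x 1) ^ 2 ≤ 1 := pow_le_one₀ hmx.le (min_le_right _ _)
          have h10 : (min x 1) ^ 2 * B ≤ K * D p t + E + ε' := by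
            have hDt := hD0 p t
            have c1 : (min x 1) ^ 2 * B = (C * D p t * (N : ℝ) ^ 2) * (min x 1) ^ 2
              + (C * D p t) * ((min x 1) ^ 2 * ((min x 1) ^ 3)⁻¹)
              + (C * Real.exp (-1 * L)) * ((min x 1) ^ 2 * ((min x 1) ^ 3)⁻¹)
              + ε' * (min x 1) ^ 2 := by rw [hBd]; ring
            rw [c1]
            have d1 : (C * D p t * (N : ℝ) ^ 2) * (min x 1) ^ 2 ≤ (C * D p t * (N : ℝ) ^ 2) * 1 :=
              mul_le_mul_of_nonneg_left h9 (by positivity)
            have d2 : (C * D p t) * ((min x 1) ^ 2 * ((min x 1) ^ 3)⁻¹)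
                ≤ (C * D p t) * ((1 + T) / s) := mul_le_mul_of_nonneg_left h8 (by positivity)
            have d3 : (C * Real.exp (-1 * L)) * ((min x 1) ^ 2 * ((min x 1) ^ 3)⁻¹)
                ≤ (C * Real.exp (-1 * L)) * ((1 + T) / s) :=
              mul_le_mul_of_nonneg_left h8 (by positivity)
            have d4 : ε' * (min x 1) ^ 2 ≤ ε' * 1 := mul_le_mul_of_nonneg_left h9 hε'0.le
            have d5 : K * D p t = C * D p t * (N : ℝ) ^ 2 + C * D p t * ((1 + T) / s) := by
              rw [hK]; ring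
            have d6 : E = C * Real.exp (-1 * L) * ((1 + T) / s) := by rw [hE]; ring
            linarith
          have h11 : 100 * (min x 1) ^ 2 * (y - x) * B ≤ 100 * (K * D p t + E + ε') * (y - x) := by
            have : 100 * (min x 1) ^ 2 * (y - x) * B = (100 * (y - x)) * ((min x 1) ^ 2 * B) := by ring
            rw [this]
            have := mul_le_mul_of_nonneg_left h10 (show 0 ≤ 100 * (y - x) by positivity)
            linarith
          linarith
        · -- idle
          have hkx : (k : ℝ) + 1 / 2 ≤ x := by rw [hk] at hjx; push_cast at hjx; linarith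
          have hyk : y ≤ k + 1 := by rw [hk] at hyj; push_cast at hyj; linarith
          rw [h2 k x y hkx hxy hyk, sub_self]
          positivity
      have hpart := partition_le (fun x => D p x) s t (100 * (K * D p t + E + ε'))
        (min (1 / 4) s) (by positivity) hst ?_
      · have e1 : 100 * (K * D p t + E + ε') * (t - s)
            = 100 * (t - s) * K * D p t + 100 * (t - s) * E + (100 * (t - s)) * ε' := by ring
        have e2 : (100 * (t - s)) * ε' ≤ ε := by
          rw [hε', ← mul_div_assoc, div_le_iff₀ (by positivity)]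
          nlinarith
        linarith
      · intro x y hsx hxy hyt hyx
        have hy1 : y - x ≤ 1 / 4 := hyx.trans (min_le_left _ _)
        have hy2 : y - x ≤ s := hyx.trans (min_le_right _ _)
        have hx0 : 0 < x := by linarith
        have hy0 : 0 < y := by linarith
        set j : ℕ := ⌊2 * y⌋₊ with hj
        have hj1 : (j : ℝ) ≤ 2 * y := Nat.floor_le (by positivity)
        have hj2 : 2 * y < j + 1 := Nat.lt_floor_add_one _
        by_cases hjx : (j : ℝ) / 2 ≤ x
        · exact hwin j x y hsx hxy hyt (by linarith) hjx (by linarith)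
        · push Not at hjx
          obtain ⟨i, hi⟩ : ∃ i, j = i + 1 := by
            cases hjc : j with
            | zero => rw [hjc] at hjx; simp at hjx; linarith
            | succ i => exact ⟨i, rfl⟩
          have hi' : (j : ℝ) = i + 1 := by rw [hi]; push_cast; ring
          have w1 := hwin j ((j : ℝ) / 2) y (by linarith) (by linarith) hyt (by linarith) le_rfl
            (by linarith)
          have w2 := hwin i x ((j : ℝ) / 2) hsx hjx.le (by linarith) (by linarith)
            (by linarith) (by linarith)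
          linarith
  -- put together
  set Cm : ℝ := max (100 * C) (100 * C * (3 * (1 + T) * (1 + 2 / c ^ 2))) with hCm
  set cm : ℝ := min (c / 2) 1 with hcm
  have hCm0 : 0 < Cm := lt_max_of_lt_left (by positivity)
  have hcm0 : 0 < cm := lt_min (by positivity) one_pos
  have hfin : Db t₀ = 0 := by
    refine Calc.calc_main Db T Cm (1 / 4) (1 / 8) cm (1 / 2) hCm0 (by norm_num) (by norm_num) hcm0
      (by norm_num) (by linarith) (fun t _ _ => hDb0 t) h0 ?_ ?_ t₀ ht₀ (le_max_left _ _)
    · intro s t hs hst h2s ht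
      refine (hA s t hs hst h2s ht).trans ?_
      have h1 : 0 ≤ t - s := by linarith
      have h2 : 0 ≤ s ^ (-1 + 1 / 4 : ℝ) * Db t := mul_nonneg (Real.rpow_nonneg hs.le _) (hDb0 t)
      have h3 : Real.exp (-(c / 2) * s ^ (-(1 / 8 : ℝ))) ≤ Real.exp (-cm * s ^ (-(1 / 8 : ℝ))) := by
        apply Real.exp_le_exp.2
        have : cm ≤ c / 2 := min_le_left _ _
        have h4 : 0 ≤ s ^ (-(1 / 8 : ℝ)) := Real.rpow_nonneg hs.le _
        nlinarith
      apply mul_le_mul _ (by linarith) (by positivity) (by positivity)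
      exact mul_le_mul_of_nonneg_right (le_max_left _ _) h1
    · intro s t L hs hst ht hL
      refine (hB s t L hs hst ht hL).trans ?_
      have h1 : 0 ≤ t - s := by linarith
      have h2 : 0 ≤ (1 / s + (Real.log L) ^ 2) * Db t := mul_nonneg (by positivity) (hDb0 t)
      have h3 : Real.exp (-1 * L) / s ≤ Real.exp (-cm * L) / s := by
        apply div_le_div_of_nonneg_right _ hs.le
        apply Real.exp_le_exp.2
        have : cm ≤ 1 := min_le_right _ _
        nlinarith
      apply mul_le_mul _ (by linarith) (by positivity) (by positivity)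
      exact mul_le_mul_of_nonneg_right (le_max_right _ _) h1
  rw [Metric.tendsto_nhds]
  intro ε hε
  filter_upwards [ev_le_limsup (F := F) (D := fun p => D p t₀) (fun p => hD4 p t₀)
    (half_pos hε)] with p hp
  rw [Real.dist_eq, sub_zero, abs_of_nonneg (hD0 p t₀)]
  have : limsup (fun p => D p t₀) F = 0 := hfin
  rw [this] at hp
  linarith

end Crest.Agent.R160.GC
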