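import Mathlib
import Crest.Agent.R160.GAMain
import Crest.Agent.R160.GCAbs
import Crest.Agent.R160.DDIncr

/-! # Row 160, module GC: Cauchy property at the critical parameter -/

set_option autoImplicit false

open MeasureTheory Finset Filter Topology
open scoped Classical

namespace Crest.Agent.R160.GC

open Crest.Agent.R160 Crest.Agent.R160.TreeAut Crest.Agent.R160.GA

lemma continuous_LL_cl {θ : ℝ} (h0 : 0 ≤ θ) (h2 : θ ^ 2 ≤ 1 / 2) :
    Continuous (Function.uncurry fun a b : ℝ => LL θ (cl a) (cl b)) := by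
  rw [continuous_iff_continuousAt]
  rintro ⟨a, b⟩
  rw [ContinuousAt, tendsto_iff_dist_tendsto_zero]
  have h1 : Tendsto (fun p : ℝ × ℝ => 8 * 10 ^ 6 * (|cl p.1 - cl a| + |cl p.2 - cl b|))
      (𝓝 (a, b)) (𝓝 0) := by
    have h : Continuous fun p : ℝ × ℝ => 8 * 10 ^ 6 * (|cl p.1 - cl a| + |cl p.2 - cl b|) := by
      have c1 : Continuous fun p : ℝ × ℝ => cl p.1 := continuous_cl.comp continuous_fst
      have c2 : Continuous fun p : ℝ × ℝ => cl p.2 := continuous_cl.comp continuous_snd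
      fun_prop
    have := h.tendsto (a, b)
    simpa using this
  refine squeeze_zero (fun _ => dist_nonneg) (fun p => ?_) h1
  rw [Real.dist_eq]
  simp only [Function.uncurry]
  have h3 := LL_diff' h0 h2 h0 h2 (abs_cl_le p.1) (abs_cl_le p.2) (abs_cl_le a) (abs_cl_le b)
  rw [sub_self, abs_zero, add_zero] at h3
  have c1 := abs_cl_le p.1
  have c2 := abs_cl_le p.2
  have c3 := abs_cl_le a
  have c4 := abs_cl_le b
  have h5 : (|cl p.1| + |cl p.2| + |cl a| + |cl b|) * (|cl p.1 - cl a| + |cl p.2 - cl b|)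
      ≤ 2 * (|cl p.1 - cl a| + |cl p.2 - cl b|) :=
    mul_le_mul_of_nonneg_right (by linarith) (by positivity)
  linarith

variable {V : Type*} {G : SimpleGraph V} [G.LocallyFinite]

lemma bet_le {θ θ₀ : ℝ} (h0 : 0 ≤ θ) (h2 : θ ^ 2 ≤ 1 / 2) (h0' : 0 ≤ θ₀) (h2' : θ₀ ^ 2 ≤ 1 / 2)
    (r : ℝ) (x y : V) :
    |bet G θ r x y - ∫ ω, LL θ₀ (cl (minf G θ r x ω)) (cl (minf G θ r y ω)) ∂(PP V)|
      ≤ 4 * 10 ^ 6 * |θ - θ₀| := by
  have hm : Measurable fun ω : Om V => LL θ₀ (cl (minf G θ r x ω)) (cl (minf G θ r y ω)) := by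
    have h1 : Measurable fun ω : Om V => cl (minf G θ r x ω) :=
      measurable_cl.comp (meas_minf θ r x)
    have h2 : Measurable fun ω : Om V => cl (minf G θ r y ω) :=
      measurable_cl.comp (meas_minf θ r y)
    change Measurable ((fun p : ℝ × ℝ => LL θ₀ p.1 p.2) ∘
      fun ω : Om V => (cl (minf G θ r x ω), cl (minf G θ r y ω)))
    exact (measurable_LL θ₀).comp (h1.prodMk h2)
  have i1 : Integrable (fun ω : Om V => LL θ (cl (minf G θ r x ω)) (cl (minf G θ r y ω))) (PP V) :=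
    GA.integrable_of_bdd (measurable_LLm θ r x y) (10 ^ 6) fun ω => abs_LL_cl_le h0 h2 _ _
  have i2 : Integrable (fun ω : Om V => LL θ₀ (cl (minf G θ r x ω)) (cl (minf G θ r y ω))) (PP V) :=
    GA.integrable_of_bdd hm (10 ^ 6) fun ω => abs_LL_cl_le h0' h2' _ _
  unfold bet
  rw [← integral_sub i1 i2]
  have hpt : ∀ ω : Om V, ‖LL θ (cl (minf G θ r x ω)) (cl (minf G θ r y ω))
      - LL θ₀ (cl (minf G θ r x ω)) (cl (minf G θ r y ω))‖ ≤ 4 * 10 ^ 6 * |θ - θ₀| := by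
    intro ω
    have h3 := LL_diff' h0 h2 h0' h2' (abs_cl_le (minf G θ r x ω)) (abs_cl_le (minf G θ r y ω))
      (abs_cl_le (minf G θ r x ω)) (abs_cl_le (minf G θ r y ω))
    simp only [sub_self, abs_zero, add_zero, mul_zero, zero_add] at h3
    rw [Real.norm_eq_abs]
    exact h3
  have := norm_integral_le_of_norm_le_const (μ := PP V) (Eventually.of_forall hpt)
  simpa using this

/-- from a neighbourhood statement to an eventual statement -/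
lemma ev_of_exists {b : ℕ} {p : ℝ → ℝ → Prop}
    (h : ∃ δ, 0 < δ ∧ ∀ θ θ', thc b - δ < θ → θ < thc b → thc b - δ < θ' → θ' < thc b → p θ θ') :
    ∀ᶠ q in (𝓝[<] (thc b)) ×ˢ (𝓝[<] (thc b)), p q.1 q.2 := by
  obtain ⟨δ, hδ, h⟩ := h
  have h1 : ∀ᶠ θ in 𝓝[<] (thc b), thc b - δ < θ ∧ θ < thc b := by
    have : Set.Ioo (thc b - δ) (thc b) ∈ 𝓝[<] (thc b) := Ioo_mem_nhdsLT (by linarith)
    filter_upwards [this] with θ hθ using ⟨hθ.1, hθ.2⟩
  filter_upwards [h1.prod_mk h1] with q hq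
  exact h q.1 q.2 hq.1.1 hq.1.2 hq.2.1 hq.2.2

lemma exists_of_ev {b : ℕ} {p : ℝ → ℝ → Prop}
    (h : ∀ᶠ q in (𝓝[<] (thc b)) ×ˢ (𝓝[<] (thc b)), p q.1 q.2) :
    ∃ δ, 0 < δ ∧ ∀ θ θ', thc b - δ < θ → θ < thc b → thc b - δ < θ' → θ' < thc b → p θ θ' := by
  rw [eventually_prod_iff] at h
  obtain ⟨pa, ha, pb, hb, h⟩ := h
  have key : ∀ p : ℝ → Prop, (∀ᶠ θ in 𝓝[<] (thc b), p θ) →
      ∃ δ, 0 < δ ∧ ∀ θ, thc b - δ < θ → θ < thc b → p θ := by
    intro p hp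
    obtain ⟨l, hl, hl2⟩ := (mem_nhdsLT_iff_exists_Ioo_subset (α := ℝ)).1 hp
    refine ⟨thc b - l, by rw [Set.mem_Iio] at hl; linarith, fun θ h1 h2 => ?_⟩
    exact hl2 ⟨by linarith, h2⟩
  obtain ⟨δ1, hδ1, h1⟩ := key pa ha
  obtain ⟨δ2, hδ2, h2⟩ := key pb hb
  refine ⟨min δ1 δ2, lt_min hδ1 hδ2, fun θ θ' a1 a2 a3 a4 => ?_⟩
  exact h (h1 θ (by linarith [min_le_left δ1 δ2]) a2) (h2 θ' (by linarith [min_le_right δ1 δ2]) a4)

set_option maxHeartbeats 1000000 in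
/-- **the magnetizations are Cauchy as `θ ↑ θ_c`** -/
theorem cauchy_crit_of (hT : G.IsTree) {b : ℕ} (hb : 2 ≤ b) (hreg : G.IsRegularOfDegree (b + 1))
    (hsm : ∃ C : ℝ, 0 < C ∧ ∀ θ, 0 ≤ θ → (b : ℝ) * θ ^ 2 < 1 → ∀ t, 0 < t → t ≤ 1 / 2 → ∀ v : V,
      ∫ ω, (minf G θ t v ω) ^ 2 ∂(PP V) ≤ C * t ^ (3 / 2 : ℝ))
    (htail : ∃ C c : ℝ, 0 < C ∧ 0 < c ∧ ∀ θ, 0 ≤ θ → (b : ℝ) * θ ^ 2 < 1 → ∀ t, 0 < t →
      t ≤ 1 / 2 → ∀ v : V, (PP V).real {ω | t ^ (1 / 4 : ℝ) < |minf G θ t v ω|}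
        ≤ C * Real.exp (-c * t ^ (-(1 / 8) : ℝ)))
    (hlev : ∃ C c : ℝ, 0 < C ∧ 0 < c ∧ ∀ θ, thc b / 2 ≤ θ → θ < thc b → ∀ t, 0 < t → t ≤ 1 / 2 →
      ∀ (o : V) (k : ℕ),
      ((b : ℝ) * θ ^ 2) ^ k * ∫ ω, Alev G b θ (fun x => minf G θ t x ω) o k ∂(PP V)
        ≤ C * Real.exp (-c * t ^ (3 / 2 : ℝ) * k))
    (hlaw : ∀ t0 : ℝ, 0 < t0 → ∀ Φ : ℝ → ℝ → ℝ, Continuous (Function.uncurry Φ) → ∀ x y : V,
      G.Adj x y → ∀ ε, 0 < ε →
      ∃ δ, 0 < δ ∧ ∀ θ θ', thc b - δ < θ → θ < thc b → thc b - δ < θ' → θ' < thc b →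
      ∀ t, t0 ≤ t →
      |∫ ω, Φ (minf G θ t x ω) (minf G θ t y ω) ∂(PP V)
        - ∫ ω, Φ (minf G θ' t x ω) (minf G θ' t y ω) ∂(PP V)| ≤ ε)
    (hGB : ∃ C c : ℝ, 0 < C ∧ 0 < c ∧ ∀ s0, 0 < s0 → ∀ (N : ℕ) (ε : ℝ), 0 < ε →
      ∃ δ, 0 < δ ∧ ∀ θ θ', thc b - δ < θ → θ < thc b → thc b - δ < θ' → θ' < thc b →
      ∀ r, s0 ≤ r → ∀ (v : V) (M : ℕ), ∑ n ∈ range M, Slev G θ θ' r v n
        ≤ C * ((N : ℝ) ^ 2 + ((min r 1) ^ 3)⁻¹) * DD G θ θ' r v
          + C * ((min r 1) ^ 3)⁻¹ * Real.exp (-Real.exp (c * N)) + ε)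
    (t : ℝ) (ht : 0 ≤ t) (v : V) (ε : ℝ) (hε : 0 < ε) :
    ∃ δ, 0 < δ ∧ ∀ θ θ', thc b - δ < θ → θ < thc b → thc b - δ < θ' → θ' < thc b →
      DD G θ θ' t v ≤ ε := by
  -- trivial case
  rcases ht.eq_or_lt with ht0 | ht0
  · subst ht0
    refine ⟨1, one_pos, fun θ θ' _ _ _ _ => ?_⟩
    rw [DD_zero]
    exact hε.le
  obtain ⟨C1, c1, hC1, hc1, hGA⟩ := GA_main hT hb hreg htail hlev
  obtain ⟨C2, c2, hC2, hc2, hGB⟩ := hGB
  obtain ⟨C3, hC3, hsm⟩ := hsm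
  -- a neighbour of `v`
  obtain ⟨y, hvy⟩ : ∃ y, G.Adj v y := by
    have hd : G.degree v = b + 1 := hreg v
    have : 0 < G.degree v := by rw [hd]; omega
    rw [SimpleGraph.degree_pos_iff_exists_adj] at this
    exact this
  have hb0 : (0 : ℝ) < b := by exact_mod_cast (by omega : 0 < b)
  have hthc := thc_pos hb
  set F : Filter (ℝ × ℝ) := (𝓝[<] (thc b)) ×ˢ (𝓝[<] (thc b)) with hF
  have hbase : ∀ᶠ q : ℝ × ℝ in F, (thc b / 2 ≤ q.1 ∧ q.1 < thc b) ∧ (thc b / 2 ≤ q.2 ∧ q.2 < thc b) := by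
    refine ev_of_exists (b := b) (p := fun θ θ' => (thc b / 2 ≤ θ ∧ θ < thc b) ∧
      (thc b / 2 ≤ θ' ∧ θ' < thc b)) ⟨thc b / 2, by positivity, fun θ θ' h1 h2 h3 h4 => ?_⟩
    exact ⟨⟨by linarith, h2⟩, ⟨by linarith, h4⟩⟩
  have hthc2 : thc b ^ 2 ≤ 1 / 2 := by
    rw [thc_sq hb]
    have hb2 : (2 : ℝ) ≤ b := by exact_mod_cast hb
    exact one_div_le_one_div_of_le (by norm_num) hb2
  set e : ℝ × ℝ → ℝ → ℝ := fun q r => (bet G q.1 r v y - bet G q.2 r v y) ^ 2 + (q.1 - q.2) ^ 2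
    with he
  set D : ℝ × ℝ → ℝ → ℝ := fun q t =>
    if (thc b / 2 ≤ q.1 ∧ q.1 < thc b) ∧ (thc b / 2 ≤ q.2 ∧ q.2 < thc b) then DD G q.1 q.2 t v
    else 0 with hD
  have hDq : ∀ q : ℝ × ℝ, (thc b / 2 ≤ q.1 ∧ q.1 < thc b) ∧ (thc b / 2 ≤ q.2 ∧ q.2 < thc b) →
      ∀ t, D q t = DD G q.1 q.2 t v := by
    intro q hq t
    simp only [hD, if_pos hq]
  have hfin := conclude F D (fun q r M => ∑ n ∈ range M, Slev G q.1 q.2 r v n) e
    (max C1 C2) (min c1 c2) (lt_max_of_lt_left hC1) (lt_min hc1 hc2) ?_ ?_ ?_ ?_ ?_ ?_ ?_ ?_ ?_ ?_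
    t ht0
  · -- conclusion
    have h1 : ∀ᶠ q : ℝ × ℝ in F, DD G q.1 q.2 t v ≤ ε := by
      have h2 := (tendsto_order.1 hfin).2 ε hε
      filter_upwards [h2, hbase] with q hq hq2
      rw [hDq q hq2] at hq
      exact hq.le
    exact exists_of_ev (p := fun θ θ' => DD G θ θ' t v ≤ ε) h1
  · -- nonneg
    intro q t
    simp only [hD]
    split_ifs
    · exact DD_nonneg _ _ _ _
    · exact le_rfl
  · -- le 4
    intro q t
    simp only [hD]
    split_ifs with hq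
    · obtain ⟨f0, f1, _, _, _⟩ := theta_facts hb hq.1.1 hq.1.2
      obtain ⟨f0', f1', _, _, _⟩ := theta_facts hb hq.2.1 hq.2.2
      unfold DD
      have : ∫ ω, (minf G q.1 t v ω - minf G q.2 t v ω) ^ 2 ∂(PP V) ≤ ∫ _ω : Om V, (4 : ℝ) ∂(PP V) := by
        refine integral_mono (integrable_f_sq f0.le f1 f0'.le f1' t v) (integrable_const _)
          fun ω => ?_
        have e1 := abs_le.1 (abs_minf_le (G := G) f0.le f1 t v ω)
        have e2 := abs_le.1 (abs_minf_le (G := G) f0'.le f1' t v ω)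
        simp only
        nlinarith
      simpa using this
    · norm_num
  · -- monotone
    filter_upwards [hbase] with q hq s t hs hst
    rw [hDq q hq, hDq q hq]
    obtain ⟨f0, _, _, f3, _⟩ := theta_facts hb hq.1.1 hq.1.2
    obtain ⟨f0', _, _, f3', _⟩ := theta_facts hb hq.2.1 hq.2.2
    exact DD_mono hT hb hreg f0.le f3 f0'.le f3' v hs hst
  · -- small times
    intro ε' hε'
    refine ⟨min (1 / 2) (ε' / (4 * C3)), by positivity, ?_⟩
    filter_upwards [hbase] with q hq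
    rw [hDq q hq]
    obtain ⟨f0, f1, _, f3, _⟩ := theta_facts hb hq.1.1 hq.1.2
    obtain ⟨f0', f1', _, f3', _⟩ := theta_facts hb hq.2.1 hq.2.2
    set s : ℝ := min (1 / 2) (ε' / (4 * C3)) with hs
    have hs0 : 0 < s := by positivity
    have hs1 : s ≤ 1 / 2 := min_le_left _ _
    have hs2 : s ≤ ε' / (4 * C3) := min_le_right _ _
    have h1 := hsm q.1 f0.le f3 s hs0 hs1 v
    have h2 := hsm q.2 f0'.le f3' s hs0 hs1 v
    have h3 : s ^ (3 / 2 : ℝ) ≤ s := by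
      have : s ^ (3 / 2 : ℝ) ≤ s ^ (1 : ℝ) :=
        Real.rpow_le_rpow_of_exponent_ge hs0 (by linarith) (by norm_num)
      rwa [Real.rpow_one] at this
    have i1 : ∀ θ : ℝ, 0 ≤ θ → θ < 1 →
        Integrable (fun ω : Om V => (minf G θ s v ω) ^ 2) (PP V) := by
      intro θ g0 g1
      refine GA.integrable_of_bdd ((meas_minf θ s v).pow_const 2) 1 fun ω => ?_
      have e1 := abs_le.1 (abs_minf_le (G := G) g0 g1 s v ω)
      rw [abs_of_nonneg (sq_nonneg _)]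
      nlinarith
    have h4 : DD G q.1 q.2 s v ≤ 2 * ∫ ω, (minf G q.1 s v ω) ^ 2 ∂(PP V)
        + 2 * ∫ ω, (minf G q.2 s v ω) ^ 2 ∂(PP V) := by
      unfold DD
      rw [← integral_const_mul, ← integral_const_mul, ← integral_add ((i1 _ f0.le f1).const_mul _)
        ((i1 _ f0'.le f1').const_mul _)]
      refine integral_mono (integrable_f_sq f0.le f1 f0'.le f1' s v)
        (((i1 _ f0.le f1).const_mul _).add ((i1 _ f0'.le f1').const_mul _)) fun ω => ?_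
      simp only
      nlinarith [sq_nonneg (minf G q.1 s v ω + minf G q.2 s v ω)]
    have h5 : 4 * C3 * s ≤ ε' := by
      rw [le_div_iff₀ (by positivity)] at hs2
      linarith
    nlinarith
  · -- increments
    filter_upwards [hbase] with q hq k s t B hs hst ht hB
    rw [hDq q hq, hDq q hq]
    obtain ⟨f0, _, _, f3, _⟩ := theta_facts hb hq.1.1 hq.1.2
    obtain ⟨f0', _, _, f3', _⟩ := theta_facts hb hq.2.1 hq.2.2
    exact DD_incr hT hb hreg f0.le f3 f0'.le f3' v k hs hst ht B hB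
  · -- idle
    filter_upwards [hbase] with q hq k s t hs hst ht
    rw [hDq q hq, hDq q hq]
    exact DD_idle q.1 q.2 v k hs hst ht
  · -- (A)
    filter_upwards [hbase] with q hq r hr hr1 M
    rw [hDq q hq]
    refine (hGA q.1 q.2 hq.1.1 hq.1.2 hq.2.1 hq.2.2 v y hvy r hr hr1 v M).trans ?_
    have hD0 := DD_nonneg (G := G) q.1 q.2 r v
    have hr1' : 0 < r ^ (-(11 / 4) : ℝ) := Real.rpow_pos_of_pos hr _
    have hr2 : 0 < r ^ (-(39 / 8) : ℝ) := Real.rpow_pos_of_pos hr _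
    have hr3 : 0 ≤ r ^ (-(1 / 8) : ℝ) := (Real.rpow_pos_of_pos hr _).le
    have hexp : Real.exp (-c1 * r ^ (-(1 / 8) : ℝ))
        ≤ Real.exp (-(min c1 c2) * r ^ (-(1 / 8) : ℝ)) := by
      apply Real.exp_le_exp.2
      have : min c1 c2 ≤ c1 := min_le_left _ _
      nlinarith
    apply mul_le_mul (le_max_left _ _) _ (by positivity) (by positivity)
    simp only [he]
    linarith
  · -- e nonneg
    intro q r
    simp only [he]
    positivity
  · -- e small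
    intro t0 ht0' ε' hε'
    set κ : ℝ := min 1 (ε' / 4) / 4 with hκ
    have hκ0 : 0 < κ := by positivity
    have hκ1 : κ ≤ 1 / 4 := by
      rw [hκ]; have := min_le_left 1 (ε' / 4); linarith
    have hκ2 : κ ≤ ε' / 16 := by
      rw [hκ]; have := min_le_right 1 (ε' / 4); linarith
    have h1 : ∀ᶠ q : ℝ × ℝ in F, ∀ t, t0 ≤ t →
      |∫ ω, LL (thc b) (cl (minf G q.1 t v ω)) (cl (minf G q.1 t y ω)) ∂(PP V)
        - ∫ ω, LL (thc b) (cl (minf G q.2 t v ω)) (cl (minf G q.2 t y ω)) ∂(PP V)| ≤ κ :=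
      ev_of_exists (hlaw t0 ht0' (fun a b' => LL (thc b) (cl a) (cl b'))
        (continuous_LL_cl hthc.le hthc2) v y hvy κ hκ0)
    have h2 : ∀ᶠ q : ℝ × ℝ in F, thc b - κ / (4 * 10 ^ 6) < q.1 ∧ thc b - κ / (4 * 10 ^ 6) < q.2 :=
      ev_of_exists (p := fun θ θ' => thc b - κ / (4 * 10 ^ 6) < θ ∧ thc b - κ / (4 * 10 ^ 6) < θ')
        ⟨κ / (4 * 10 ^ 6), by positivity, fun θ θ' a1 _ a3 _ => ⟨a1, a3⟩⟩
    filter_upwards [hbase, h1, h2] with q hq h1 h2 r hr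
    obtain ⟨f0, _, f2, _, _⟩ := theta_facts hb hq.1.1 hq.1.2
    obtain ⟨f0', _, f2', _, _⟩ := theta_facts hb hq.2.1 hq.2.2
    have b1 := bet_le (G := G) f0.le f2 hthc.le hthc2 r v y
    have b2 := bet_le (G := G) f0'.le f2' hthc.le hthc2 r v y
    have d1 : |q.1 - thc b| ≤ κ / (4 * 10 ^ 6) := by
      rw [abs_le]; constructor <;> linarith [h2.1, hq.1.2, show 0 < κ / (4 * 10 ^ 6) by positivity]
    have d2 : |q.2 - thc b| ≤ κ / (4 * 10 ^ 6) := by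
      rw [abs_le]; constructor <;> linarith [h2.2, hq.2.2, show 0 < κ / (4 * 10 ^ 6) by positivity]
    have b1' : |bet G q.1 r v y - ∫ ω, LL (thc b) (cl (minf G q.1 r v ω)) (cl (minf G q.1 r y ω))
        ∂(PP V)| ≤ κ := by
      refine b1.trans ?_
      calc 4 * 10 ^ 6 * |q.1 - thc b| ≤ 4 * 10 ^ 6 * (κ / (4 * 10 ^ 6)) :=
            mul_le_mul_of_nonneg_left d1 (by norm_num)
        _ = κ := by field_simp
    have b2' : |bet G q.2 r v y - ∫ ω, LL (thc b) (cl (minf G q.2 r v ω)) (cl (minf G q.2 r y ω))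
        ∂(PP V)| ≤ κ := by
      refine b2.trans ?_
      calc 4 * 10 ^ 6 * |q.2 - thc b| ≤ 4 * 10 ^ 6 * (κ / (4 * 10 ^ 6)) :=
            mul_le_mul_of_nonneg_left d2 (by norm_num)
        _ = κ := by field_simp
    have b3 := h1 r hr
    have e1 := abs_le.1 b1'
    have e2 := abs_le.1 b2'
    have e3 := abs_le.1 b3
    have e4 : |bet G q.1 r v y - bet G q.2 r v y| ≤ 3 * κ := by
      rw [abs_le]; constructor <;> linarith [e1.1, e1.2, e2.1, e2.2, e3.1, e3.2]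
    have e5 : (bet G q.1 r v y - bet G q.2 r v y) ^ 2 ≤ (3 * κ) ^ 2 := by
      rw [← sq_abs]; exact pow_le_pow_left₀ (abs_nonneg _) e4 2
    have d3 : |q.1 - q.2| ≤ κ := by
      have g1 := abs_le.1 d1
      have g2 := abs_le.1 d2
      have g3 : κ / (4 * 10 ^ 6) ≤ κ / 2 := by
        apply div_le_div_of_nonneg_left hκ0.le (by norm_num) (by norm_num)
      rw [abs_le]; constructor <;> linarith [g1.1, g1.2, g2.1, g2.2]
    have e6 : (q.1 - q.2) ^ 2 ≤ κ ^ 2 := by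
      rw [← sq_abs]; exact pow_le_pow_left₀ (abs_nonneg _) d3 2
    simp only [he]
    nlinarith
  · -- (B)
    intro s0 hs0 N ε' hε'
    have h1 : ∀ᶠ q : ℝ × ℝ in F, ∀ r, s0 ≤ r → ∀ (v : V) (M : ℕ),
        ∑ n ∈ range M, Slev G q.1 q.2 r v n
        ≤ C2 * ((N : ℝ) ^ 2 + ((min r 1) ^ 3)⁻¹) * DD G q.1 q.2 r v
          + C2 * ((min r 1) ^ 3)⁻¹ * Real.exp (-Real.exp (c2 * N)) + ε' :=
      ev_of_exists (hGB s0 hs0 N ε' hε')
    filter_upwards [hbase, h1] with q hq h1 r hr M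
    rw [hDq q hq]
    refine (h1 r hr v M).trans ?_
    have hD0 := DD_nonneg (G := G) q.1 q.2 r v
    have hr0 : 0 < r := by linarith
    have hm : 0 < min r 1 := lt_min hr0 one_pos
    have g1 : C2 * ((N : ℝ) ^ 2 + ((min r 1) ^ 3)⁻¹) * DD G q.1 q.2 r v
        ≤ max C1 C2 * ((N : ℝ) ^ 2 + ((min r 1) ^ 3)⁻¹) * DD G q.1 q.2 r v := by
      apply mul_le_mul_of_nonneg_right _ hD0
      exact mul_le_mul_of_nonneg_right (le_max_right _ _) (by positivity)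
    have g2 : C2 * ((min r 1) ^ 3)⁻¹ * Real.exp (-Real.exp (c2 * N))
        ≤ max C1 C2 * ((min r 1) ^ 3)⁻¹ * Real.exp (-Real.exp (min c1 c2 * N)) := by
      apply mul_le_mul _ _ (Real.exp_pos _).le (by positivity)
      · exact mul_le_mul_of_nonneg_right (le_max_right _ _) (by positivity)
      · apply Real.exp_le_exp.2
        have : Real.exp (min c1 c2 * N) ≤ Real.exp (c2 * N) := by
          apply Real.exp_le_exp.2
          exact mul_le_mul_of_nonneg_right (min_le_right _ _) (Nat.cast_nonneg N)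
        linarith
    linarith

end Crest.Agent.R160.GC
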