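import Mathlib
import Crest.Agent.R160.Defs

/-! Row 160, module H0, part 1: Ising marginals on connected subsets of a tree by leaf peeling. -/

set_option autoImplicit false

open MeasureTheory Finset
open scoped Classical

namespace Crest.Agent.R160.H0

open Crest.Agent.R160 Crest.Agent.R160.TreeAut SimpleGraph

variable {V : Type*} {G : SimpleGraph V}

/-- contains the root and is closed under parents -/
def PC (G : SimpleGraph V) (r : V) (S : Finset V) : Prop :=
  r ∈ S ∧ ∀ x ∈ S, x ≠ r → par G r x ∈ S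

lemma PC_of_connected (hT : G.IsTree) {S : Finset V}
    (hS : (G.induce (S : Set V)).Connected) {r : V} (hr : r ∈ S) : PC G r S := by
  refine ⟨hr, fun x hx hxr => ?_⟩
  obtain ⟨p⟩ := hS.preconnected ⟨r, hr⟩ ⟨x, hx⟩
  let q := p.toPath
  let f : G.induce (S : Set V) ↪g G := SimpleGraph.Embedding.induce _
  have h1 : (q.1.map f.toHom).IsPath := Walk.IsPath.map f.injective q.2
  obtain ⟨w, hw, hwl⟩ := hT.connected.exists_path_of_dist r (par G r x)
  have hadj := par_adj hT hxr
  have h2 : (w.concat hadj.symm).IsPath := by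
    apply Walk.isPath_of_length_eq_dist
    rw [Walk.length_concat, hwl, par_dist hT hxr]
  have h3 := congrArg Subtype.val
    ((hT.isAcyclic.subsingleton_path r x).elim ⟨_, h1⟩ ⟨_, h2⟩)
  simp only at h3
  have h4 : par G r x ∈ (q.1.map f.toHom).support := by
    have h5 : (w.concat hadj.symm).support = (q.1.map f.toHom).support := by
      rw [← h3]; rfl
    rw [← h5, Walk.support_concat]
    simp
  rw [Walk.support_map] at h4
  obtain ⟨y, _, hy⟩ := List.mem_map.mp h4
  rw [← hy]
  exact y.2

lemma exists_leaf (hT : G.IsTree) {r : V} {S B : Finset V} (hS : PC G r S) (hB : PC G r B)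
    (hSB : S ⊆ B) (hne : S ≠ B) :
    ∃ x ∈ B, x ∉ S ∧ PC G r (B.erase x) ∧ par G r x ∈ B.erase x ∧ G.Adj x (par G r x) ∧
      ∀ y ∈ B.erase x, G.Adj x y → y = par G r x := by
  have hne' : (B \ S).Nonempty := by
    rw [Finset.sdiff_nonempty]
    exact fun h => hne (Finset.Subset.antisymm hSB h)
  obtain ⟨x, hx, hmax⟩ := Finset.exists_max_image (B \ S) (fun y => G.dist r y) hne'
  rw [Finset.mem_sdiff] at hx
  have hxr : x ≠ r := fun h => hx.2 (h ▸ hS.1)
  have hpar : ∀ y ∈ B, y ≠ r → par G r y ≠ x := by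
    intro y hy hyr h
    by_cases hyS : y ∈ S
    · exact hx.2 (h ▸ hS.2 y hyS hyr)
    · have h1 := hmax y (Finset.mem_sdiff.mpr ⟨hy, hyS⟩)
      have h2 := par_dist hT hyr
      rw [h] at h2
      omega
  have hadj := par_adj hT hxr
  refine ⟨x, hx.1, hx.2, ⟨Finset.mem_erase.mpr ⟨hxr.symm, hB.1⟩, fun y hy hyr => ?_⟩,
    Finset.mem_erase.mpr ⟨hadj.ne', hB.2 x hx.1 hxr⟩, hadj, fun y hy hxy => ?_⟩
  · rw [Finset.mem_erase] at hy ⊢
    exact ⟨hpar y hy.2 hyr, hB.2 y hy.2 hyr⟩
  · rw [Finset.mem_erase] at hy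
    rcases adj_cases hT r hxy with h | h
    · exact h.2.symm
    · exact absurd h.2 (hpar y hy.2 h.1)

/-- leaf induction -/
lemma pc_induction (hT : G.IsTree) {r : V} {S : Finset V} (hS : PC G r S)
    {P : Finset V → Prop} (h0 : P S)
    (hstep : ∀ (B : Finset V) (x p : V), PC G r B → S ⊆ B → x ∉ B → p ∈ B → G.Adj x p →
      (∀ y ∈ B, G.Adj x y → y = p) → P B → P (insert x B)) :
    ∀ B : Finset V, PC G r B → S ⊆ B → P B := by
  intro B
  induction hn : B.card using Nat.strong_induction_on generalizing B with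
  | _ n ih =>
    intro hB hSB
    by_cases hne : S = B
    · rw [← hne]; exact h0
    · obtain ⟨x, hxB, hxS, hPC, hpar, hadj, huniq⟩ := exists_leaf hT hS hB hSB hne
      have hsub : S ⊆ B.erase x := fun y hy =>
        Finset.mem_erase.mpr ⟨fun h => hxS (h ▸ hy), hSB hy⟩
      have hcard : (B.erase x).card < n := by
        rw [Finset.card_erase_of_mem hxB]
        have := Finset.card_pos.mpr ⟨x, hxB⟩
        omega
      have h1 := ih _ hcard (B.erase x) rfl hPC hsub
      have h2 := hstep (B.erase x) x (par G r x) hPC hsub (Finset.notMem_erase x B) hpar hadj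
        huniq h1
      rwa [Finset.insert_erase hxB] at h2

lemma edges_insert {B : Finset V} {x p : V} (hx : x ∉ B) (hp : p ∈ B) (hadj : G.Adj x p)
    (huniq : ∀ y ∈ B, G.Adj x y → y = p) :
    (insert x B).sym2.filter (fun e => e ∈ G.edgeSet) =
      insert s(x, p) (B.sym2.filter (fun e => e ∈ G.edgeSet)) := by
  ext e
  induction e using Sym2.ind with
  | _ a b =>
    simp only [Finset.mem_filter, Finset.mem_insert, Finset.mk_mem_sym2_iff,
      SimpleGraph.mem_edgeSet, Sym2.eq_iff]
    constructor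
    · rintro ⟨⟨ha | ha, hb | hb⟩, hab⟩
      · rw [ha, hb] at hab
        exact absurd hab (G.irrefl)
      · rw [ha] at hab
        exact Or.inl (Or.inl ⟨ha, huniq b hb hab⟩)
      · rw [hb] at hab
        exact Or.inl (Or.inr ⟨huniq a ha hab.symm, hb⟩)
      · exact Or.inr ⟨⟨ha, hb⟩, hab⟩
    · rintro ((⟨rfl, rfl⟩ | ⟨rfl, rfl⟩) | ⟨⟨ha, hb⟩, hab⟩)
      · exact ⟨⟨Or.inl rfl, Or.inr hp⟩, hadj⟩
      · exact ⟨⟨Or.inr hp, Or.inl rfl⟩, hadj.symm⟩
      · exact ⟨⟨Or.inr ha, Or.inr hb⟩, hab⟩

lemma leaf_notMem {B : Finset V} {x p : V} (hx : x ∉ B) :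
    s(x, p) ∉ B.sym2.filter (fun e => e ∈ G.edgeSet) := by
  simp only [Finset.mem_filter, Finset.mk_mem_sym2_iff, not_and]
  intro h
  exact absurd h.1 hx

lemma ew_insert {θ : ℝ} {B : Finset V} {x p : V} (hx : x ∉ B) (hp : p ∈ B) (hadj : G.Adj x p)
    (huniq : ∀ y ∈ B, G.Adj x y → y = p) (A : Finset V) :
    ew G θ (insert x B) A = (1 + θ * (sg A x * sg A p)) * ew G θ B A := by
  unfold ew
  rw [edges_insert hx hp hadj huniq, Finset.prod_insert (leaf_notMem hx)]
  rfl

lemma sg_congr {A A' : Finset V} {v : V} (h : v ∈ A ↔ v ∈ A') : sg A v = sg A' v := by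
  unfold sg
  simp only [h]

lemma ew_congr {θ : ℝ} {S A A' : Finset V} (h : ∀ v ∈ S, (v ∈ A ↔ v ∈ A')) :
    ew G θ S A = ew G θ S A' := by
  unfold ew
  apply Finset.prod_congr rfl
  intro e he
  induction e using Sym2.ind with
  | _ a b =>
    simp only [Finset.mem_filter, Finset.mk_mem_sym2_iff] at he
    have h1 : sgE A s(a, b) = sgE A' s(a, b) := by
      show sg A a * sg A b = sg A' a * sg A' b
      rw [sg_congr (h a he.1.1), sg_congr (h b he.1.2)]
    rw [h1]

/-- normalised prior expectation -/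
noncomputable def MA (G : SimpleGraph V) (θ : ℝ) (B : Finset V) (F : Finset V → ℝ) : ℝ :=
  (1 / 2 : ℝ) ^ B.card * ∑ A ∈ B.powerset, F A * ew G θ B A

lemma MA_insert {θ : ℝ} {B : Finset V} {x p : V} (hx : x ∉ B) (hp : p ∈ B) (hadj : G.Adj x p)
    (huniq : ∀ y ∈ B, G.Adj x y → y = p) (F : Finset V → ℝ)
    (hF : ∀ A ∈ B.powerset, F (insert x A) = F A) :
    MA G θ (insert x B) F = MA G θ B F := by
  unfold MA
  rw [Finset.sum_powerset_insert hx, ← Finset.sum_add_distrib, Finset.card_insert_of_notMem hx,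
    pow_succ]
  have hxp : p ≠ x := fun h => hx (h ▸ hp)
  have h1 : ∀ A ∈ B.powerset, F A * ew G θ (insert x B) A +
      F (insert x A) * ew G θ (insert x B) (insert x A) = 2 * (F A * ew G θ B A) := by
    intro A hA
    have hxA : x ∉ A := fun h => hx (Finset.mem_powerset.mp hA h)
    rw [hF A hA, ew_insert hx hp hadj huniq, ew_insert hx hp hadj huniq]
    have h2 : ew G θ B (insert x A) = ew G θ B A := by
      apply ew_congr
      intro v hv
      have : v ≠ x := fun h => hx (h ▸ hv)
      simp [this]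
    have h3 : sg (insert x A) p = sg A p := sg_congr (by simp [hxp])
    have h4 : sg (insert x A) x = 1 := by simp [sg]
    have h5 : sg A x = -1 := by simp [sg, hxA]
    rw [h2, h3, h4, h5]
    ring
  rw [Finset.sum_congr rfl h1, ← Finset.mul_sum]
  ring

lemma MA_eq (hT : G.IsTree) {θ : ℝ} {r : V} {S B : Finset V} (hS : PC G r S) (hB : PC G r B)
    (hSB : S ⊆ B) (F : Finset V → ℝ)
    (hF : ∀ A A', (∀ v ∈ S, (v ∈ A ↔ v ∈ A')) → F A = F A') :
    MA G θ B F = MA G θ S F := by
  refine pc_induction hT hS (P := fun B => MA G θ B F = MA G θ S F) rfl ?_ B hB hSB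
  intro B x p _ hSB hx hp hadj huniq hB
  rw [MA_insert hx hp hadj huniq F, hB]
  intro A _
  apply hF
  intro v hv
  have : v ≠ x := fun h => hx (h ▸ hSB hv)
  simp [this]

open Crest.ProbabilityR.TreeIsing in
lemma isingWeight_insert {θ : ℝ} {B : Finset V} {x p : V} (hx : x ∉ B) (hp : p ∈ B)
    (hadj : G.Adj x p) (huniq : ∀ y ∈ B, G.Adj x y → y = p) (η : V → Bool) :
    isingWeight G θ (insert x B) η =
      (if η x = η p then (1 + θ) / 2 else (1 - θ) / 2) * isingWeight G θ B η := by
  unfold isingWeight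
  have h1 := edges_insert hx hp hadj huniq
  have h2 := leaf_notMem (G := G) (p := p) hx
  rw [h1, Finset.prod_insert h2]
  have h3 : (Sym2.map η s(x, p)).IsDiag ↔ η x = η p := by
    simp
  simp only [h3]
  ring

lemma sg_mul_filter (η : V → Bool) {S : Finset V} {x p : V} (hx : x ∈ S) (hp : p ∈ S) :
    sg (S.filter (fun v => η v = true)) x * sg (S.filter (fun v => η v = true)) p =
      if η x = η p then 1 else -1 := by
  unfold sg
  simp only [Finset.mem_filter, hx, hp, true_and]
  cases η x <;> cases η p <;> simp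

open Crest.ProbabilityR.TreeIsing in
lemma ew_eq_isingWeight (hT : G.IsTree) {θ : ℝ} {r : V} {S : Finset V} (hS : PC G r S)
    (η : V → Bool) :
    (1 / 2 : ℝ) ^ S.card * ew G θ S (S.filter (fun v => η v = true)) = isingWeight G θ S η := by
  have h0 : PC G r {r} := ⟨by simp, fun x hx hxr => absurd (by simpa using hx) hxr⟩
  refine pc_induction hT h0 (P := fun S =>
    (1 / 2 : ℝ) ^ S.card * ew G θ S (S.filter (fun v => η v = true)) = isingWeight G θ S η)
    ?_ ?_ S hS (by simpa using hS.1)
  · have hE : ∀ (inst : DecidablePred fun e : Sym2 V => e ∈ G.edgeSet),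
        @Finset.filter _ (fun e => e ∈ G.edgeSet) inst ({r} : Finset V).sym2 = ∅ := by
      intro inst
      rw [Finset.filter_eq_empty_iff]
      intro e he
      induction e using Sym2.ind with
      | _ a b =>
        simp only [Finset.mk_mem_sym2_iff, Finset.mem_singleton] at he
        rw [he.1, he.2]
        simp
    unfold ew isingWeight
    simp only [hE]
    simp
  · intro B x p _ _ hx hp hadj huniq hB
    rw [isingWeight_insert hx hp hadj huniq, ← hB, Finset.card_insert_of_notMem hx,
      ew_insert hx hp hadj huniq,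
      sg_mul_filter η (Finset.mem_insert_self x B) (Finset.mem_insert_of_mem hp)]
    have h2 : ew G θ B ((insert x B).filter (fun v => η v = true)) =
        ew G θ B (B.filter (fun v => η v = true)) := by
      apply ew_congr
      intro v hv
      simp [hv]
    rw [h2]
    split_ifs <;> ring

open Crest.ProbabilityR.TreeIsing in
/-- the marginal of the Ising prior on a connected set -/
theorem MA_marginal (hT : G.IsTree) {θ : ℝ} {r : V} {S B : Finset V} (hS : PC G r S)
    (hB : PC G r B) (hSB : S ⊆ B) (η : V → Bool) :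
    MA G θ B (fun A => if ∀ v ∈ S, (v ∈ A ↔ η v = true) then 1 else 0) =
      isingWeight G θ S η := by
  rw [MA_eq hT hS hB hSB, ← ew_eq_isingWeight hT hS η]
  · unfold MA
    congr 1
    rw [Finset.sum_eq_single (S.filter (fun v => η v = true))]
    · have h1 : ∀ v ∈ S, (v ∈ S.filter (fun v => η v = true) ↔ η v = true) := by
        intro v hv
        simp [hv]
      show (if ∀ v ∈ S, (v ∈ S.filter (fun v => η v = true) ↔ η v = true) then (1:ℝ) else 0) * _
        = _
      rw [if_pos h1, one_mul]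
    · intro A hA hne
      show (if ∀ v ∈ S, (v ∈ A ↔ η v = true) then (1:ℝ) else 0) * _ = _
      rw [if_neg, zero_mul]
      intro h
      apply hne
      ext v
      simp only [Finset.mem_filter]
      constructor
      · intro hv
        exact ⟨Finset.mem_powerset.mp hA hv, (h v (Finset.mem_powerset.mp hA hv)).mp hv⟩
      · rintro ⟨h1, h2⟩
        exact (h v h1).mpr h2
    · intro h
      exact absurd (Finset.mem_powerset.mpr (Finset.filter_subset _ _)) h
  · intro A A' h
    have : (∀ v ∈ S, (v ∈ A ↔ η v = true)) ↔ (∀ v ∈ S, (v ∈ A' ↔ η v = true)) := by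
      constructor
      · intro h1 v hv
        rw [← h v hv]; exact h1 v hv
      · intro h1 v hv
        rw [h v hv]; exact h1 v hv
    simp only [this]

lemma MA_one (hT : G.IsTree) {θ : ℝ} {r : V} {B : Finset V} (hB : PC G r B) :
    MA G θ B (fun _ => 1) = 1 := by
  have h0 : PC G r {r} := ⟨by simp, fun x hx hxr => absurd (by simpa using hx) hxr⟩
  rw [MA_eq hT h0 hB (by simpa using hB.1) _ (fun _ _ _ => rfl)]
  have hE : ∀ (inst : DecidablePred fun e : Sym2 V => e ∈ G.edgeSet),
      @Finset.filter _ (fun e => e ∈ G.edgeSet) inst ({r} : Finset V).sym2 = ∅ := by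
    intro inst
    rw [Finset.filter_eq_empty_iff]
    intro e he
    induction e using Sym2.ind with
    | _ a b =>
      simp only [Finset.mk_mem_sym2_iff, Finset.mem_singleton] at he
      rw [he.1, he.2]
      simp
  unfold MA ew
  simp only [hE]
  simp

end Crest.Agent.R160.H0
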