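import Mathlib
import Crest.Agent.R160.Defs
import Crest.Agent.R160.H0Marg

/-! Row 160, module H0, part 2: concentration of the posterior at a vertex from its own
observations (Bhattacharyya bound) under the null law, and the law of the signs. -/

set_option autoImplicit false

open MeasureTheory Finset
open scoped Classical

namespace Crest.Agent.R160.H0

open Crest.Agent.R160 Crest.Agent.R160.TreeAut SimpleGraph

variable {V : Type*} {G : SimpleGraph V}

local notation "II" => unitInterval × unitInterval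

instance : IsProbabilityMeasure (PP V) := by unfold PP; infer_instance

/-- expectation of a product of functions of distinct events -/
lemma integral_prod_events (s : Finset (Ev V)) (φ : Ev V → II → ℝ)
    (hφ : ∀ e, Measurable (φ e)) :
    ∫ ω, ∏ e ∈ s, φ e (ω e) ∂(PP V) = ∏ e ∈ s, ∫ p, φ e p := by
  have h1 : ∀ ω : Om V, ∏ e ∈ s, φ e (ω e) = ∏ i : s, φ i ((s.restrict ω) i) := by
    intro ω
    rw [← Finset.prod_attach]
    rfl
  simp_rw [h1]
  have hm : AEStronglyMeasurable (fun y : (∀ _ : s, II) => ∏ i : s, φ i (y i))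
      (Measure.pi (fun _ : s => (volume : Measure II))) := by
    apply Measurable.aestronglyMeasurable
    apply Finset.measurable_prod
    intro i _
    exact (hφ i).comp (measurable_pi_apply i)
  have h2 := integral_restrict_infinitePi (μ := fun _ : Ev V => (volume : Measure II)) (s := s)
    (f := fun y : (∀ _ : s, II) => ∏ i : s, φ i (y i)) hm
  refine Eq.trans h2 ?_
  rw [integral_fintype_prod_eq_prod (𝕜 := ℝ) (f := fun (i : s) p => φ i p)]
  exact Finset.prod_coe_sort s (fun e => ∫ p, φ e p)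

/-- null observation masked at time `t` -/
noncomputable def xx (t : ℝ) (j : ℕ) (p : II) : ℝ :=
  if (j : ℝ) + (p.1 : ℝ) < t then str j (p.1 : ℝ) * (2 * (p.2 : ℝ) - 1) else 0

lemma str_mem (j : ℕ) {u : ℝ} (hu : 0 ≤ u) : 0 ≤ str j u ∧ str j u ≤ 1 / 2 := by
  unfold str
  split_ifs <;> constructor <;> linarith

lemma measurable_str (j : ℕ) : Measurable (str j) := by
  unfold str
  apply Measurable.ite (measurableSet_lt measurable_id measurable_const)
  · split_ifs
    · exact measurable_id.div_const 2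
    · exact measurable_const
  · exact measurable_const

lemma measurable_xx (t : ℝ) (j : ℕ) : Measurable (xx t j) := by
  unfold xx
  have h1 : Measurable fun p : II => (p.1 : ℝ) := measurable_subtype_coe.comp measurable_fst
  have h2 : Measurable fun p : II => (p.2 : ℝ) := measurable_subtype_coe.comp measurable_snd
  apply Measurable.ite
  · exact measurableSet_lt (measurable_const.add h1) measurable_const
  · exact ((measurable_str j).comp h1).mul ((h2.const_mul 2).sub_const 1)
  · exact measurable_const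

lemma abs_xx_le (t : ℝ) (j : ℕ) (p : II) : |xx t j p| ≤ 1 / 2 := by
  unfold xx
  split_ifs
  · rw [abs_mul]
    have h1 := str_mem j p.1.2.1
    have h2 : |2 * (p.2 : ℝ) - 1| ≤ 1 := by
      rw [abs_le]
      constructor <;> linarith [p.2.2.1, p.2.2.2]
    rw [abs_of_nonneg h1.1]
    nlinarith [abs_nonneg (2 * (p.2 : ℝ) - 1)]
  · simp

/-- masked null observations -/
noncomputable def yy (E : Finset (Ev V)) (t : ℝ) (ω : Om V) : Ev V → ℝ := fun e =>
  if e ∈ E then xx t e.2 (ω e) else 0

lemma abs_yy_le (E : Finset (Ev V)) (t : ℝ) (ω : Om V) (e : Ev V) : |yy E t ω e| ≤ 1 / 2 := by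
  unfold yy
  split_ifs
  · exact abs_xx_le _ _ _
  · simp

lemma ow_before (E : Finset (Ev V)) (ω : Om V) (t : ℝ) (o : Ev V → ℝ) (A : Finset V) :
    ow (before E ω t) o A = ow E (fun e => if e ∈ before E ω t then o e else 0) A := by
  unfold ow before
  rw [Finset.prod_filter]
  apply Finset.prod_congr rfl
  intro e he
  simp only [Finset.mem_filter, he, true_and]
  split_ifs <;> simp

lemma mask_nul (E : Finset (Ev V)) (ω : Om V) (t : ℝ) :
    (fun e => if e ∈ before E ω t then nul ω e else 0) = yy E t ω := by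
  funext e
  unfold before yy xx nul st tm clk nz
  simp only [Finset.mem_filter]
  by_cases h1 : e ∈ E
  · simp only [h1, true_and, if_true]
  · simp [h1]

lemma num_mask (θ : ℝ) (S : Finset V) (E : Finset (Ev V)) (ω : Om V) (t : ℝ) (o : Ev V → ℝ)
    (f : Finset V → ℝ) :
    num G θ S (before E ω t) o f =
      num G θ S E (fun e => if e ∈ before E ω t then o e else 0) f := by
  unfold num
  apply Finset.sum_congr rfl
  intro A _
  rw [ow_before]

lemma mm_mask (θ : ℝ) (S : Finset V) (E : Finset (Ev V)) (ω : Om V) (t : ℝ) (o : Ev V → ℝ)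
    (v : V) :
    mm G θ S (before E ω t) o v =
      mm G θ S E (fun e => if e ∈ before E ω t then o e else 0) v := by
  unfold mm mean ZZ
  rw [num_mask, num_mask]

lemma abs_sg (A : Finset V) (v : V) : |sg A v| = 1 := by
  unfold sg; split_ifs <;> simp

lemma ew_nonneg {θ : ℝ} (h0 : 0 ≤ θ) (h1 : θ < 1) (S A : Finset V) : 0 ≤ ew G θ S A := by
  unfold ew
  apply Finset.prod_nonneg
  intro e _
  induction e using Sym2.ind with
  | _ a b =>
    have h2 : |sgE A s(a, b)| = 1 := by
      show |sg A a * sg A b| = 1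
      rw [abs_mul, abs_sg, abs_sg, one_mul]
    have h3 := neg_abs_le (sgE A s(a, b))
    rw [h2] at h3
    nlinarith

lemma ow_nonneg {E : Finset (Ev V)} {o : Ev V → ℝ} (ho : ∀ e ∈ E, |o e| ≤ 1) (A : Finset V) :
    0 ≤ ow E o A := by
  unfold ow
  apply Finset.prod_nonneg
  intro e he
  have h1 : |sg A e.1 * o e| ≤ 1 := by
    rw [abs_mul, abs_sg, one_mul]; exact ho e he
  linarith [neg_abs_le (sg A e.1 * o e)]

/-- plus part -/
noncomputable def Zp (G : SimpleGraph V) (θ : ℝ) (S : Finset V) (E : Finset (Ev V))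
    (o : Ev V → ℝ) (v : V) : ℝ :=
  ∑ A ∈ S.powerset, if v ∈ A then ew G θ S A * ow E o A else 0

/-- minus part -/
noncomputable def Zm (G : SimpleGraph V) (θ : ℝ) (S : Finset V) (E : Finset (Ev V))
    (o : Ev V → ℝ) (v : V) : ℝ :=
  ∑ A ∈ S.powerset, if v ∈ A then 0 else ew G θ S A * ow E o A

lemma ZZ_eq (θ : ℝ) (S : Finset V) (E : Finset (Ev V)) (o : Ev V → ℝ) (v : V) :
    ZZ G θ S E o = Zp G θ S E o v + Zm G θ S E o v := by
  unfold ZZ num Zp Zm
  rw [← Finset.sum_add_distrib]
  apply Finset.sum_congr rfl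
  intro A _
  split_ifs <;> ring

lemma num_sg_eq (θ : ℝ) (S : Finset V) (E : Finset (Ev V)) (o : Ev V → ℝ) (v : V) :
    num G θ S E o (fun A => sg A v) = Zp G θ S E o v - Zm G θ S E o v := by
  unfold num Zp Zm
  rw [← Finset.sum_sub_distrib]
  apply Finset.sum_congr rfl
  intro A _
  by_cases h : v ∈ A
  · simp [sg, h]
  · simp [sg, h]

lemma mm_eq (θ : ℝ) (S : Finset V) (E : Finset (Ev V)) (o : Ev V → ℝ) (v : V) :
    mm G θ S E o v = (Zp G θ S E o v - Zm G θ S E o v) / (Zp G θ S E o v + Zm G θ S E o v) := by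
  unfold mm mean
  rw [num_sg_eq, ZZ_eq θ S E o v]

lemma Zp_nonneg {θ : ℝ} (h0 : 0 ≤ θ) (h1 : θ < 1) (S : Finset V) {E : Finset (Ev V)}
    {o : Ev V → ℝ} (ho : ∀ e ∈ E, |o e| ≤ 1) (v : V) : 0 ≤ Zp G θ S E o v := by
  unfold Zp
  apply Finset.sum_nonneg
  intro A _
  split_ifs
  · exact mul_nonneg (ew_nonneg h0 h1 S A) (ow_nonneg ho A)
  · exact le_rfl

lemma Zm_nonneg {θ : ℝ} (h0 : 0 ≤ θ) (h1 : θ < 1) (S : Finset V) {E : Finset (Ev V)}
    {o : Ev V → ℝ} (ho : ∀ e ∈ E, |o e| ≤ 1) (v : V) : 0 ≤ Zm G θ S E o v := by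
  unfold Zm
  apply Finset.sum_nonneg
  intro A _
  split_ifs
  · exact le_rfl
  · exact mul_nonneg (ew_nonneg h0 h1 S A) (ow_nonneg ho A)

/-- `ab/(a+b)` type inequalities -/
lemma aux1 {a b : ℝ} (ha : 0 ≤ a) (hb : 0 ≤ b) :
    (a + b) * (1 - ((a - b) / (a + b)) ^ 2) ≤ 2 * Real.sqrt (a * b) := by
  rcases (add_nonneg ha hb).eq_or_lt with h | h
  · rw [← h]
    simp only [zero_mul]
    positivity
  · have h1 : (a + b) * (1 - ((a - b) / (a + b)) ^ 2) = 4 * (a * b) / (a + b) := by
      field_simp; ring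
    rw [h1, div_le_iff₀ h]
    have h2 : Real.sqrt (a * b) ^ 2 = a * b := Real.sq_sqrt (mul_nonneg ha hb)
    have h3 : 2 * Real.sqrt (a * b) ≤ a + b := by
      rw [Real.sqrt_mul ha]
      nlinarith [sq_nonneg (Real.sqrt a - Real.sqrt b), Real.sq_sqrt ha, Real.sq_sqrt hb]
    nlinarith [Real.sqrt_nonneg (a * b)]

lemma aux2 {a b : ℝ} (ha : 0 ≤ a) (hb : 0 ≤ b) :
    (if 0 < (a - b) / (a + b) then b else a) ≤ (a + b) * (1 - ((a - b) / (a + b)) ^ 2) / 2 := by
  rcases (add_nonneg ha hb).eq_or_lt with h | h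
  · have ha' : a = 0 := by linarith
    have hb' : b = 0 := by linarith
    subst ha' hb'
    simp
  · have h1 : (a + b) * (1 - ((a - b) / (a + b)) ^ 2) / 2 = 2 * (a * b) / (a + b) := by
      field_simp; ring
    rw [h1, le_div_iff₀ h]
    split_ifs with h2
    · have : b ≤ a := by
        rw [div_pos_iff_of_pos_right h] at h2
        linarith
      nlinarith
    · have : a ≤ b := by
        rw [div_pos_iff_of_pos_right h] at h2
        linarith
      nlinarith

/-- pointwise Bhattacharyya bound -/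
lemma bhatt {θ : ℝ} (h0 : 0 ≤ θ) (h1 : θ < 1) (S : Finset V) {E : Finset (Ev V)}
    {o : Ev V → ℝ} (ho : ∀ e ∈ E, |o e| ≤ 1) (v : V) :
    ZZ G θ S E o * (1 - (mm G θ S E o v) ^ 2) ≤
      ∑ A ∈ S.powerset, ew G θ S A * ∏ e ∈ E, (if e.1 = v then Real.sqrt (1 - (o e) ^ 2)
        else 1 + sg A e.1 * o e) := by
  rw [ZZ_eq θ S E o v, mm_eq]
  refine (aux1 (Zp_nonneg h0 h1 S ho v) (Zm_nonneg h0 h1 S ho v)).trans ?_
  set Q : Finset V → ℝ := fun A => ∏ e ∈ E, (if e.1 = v then 1 else 1 + sg A e.1 * o e) with hQ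
  have hQ0 : ∀ A, 0 ≤ Q A := by
    intro A
    apply Finset.prod_nonneg
    intro e he
    split_ifs
    · exact zero_le_one
    · have h1 : |sg A e.1 * o e| ≤ 1 := by
        rw [abs_mul, abs_sg, one_mul]; exact ho e he
      linarith [neg_abs_le (sg A e.1 * o e)]
  set P : ℝ → ℝ := fun σ => ∏ e ∈ E, (if e.1 = v then 1 + σ * o e else 1) with hP
  have how : ∀ A, ow E o A = P (sg A v) * Q A := by
    intro A
    rw [hP, hQ, ← Finset.prod_mul_distrib]
    unfold ow
    apply Finset.prod_congr rfl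
    intro e _
    split_ifs with h
    · rw [h, mul_one]
    · rw [one_mul]
  set Rp : ℝ := ∑ A ∈ S.powerset, if v ∈ A then ew G θ S A * Q A else 0 with hRp
  set Rm : ℝ := ∑ A ∈ S.powerset, if v ∈ A then 0 else ew G θ S A * Q A with hRm
  have e1 : Zp G θ S E o v = P 1 * Rp := by
    unfold Zp
    rw [hRp, Finset.mul_sum]
    apply Finset.sum_congr rfl
    intro A _
    split_ifs with h
    · rw [how]
      have : sg A v = 1 := by simp [sg, h]
      rw [this]; ring
    · simp
  have e2 : Zm G θ S E o v = P (-1) * Rm := by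
    unfold Zm
    rw [hRm, Finset.mul_sum]
    apply Finset.sum_congr rfl
    intro A _
    split_ifs with h
    · simp
    · rw [how]
      have : sg A v = -1 := by simp [sg, h]
      rw [this]; ring
  have hRp0 : 0 ≤ Rp := by
    apply Finset.sum_nonneg
    intro A _
    split_ifs
    · exact mul_nonneg (ew_nonneg h0 h1 S A) (hQ0 A)
    · exact le_rfl
  have hRm0 : 0 ≤ Rm := by
    apply Finset.sum_nonneg
    intro A _
    split_ifs
    · exact le_rfl
    · exact mul_nonneg (ew_nonneg h0 h1 S A) (hQ0 A)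
  have hPP : P 1 * P (-1) = ∏ e ∈ E, (if e.1 = v then 1 - (o e) ^ 2 else 1) := by
    rw [hP, ← Finset.prod_mul_distrib]
    apply Finset.prod_congr rfl
    intro e _
    split_ifs <;> ring
  set T : ℝ := ∏ e ∈ E, (if e.1 = v then Real.sqrt (1 - (o e) ^ 2) else 1) with hT
  have hT0 : 0 ≤ T := by
    apply Finset.prod_nonneg
    intro e _
    split_ifs
    · exact Real.sqrt_nonneg _
    · exact zero_le_one
  have hT2 : T ^ 2 = P 1 * P (-1) := by
    rw [hPP, hT, ← Finset.prod_pow]
    apply Finset.prod_congr rfl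
    intro e he
    split_ifs
    · apply Real.sq_sqrt
      have := ho e he
      rw [abs_le] at this
      nlinarith
    · ring
  have hsum : ∑ A ∈ S.powerset, ew G θ S A * ∏ e ∈ E,
      (if e.1 = v then Real.sqrt (1 - (o e) ^ 2) else 1 + sg A e.1 * o e) = T * (Rp + Rm) := by
    rw [hRp, hRm, ← Finset.sum_add_distrib, Finset.mul_sum]
    apply Finset.sum_congr rfl
    intro A _
    have : ∏ e ∈ E, (if e.1 = v then Real.sqrt (1 - (o e) ^ 2) else 1 + sg A e.1 * o e) =
        T * Q A := by
      rw [hT, hQ, ← Finset.prod_mul_distrib]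
      apply Finset.prod_congr rfl
      intro e _
      split_ifs <;> ring
    rw [this]
    split_ifs <;> ring
  rw [hsum, e1, e2]
  have h4 : P 1 * Rp * (P (-1) * Rm) = T ^ 2 * (Rp * Rm) := by rw [hT2]; ring
  rw [h4, Real.sqrt_mul (sq_nonneg T), Real.sqrt_sq hT0]
  have h5 : 2 * Real.sqrt (Rp * Rm) ≤ Rp + Rm := by
    rw [Real.sqrt_mul hRp0]
    nlinarith [sq_nonneg (Real.sqrt Rp - Real.sqrt Rm), Real.sq_sqrt hRp0, Real.sq_sqrt hRm0]
  nlinarith

lemma integral_xx (t : ℝ) (j : ℕ) : ∫ p : II, xx t j p = 0 := by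
  have hmp : MeasurePreserving (Prod.map (id : unitInterval → unitInterval) unitInterval.symm)
      (volume : Measure II) (volume : Measure II) :=
    (MeasurePreserving.id _).prod unitInterval.measurePreserving_symm
  have h1 := hmp.integral_comp'
    (f := (MeasurableEquiv.refl unitInterval).prodCongr unitInterval.symmMeasurableEquiv)
    (g := xx t j)
  have h2 : ∀ p : II, xx t j (Prod.map id unitInterval.symm p) = - xx t j p := by
    intro p
    unfold xx
    simp only [Prod.map_fst, Prod.map_snd, id, unitInterval.coe_symm_eq]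
    split_ifs <;> ring
  have h3 : ∫ p : II, xx t j (Prod.map id unitInterval.symm p) = ∫ p : II, xx t j p := h1
  simp_rw [h2] at h3
  rw [integral_neg] at h3
  linarith

/-- the Bhattacharyya factor of one event -/
noncomputable def kap (t : ℝ) (j : ℕ) : ℝ := ∫ p : II, Real.sqrt (1 - (xx t j p) ^ 2)

lemma sqrt_le_aux {x : ℝ} (hx : |x| ≤ 1 / 2) : Real.sqrt (1 - x ^ 2) ≤ 1 - x ^ 2 / 2 := by
  have h1 : x ^ 2 ≤ 1 / 4 := by
    rw [← sq_abs]; nlinarith [abs_nonneg x]
  apply Real.sqrt_le_iff.mpr
  constructor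
  · linarith
  · nlinarith [sq_nonneg x]

lemma integrable_of_abs_le {f : II → ℝ} (hf : Measurable f) {C : ℝ} (h : ∀ p, |f p| ≤ C) :
    Integrable f (volume : Measure II) :=
  Integrable.of_bound hf.aestronglyMeasurable C (Filter.Eventually.of_forall h)

lemma measurable_sqrt_xx (t : ℝ) (j : ℕ) :
    Measurable fun p : II => Real.sqrt (1 - (xx t j p) ^ 2) :=
  (((measurable_xx t j).pow_const 2).const_sub 1).sqrt

lemma abs_sqrt_xx_le (t : ℝ) (j : ℕ) (p : II) : |Real.sqrt (1 - (xx t j p) ^ 2)| ≤ 1 := by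
  rw [abs_of_nonneg (Real.sqrt_nonneg _)]
  have h := sqrt_le_aux (abs_xx_le t j p)
  nlinarith [sq_nonneg (xx t j p)]

lemma kap_nonneg (t : ℝ) (j : ℕ) : 0 ≤ kap t j :=
  integral_nonneg fun _ => Real.sqrt_nonneg _

lemma kap_le_one (t : ℝ) (j : ℕ) : kap t j ≤ 1 := by
  unfold kap
  calc ∫ p : II, Real.sqrt (1 - (xx t j p) ^ 2) ≤ ∫ _ : II, (1 : ℝ) := by
        apply integral_mono
        · exact integrable_of_abs_le (measurable_sqrt_xx t j) (abs_sqrt_xx_le t j)
        · exact integrable_const _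
        · intro p
          exact (le_abs_self _).trans (abs_sqrt_xx_le t j p)
    _ = 1 := by simp

lemma integral_z : ∫ z : unitInterval, (2 * (z : ℝ) - 1) ^ 2 = 1 / 3 := by
  have h1 : ∫ z : unitInterval, (2 * (z : ℝ) - 1) ^ 2 =
      ∫ z in (0 : ℝ)..1, (2 * z - 1) ^ 2 := by
    rw [intervalIntegral.integral_of_le zero_le_one, ← integral_Icc_eq_integral_Ioc]
    exact integral_subtype_comap measurableSet_Icc (fun z : ℝ => (2 * z - 1) ^ 2)
  rw [h1]
  have h2 : ∀ z : ℝ, (2 * z - 1) ^ 2 = 4 * z ^ 2 - 4 * z + 1 := fun z => by ring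
  simp_rw [h2]
  rw [intervalIntegral.integral_add, intervalIntegral.integral_sub,
    intervalIntegral.integral_const_mul, intervalIntegral.integral_const_mul]
  · simp
    norm_num
  · exact (by fun_prop : Continuous fun z : ℝ => 4 * z ^ 2).intervalIntegrable _ _
  · exact (by fun_prop : Continuous fun z : ℝ => 4 * z).intervalIntegrable _ _
  · exact (by fun_prop : Continuous fun z : ℝ => 4 * z ^ 2 - 4 * z).intervalIntegrable _ _
  · exact (by fun_prop : Continuous fun _ : ℝ => (1 : ℝ)).intervalIntegrable _ _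

lemma integral_u : ∫ u : unitInterval, (if (u : ℝ) < 1 / 2 then (1 / 4 : ℝ) else 0) = 1 / 8 := by
  have h1 : (fun u : unitInterval => if (u : ℝ) < 1 / 2 then (1 / 4 : ℝ) else 0) =
      (Set.Iio (⟨1 / 2, by norm_num, by norm_num⟩ : unitInterval)).indicator
        (fun _ => (1 / 4 : ℝ)) := by
    funext u
    simp only [Set.indicator, Set.mem_Iio, ← Subtype.coe_lt_coe]
  rw [h1, integral_indicator_const _ measurableSet_Iio]
  simp only [Measure.real, unitInterval.volume_Iio]
  rw [ENNReal.toReal_ofReal (by norm_num)]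
  norm_num

lemma kap_le (t : ℝ) {j : ℕ} (hj : 1 ≤ j) (ht : (j : ℝ) + 1 ≤ t) : kap t j ≤ 47 / 48 := by
  have hxx : ∀ p : II, (xx t j p) ^ 2 =
      (if (p.1 : ℝ) < 1 / 2 then (1 / 4 : ℝ) else 0) * (2 * (p.2 : ℝ) - 1) ^ 2 := by
    intro p
    unfold xx str
    have hj0 : j ≠ 0 := by omega
    by_cases h : (p.1 : ℝ) < 1 / 2
    · have h2 : (j : ℝ) + (p.1 : ℝ) < t := by linarith
      simp only [h, h2, hj0, if_true, if_false]
      ring
    · simp only [h, if_false]
      split_ifs <;> ring
  have hI : ∫ p : II, (xx t j p) ^ 2 = 1 / 24 := by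
    simp_rw [hxx]
    have h := integral_prod_mul (μ := (volume : Measure unitInterval))
      (ν := (volume : Measure unitInterval))
      (fun u : unitInterval => if (u : ℝ) < 1 / 2 then (1 / 4 : ℝ) else 0)
      (fun z : unitInterval => (2 * (z : ℝ) - 1) ^ 2)
    rw [integral_u, integral_z] at h
    refine Eq.trans h ?_
    norm_num
  have hint : Integrable (fun p : II => (xx t j p) ^ 2) (volume : Measure II) := by
    apply integrable_of_abs_le ((measurable_xx t j).pow_const 2) (C := 1)
    intro p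
    have := abs_xx_le t j p
    rw [abs_pow]
    nlinarith [abs_nonneg (xx t j p)]
  unfold kap
  calc ∫ p : II, Real.sqrt (1 - (xx t j p) ^ 2) ≤ ∫ p : II, (1 - (xx t j p) ^ 2 / 2) := by
        apply integral_mono
        · exact integrable_of_abs_le (measurable_sqrt_xx t j) (abs_sqrt_xx_le t j)
        · exact (integrable_const _).sub (hint.div_const 2)
        · intro p
          exact sqrt_le_aux (abs_xx_le t j p)
    _ = 47 / 48 := by
        rw [integral_sub (integrable_const _) (hint.div_const 2), integral_div, hI]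
        simp
        norm_num

/-- one-event factor of the Bhattacharyya bound -/
noncomputable def psi (t : ℝ) (v : V) (A : Finset V) (e : Ev V) (p : II) : ℝ :=
  if e.1 = v then Real.sqrt (1 - (xx t e.2 p) ^ 2) else 1 + sg A e.1 * xx t e.2 p

lemma measurable_psi (t : ℝ) (v : V) (A : Finset V) (e : Ev V) : Measurable (psi t v A e) := by
  unfold psi
  split_ifs
  · exact measurable_sqrt_xx t e.2
  · exact ((measurable_xx t e.2).const_mul _).const_add 1

lemma integrable_xx (t : ℝ) (j : ℕ) : Integrable (xx t j) (volume : Measure II) :=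
  integrable_of_abs_le (measurable_xx t j) (abs_xx_le t j)

lemma integral_psi (t : ℝ) (v : V) (A : Finset V) (e : Ev V) :
    ∫ p, psi t v A e p = if e.1 = v then kap t e.2 else 1 := by
  unfold psi
  split_ifs
  · rfl
  · rw [integral_add (integrable_const _) ((integrable_xx t e.2).const_mul _),
      integral_const_mul, integral_xx]
    simp

lemma prod_evs (S : Finset V) (R : ℕ) {v : V} (hv : v ∈ S) (f : ℕ → ℝ) :
    ∏ e ∈ evs S R, (if e.1 = v then f e.2 else 1) = ∏ j ∈ Finset.range R, f j := by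
  unfold evs
  rw [Finset.prod_product, Finset.prod_eq_single v]
  · simp
  · intro x _ hx
    simp [hx]
  · intro h
    exact absurd hv h

lemma abs_psi_le (t : ℝ) (v : V) (A : Finset V) (e : Ev V) (p : II) : |psi t v A e p| ≤ 2 := by
  unfold psi
  split_ifs
  · exact (abs_sqrt_xx_le t e.2 p).trans (by norm_num)
  · have h1 : |sg A e.1 * xx t e.2 p| ≤ 1 / 2 := by
      rw [abs_mul, abs_sg, one_mul]; exact abs_xx_le _ _ _
    calc |1 + sg A e.1 * xx t e.2 p| ≤ |(1 : ℝ)| + |sg A e.1 * xx t e.2 p| := abs_add_le _ _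
      _ ≤ 2 := by rw [abs_one]; linarith

lemma integrable_prod_psi (s : Finset (Ev V)) (φ : Ev V → II → ℝ) (hφ : ∀ e, Measurable (φ e))
    {C : ℝ} (hC : ∀ e p, |φ e p| ≤ C) :
    Integrable (fun ω : Om V => ∏ e ∈ s, φ e (ω e)) (PP V) := by
  have hC0 : 0 ≤ C ∨ s = ∅ := by
    by_cases hs : s = ∅
    · exact Or.inr hs
    · left
      obtain ⟨e, _⟩ := Finset.nonempty_iff_ne_empty.mpr hs
      exact (abs_nonneg _).trans (hC e (0, 0))
  apply Integrable.of_bound (C := C ^ s.card)
  · apply Measurable.aestronglyMeasurable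
    apply Finset.measurable_prod
    intro e _
    exact (hφ e).comp (measurable_pi_apply e)
  · apply Filter.Eventually.of_forall
    intro ω
    rw [Real.norm_eq_abs, Finset.abs_prod]
    calc ∏ e ∈ s, |φ e (ω e)| ≤ ∏ _e ∈ s, C :=
          Finset.prod_le_prod (fun _ _ => abs_nonneg _) (fun e _ => hC e _)
      _ = C ^ s.card := by simp

/-- **Bhattacharyya bound under the null law** -/
theorem null_conc (hT : G.IsTree) {θ : ℝ} (h0 : 0 ≤ θ) (h1 : θ < 1) {r v : V} {S : Finset V}
    (hS : PC G r S) (hv : v ∈ S) (R : ℕ) (t : ℝ) :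
    ∫ ω, (1 / 2 : ℝ) ^ S.card * (ZZ G θ S (evs S R) (yy (evs S R) t ω) *
      (1 - (mm G θ S (evs S R) (yy (evs S R) t ω) v) ^ 2)) ∂(PP V) ≤
      ∏ j ∈ Finset.range R, kap t j := by
  have hy : ∀ ω : Om V, ∀ e ∈ evs S R, |yy (evs S R) t ω e| ≤ 1 := fun ω e _ =>
    (abs_yy_le _ _ _ _).trans (by norm_num)
  have hrw : ∀ ω : Om V, ∑ A ∈ S.powerset, ew G θ S A * ∏ e ∈ evs S R,
      (if e.1 = v then Real.sqrt (1 - (yy (evs S R) t ω e) ^ 2)
        else 1 + sg A e.1 * yy (evs S R) t ω e) =
      ∑ A ∈ S.powerset, ew G θ S A * ∏ e ∈ evs S R, psi t v A e (ω e) := by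
    intro ω
    apply Finset.sum_congr rfl
    intro A _
    congr 1
    apply Finset.prod_congr rfl
    intro e he
    unfold yy psi
    simp only [he, if_true]
  have hint : Integrable (fun ω : Om V => (1 / 2 : ℝ) ^ S.card *
      ∑ A ∈ S.powerset, ew G θ S A * ∏ e ∈ evs S R, psi t v A e (ω e)) (PP V) := by
    apply Integrable.const_mul
    apply integrable_finsetSum
    intro A _
    apply Integrable.const_mul
    exact integrable_prod_psi _ _ (measurable_psi t v A) (fun e p => abs_psi_le t v A e p)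
  calc ∫ ω, (1 / 2 : ℝ) ^ S.card * (ZZ G θ S (evs S R) (yy (evs S R) t ω) *
      (1 - (mm G θ S (evs S R) (yy (evs S R) t ω) v) ^ 2)) ∂(PP V)
      ≤ ∫ ω, (1 / 2 : ℝ) ^ S.card *
          ∑ A ∈ S.powerset, ew G θ S A * ∏ e ∈ evs S R, psi t v A e (ω e) ∂(PP V) := by
        apply integral_mono_of_nonneg _ hint
        · apply Filter.Eventually.of_forall
          intro ω
          apply mul_le_mul_of_nonneg_left _ (by positivity)
          refine (bhatt h0 h1 S (hy ω) v).trans (le_of_eq (hrw ω))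
        · apply Filter.Eventually.of_forall
          intro ω
          apply mul_nonneg (by positivity)
          have ha := Zp_nonneg (G := G) h0 h1 S (hy ω) v
          have hb := Zm_nonneg (G := G) h0 h1 S (hy ω) v
          have h3 := aux2 ha hb
          rw [ZZ_eq θ S _ _ v, mm_eq]
          split_ifs at h3 <;> linarith
    _ = (1 / 2 : ℝ) ^ S.card * ∑ A ∈ S.powerset,
          ew G θ S A * ∏ j ∈ Finset.range R, kap t j := by
        rw [integral_const_mul, integral_finsetSum]
        · congr 1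
          apply Finset.sum_congr rfl
          intro A _
          rw [integral_const_mul, integral_prod_events _ _ (measurable_psi t v A)]
          congr 1
          simp_rw [integral_psi]
          exact prod_evs S R hv (fun j => kap t j)
        · intro A _
          apply Integrable.const_mul
          exact integrable_prod_psi _ _ (measurable_psi t v A) (fun e p => abs_psi_le t v A e p)
    _ = ∏ j ∈ Finset.range R, kap t j := by
        have h2 := MA_one hT (θ := θ) hS
        unfold MA at h2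
        simp only [one_mul] at h2
        rw [← Finset.sum_mul, ← mul_assoc, h2, one_mul]

/-- the product of the factors decays exponentially -/
lemma prod_kap_le {t : ℝ} (ht : 0 ≤ t) {R : ℕ} (hR : t ≤ R) :
    ∏ j ∈ Finset.range R, kap t j ≤ (48 / 47) ^ 2 * Real.exp (-Real.log (48 / 47) * t) := by
  have hpos : (0 : ℝ) < 48 / 47 := by norm_num
  have hlog : 0 < Real.log (48 / 47) := Real.log_pos (by norm_num)
  set n := ⌊t⌋₊ with hn
  have hnt : (n : ℝ) ≤ t := Nat.floor_le ht
  have htn : t < n + 1 := Nat.lt_floor_add_one t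
  have hnR : n ≤ R := by
    have : (n : ℝ) ≤ R := hnt.trans hR
    exact_mod_cast this
  have h1 : ∏ j ∈ Finset.range R, kap t j ≤ ∏ j ∈ Finset.Ico 1 n, kap t j := by
    have hsub : Finset.Ico 1 n ⊆ Finset.range R := by
      intro j hj
      rw [Finset.mem_Ico] at hj
      rw [Finset.mem_range]
      omega
    rw [← Finset.prod_sdiff hsub]
    calc (∏ j ∈ Finset.range R \ Finset.Ico 1 n, kap t j) * ∏ j ∈ Finset.Ico 1 n, kap t j
        ≤ 1 * ∏ j ∈ Finset.Ico 1 n, kap t j := by
          apply mul_le_mul_of_nonneg_right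
          · exact Finset.prod_le_one (fun j _ => kap_nonneg t j) (fun j _ => kap_le_one t j)
          · exact Finset.prod_nonneg (fun j _ => kap_nonneg t j)
      _ = _ := one_mul _
  have h2 : ∏ j ∈ Finset.Ico 1 n, kap t j ≤ ∏ _j ∈ Finset.Ico 1 n, (47 / 48 : ℝ) := by
    apply Finset.prod_le_prod (fun j _ => kap_nonneg t j)
    intro j hj
    rw [Finset.mem_Ico] at hj
    apply kap_le t hj.1
    have : (j : ℝ) + 1 ≤ n := by exact_mod_cast hj.2
    linarith
  have h3 : ∏ _j ∈ Finset.Ico 1 n, (47 / 48 : ℝ) = (47 / 48 : ℝ) ^ (n - 1) := by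
    rw [Finset.prod_const, Nat.card_Ico]
  refine (h1.trans (h2.trans (le_of_eq h3))).trans ?_
  have h4 : (47 / 48 : ℝ) = Real.exp (-Real.log (48 / 47)) := by
    rw [Real.exp_neg, Real.exp_log hpos]; norm_num
  have h5 : ((48 : ℝ) / 47) ^ 2 = Real.exp (Real.log (48 / 47) * 2) := by
    rw [Real.exp_mul, Real.exp_log hpos]
    norm_num
  rw [h5, ← Real.exp_add, h4, ← Real.exp_nat_mul]
  apply Real.exp_le_exp.mpr
  have h6 : t - 2 ≤ ((n - 1 : ℕ) : ℝ) := by
    rcases Nat.eq_zero_or_pos n with h | h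
    · rw [h] at htn ⊢
      simp at htn ⊢
      linarith
    · rw [Nat.cast_sub h]
      push_cast
      linarith
  nlinarith

lemma measurable_num (θ : ℝ) (S : Finset V) (E : Finset (Ev V)) (f : Finset V → ℝ) :
    Measurable (fun y : Ev V → ℝ => num G θ S E y f) := by
  unfold num ow
  apply Finset.measurable_sum
  intro A _
  apply Measurable.const_mul
  apply Measurable.const_mul
  apply Finset.measurable_prod
  intro e _
  exact ((measurable_pi_apply e).const_mul _).const_add 1

lemma measurable_mm (θ : ℝ) (S : Finset V) (E : Finset (Ev V)) (v : V) :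
    Measurable (fun y : Ev V → ℝ => mm G θ S E y v) := by
  unfold mm mean ZZ
  exact (measurable_num θ S E _).div (measurable_num θ S E _)

lemma measurable_yy (E : Finset (Ev V)) (t : ℝ) : Measurable (yy E t : Om V → Ev V → ℝ) := by
  apply measurable_pi_lambda
  intro e
  unfold yy
  split_ifs
  · exact (measurable_xx t e.2).comp (measurable_pi_apply e)
  · exact measurable_const

lemma abs_mm_le {θ : ℝ} (h0 : 0 ≤ θ) (h1 : θ < 1) (S : Finset V) {E : Finset (Ev V)}
    {o : Ev V → ℝ} (ho : ∀ e ∈ E, |o e| ≤ 1) (v : V) : |mm G θ S E o v| ≤ 1 := by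
  rw [mm_eq, abs_div]
  have ha := Zp_nonneg (G := G) h0 h1 S ho v
  have hb := Zm_nonneg (G := G) h0 h1 S ho v
  apply div_le_one_of_le₀ _ (abs_nonneg _)
  rw [abs_of_nonneg (add_nonneg ha hb), abs_le]
  constructor <;> linarith

lemma ow_yy (E : Finset (Ev V)) (t : ℝ) (ω : Om V) (A : Finset V) :
    ow E (yy E t ω) A = ∏ e ∈ E, (1 + sg A e.1 * xx t e.2 (ω e)) := by
  unfold ow
  apply Finset.prod_congr rfl
  intro e he
  unfold yy
  simp only [he, if_true]

lemma measurable_fac (t : ℝ) (A : Finset V) (e : Ev V) :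
    Measurable (fun p : II => 1 + sg A e.1 * xx t e.2 p) :=
  ((measurable_xx t e.2).const_mul _).const_add 1

lemma abs_fac_le (t : ℝ) (A : Finset V) (e : Ev V) (p : II) :
    |1 + sg A e.1 * xx t e.2 p| ≤ 2 := by
  have h1 : |sg A e.1 * xx t e.2 p| ≤ 1 / 2 := by
    rw [abs_mul, abs_sg, one_mul]; exact abs_xx_le _ _ _
  calc |1 + sg A e.1 * xx t e.2 p| ≤ |(1 : ℝ)| + |sg A e.1 * xx t e.2 p| := abs_add_le _ _
    _ ≤ 2 := by rw [abs_one]; linarith

lemma integrable_ow (E : Finset (Ev V)) (t : ℝ) (A : Finset V) :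
    Integrable (fun ω : Om V => ow E (yy E t ω) A) (PP V) := by
  simp_rw [ow_yy]
  exact integrable_prod_psi E (fun e p => 1 + sg A e.1 * xx t e.2 p) (measurable_fac t A)
    (abs_fac_le t A)

lemma integral_ow (E : Finset (Ev V)) (t : ℝ) (A : Finset V) :
    ∫ ω : Om V, ow E (yy E t ω) A ∂(PP V) = 1 := by
  simp_rw [ow_yy]
  rw [integral_prod_events E (fun e p => 1 + sg A e.1 * xx t e.2 p) (measurable_fac t A)]
  apply Finset.prod_eq_one
  intro e _
  rw [integral_add (integrable_const _) ((integrable_xx t e.2).const_mul _),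
    integral_const_mul, integral_xx]
  simp

/-- the sign pattern indicator -/
noncomputable def sgn (G : SimpleGraph V) (θ : ℝ) (S : Finset V) (E : Finset (Ev V))
    (W : Finset V) (η : V → Bool) (y : Ev V → ℝ) : ℝ :=
  if ∀ v ∈ W, decide (0 < mm G θ S E y v) = η v then 1 else 0

lemma measurableSet_sgn (θ : ℝ) (S : Finset V) (E : Finset (Ev V)) (W : Finset V)
    (η : V → Bool) :
    MeasurableSet {y : Ev V → ℝ | ∀ v ∈ W, decide (0 < mm G θ S E y v) = η v} := by
  have : {y : Ev V → ℝ | ∀ v ∈ W, decide (0 < mm G θ S E y v) = η v} =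
      ⋂ v ∈ W, {y : Ev V → ℝ | decide (0 < mm G θ S E y v) = η v} := by
    ext y; simp
  rw [this]
  apply Finset.measurableSet_biInter
  intro v _
  have hm : MeasurableSet {y : Ev V → ℝ | 0 < mm G θ S E y v} :=
    measurableSet_lt measurable_const (measurable_mm θ S E v)
  cases η v with
  | true =>
    have : {y : Ev V → ℝ | decide (0 < mm G θ S E y v) = true} =
        {y : Ev V → ℝ | 0 < mm G θ S E y v} := by ext y; simp
    rw [this]; exact hm
  | false =>
    have : {y : Ev V → ℝ | decide (0 < mm G θ S E y v) = false} =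
        {y : Ev V → ℝ | 0 < mm G θ S E y v}ᶜ := by ext y; simp
    rw [this]; exact hm.compl

lemma measurable_sgn (θ : ℝ) (S : Finset V) (E : Finset (Ev V)) (W : Finset V)
    (η : V → Bool) : Measurable (sgn G θ S E W η) := by
  unfold sgn
  exact Measurable.ite (measurableSet_sgn θ S E W η) measurable_const measurable_const

lemma sgn_mem (θ : ℝ) (S : Finset V) (E : Finset (Ev V)) (W : Finset V)
    (η : V → Bool) (y : Ev V → ℝ) : 0 ≤ sgn G θ S E W η y ∧ sgn G θ S E W η y ≤ 1 := by
  unfold sgn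
  split_ifs <;> norm_num

/-- pointwise: pattern of signs versus pattern of spins -/
lemma sgn_sub_le {θ : ℝ} (S : Finset V) {E : Finset (Ev V)} (W : Finset V) (η : V → Bool)
    (y : Ev V → ℝ) (A : Finset V) :
    |sgn G θ S E W η y - (if ∀ v ∈ W, (v ∈ A ↔ η v = true) then 1 else 0)| ≤
      ∑ v ∈ W, (if (0 < mm G θ S E y v ↔ v ∈ A) then (0 : ℝ) else 1) := by
  by_cases h : ∀ v ∈ W, (0 < mm G θ S E y v ↔ v ∈ A)
  · have h1 : (∀ v ∈ W, decide (0 < mm G θ S E y v) = η v) ↔
        (∀ v ∈ W, (v ∈ A ↔ η v = true)) := by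
      apply forall₂_congr
      intro v hv
      rw [← h v hv]
      cases η v <;> simp
    unfold sgn
    simp only [h1]
    rw [sub_self, abs_zero]
    apply Finset.sum_nonneg
    intro v _
    split_ifs <;> norm_num
  · push Not at h
    obtain ⟨v, hv, hne⟩ := h
    have h2 : ¬ (0 < mm G θ S E y v ↔ v ∈ A) := by
      rintro ⟨h3, h4⟩
      rcases hne with ⟨h5, h6⟩ | ⟨h5, h6⟩
      · exact h6 (h3 h5)
      · exact absurd (h4 h6) (not_lt.mpr h5)
    have h3 : (1 : ℝ) ≤ ∑ v ∈ W, (if (0 < mm G θ S E y v ↔ v ∈ A) then (0 : ℝ) else 1) := by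
      calc (1 : ℝ) = (if (0 < mm G θ S E y v ↔ v ∈ A) then (0 : ℝ) else 1) := by
            rw [if_neg h2]
        _ ≤ _ := Finset.single_le_sum (f := fun v =>
            (if (0 < mm G θ S E y v ↔ v ∈ A) then (0 : ℝ) else 1))
            (fun v _ => by split_ifs <;> norm_num) hv
    refine le_trans ?_ h3
    have h4 := sgn_mem (G := G) θ S E W η y
    rw [abs_le]
    split_ifs <;> constructor <;> linarith

/-- weight of the wrong spins -/
lemma wrong_le {θ : ℝ} (h0 : 0 ≤ θ) (h1 : θ < 1) (S : Finset V) {E : Finset (Ev V)}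
    {o : Ev V → ℝ} (ho : ∀ e ∈ E, |o e| ≤ 1) (v : V) :
    ∑ A ∈ S.powerset, ew G θ S A * ow E o A *
        (if (0 < mm G θ S E o v ↔ v ∈ A) then (0 : ℝ) else 1) ≤
      (1 / 2) * ∑ A ∈ S.powerset, ew G θ S A * ∏ e ∈ E, (if e.1 = v then Real.sqrt (1 - (o e) ^ 2)
        else 1 + sg A e.1 * o e) := by
  have ha := Zp_nonneg (G := G) h0 h1 S ho v
  have hb := Zm_nonneg (G := G) h0 h1 S ho v
  have h2 := bhatt (G := G) h0 h1 S ho v
  have h3 := aux2 ha hb
  rw [← mm_eq, ← ZZ_eq] at h3
  have h4 : ∑ A ∈ S.powerset, ew G θ S A * ow E o A *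
      (if (0 < mm G θ S E o v ↔ v ∈ A) then (0 : ℝ) else 1) =
      (if 0 < mm G θ S E o v then Zm G θ S E o v else Zp G θ S E o v) := by
    by_cases h : 0 < mm G θ S E o v
    · rw [if_pos h]
      unfold Zm
      apply Finset.sum_congr rfl
      intro A _
      by_cases hA : v ∈ A
      · simp [h, hA]
      · simp [h, hA]
    · rw [if_neg h]
      unfold Zp
      apply Finset.sum_congr rfl
      intro A _
      by_cases hA : v ∈ A
      · simp [h, hA]
      · simp [h, hA]
  rw [h4]
  linarith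

open Crest.ProbabilityR.TreeIsing in
/-- **law of the signs under the null law** -/
theorem null_sign (hT : G.IsTree) {θ : ℝ} (h0 : 0 ≤ θ) (h1 : θ < 1) {r : V} {S W : Finset V}
    (hS : PC G r S) (hW : PC G r W) (hWS : W ⊆ S) (η : V → Bool) (R : ℕ) (t : ℝ) :
    |(∫ ω, (1 / 2 : ℝ) ^ S.card * (ZZ G θ S (evs S R) (yy (evs S R) t ω) *
      sgn G θ S (evs S R) W η (yy (evs S R) t ω)) ∂(PP V)) - isingWeight G θ W η| ≤
      W.card / 2 * ∏ j ∈ Finset.range R, kap t j := by
  set E := evs S R with hE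
  have hy : ∀ ω : Om V, ∀ e ∈ E, |yy E t ω e| ≤ 1 := fun ω e _ =>
    (abs_yy_le _ _ _ _).trans (by norm_num)
  set ind : Finset V → ℝ := fun A => if ∀ v ∈ W, (v ∈ A ↔ η v = true) then 1 else 0 with hind
  -- the spin pattern
  have hint1 : Integrable (fun ω : Om V => (1 / 2 : ℝ) ^ S.card *
      ∑ A ∈ S.powerset, ind A * ew G θ S A * ow E (yy E t ω) A) (PP V) := by
    apply Integrable.const_mul
    apply integrable_finsetSum
    intro A _
    exact (integrable_ow E t A).const_mul _
  have hI1 : ∫ ω : Om V, (1 / 2 : ℝ) ^ S.card *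
      ∑ A ∈ S.powerset, ind A * ew G θ S A * ow E (yy E t ω) A ∂(PP V) =
      isingWeight G θ W η := by
    rw [integral_const_mul, integral_finsetSum, ← MA_marginal hT hW hS hWS η]
    · unfold MA
      congr 1
      apply Finset.sum_congr rfl
      intro A _
      rw [integral_const_mul, integral_ow, mul_one]
    · intro A _
      exact (integrable_ow E t A).const_mul _
  have hZZ : ∀ ω : Om V, ZZ G θ S E (yy E t ω) = ∑ A ∈ S.powerset,
      ew G θ S A * ow E (yy E t ω) A := by
    intro ω
    unfold ZZ num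
    simp
  have hint2 : Integrable (fun ω : Om V => (1 / 2 : ℝ) ^ S.card * (ZZ G θ S E (yy E t ω) *
      sgn G θ S E W η (yy E t ω))) (PP V) := by
    apply Integrable.const_mul
    simp_rw [hZZ]
    have h3 : Integrable (fun ω : Om V => ∑ A ∈ S.powerset,
        ew G θ S A * ow E (yy E t ω) A) (PP V) := by
      apply integrable_finsetSum
      intro A _
      exact (integrable_ow E t A).const_mul _
    refine h3.mul_bdd (c := 1) ?_ ?_
    · exact ((measurable_sgn θ S E W η).comp (measurable_yy E t)).aestronglyMeasurable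
    · apply Filter.Eventually.of_forall
      intro ω
      have := sgn_mem (G := G) θ S E W η (yy E t ω)
      rw [Real.norm_eq_abs, abs_of_nonneg this.1]
      exact this.2
  rw [← hI1, ← integral_sub hint2 hint1]
  -- the bound
  have hint3 : Integrable (fun ω : Om V => ∑ v ∈ W, (1 / 2 : ℝ) ^ S.card * ((1 / 2) *
      ∑ A ∈ S.powerset, ew G θ S A * ∏ e ∈ E, psi t v A e (ω e))) (PP V) := by
    apply integrable_finsetSum
    intro v _
    apply Integrable.const_mul
    apply Integrable.const_mul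
    apply integrable_finsetSum
    intro A _
    apply Integrable.const_mul
    exact integrable_prod_psi _ _ (measurable_psi t v A) (fun e p => abs_psi_le t v A e p)
  have hpt : ∀ ω : Om V, |(1 / 2 : ℝ) ^ S.card * (ZZ G θ S E (yy E t ω) *
      sgn G θ S E W η (yy E t ω)) - (1 / 2 : ℝ) ^ S.card *
      ∑ A ∈ S.powerset, ind A * ew G θ S A * ow E (yy E t ω) A| ≤
      ∑ v ∈ W, (1 / 2 : ℝ) ^ S.card * ((1 / 2) *
      ∑ A ∈ S.powerset, ew G θ S A * ∏ e ∈ E, psi t v A e (ω e)) := by
    intro ω
    rw [hZZ, ← mul_sub, abs_mul, abs_of_nonneg (by positivity : (0:ℝ) ≤ (1 / 2 : ℝ) ^ S.card),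
      Finset.sum_mul, ← Finset.sum_sub_distrib, ← Finset.mul_sum]
    apply mul_le_mul_of_nonneg_left _ (by positivity)
    calc |∑ A ∈ S.powerset, (ew G θ S A * ow E (yy E t ω) A * sgn G θ S E W η (yy E t ω) -
          ind A * ew G θ S A * ow E (yy E t ω) A)|
        ≤ ∑ A ∈ S.powerset, |ew G θ S A * ow E (yy E t ω) A * sgn G θ S E W η (yy E t ω) -
          ind A * ew G θ S A * ow E (yy E t ω) A| := Finset.abs_sum_le_sum_abs _ _
      _ ≤ ∑ A ∈ S.powerset, ew G θ S A * ow E (yy E t ω) A *
          ∑ v ∈ W, (if (0 < mm G θ S E (yy E t ω) v ↔ v ∈ A) then (0 : ℝ) else 1) := by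
          apply Finset.sum_le_sum
          intro A _
          have h5 : ew G θ S A * ow E (yy E t ω) A * sgn G θ S E W η (yy E t ω) -
              ind A * ew G θ S A * ow E (yy E t ω) A =
              ew G θ S A * ow E (yy E t ω) A * (sgn G θ S E W η (yy E t ω) - ind A) := by ring
          have h6 : 0 ≤ ew G θ S A * ow E (yy E t ω) A :=
            mul_nonneg (ew_nonneg h0 h1 S A) (ow_nonneg (hy ω) A)
          rw [h5, abs_mul, abs_of_nonneg h6]
          exact mul_le_mul_of_nonneg_left (sgn_sub_le S W η _ A) h6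
      _ = ∑ v ∈ W, ∑ A ∈ S.powerset, ew G θ S A * ow E (yy E t ω) A *
          (if (0 < mm G θ S E (yy E t ω) v ↔ v ∈ A) then (0 : ℝ) else 1) := by
          simp_rw [Finset.mul_sum]
          rw [Finset.sum_comm]
      _ ≤ ∑ v ∈ W, (1 / 2) *
          ∑ A ∈ S.powerset, ew G θ S A * ∏ e ∈ E, psi t v A e (ω e) := by
          apply Finset.sum_le_sum
          intro v _
          refine (wrong_le h0 h1 S (hy ω) v).trans (le_of_eq ?_)
          congr 1
          apply Finset.sum_congr rfl
          intro A _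
          congr 1
          apply Finset.prod_congr rfl
          intro e he
          unfold yy psi
          simp only [he, if_true]
  calc |∫ ω, ((1 / 2 : ℝ) ^ S.card * (ZZ G θ S E (yy E t ω) *
      sgn G θ S E W η (yy E t ω)) - (1 / 2 : ℝ) ^ S.card *
      ∑ A ∈ S.powerset, ind A * ew G θ S A * ow E (yy E t ω) A) ∂(PP V)|
      ≤ ∫ ω, |(1 / 2 : ℝ) ^ S.card * (ZZ G θ S E (yy E t ω) *
      sgn G θ S E W η (yy E t ω)) - (1 / 2 : ℝ) ^ S.card *
      ∑ A ∈ S.powerset, ind A * ew G θ S A * ow E (yy E t ω) A| ∂(PP V) :=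
        abs_integral_le_integral_abs
    _ ≤ ∫ ω, ∑ v ∈ W, (1 / 2 : ℝ) ^ S.card * ((1 / 2) *
      ∑ A ∈ S.powerset, ew G θ S A * ∏ e ∈ E, psi t v A e (ω e)) ∂(PP V) := by
        apply integral_mono_of_nonneg _ hint3
        · exact Filter.Eventually.of_forall hpt
        · exact Filter.Eventually.of_forall fun ω => abs_nonneg _
    _ = ∑ v ∈ W, (1 / 2) * ∏ j ∈ Finset.range R, kap t j := by
        rw [integral_finsetSum]
        · apply Finset.sum_congr rfl
          intro v hv
          rw [integral_const_mul, integral_const_mul, integral_finsetSum]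
          · have h7 : ∀ A ∈ S.powerset, ∫ ω : Om V, ew G θ S A *
                ∏ e ∈ E, psi t v A e (ω e) ∂(PP V) =
                ew G θ S A * ∏ j ∈ Finset.range R, kap t j := by
              intro A _
              rw [integral_const_mul, integral_prod_events _ _ (measurable_psi t v A)]
              congr 1
              simp_rw [integral_psi]
              exact prod_evs S R (hWS hv) (fun j => kap t j)
            rw [Finset.sum_congr rfl h7, ← Finset.sum_mul]
            have h2 := MA_one hT (θ := θ) hS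
            unfold MA at h2
            simp only [one_mul] at h2
            calc (1 / 2 : ℝ) ^ S.card * (1 / 2 * ((∑ A ∈ S.powerset, ew G θ S A) *
                ∏ j ∈ Finset.range R, kap t j)) =
                ((1 / 2 : ℝ) ^ S.card * ∑ A ∈ S.powerset, ew G θ S A) *
                  (1 / 2 * ∏ j ∈ Finset.range R, kap t j) := by ring
              _ = _ := by rw [h2, one_mul]
          · intro A _
            apply Integrable.const_mul
            exact integrable_prod_psi _ _ (measurable_psi t v A)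
              (fun e p => abs_psi_le t v A e p)
        · intro v _
          apply Integrable.const_mul
          apply Integrable.const_mul
          apply integrable_finsetSum
          intro A _
          apply Integrable.const_mul
          exact integrable_prod_psi _ _ (measurable_psi t v A) (fun e p => abs_psi_le t v A e p)
    _ = W.card / 2 * ∏ j ∈ Finset.range R, kap t j := by
        rw [Finset.sum_const, nsmul_eq_mul]
        ring

end Crest.Agent.R160.H0
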