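import Mathlib
import Crest.Agent.R160.Causal

/-! Row 160: LAW of the observations: under the noise law the observation process has the law of
the null observations reweighted by the likelihood. -/

set_option autoImplicit false
set_option linter.unusedSectionVars false

open MeasureTheory Finset
open scoped Classical

namespace Crest.Agent.R160

variable {V : Type*}

/-! ### generalities -/

lemma integrable_of_bdd {f : Om V → ℝ} (hf : Measurable f) {C : ℝ} (hC : ∀ ω, |f ω| ≤ C) :
    Integrable f (PP V) :=
  Integrable.of_bound hf.aestronglyMeasurable C (Filter.Eventually.of_forall hC)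

/-- integral after resampling the noise of `e` -/
lemma integral_updz (e : Ev V) {f : Om V → ℝ} (hf : Measurable f) {C : ℝ}
    (hC : ∀ ω, |f ω| ≤ C) :
    ∫ ω, f ω ∂(PP V) = ∫ ω, (∫ z : unitInterval, f (updz ω e z)) ∂(PP V) := by
  have h1 := mp_updz (V := V) e
  have h2 : ∫ ω, f ω ∂(PP V) =
      ∫ p : Om V × unitInterval, f (updz p.1 e p.2) ∂((PP V).prod volume) := by
    conv_lhs => rw [← h1.map_eq]
    rw [integral_map h1.measurable.aemeasurable]
    rw [h1.map_eq]
    exact hf.aestronglyMeasurable
  rw [h2, integral_prod]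
  exact Integrable.of_bound (hf.comp h1.measurable).aestronglyMeasurable C
    (Filter.Eventually.of_forall fun p => hC _)

/-- no ties -/
lemma ae_tm_ne {e e' : Ev V} (h : e ≠ e') : ∀ᵐ ω ∂(PP V), tm ω e ≠ tm ω e' := by
  have hm : MeasurableSet {ω : Om V | tm ω e = tm ω e'} :=
    measurableSet_eq_fun (measurable_tm e) (measurable_tm e')
  rw [ae_iff]
  simp only [not_not]
  have h1 := mp_update (V := V) e
  rw [← h1.measure_preimage hm.nullMeasurableSet]
  have hm2 : MeasurableSet ((fun p : Om V × (unitInterval × unitInterval) =>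
      Function.update p.1 e p.2) ⁻¹' {ω : Om V | tm ω e = tm ω e'}) := h1.measurable hm
  rw [Measure.measure_prod_null hm2]
  apply Filter.Eventually.of_forall
  intro ω
  simp only [Pi.zero_apply]
  have h2 : (Prod.mk ω ⁻¹' ((fun p : Om V × (unitInterval × unitInterval) =>
      Function.update p.1 e p.2) ⁻¹' {ω : Om V | tm ω e = tm ω e'})) ⊆
      (Prod.fst ⁻¹' {u : unitInterval | (e.2 : ℝ) + (u : ℝ) = tm ω e'}) := by
    intro p hp
    simp only [Set.mem_preimage, Set.mem_ofPred_eq] at hp ⊢
    unfold tm clk at hp ⊢
    rw [Function.update_self, Function.update_of_ne h.symm] at hp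
    exact hp
  apply measure_mono_null h2
  have h3 : MeasurePreserving (Prod.fst : unitInterval × unitInterval → unitInterval)
      volume volume := measurePreserving_fst
  have h4 : MeasurableSet {u : unitInterval | (e.2 : ℝ) + (u : ℝ) = tm ω e'} :=
    measurableSet_eq_fun (measurable_subtype_coe.const_add _) measurable_const
  rw [h3.measure_preimage h4.nullMeasurableSet]
  apply Set.Subsingleton.measure_zero
  intro u hu u' hu'
  simp only [Set.mem_ofPred_eq] at hu hu'
  apply Subtype.ext
  linarith

/-- `F` does not depend on the noises of the events in `E` (it may depend on all clocks) -/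
def NoNz (E : Finset (Ev V)) (F : Om V → (Ev V → ℝ) → ℝ) : Prop :=
  ∀ ω ω' : Om V, (∀ e, (ω e).1 = (ω' e).1) → (∀ e, e ∉ E → ω e = ω' e) → ∀ o, F ω o = F ω' o

/-- masking -/
noncomputable def msk (E : Finset (Ev V)) (o : Ev V → ℝ) : Ev V → ℝ :=
  fun e => if e ∈ E then o e else 0

lemma measurable_msk (E : Finset (Ev V)) : Measurable (msk E) := by
  apply measurable_pi_lambda
  intro e
  unfold msk
  split_ifs
  · exact measurable_pi_apply e
  · exact measurable_const

@[fun_prop]
lemma measurable_nul' : Measurable fun ω : Om V => nul ω :=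
  measurable_pi_iff.mpr fun e => measurable_nul e

lemma abs_nul_le (ω : Om V) (e : Ev V) : |nul ω e| ≤ 1 / 2 := by
  unfold nul
  rw [abs_mul, abs_of_nonneg (st_nonneg ω e)]
  have h1 := st_le ω e
  have h2 := nz_mem ω e
  have h3 := st_nonneg ω e
  nlinarith [abs_nonneg (nz ω e)]

lemma abs_nul_lt (ω : Om V) (e : Ev V) : |nul ω e| < 1 :=
  lt_of_le_of_lt (abs_nul_le ω e) (by norm_num)

variable (G : SimpleGraph V) (θ : ℝ) (S : Finset V)

lemma abs_ow_le {E : Finset (Ev V)} {o : Ev V → ℝ} (ho : ∀ e ∈ E, |o e| < 1) (A : Finset V) :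
    |ow E o A| ≤ 2 ^ E.card := by
  unfold ow
  rw [Finset.abs_prod]
  calc ∏ e ∈ E, |1 + sg A e.1 * o e| ≤ ∏ _e ∈ E, (2 : ℝ) := by
        apply Finset.prod_le_prod (fun _ _ => abs_nonneg _)
        intro e he
        have h1 : |sg A e.1 * o e| ≤ 1 := by
          rw [abs_mul, abs_sg, one_mul]; exact (ho e he).le
        calc |1 + sg A e.1 * o e| ≤ |(1 : ℝ)| + |sg A e.1 * o e| := abs_add_le _ _
          _ ≤ 2 := by rw [abs_one]; linarith
    _ = 2 ^ E.card := by simp

lemma abs_ZZ_le {E : Finset (Ev V)} {o : Ev V → ℝ} (ho : ∀ e ∈ E, |o e| < 1) :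
    |ZZ G θ S E o| ≤ ∑ A ∈ S.powerset, |ew G θ S A| * 2 ^ E.card := by
  unfold ZZ num
  refine (Finset.abs_sum_le_sum_abs _ _).trans (Finset.sum_le_sum fun A _ => ?_)
  rw [one_mul, abs_mul]
  exact mul_le_mul_of_nonneg_left (abs_ow_le ho A) (abs_nonneg _)

lemma ZZ_empty (o o' : Ev V → ℝ) : ZZ G θ S ∅ o = ZZ G θ S ∅ o' := by
  unfold ZZ
  exact num_congr G θ S (fun e he => absurd he (Finset.notMem_empty e)) _

/-- likelihood ratio of the null observations -/
noncomputable def LR (E : Finset (Ev V)) (ω : Om V) : ℝ :=
  ZZ G θ S E (nul ω) / ZZ G θ S ∅ (fun _ => 0)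

lemma abs_LR_le (E : Finset (Ev V)) : ∃ C, 0 ≤ C ∧ ∀ ω : Om V, |LR G θ S E ω| ≤ C := by
  refine ⟨(∑ A ∈ S.powerset, |ew G θ S A| * 2 ^ E.card) / |ZZ G θ S ∅ (fun _ => 0)|,
    by positivity, fun ω => ?_⟩
  unfold LR
  rw [abs_div]
  exact div_le_div_of_nonneg_right (abs_ZZ_le G θ S fun e _ => abs_nul_lt ω e) (abs_nonneg _)

lemma measurable_LR (E : Finset (Ev V)) : Measurable (LR G θ S E) := by
  unfold LR
  exact ((measurable_ZZ G θ S E).comp measurable_nul').div_const _

/-- the last observation -/
lemma obs_last {E : Finset (Ev V)} {ω : Om V} {e : Ev V} (he : e ∈ E)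
    (h : ∀ e' ∈ E.erase e, tm ω e' < tm ω e) :
    obs G θ S E ω = Function.update (obs G θ S (E.erase e) ω) e
      (st ω e * TT (st ω e * mm G θ S (E.erase e) (obs G θ S (E.erase e) ω) e.1) (nz ω e)) := by
  have hb : before E ω (tm ω e) = E.erase e := by
    ext x
    rw [mem_before, Finset.mem_erase]
    constructor
    · rintro ⟨h1, h2⟩
      exact ⟨fun hx => by rw [hx] at h2; exact lt_irrefl _ h2, h1⟩
    · rintro ⟨h1, h2⟩
      exact ⟨h2, h x (Finset.mem_erase.mpr ⟨h1, h2⟩)⟩
  funext x
  by_cases hx : x = e
  · rw [hx, Function.update_self, obs_of_mem G θ S he]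
    unfold mt
    rw [hb]
    congr 3
    apply mm_congr
    intro e' he'
    rw [← hb] at he'
    have := obs_before G θ S he'
    rw [hb] at this
    exact this.symm
  · rw [Function.update_of_ne hx]
    by_cases hxE : x ∈ E
    · have he' : x ∈ before E ω (tm ω e) := by
        rw [hb]; exact Finset.mem_erase.mpr ⟨hx, hxE⟩
      have := obs_before G θ S he'
      rw [hb] at this
      exact this.symm
    · rw [obs_of_not_mem G θ S hxE,
        obs_of_not_mem G θ S (fun h' => hxE (Finset.mem_of_mem_erase h'))]

/-- indicator that `e` is the last event of `E` -/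
noncomputable def lst (E : Finset (Ev V)) (e : Ev V) (ω : Om V) : ℝ :=
  if ∀ e' ∈ E.erase e, tm ω e' < tm ω e then 1 else 0

lemma measurable_lst (E : Finset (Ev V)) (e : Ev V) : Measurable (lst E e) := by
  unfold lst
  apply Measurable.ite _ measurable_const measurable_const
  have : {ω : Om V | ∀ e' ∈ E.erase e, tm ω e' < tm ω e} =
      ⋂ e' ∈ E.erase e, {ω : Om V | tm ω e' < tm ω e} := by
    ext ω; simp
  rw [this]
  exact Finset.measurableSet_biInter _ fun e' _ =>
    measurableSet_lt (measurable_tm e') (measurable_tm e)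

lemma lst_mem (E : Finset (Ev V)) (e : Ev V) (ω : Om V) : 0 ≤ lst E e ω ∧ lst E e ω ≤ 1 := by
  unfold lst; split_ifs <;> norm_num

lemma lst_congr (E : Finset (Ev V)) (e : Ev V) {ω ω' : Om V} (h : ∀ e, (ω e).1 = (ω' e).1) :
    lst E e ω = lst E e ω' := by
  have : ∀ x, tm ω x = tm ω' x := fun x => by unfold tm clk; rw [h x]
  unfold lst
  simp only [this]

lemma sum_lst {E : Finset (Ev V)} (hE : E.Nonempty) :
    ∀ᵐ ω ∂(PP V), ∑ e ∈ E, lst E e ω = 1 := by
  have h1 : ∀ᵐ ω ∂(PP V), ∀ e ∈ E, ∀ e' ∈ E, e ≠ e' → tm ω e ≠ tm ω e' := by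
    rw [Filter.eventually_all_finset]
    intro e _
    rw [Filter.eventually_all_finset]
    intro e' _
    by_cases h : e = e'
    · exact Filter.Eventually.of_forall fun ω h' => absurd h h'
    · exact (ae_tm_ne h).mono fun ω hω _ => hω
  filter_upwards [h1] with ω hω
  obtain ⟨e, he, hmax⟩ := Finset.exists_max_image E (fun e => tm ω e) hE
  rw [Finset.sum_eq_single e]
  · unfold lst
    rw [if_pos]
    intro e' he'
    rw [Finset.mem_erase] at he'
    exact lt_of_le_of_ne (hmax e' he'.2) (hω e' he'.2 e he he'.1)
  · intro e' he' hne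
    unfold lst
    rw [if_neg]
    intro h
    have := h e (Finset.mem_erase.mpr ⟨hne.symm, he⟩)
    exact absurd (hmax e' he') (not_le.mpr this)
  · intro h
    exact absurd he h

/-- clamp to `[-1,1]` -/
noncomputable def clp (x : ℝ) : ℝ := max (-1) (min 1 x)

lemma clp_eq {x : ℝ} (h : |x| ≤ 1) : clp x = x := by
  unfold clp
  rw [abs_le] at h
  rw [min_eq_right h.2, max_eq_right h.1]

lemma abs_clp_le (x : ℝ) : |clp x| ≤ 1 := by
  unfold clp
  rw [abs_le]
  constructor
  · exact le_max_left _ _
  · exact max_le (by norm_num) (min_le_left _ _)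

@[fun_prop]
lemma measurable_clp : Measurable clp := by unfold clp; fun_prop

/-- one step of the law -/
lemma law_step {E : Finset (Ev V)} {e : Ev V} (he : e ∈ E) (hθ : |θ| < 1)
    {F : Om V → (Ev V → ℝ) → ℝ} (hF : Measurable (Function.uncurry F)) {C : ℝ}
    (hC : ∀ ω o, |F ω o| ≤ C) (hN : NoNz E F) :
    ∫ ω, lst E e ω * F ω (obs G θ S E ω) ∂(PP V) =
      ∫ ω, lst E e ω * ((1 + clp (mm G θ S (E.erase e) (obs G θ S (E.erase e) ω) e.1) * nul ω e) *
        F ω (Function.update (obs G θ S (E.erase e) ω) e (nul ω e))) ∂(PP V) := by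
  have hC0 : 0 ≤ C := (abs_nonneg _).trans (hC (fun _ => (0, 0)) (fun _ => 0))
  have hup : Measurable fun p : (Ev V → ℝ) × ℝ => Function.update p.1 e p.2 :=
    measurable_update'
  have hm1 : Measurable fun ω : Om V => lst E e ω * F ω (obs G θ S E ω) :=
    (measurable_lst E e).mul (hF.comp (measurable_id.prodMk (measurable_obs' G θ S E)))
  have hm2 : Measurable fun ω : Om V => lst E e ω *
      ((1 + clp (mm G θ S (E.erase e) (obs G θ S (E.erase e) ω) e.1) * nul ω e) *
        F ω (Function.update (obs G θ S (E.erase e) ω) e (nul ω e))) := by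
    apply (measurable_lst E e).mul
    apply Measurable.mul
    · exact ((measurable_clp.comp ((measurable_mm G θ S _ e.1).comp
        (measurable_obs' G θ S _))).mul (measurable_nul e)).const_add 1
    · exact hF.comp (measurable_id.prodMk
        (hup.comp ((measurable_obs' G θ S _).prodMk (measurable_nul e))))
  rw [integral_updz e hm1 (C := C) ?_, integral_updz e hm2 (C := 2 * C) ?_]
  · congr 1
    funext ω
    -- the inner integrals
    set o' := obs G θ S (E.erase e) ω with ho'
    set m := mm G θ S (E.erase e) o' e.1 with hm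
    have hobs : ∀ z : unitInterval, obs G θ S (E.erase e) (updz ω e z) = o' := by
      intro z
      apply obs_congr_noise
      intro e' he'
      exact updz_ne ω (Finset.ne_of_mem_erase he') z
    have hlst : ∀ z : unitInterval, lst E e (updz ω e z) = lst E e ω := fun z =>
      lst_congr E e fun e' => updz_fst ω e e' z
    have hFz : ∀ z : unitInterval, ∀ o, F (updz ω e z) o = F ω o := by
      intro z o
      apply hN
      · exact fun e' => updz_fst ω e e' z
      · intro e' he'
        exact updz_ne ω (fun h => he' (by rw [h]; exact he)) z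
    have habs : |m| ≤ 1 := abs_mm_le G S hθ (fun x _ => obs_lt_one G S hθ _ ω x) e.1
    have hnul : ∀ z : unitInterval, nul (updz ω e z) e = st ω e * (2 * (z : ℝ) - 1) := by
      intro z
      unfold nul
      rw [st_updz, nz_updz_same]
    by_cases hl : ∀ e' ∈ E.erase e, tm ω e' < tm ω e
    · have h1 : lst E e ω = 1 := by unfold lst; rw [if_pos hl]
      have h2 : ∀ z : unitInterval, obs G θ S E (updz ω e z) =
          Function.update o' e (st ω e * TT (st ω e * m) (2 * (z : ℝ) - 1)) := by
        intro z
        rw [obs_last G θ S he (fun e' he' => by rw [tm_updz, tm_updz]; exact hl e' he')]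
        rw [hobs z, st_updz, nz_updz_same]
      simp only [hlst, hFz, h1, one_mul, h2, hobs, hnul]
      rw [← hm, clp_eq habs]
      have h3 : |st ω e * m| ≤ 1 := by
        rw [abs_mul, abs_of_nonneg (st_nonneg ω e)]
        have := st_le ω e
        have := st_nonneg ω e
        nlinarith [abs_nonneg m]
      have h4 := integral_TT h3 (fun y => F ω (Function.update o' e (st ω e * y)))
      rw [h4]
      congr 1
      funext z
      ring
    · have h1 : lst E e ω = 0 := by unfold lst; rw [if_neg hl]
      simp only [hlst, h1, zero_mul]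
  · intro ω
    have h1 := lst_mem E e ω
    have h2 : |1 + clp (mm G θ S (E.erase e) (obs G θ S (E.erase e) ω) e.1) * nul ω e| ≤ 2 := by
      have h3 := abs_clp_le (mm G θ S (E.erase e) (obs G θ S (E.erase e) ω) e.1)
      have h4 := abs_nul_lt ω e
      calc _ ≤ |(1 : ℝ)| + |clp (mm G θ S (E.erase e) (obs G θ S (E.erase e) ω) e.1) * nul ω e| :=
            abs_add_le _ _
        _ ≤ 2 := by
            rw [abs_one, abs_mul]
            nlinarith [abs_nonneg (clp (mm G θ S (E.erase e) (obs G θ S (E.erase e) ω) e.1)),
              abs_nonneg (nul ω e)]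
    rw [abs_mul, abs_mul, abs_of_nonneg h1.1]
    calc lst E e ω * (|1 + clp (mm G θ S (E.erase e) (obs G θ S (E.erase e) ω) e.1) * nul ω e| *
          |F ω (Function.update (obs G θ S (E.erase e) ω) e (nul ω e))|)
        ≤ 1 * (2 * C) := by
          apply mul_le_mul h1.2 _ (by positivity) zero_le_one
          exact mul_le_mul h2 (hC _ _) (abs_nonneg _) (by norm_num)
      _ = 2 * C := one_mul _
  · intro ω
    have h1 := lst_mem E e ω
    rw [abs_mul, abs_of_nonneg h1.1]
    calc lst E e ω * |F ω (obs G θ S E ω)| ≤ 1 * C :=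
          mul_le_mul h1.2 (hC _ _) (abs_nonneg _) zero_le_one
      _ = C := one_mul C

/-- **LAW**, full version -/
theorem law_full (hθ : |θ| < 1) : ∀ (E : Finset (Ev V)) (F : Om V → (Ev V → ℝ) → ℝ),
    Measurable (Function.uncurry F) → (∃ C, ∀ ω o, |F ω o| ≤ C) → NoNz E F →
    ∫ ω, F ω (obs G θ S E ω) ∂(PP V) =
      ∫ ω, LR G θ S E ω * F ω (msk E (nul ω)) ∂(PP V) := by
  intro E
  induction hn : E.card using Nat.strong_induction_on generalizing E with
  | _ n ih =>
    intro F hF ⟨C, hC⟩ hN
    rcases E.eq_empty_or_nonempty with hE | hE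
    · subst hE
      congr 1
      funext ω
      have h1 : obs G θ S ∅ ω = msk ∅ (nul ω) := by
        funext e
        rw [obs_of_not_mem G θ S (Finset.notMem_empty e)]
        simp [msk]
      have h2 : LR G θ S ∅ ω = 1 := by
        unfold LR
        rw [ZZ_empty G θ S (nul ω) (fun _ => 0)]
        apply div_self
        exact (ZZ_pos G S hθ (fun e he => absurd he (Finset.notMem_empty e))).ne'
      rw [h1, h2, one_mul]
    · have hC0 : 0 ≤ C := (abs_nonneg _).trans (hC (fun _ => (0, 0)) (fun _ => 0))
      obtain ⟨K, hK0, hK⟩ := abs_LR_le G θ S E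
      have hms : Measurable fun ω : Om V => F ω (msk E (nul ω)) :=
        hF.comp (measurable_id.prodMk ((measurable_msk E).comp measurable_nul'))
      have hobsm : Measurable fun ω : Om V => F ω (obs G θ S E ω) :=
        hF.comp (measurable_id.prodMk (measurable_obs' G θ S E))
      -- split according to the last event
      have h1 : ∫ ω, F ω (obs G θ S E ω) ∂(PP V) =
          ∑ e ∈ E, ∫ ω, lst E e ω * F ω (obs G θ S E ω) ∂(PP V) := by
        rw [← integral_finsetSum]
        · apply integral_congr_ae
          filter_upwards [sum_lst hE] with ω hω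
          rw [← Finset.sum_mul, hω, one_mul]
        · intro e _
          apply integrable_of_bdd (f := fun ω => lst E e ω * F ω (obs G θ S E ω)) (C := C)
            ((measurable_lst E e).mul hobsm)
          intro ω
          have h1 := lst_mem E e ω
          rw [abs_mul, abs_of_nonneg h1.1]
          calc lst E e ω * |F ω (obs G θ S E ω)| ≤ 1 * C :=
                mul_le_mul h1.2 (hC _ _) (abs_nonneg _) zero_le_one
            _ = C := one_mul C
      have h2 : ∫ ω, LR G θ S E ω * F ω (msk E (nul ω)) ∂(PP V) =
          ∑ e ∈ E, ∫ ω, lst E e ω * (LR G θ S E ω * F ω (msk E (nul ω))) ∂(PP V) := by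
        rw [← integral_finsetSum]
        · apply integral_congr_ae
          filter_upwards [sum_lst hE] with ω hω
          rw [← Finset.sum_mul, hω, one_mul]
        · intro e _
          apply integrable_of_bdd
            (f := fun ω => lst E e ω * (LR G θ S E ω * F ω (msk E (nul ω)))) (C := K * C)
            ((measurable_lst E e).mul ((measurable_LR G θ S E).mul hms))
          intro ω
          have h1 := lst_mem E e ω
          rw [abs_mul, abs_of_nonneg h1.1, abs_mul]
          calc lst E e ω * (|LR G θ S E ω| * |F ω (msk E (nul ω))|) ≤ 1 * (K * C) := by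
                apply mul_le_mul h1.2 _ (by positivity) zero_le_one
                exact mul_le_mul (hK ω) (hC _ _) (abs_nonneg _) hK0
            _ = K * C := one_mul _
      rw [h1, h2]
      apply Finset.sum_congr rfl
      intro e he
      rw [law_step G θ S he hθ hF hC hN]
      -- induction hypothesis
      set E' := E.erase e with hE'
      have hcard : E'.card < n := by
        rw [hE', Finset.card_erase_of_mem he]
        have := Finset.card_pos.mpr hE
        omega
      have heE' : e ∉ E' := Finset.notMem_erase e E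
      have hins : insert e E' = E := Finset.insert_erase he
      have hup : Measurable fun p : (Ev V → ℝ) × ℝ => Function.update p.1 e p.2 :=
        measurable_update'
      let F' : Om V → (Ev V → ℝ) → ℝ := fun ω o =>
        lst E e ω * ((1 + clp (mm G θ S E' o e.1) * nul ω e) *
          F ω (Function.update o e (nul ω e)))
      have hF' : Measurable (Function.uncurry F') := by
        show Measurable fun p : Om V × (Ev V → ℝ) => lst E e p.1 *
          ((1 + clp (mm G θ S E' p.2 e.1) * nul p.1 e) *
          F p.1 (Function.update p.2 e (nul p.1 e)))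
        apply ((measurable_lst E e).comp measurable_fst).mul
        apply Measurable.mul
        · exact ((measurable_clp.comp ((measurable_mm G θ S _ e.1).comp
            measurable_snd)).mul ((measurable_nul e).comp measurable_fst)).const_add 1
        · exact hF.comp (measurable_fst.prodMk
            (hup.comp (measurable_snd.prodMk ((measurable_nul e).comp measurable_fst))))
      have hb' : ∃ C', ∀ ω o, |F' ω o| ≤ C' := by
        refine ⟨2 * C, fun ω o => ?_⟩
        have h1 := lst_mem E e ω
        have h2 : |1 + clp (mm G θ S E' o e.1) * nul ω e| ≤ 2 := by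
          have h3 := abs_clp_le (mm G θ S E' o e.1)
          have h4 := abs_nul_lt ω e
          calc _ ≤ |(1 : ℝ)| + |clp (mm G θ S E' o e.1) * nul ω e| := abs_add_le _ _
            _ ≤ 2 := by
                rw [abs_one, abs_mul]
                nlinarith [abs_nonneg (clp (mm G θ S E' o e.1)), abs_nonneg (nul ω e)]
        show |lst E e ω * ((1 + clp (mm G θ S E' o e.1) * nul ω e) *
          F ω (Function.update o e (nul ω e)))| ≤ 2 * C
        rw [abs_mul, abs_mul, abs_of_nonneg h1.1]
        calc lst E e ω * (|1 + clp (mm G θ S E' o e.1) * nul ω e| *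
              |F ω (Function.update o e (nul ω e))|)
            ≤ 1 * (2 * C) := by
              apply mul_le_mul h1.2 _ (by positivity) zero_le_one
              exact mul_le_mul h2 (hC _ _) (abs_nonneg _) (by norm_num)
          _ = 2 * C := one_mul _
      have hN' : NoNz E' F' := by
        intro ω ω' hc hn o
        show lst E e ω * ((1 + clp (mm G θ S E' o e.1) * nul ω e) *
          F ω (Function.update o e (nul ω e))) = lst E e ω' *
          ((1 + clp (mm G θ S E' o e.1) * nul ω' e) * F ω' (Function.update o e (nul ω' e)))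
        have h1 : nul ω e = nul ω' e := by
          unfold nul st clk nz
          rw [hn e heE']
        rw [lst_congr E e hc, h1]
        congr 2
        apply hN ω ω' hc
        intro x hx
        exact hn x fun h => hx (Finset.mem_of_mem_erase h)
      have hIH := ih E'.card hcard E' rfl F' hF' hb' hN'
      have hLHS : ∫ ω, lst E e ω * ((1 + clp (mm G θ S E' (obs G θ S E' ω) e.1) * nul ω e) *
          F ω (Function.update (obs G θ S E' ω) e (nul ω e))) ∂(PP V) =
          ∫ ω, F' ω (obs G θ S E' ω) ∂(PP V) := rfl
      rw [hLHS, hIH]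
      congr 1
      funext ω
      show LR G θ S E' ω * (lst E e ω * ((1 + clp (mm G θ S E' (msk E' (nul ω)) e.1) * nul ω e) *
          F ω (Function.update (msk E' (nul ω)) e (nul ω e)))) = _
      have e1 : mm G θ S E' (msk E' (nul ω)) e.1 = mm G θ S E' (nul ω) e.1 := by
        apply mm_congr
        intro x hx
        simp [msk, hx]
      have e2 : Function.update (msk E' (nul ω)) e (nul ω e) = msk E (nul ω) := by
        funext x
        by_cases hx : x = e
        · rw [hx, Function.update_self]
          simp [msk, he]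
        · rw [Function.update_of_ne hx]
          simp [msk, hE', hx]
      have e3 : |mm G θ S E' (nul ω) e.1| ≤ 1 :=
        abs_mm_le G S hθ (fun x _ => abs_nul_lt ω x) e.1
      have e4 : LR G θ S E ω = LR G θ S E' ω * (1 + mm G θ S E' (nul ω) e.1 * nul ω e) := by
        unfold LR
        rw [← hins, ZZ_insert G θ S heE'
          (ZZ_pos G S hθ (fun x _ => abs_nul_lt ω x)).ne']
        ring
      rw [e1, e2, clp_eq e3, e4]
      ring

/-- **LAW at time `t`**: for functionals of the clocks and of the observations before `t` -/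
theorem law_before (hθ : |θ| < 1) (E : Finset (Ev V)) (t : ℝ)
    (F : Om V → (Ev V → ℝ) → ℝ) (hF : Measurable (Function.uncurry F))
    (hb : ∃ C, ∀ ω o, |F ω o| ≤ C)
    (hN : ∀ ω ω' : Om V, (∀ e, (ω e).1 = (ω' e).1) → ∀ o, F ω o = F ω' o) :
    ∫ ω, F ω (msk (before E ω t) (obs G θ S E ω)) ∂(PP V) =
      ∫ ω, LR G θ S (before E ω t) ω * F ω (msk (before E ω t) (nul ω)) ∂(PP V) := by
  obtain ⟨C, hC⟩ := hb
  have hC0 : 0 ≤ C := (abs_nonneg _).trans (hC (fun _ => (0, 0)) (fun _ => 0))
  -- indicator of the set of past events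
  let ind : Finset (Ev V) → Om V → ℝ := fun B ω => if before E ω t = B then 1 else 0
  have hindm : ∀ B, Measurable (ind B) := by
    intro B
    apply Measurable.ite _ measurable_const measurable_const
    by_cases hB : B ⊆ E
    · have : {ω : Om V | before E ω t = B} =
          ⋂ e ∈ E, {ω : Om V | (tm ω e < t) ↔ e ∈ B} := by
        ext ω
        simp only [Set.mem_ofPred_eq, Set.mem_iInter]
        constructor
        · intro h e he
          rw [← h, mem_before]
          simp [he]
        · intro h
          ext e
          rw [mem_before]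
          constructor
          · rintro ⟨h1, h2⟩; exact (h e h1).mp h2
          · intro h1; exact ⟨hB h1, (h e (hB h1)).mpr h1⟩
      rw [this]
      apply Finset.measurableSet_biInter
      intro e _
      have hm : MeasurableSet {ω : Om V | tm ω e < t} :=
        measurableSet_lt (measurable_tm e) measurable_const
      by_cases heB : e ∈ B
      · simpa [heB] using hm
      · have : {ω : Om V | (tm ω e < t) ↔ e ∈ B} = {ω : Om V | tm ω e < t}ᶜ := by
          ext ω; simp [heB]
        rw [this]; exact hm.compl
    · have : {ω : Om V | before E ω t = B} = ∅ := by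
        ext ω
        simp only [Set.mem_ofPred_eq, Set.mem_empty_iff_false, iff_false]
        intro h
        exact hB (h ▸ before_subset E ω t)
      rw [this]; exact MeasurableSet.empty
  have hind : ∀ B ω, 0 ≤ ind B ω ∧ ind B ω ≤ 1 := by
    intro B ω
    show 0 ≤ (if before E ω t = B then (1:ℝ) else 0) ∧ (if before E ω t = B then (1:ℝ) else 0) ≤ 1
    split_ifs <;> norm_num
  have hsum : ∀ (ω : Om V) (Φ : Finset (Ev V) → ℝ),
      Φ (before E ω t) = ∑ B ∈ E.powerset, ind B ω * Φ B := by
    intro ω Φ
    rw [Finset.sum_eq_single (before E ω t)]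
    · show _ = (if before E ω t = before E ω t then (1:ℝ) else 0) * _
      rw [if_pos rfl, one_mul]
    · intro B _ hB
      show (if before E ω t = B then (1:ℝ) else 0) * _ = 0
      rw [if_neg (Ne.symm hB), zero_mul]
    · intro h
      exact absurd (Finset.mem_powerset.mpr (before_subset E ω t)) h
  have hmskm : ∀ B : Finset (Ev V), Measurable fun ω : Om V => F ω (msk B (nul ω)) := fun B =>
    hF.comp (measurable_id.prodMk ((measurable_msk B).comp measurable_nul'))
  have hobsm : ∀ B : Finset (Ev V), Measurable fun ω : Om V => F ω (obs G θ S B ω) := fun B =>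
    hF.comp (measurable_id.prodMk (measurable_obs' G θ S B))
  have h1 : ∀ ω : Om V, F ω (msk (before E ω t) (obs G θ S E ω)) =
      ∑ B ∈ E.powerset, ind B ω * F ω (obs G θ S B ω) := by
    intro ω
    rw [← hsum ω (fun B => F ω (obs G θ S B ω))]
    congr 1
    funext e
    by_cases he : e ∈ before E ω t
    · rw [obs_before G θ S he]
      simp [msk, he]
    · rw [obs_of_not_mem G θ S he]
      simp [msk, he]
  have h2 : ∀ ω : Om V, LR G θ S (before E ω t) ω * F ω (msk (before E ω t) (nul ω)) =
      ∑ B ∈ E.powerset, ind B ω * (LR G θ S B ω * F ω (msk B (nul ω))) := by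
    intro ω
    exact hsum ω (fun B => LR G θ S B ω * F ω (msk B (nul ω)))
  simp_rw [h1, h2]
  rw [integral_finsetSum, integral_finsetSum]
  · apply Finset.sum_congr rfl
    intro B _
    have hF2 : Measurable (Function.uncurry fun (ω : Om V) (o : Ev V → ℝ) => ind B ω * F ω o) :=
      ((hindm B).comp measurable_fst).mul hF
    have hN2 : NoNz B fun (ω : Om V) (o : Ev V → ℝ) => ind B ω * F ω o := by
      intro ω ω' hc _ o
      have h3 : before E ω t = before E ω' t := by
        apply Finset.filter_congr
        intro x _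
        have : tm ω x = tm ω' x := by unfold tm clk; rw [hc x]
        rw [this]
      show (if before E ω t = B then (1:ℝ) else 0) * F ω o =
        (if before E ω' t = B then (1:ℝ) else 0) * F ω' o
      rw [h3, hN ω ω' hc]
    have hb2 : ∃ C', ∀ (ω : Om V) (o : Ev V → ℝ), |ind B ω * F ω o| ≤ C' := by
      refine ⟨C, fun ω o => ?_⟩
      rw [abs_mul, abs_of_nonneg (hind B ω).1]
      calc ind B ω * |F ω o| ≤ 1 * C :=
            mul_le_mul (hind B ω).2 (hC _ _) (abs_nonneg _) zero_le_one
        _ = C := one_mul C
    have h4 := law_full G θ S hθ B (fun (ω : Om V) (o : Ev V → ℝ) => ind B ω * F ω o) hF2 hb2 hN2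
    rw [h4]
    congr 1
    funext ω
    ring
  · intro B _
    obtain ⟨K, hK0, hK⟩ := abs_LR_le G θ S B
    apply integrable_of_bdd
      (f := fun ω => ind B ω * (LR G θ S B ω * F ω (msk B (nul ω)))) (C := K * C)
      ((hindm B).mul ((measurable_LR G θ S B).mul (hmskm B)))
    intro ω
    rw [abs_mul, abs_of_nonneg (hind B ω).1, abs_mul]
    calc ind B ω * (|LR G θ S B ω| * |F ω (msk B (nul ω))|) ≤ 1 * (K * C) := by
          apply mul_le_mul (hind B ω).2 _ (by positivity) zero_le_one
          exact mul_le_mul (hK ω) (hC _ _) (abs_nonneg _) hK0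
      _ = K * C := one_mul _
  · intro B _
    apply integrable_of_bdd (f := fun ω => ind B ω * F ω (obs G θ S B ω)) (C := C)
      ((hindm B).mul (hobsm B))
    intro ω
    rw [abs_mul, abs_of_nonneg (hind B ω).1]
    calc ind B ω * |F ω (obs G θ S B ω)| ≤ 1 * C :=
          mul_le_mul (hind B ω).2 (hC _ _) (abs_nonneg _) zero_le_one
      _ = C := one_mul C

end Crest.Agent.R160
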