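import Mathlib
import Crest.Agent.R160.Law
import Crest.Agent.R160.H0Conc
import Crest.Agent.R160.Convex

/-! Row 160, module H0: concentration of the finite-volume magnetization and the law of its
signs (from the LAW of the observations and the null computations of `H0Conc`). -/

set_option autoImplicit false
set_option linter.unusedSectionVars false

open MeasureTheory Finset
open scoped Classical

namespace Crest.Agent.R160.H0

open Crest.Agent.R160 Crest.Agent.R160.TreeAut SimpleGraph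

variable {V : Type*} {G : SimpleGraph V}

lemma PC_bal [G.LocallyFinite] (hT : G.IsTree) (x : V) (n : ℕ) {r : V} (hr : r ∈ bal G x n) :
    PC G r (bal G x n) := by
  refine ⟨hr, fun y hy hyr => ?_⟩
  have hpos : 0 < G.dist r y := hT.connected.pos_dist_of_ne (Ne.symm hyr)
  have h := Kern.anc_mem_bal hT x n hr hy 1 hpos
  rwa [Kern.anc_succ, Kern.anc_zero] at h

lemma half_pow_mul_ZZ (hT : G.IsTree) {θ : ℝ} {r : V} {S : Finset V} (hS : PC G r S)
    (o : Ev V → ℝ) : (1 / 2 : ℝ) ^ S.card * ZZ G θ S ∅ o = 1 := by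
  have h := MA_one hT (θ := θ) hS
  unfold MA at h
  refine Eq.trans ?_ h
  unfold ZZ num ow
  simp

/-- LAW on a parent-closed set, in terms of the masked null observations -/
lemma law_yy (hT : G.IsTree) {θ : ℝ} (h1 : |θ| < 1) {r : V} {S : Finset V}
    (hS : PC G r S) (E : Finset (Ev V)) (t : ℝ) {Φ : (Ev V → ℝ) → ℝ} (hΦ : Measurable Φ)
    (hb : ∃ C, ∀ y, |Φ y| ≤ C) :
    ∫ ω, Φ (fun e => if e ∈ before E ω t then obs G θ S E ω e else 0) ∂(PP V) =
      ∫ ω, (1 / 2 : ℝ) ^ S.card * (ZZ G θ S E (yy E t ω) * Φ (yy E t ω)) ∂(PP V) := by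
  have h := law_before G θ S h1 E t (fun _ y => Φ y) (hΦ.comp measurable_snd)
    (by obtain ⟨C, hC⟩ := hb; exact ⟨C, fun _ y => hC y⟩) (fun _ _ _ _ => rfl)
  have hL : ∀ ω : Om V, msk (before E ω t) (obs G θ S E ω) =
      fun e => if e ∈ before E ω t then obs G θ S E ω e else 0 := fun ω => rfl
  have hR : ∀ ω : Om V, msk (before E ω t) (nul ω) = yy E t ω := fun ω => mask_nul E ω t
  simp only [hL, hR] at h
  rw [h]
  congr 1
  funext ω
  have h2 := half_pow_mul_ZZ hT (θ := θ) hS (fun _ => 0)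
  have h3 : ZZ G θ S ∅ (fun _ => 0) ≠ 0 := by
    intro h0
    rw [h0, mul_zero] at h2
    exact zero_ne_one h2
  have h4 : ZZ G θ S (before E ω t) (nul ω) = ZZ G θ S E (yy E t ω) := by
    unfold ZZ
    rw [num_mask, mask_nul]
  unfold LR
  rw [h4]
  have h5 : (1 / 2 : ℝ) ^ S.card = (ZZ G θ S ∅ (fun _ => 0))⁻¹ :=
    eq_inv_of_mul_eq_one_left h2
  rw [h5]
  ring

lemma lt_one_of {b : ℕ} (hb : 2 ≤ b) {θ : ℝ} (h0 : 0 ≤ θ) (h : (b : ℝ) * θ ^ 2 ≤ 1) :
    θ < 1 := by
  have h2 : (2 : ℝ) ≤ b := by exact_mod_cast hb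
  by_contra h3
  push Not at h3
  nlinarith [mul_self_nonneg θ]

variable [G.LocallyFinite]

theorem conc (hT : G.IsTree) {b : ℕ} (hb : 2 ≤ b) (hreg : G.IsRegularOfDegree (b + 1)) :
    ∃ C c : ℝ, 0 < C ∧ 0 < c ∧ ∀ θ, 0 ≤ θ → (b : ℝ) * θ ^ 2 ≤ 1 → ∀ t, 0 ≤ t →
      ∀ (x v : V) (n : ℕ), v ∈ bal G x n →
      ∫ ω, (1 - (mfin G θ (bal G x n) ω t v) ^ 2) ∂(PP V) ≤ C * Real.exp (-c * t) := by
  refine ⟨(48 / 47) ^ 2, Real.log (48 / 47), by norm_num, Real.log_pos (by norm_num), ?_⟩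
  intro θ h0 hθ t ht x v n hv
  have h1 := lt_one_of hb h0 hθ
  have habs : |θ| < 1 := by rw [abs_of_nonneg h0]; exact h1
  set S := bal G x n with hS
  have hPC : PC G v S := PC_bal hT x n hv
  set R := ⌈t⌉₊ with hR
  set E := evs S R with hE
  let Φ : (Ev V → ℝ) → ℝ := fun y => 1 - (clp (mm G θ S E y v)) ^ 2
  have hΦ : Measurable Φ := by
    have := measurable_clp.comp (measurable_mm (G := G) θ S E v)
    exact measurable_const.sub (this.pow_const 2)
  have hb : ∃ C, ∀ y, |Φ y| ≤ C := by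
    refine ⟨1, fun y => ?_⟩
    show |1 - (clp (mm G θ S E y v)) ^ 2| ≤ 1
    have h2 := abs_clp_le (mm G θ S E y v)
    rw [abs_le] at h2 ⊢
    constructor <;> nlinarith
  have hlaw := law_yy hT habs hPC E t hΦ hb
  have hL : ∀ ω : Om V, Φ (fun e => if e ∈ before E ω t then obs G θ S E ω e else 0) =
      1 - (mfin G θ S ω t v) ^ 2 := by
    intro ω
    show 1 - (clp (mm G θ S E (fun e => if e ∈ before E ω t then obs G θ S E ω e else 0) v)) ^ 2 = _
    rw [← mm_mask]
    have h3 : mm G θ S (before E ω t) (obs G θ S E ω) v = mfin G θ S ω t v := rfl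
    have h4 : |mfin G θ S ω t v| ≤ 1 := abs_mt_le G S habs _ ω t v
    rw [h3, clp_eq h4]
  have hRr : ∀ ω : Om V, Φ (yy E t ω) = 1 - (mm G θ S E (yy E t ω) v) ^ 2 := by
    intro ω
    show 1 - (clp (mm G θ S E (yy E t ω) v)) ^ 2 = _
    rw [clp_eq (abs_mm_le h0 h1 S (fun e _ => (abs_yy_le E t ω e).trans (by norm_num)) v)]
  simp only [hL, hRr] at hlaw
  rw [hlaw]
  refine (null_conc hT h0 h1 hPC hv R t).trans ?_
  exact prod_kap_le ht (Nat.le_ceil t)

open Crest.ProbabilityR.TreeIsing in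
theorem sign_law (hT : G.IsTree) {b : ℕ} (hb : 2 ≤ b) (hreg : G.IsRegularOfDegree (b + 1))
    (S : Finset V) (hS : (G.induce (S : Set V)).Connected) :
    ∃ C c : ℝ, 0 < C ∧ 0 < c ∧ ∀ (η : V → Bool) (θ : ℝ), 0 ≤ θ → (b : ℝ) * θ ^ 2 ≤ 1 →
      ∀ t, 0 ≤ t →
      ∀ (x : V) (n : ℕ), S ⊆ bal G x n →
      |(PP V).real {ω | ∀ v ∈ S, decide (0 < mfin G θ (bal G x n) ω t v) = η v}
        - isingWeight G θ S η| ≤ C * Real.exp (-c * t) := by
  obtain ⟨⟨r, hr⟩⟩ := hS.nonempty
  have hWPC : PC G r S := PC_of_connected hT hS hr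
  refine ⟨(S.card + 1) / 2 * (48 / 47) ^ 2, Real.log (48 / 47), by positivity,
    Real.log_pos (by norm_num), ?_⟩
  intro η θ h0 hθ t ht x n hSB
  have h1 := lt_one_of hb h0 hθ
  have habs : |θ| < 1 := by rw [abs_of_nonneg h0]; exact h1
  set B := bal G x n with hB
  have hPC : PC G r B := PC_bal hT x n (hSB hr)
  set R := ⌈t⌉₊ with hR
  set E := evs B R with hE
  have hlaw := law_yy hT habs hPC E t (measurable_sgn θ B E S η)
    ⟨1, fun y => by
      have := sgn_mem (G := G) θ B E S η y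
      rw [abs_of_nonneg this.1]; exact this.2⟩
  have hset : (PP V).real {ω | ∀ v ∈ S, decide (0 < mfin G θ B ω t v) = η v} =
      ∫ ω, sgn G θ B E S η (fun e => if e ∈ before E ω t then obs G θ B E ω e else 0)
        ∂(PP V) := by
    have hms : MeasurableSet {ω : Om V | ∀ v ∈ S, decide (0 < mfin G θ B ω t v) = η v} := by
      have : {ω : Om V | ∀ v ∈ S, decide (0 < mfin G θ B ω t v) = η v} =
          ⋂ v ∈ S, {ω : Om V | decide (0 < mfin G θ B ω t v) = η v} := by
        ext y; simp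
      rw [this]
      apply Finset.measurableSet_biInter
      intro v _
      have hm : MeasurableSet {ω : Om V | 0 < mfin G θ B ω t v} :=
        measurableSet_lt measurable_const (measurable_mfin G θ B t v)
      cases η v with
      | true =>
        have : {ω : Om V | decide (0 < mfin G θ B ω t v) = true} =
            {ω : Om V | 0 < mfin G θ B ω t v} := by ext y; simp
        rw [this]; exact hm
      | false =>
        have : {ω : Om V | decide (0 < mfin G θ B ω t v) = false} =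
            {ω : Om V | 0 < mfin G θ B ω t v}ᶜ := by ext y; simp
        rw [this]; exact hm.compl
    rw [← integral_indicator_one hms]
    congr 1
    funext ω
    unfold sgn
    simp only [← mm_mask]
    have h3 : ∀ v, mm G θ B (before E ω t) (obs G θ B E ω) v = mfin G θ B ω t v := fun _ => rfl
    simp only [h3, Set.indicator, Set.mem_ofPred_eq, Pi.one_apply]
  rw [hset, hlaw]
  refine (null_sign hT h0 h1 hPC hWPC hSB η R t).trans ?_
  have h4 := prod_kap_le ht (Nat.le_ceil t)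
  have h5 : (0 : ℝ) ≤ (S.card : ℝ) := Nat.cast_nonneg _
  calc (S.card : ℝ) / 2 * ∏ j ∈ Finset.range R, kap t j
      ≤ (S.card : ℝ) / 2 * ((48 / 47) ^ 2 * Real.exp (-Real.log (48 / 47) * t)) :=
        mul_le_mul_of_nonneg_left h4 (by positivity)
    _ ≤ (S.card + 1) / 2 * ((48 / 47) ^ 2 * Real.exp (-Real.log (48 / 47) * t)) := by
        apply mul_le_mul_of_nonneg_right _ (by positivity)
        linarith
    _ = _ := by ring

end Crest.Agent.R160.H0
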