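import Mathlib
import Crest.Agent.R160.Defs
import Crest.Agent.R160.Proc
import Crest.Agent.R160.Meas
import Crest.Agent.R160.Causal

/-! Row 160, `law_cont`, part 1: continuity in `θ` of the finite-volume process, uniformly over
bounded times. -/

set_option autoImplicit false

open MeasureTheory Finset Filter
open scoped Classical Topology

namespace Crest.Agent.R160.LawCont

open Crest.Agent.R160

variable {V : Type*} {G : SimpleGraph V}

lemma continuous_ew (S A : Finset V) : Continuous fun θ : ℝ => ew G θ S A := by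
  unfold ew
  exact continuous_finsetProd _ fun e _ => by fun_prop

lemma continuous_TT (z : ℝ) : Continuous fun s : ℝ => TT s z := by
  unfold TT
  refine Continuous.div (by fun_prop) (by fun_prop) fun s => ?_
  have := Real.sqrt_nonneg (1 + 2 * s * z + s ^ 2)
  positivity

lemma continuousAt_num {S : Finset V} {E : Finset (Ev V)} {o : ℝ → Ev V → ℝ} {θ₀ : ℝ}
    (ho : ∀ e ∈ E, ContinuousAt (fun θ => o θ e) θ₀) (f : Finset V → ℝ) :
    ContinuousAt (fun θ => num G θ S E (o θ) f) θ₀ := by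
  unfold num
  refine tendsto_finsetSum _ fun A _ => ?_
  refine Tendsto.mul tendsto_const_nhds (Tendsto.mul (continuous_ew S A).continuousAt ?_)
  unfold ow
  refine tendsto_finsetProd _ fun e he => ?_
  exact Tendsto.add tendsto_const_nhds (Tendsto.mul tendsto_const_nhds (ho e he))

lemma continuousAt_mean {S : Finset V} {E : Finset (Ev V)} {o : ℝ → Ev V → ℝ} {θ₀ : ℝ}
    (hθ : |θ₀| < 1) (ho : ∀ e ∈ E, ContinuousAt (fun θ => o θ e) θ₀)
    (ho1 : ∀ e ∈ E, |o θ₀ e| < 1) (f : Finset V → ℝ) :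
    ContinuousAt (fun θ => mean G θ S E (o θ) f) θ₀ := by
  unfold mean
  exact ContinuousAt.div (continuousAt_num ho f) (continuousAt_num ho _)
    (ZZ_pos G S hθ ho1).ne'

/-- the observations are continuous in `θ` -/
lemma continuousAt_obs {S : Finset V} {E : Finset (Ev V)} {θ₀ : ℝ} (hθ : |θ₀| < 1) (ω : Om V)
    (e : Ev V) : ContinuousAt (fun θ => obs G θ S E ω e) θ₀ := by
  induction hn : (before E ω (tm ω e)).card using Nat.strong_induction_on generalizing e with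
  | _ n ih =>
    subst hn
    by_cases he : e ∈ E
    · have h1 : (fun θ => obs G θ S E ω e) =
        fun θ => st ω e * TT (st ω e * mt G θ S E ω (tm ω e) e.1) (nz ω e) := by
        funext θ
        exact obs_of_mem G θ S he
      rw [h1]
      have h2 : ContinuousAt (fun θ => mt G θ S E ω (tm ω e) e.1) θ₀ := by
        unfold mt mm
        exact continuousAt_mean hθ (fun e' he' => ih _ (before_card_lt he') e' rfl)
          (fun e' _ => obs_lt_one G S hθ E ω e') _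
      have h3 : ContinuousAt (fun s => TT s (nz ω e)) (st ω e * mt G θ₀ S E ω (tm ω e) e.1) :=
        (continuous_TT _).continuousAt
      exact ContinuousAt.mul continuousAt_const
        (ContinuousAt.comp (f := fun θ => st ω e * mt G θ S E ω (tm ω e) e.1) h3
          (ContinuousAt.mul continuousAt_const h2))
    · have h1 : (fun θ => obs G θ S E ω e) = fun _ => 0 := by
        funext θ
        exact obs_of_not_mem G θ S he
      rw [h1]
      exact continuousAt_const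

lemma continuousAt_mm {S : Finset V} {E : Finset (Ev V)} {θ₀ : ℝ} (hθ : |θ₀| < 1) (ω : Om V)
    (E' : Finset (Ev V)) (v : V) :
    ContinuousAt (fun θ => mm G θ S E' (obs G θ S E ω) v) θ₀ := by
  unfold mm
  exact continuousAt_mean hθ (fun e _ => continuousAt_obs hθ ω e)
    (fun e _ => obs_lt_one G S hθ E ω e) _

variable {Φ : ℝ → ℝ → ℝ}

/-- a bound for a continuous function on the square -/
lemma exists_bound (hΦ : Continuous (Function.uncurry Φ)) :
    ∃ M : ℝ, 0 ≤ M ∧ ∀ a b : ℝ, |a| ≤ 1 → |b| ≤ 1 → |Φ a b| ≤ M := by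
  have hc : IsCompact (Set.Icc (-1 : ℝ) 1 ×ˢ Set.Icc (-1 : ℝ) 1) := isCompact_Icc.prod isCompact_Icc
  obtain ⟨M, hM⟩ := hc.exists_bound_of_continuousOn hΦ.continuousOn
  refine ⟨max M 0, le_max_right _ _, fun a b ha hb => ?_⟩
  exact (hM (a, b) ⟨abs_le.mp ha, abs_le.mp hb⟩).trans (le_max_left _ _)

/-- uniform continuity in quadratic form -/
lemma exists_quad (hΦ : Continuous (Function.uncurry Φ)) {ε : ℝ} (hε : 0 < ε) :
    ∃ K : ℝ, 0 ≤ K ∧ ∀ a b a' b' : ℝ, |a| ≤ 1 → |b| ≤ 1 → |a'| ≤ 1 → |b'| ≤ 1 →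
      |Φ a b - Φ a' b'| ≤ ε + K * ((a - a') ^ 2 + (b - b') ^ 2) := by
  obtain ⟨M, hM0, hM⟩ := exists_bound hΦ
  have hc : IsCompact (Set.Icc (-1 : ℝ) 1 ×ˢ Set.Icc (-1 : ℝ) 1) := isCompact_Icc.prod isCompact_Icc
  have hu := hc.uniformContinuousOn_of_continuous hΦ.continuousOn
  rw [Metric.uniformContinuousOn_iff] at hu
  obtain ⟨δ, hδ, hu⟩ := hu ε hε
  refine ⟨2 * M / δ ^ 2, by positivity, fun a b a' b' ha hb ha' hb' => ?_⟩
  by_cases h : |a - a'| < δ ∧ |b - b'| < δ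
  · have h1 := hu (a, b) ⟨abs_le.mp ha, abs_le.mp hb⟩ (a', b') ⟨abs_le.mp ha', abs_le.mp hb'⟩
      (by rw [Prod.dist_eq]; exact max_lt h.1 h.2)
    have h2 : |Φ a b - Φ a' b'| < ε := h1
    have h3 : 0 ≤ 2 * M / δ ^ 2 * ((a - a') ^ 2 + (b - b') ^ 2) := by positivity
    linarith
  · have h1 : δ ^ 2 ≤ (a - a') ^ 2 + (b - b') ^ 2 := by
      by_cases h2 : |a - a'| < δ
      · have h3 : δ ≤ |b - b'| := by
          by_contra h4
          exact h ⟨h2, not_le.mp h4⟩
        have h5 : δ ^ 2 ≤ |b - b'| ^ 2 := pow_le_pow_left₀ hδ.le h3 2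
        rw [sq_abs] at h5
        nlinarith [sq_nonneg (a - a')]
      · have h3 : δ ≤ |a - a'| := not_lt.mp h2
        have h5 : δ ^ 2 ≤ |a - a'| ^ 2 := pow_le_pow_left₀ hδ.le h3 2
        rw [sq_abs] at h5
        nlinarith [sq_nonneg (b - b')]
    have h2 : |Φ a b - Φ a' b'| ≤ 2 * M := by
      have := abs_sub (Φ a b) (Φ a' b')
      linarith [hM a b ha hb, hM a' b' ha' hb']
    have h3 : 2 * M ≤ 2 * M / δ ^ 2 * ((a - a') ^ 2 + (b - b') ^ 2) := by
      rw [div_mul_eq_mul_div, le_div_iff₀ (by positivity)]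
      exact mul_le_mul_of_nonneg_left h1 (by positivity)
    linarith

lemma measurable_mm_obs {S : Finset V} {E : Finset (Ev V)} {θ : ℝ} (E' : Finset (Ev V)) (v : V) :
    Measurable fun ω : Om V => mm G θ S E' (obs G θ S E ω) v :=
  (measurable_mm G θ S E' v).comp (measurable_obs' G θ S E)

instance : IsProbabilityMeasure (PP V) := by unfold PP; infer_instance

/-- Continuity in `θ` of the law of two magnetizations in a fixed finite volume, uniformly over
times `t ≤ R`. -/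
theorem fin_cont (S : Finset V) (hΦ : Continuous (Function.uncurry Φ)) (x y : V) {θ₀ : ℝ}
    (hθ : |θ₀| < 1) (R : ℕ) {ε : ℝ} (hε : 0 < ε) :
    ∃ δ, 0 < δ ∧ ∀ θ, |θ - θ₀| < δ → ∀ t : ℝ, t ≤ R →
      |∫ ω, Φ (mfin G θ S ω t x) (mfin G θ S ω t y) ∂(PP V)
        - ∫ ω, Φ (mfin G θ₀ S ω t x) (mfin G θ₀ S ω t y) ∂(PP V)| ≤ ε := by
  obtain ⟨M, hM0, hM⟩ := exists_bound hΦ
  set E := evs S R with hE
  have hΦm : Measurable (Function.uncurry Φ) := hΦ.measurable
  set D : ℝ → Om V → ℝ := fun θ ω => ∑ E' ∈ E.powerset,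
    |Φ (mm G θ S E' (obs G θ S E ω) x) (mm G θ S E' (obs G θ S E ω) y)
      - Φ (mm G θ₀ S E' (obs G θ₀ S E ω) x) (mm G θ₀ S E' (obs G θ₀ S E ω) y)| with hD
  have hmeas : ∀ (θ : ℝ) (E' : Finset (Ev V)), Measurable fun ω : Om V =>
      Φ (mm G θ S E' (obs G θ S E ω) x) (mm G θ S E' (obs G θ S E ω) y) := fun θ E' =>
    hΦm.comp ((measurable_mm_obs E' x).prodMk (measurable_mm_obs E' y))
  have hDm : ∀ θ, Measurable (D θ) := fun θ =>
    Finset.measurable_sum _ fun E' _ => ((hmeas θ E').sub (hmeas θ₀ E')).abs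
  have hcont : ∀ ω, Tendsto (fun θ => D θ ω) (𝓝 θ₀) (𝓝 0) := by
    intro ω
    have h0 : (0 : ℝ) = ∑ E' ∈ E.powerset,
      |Φ (mm G θ₀ S E' (obs G θ₀ S E ω) x) (mm G θ₀ S E' (obs G θ₀ S E ω) y)
      - Φ (mm G θ₀ S E' (obs G θ₀ S E ω) x) (mm G θ₀ S E' (obs G θ₀ S E ω) y)| := by simp
    rw [h0]
    refine tendsto_finsetSum _ fun E' _ => Tendsto.abs (Tendsto.sub ?_ tendsto_const_nhds)
    have h1 : ContinuousAt (fun θ => ((mm G θ S E' (obs G θ S E ω) x),
      (mm G θ S E' (obs G θ S E ω) y))) θ₀ :=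
      (continuousAt_mm hθ ω E' x).prodMk (continuousAt_mm hθ ω E' y)
    exact (hΦ.continuousAt.comp h1 :
      ContinuousAt (Function.uncurry Φ ∘ fun θ => ((mm G θ S E' (obs G θ S E ω) x),
      (mm G θ S E' (obs G θ S E ω) y))) θ₀)
  have hev : ∀ᶠ θ in 𝓝 θ₀, |θ| < 1 := by
    have h1 : ContinuousAt (fun θ : ℝ => |θ|) θ₀ := continuous_abs.continuousAt
    exact h1.eventually (gt_mem_nhds hθ)
  have hab : ∀ (θ : ℝ), |θ| < 1 → ∀ (E' : Finset (Ev V)) (ω : Om V),
      |Φ (mm G θ S E' (obs G θ S E ω) x) (mm G θ S E' (obs G θ S E ω) y)| ≤ M := fun θ h E' ω =>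
    hM _ _ (abs_mm_le G S h (fun e _ => obs_lt_one G S h E ω e) x)
      (abs_mm_le G S h (fun e _ => obs_lt_one G S h E ω e) y)
  have hDb : ∀ θ, |θ| < 1 → ∀ ω, |D θ ω| ≤ E.powerset.card * (2 * M) := by
    intro θ h ω
    rw [abs_of_nonneg (Finset.sum_nonneg fun _ _ => abs_nonneg _), ← nsmul_eq_mul]
    refine Finset.sum_le_card_nsmul _ _ _ fun E' _ => ?_
    have := abs_sub (Φ (mm G θ S E' (obs G θ S E ω) x) (mm G θ S E' (obs G θ S E ω) y))
      (Φ (mm G θ₀ S E' (obs G θ₀ S E ω) x) (mm G θ₀ S E' (obs G θ₀ S E ω) y))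
    linarith [hab θ h E' ω, hab θ₀ hθ E' ω]
  have hlim : Tendsto (fun θ => ∫ ω, D θ ω ∂(PP V)) (𝓝 θ₀) (𝓝 0) := by
    have := tendsto_integral_filter_of_dominated_convergence (μ := PP V) (l := 𝓝 θ₀)
      (F := D) (f := fun _ => 0) (fun _ => (E.powerset.card : ℝ) * (2 * M))
      (Eventually.of_forall fun θ => (hDm θ).aestronglyMeasurable)
      (hev.mono fun θ h => ae_of_all _ fun ω => hDb θ h ω)
      (integrable_const _) (ae_of_all _ fun ω => hcont ω)
    simpa using this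
  have h2 : ∀ᶠ θ in 𝓝 θ₀, |θ| < 1 ∧ ∫ ω, D θ ω ∂(PP V) < ε :=
    hev.and (hlim.eventually (gt_mem_nhds hε))
  rw [Metric.eventually_nhds_iff] at h2
  obtain ⟨δ, hδ, h2⟩ := h2
  refine ⟨δ, hδ, fun θ hθ' t ht => ?_⟩
  obtain ⟨h3, h4⟩ := h2 (by rw [Real.dist_eq]; exact hθ')
  have hmf : ∀ (θ : ℝ) (ω : Om V) (v : V), mfin G θ S ω t v =
      mm G θ S (before E ω t) (obs G θ S E ω) v := by
    intro θ ω v
    rw [← mt_evs G θ ht ω v]
    rfl
  have hint : ∀ θ, |θ| < 1 → Integrable (fun ω => Φ (mfin G θ S ω t x) (mfin G θ S ω t y))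
      (PP V) := by
    intro θ h
    refine Integrable.of_bound (C := M) ?_ (ae_of_all _ fun ω => ?_)
    · exact (hΦm.comp ((measurable_mfin G θ S t x).prodMk (measurable_mfin G θ S t y))).aestronglyMeasurable
    · rw [hmf, hmf]
      exact hab θ h _ ω
  rw [← integral_sub (hint θ h3) (hint θ₀ hθ)]
  refine (abs_integral_le_integral_abs).trans (le_trans ?_ h4.le)
  refine integral_mono ((hint θ h3).sub (hint θ₀ hθ)).abs ?_ fun ω => ?_
  · exact Integrable.of_bound (hDm θ).aestronglyMeasurable _ (ae_of_all _ fun ω => hDb θ h3 ω)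
  · simp only [hmf]
    exact Finset.single_le_sum (f := fun E' =>
      |Φ (mm G θ S E' (obs G θ S E ω) x) (mm G θ S E' (obs G θ S E ω) y)
      - Φ (mm G θ₀ S E' (obs G θ₀ S E ω) x) (mm G θ₀ S E' (obs G θ₀ S E ω) y)|)
      (fun _ _ => abs_nonneg _) (Finset.mem_powerset.mpr (before_subset _ _ _))

end Crest.Agent.R160.LawCont
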