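import Mathlib

/-! Row 160, module E: random fields `X v = (∏ (1 + o), ∏ (1 - o))` of independent
swap-symmetric local data; independence and flip lemmas. -/

set_option autoImplicit false

open MeasureTheory ProbabilityTheory
open scoped Classical

namespace Crest.Agent.R160.Static

variable {V : Type*} {Ω : Type*} [MeasurableSpace Ω]

/-- independent swap-symmetric positive bounded local data of mean one -/
structure FieldData (P : Measure Ω) (X : V → Ω → ℝ × ℝ) : Prop where
  prob : IsProbabilityMeasure P
  meas : ∀ v, Measurable (X v)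
  indep : iIndepFun X P
  symm : ∀ v, P.map (fun ω => (X v ω).swap) = P.map (X v)
  pos : ∀ v ω, 0 < (X v ω).1 ∧ 0 < (X v ω).2
  bdd : ∃ C, ∀ v ω, (X v ω).1 ≤ C ∧ (X v ω).2 ≤ C
  mean : ∀ v, ∫ ω, (X v ω).1 ∂P = 1

/-- swap on the vertices of `B` -/
noncomputable def flipOn (B : Set V) (f : V → ℝ × ℝ) : V → ℝ × ℝ :=
  fun v => if v ∈ B then (f v).swap else f v

lemma flipOn_flipOn (B : Set V) (f : V → ℝ × ℝ) : flipOn B (flipOn B f) = f := by
  funext v
  unfold flipOn
  by_cases h : v ∈ B <;> simp [h]

/-- extension of a function on `A` by `(1,1)` -/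
noncomputable def extA (A : Finset V) (g : A → ℝ × ℝ) : V → ℝ × ℝ :=
  fun v => if h : v ∈ A then g ⟨v, h⟩ else (1, 1)

lemma measurable_extA (A : Finset V) : Measurable (extA A) := by
  rw [measurable_pi_iff]
  intro v
  unfold extA
  by_cases h : v ∈ A
  · simp only [h, dite_true]
    exact measurable_pi_apply _
  · simp only [h, dite_false]
    exact measurable_const

lemma dependsOn_extA {β : Type*} {F : (V → ℝ × ℝ) → β} {A : Finset V}
    (hF : DependsOn F (A : Set V)) (f : V → ℝ × ℝ) : F (extA A fun i => f i) = F f := by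
  apply hF
  intro v hv
  have hv' : v ∈ A := by simpa using hv
  simp [extA, hv']

namespace FieldData

variable {P : Measure Ω} {X : V → Ω → ℝ × ℝ}

lemma measurable_field (h : FieldData P X) : Measurable (fun ω v => X v ω) :=
  measurable_pi_iff.mpr h.meas

theorem integral_mul (h : FieldData P X) {F H : (V → ℝ × ℝ) → ℝ} {A B : Finset V}
    (hF : Measurable F) (hH : Measurable H) (hFA : DependsOn F (A : Set V))
    (hHB : DependsOn H (B : Set V)) (hAB : Disjoint A B) :
    ∫ ω, F (fun v => X v ω) * H (fun v => X v ω) ∂P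
      = (∫ ω, F (fun v => X v ω) ∂P) * ∫ ω, H (fun v => X v ω) ∂P := by
  have h1 := h.indep.indepFun_finset A B hAB h.meas
  have h2 := h1.comp (φ := fun g => F (extA A g)) (ψ := fun g => H (extA B g))
    (hF.comp (measurable_extA A)) (hH.comp (measurable_extA B))
  have e1 : (fun g => F (extA A g)) ∘ (fun a (i : A) => X i a) = fun ω => F (fun v => X v ω) := by
    funext ω
    exact dependsOn_extA hFA (fun v => X v ω)
  have e2 : (fun g => H (extA B g)) ∘ (fun a (i : B) => X i a) = fun ω => H (fun v => X v ω) := by
    funext ω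
    exact dependsOn_extA hHB (fun v => X v ω)
  rw [e1, e2] at h2
  exact h2.integral_fun_mul_eq_mul_integral
    (hF.comp h.measurable_field).aestronglyMeasurable
    (hH.comp h.measurable_field).aestronglyMeasurable

theorem integral_flip (h : FieldData P X) {F : (V → ℝ × ℝ) → ℝ} {A : Finset V}
    (hF : Measurable F) (hFA : DependsOn F (A : Set V)) (B : Set V) :
    ∫ ω, F (flipOn B (fun v => X v ω)) ∂P = ∫ ω, F (fun v => X v ω) ∂P := by
  have := h.prob
  -- the flipped field
  let g : V → ℝ × ℝ → ℝ × ℝ := fun v p => if v ∈ B then p.swap else p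
  have hg : ∀ v, Measurable (g v) := by
    intro v
    by_cases hv : v ∈ B
    · simp only [g, hv, if_true]; exact measurable_swap
    · simp only [g, hv, if_false]; exact measurable_id
  have hYmeas : ∀ v, Measurable (g v ∘ X v) := fun v => (hg v).comp (h.meas v)
  have hY : iIndepFun (fun v => g v ∘ X v) P := h.indep.comp g hg
  have hlaw : ∀ v, P.map (g v ∘ X v) = P.map (X v) := by
    intro v
    by_cases hv : v ∈ B
    · have : g v ∘ X v = fun ω => (X v ω).swap := by
        funext ω
        simp [g, hv]
      rw [this, h.symm v]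
    · have : g v ∘ X v = X v := by
        funext ω
        simp [g, hv]
      rw [this]
  have hXA : iIndepFun (fun i : A => X i) P := h.indep.precomp Subtype.val_injective
  have hYA : iIndepFun (fun i : A => g i ∘ X i) P := hY.precomp (g := ((↑) : A → V))
    Subtype.val_injective
  have m1 := iIndepFun.map_fun_eq_pi_map (f := fun (i : A) => X i)
    (fun i => (h.meas i).aemeasurable) hXA
  have m2 := iIndepFun.map_fun_eq_pi_map (f := fun (i : A) => g i ∘ X i)
    (fun i => (hYmeas i).aemeasurable) hYA
  have m3 : P.map (fun ω (i : A) => (g i ∘ X i) ω) = P.map (fun ω (i : A) => X i ω) := by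
    rw [m1, m2]
    congr 1
    funext i
    exact hlaw i
  have hFm : Measurable (fun q : A → ℝ × ℝ => F (extA A q)) := hF.comp (measurable_extA A)
  have e1 : ∫ ω, F (flipOn B (fun v => X v ω)) ∂P
      = ∫ q, F (extA A q) ∂(P.map (fun ω (i : A) => (g i ∘ X i) ω)) := by
    have hm : Measurable (fun ω (i : A) => (g i ∘ X i) ω) :=
      measurable_pi_iff.mpr fun i => hYmeas i
    rw [integral_map hm.aemeasurable hFm.aestronglyMeasurable]
    refine integral_congr_ae (Filter.Eventually.of_forall fun ω => ?_)
    simp only
    rw [← dependsOn_extA hFA (flipOn B (fun v => X v ω))]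
    rfl
  have e2 : ∫ ω, F (fun v => X v ω) ∂P
      = ∫ q, F (extA A q) ∂(P.map (fun ω (i : A) => X i ω)) := by
    have hm : Measurable (fun ω (i : A) => X i ω) :=
      measurable_pi_iff.mpr fun i => h.meas i
    rw [integral_map hm.aemeasurable hFm.aestronglyMeasurable]
    refine integral_congr_ae (Filter.Eventually.of_forall fun ω => ?_)
    simp only
    rw [← dependsOn_extA hFA (fun v => X v ω)]
  rw [e1, e2, m3]

/-- functionals which are odd under a flip have mean zero -/
theorem integral_odd (h : FieldData P X) {F : (V → ℝ × ℝ) → ℝ} {A : Finset V}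
    (hF : Measurable F) (hFA : DependsOn F (A : Set V)) (B : Set V)
    (hodd : ∀ f, F (flipOn B f) = - F f) :
    ∫ ω, F (fun v => X v ω) ∂P = 0 := by
  have h1 := h.integral_flip hF hFA B
  simp only [hodd] at h1
  rw [integral_neg] at h1
  linarith

end FieldData

end Crest.Agent.R160.Static
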