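import Mathlib

/-! Row 160, module E (static estimates): one-dimensional lemmas. -/

set_option autoImplicit false

namespace Crest.Agent.R160.Static

/-! ### combination of two squared biases -/

lemma comb_sq {a b : ℝ} (h : |a * b| < 1) :
    ((a + b) ^ 2 / (1 + a * b) + (a - b) ^ 2 / (1 - a * b)) / 2
      = (a ^ 2 + b ^ 2 - 2 * (a ^ 2 * b ^ 2)) / (1 - a ^ 2 * b ^ 2) := by
  have h1 := (abs_lt.mp h).1
  have h2 := (abs_lt.mp h).2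
  have h3 : (1 + a * b) ≠ 0 := by linarith
  have h4 : (1 - a * b) ≠ 0 := by linarith
  have h5 : 1 - a ^ 2 * b ^ 2 ≠ 0 := by
    have : 1 - a ^ 2 * b ^ 2 = (1 + a * b) * (1 - a * b) := by ring
    rw [this]
    exact mul_ne_zero h3 h4
  field_simp
  ring

lemma sq_mul_lt_one {a b : ℝ} (h : |a * b| < 1) : a ^ 2 * b ^ 2 < 1 := by
  have h1 := (abs_lt.mp h).1
  have h2 := (abs_lt.mp h).2
  nlinarith

lemma comb_sq_le {a b : ℝ} (ha : |a| ≤ 1) (hb : |b| ≤ 1) (h : |a * b| < 1) :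
    ((a + b) ^ 2 / (1 + a * b) + (a - b) ^ 2 / (1 - a * b)) / 2
      ≤ a ^ 2 + b ^ 2 - a ^ 2 * b ^ 2 := by
  rw [comb_sq h]
  have hA : a ^ 2 ≤ 1 := by
    have := sq_abs a ▸ pow_le_one₀ (abs_nonneg a) ha (n := 2)
    simpa using this
  have hB : b ^ 2 ≤ 1 := by
    have := sq_abs b ▸ pow_le_one₀ (abs_nonneg b) hb (n := 2)
    simpa using this
  have hAB := sq_mul_lt_one h
  rw [div_le_iff₀ (by linarith)]
  have h0 : 0 ≤ a ^ 2 := sq_nonneg a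
  have h0' : 0 ≤ b ^ 2 := sq_nonneg b
  have h1 : 0 ≤ (a ^ 2 * b ^ 2) * ((1 - a ^ 2) * (1 - b ^ 2)) :=
    mul_nonneg (mul_nonneg h0 h0') (mul_nonneg (by linarith) (by linarith))
  nlinarith [h1]

lemma le_comb_sq {a b : ℝ} (ha : |a| ≤ 1) (hb : |b| ≤ 1) (h : |a * b| < 1) :
    a ^ 2 + b ^ 2 - 2 * (a ^ 2 * b ^ 2)
      ≤ ((a + b) ^ 2 / (1 + a * b) + (a - b) ^ 2 / (1 - a * b)) / 2 := by
  rw [comb_sq h]
  have hA : a ^ 2 ≤ 1 := by
    have := sq_abs a ▸ pow_le_one₀ (abs_nonneg a) ha (n := 2)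
    simpa using this
  have hB : b ^ 2 ≤ 1 := by
    have := sq_abs b ▸ pow_le_one₀ (abs_nonneg b) hb (n := 2)
    simpa using this
  have hAB := sq_mul_lt_one h
  rw [le_div_iff₀ (by linarith)]
  have h0 : 0 ≤ a ^ 2 := sq_nonneg a
  have h0' : 0 ≤ b ^ 2 := sq_nonneg b
  have h2 : 0 ≤ a ^ 2 + b ^ 2 - 2 * (a ^ 2 * b ^ 2) := by nlinarith
  have h3 : 0 ≤ a ^ 2 * b ^ 2 := mul_nonneg h0 h0'
  nlinarith

lemma le_comb_sq_left {a b : ℝ} (h : |a * b| < 1) :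
    a ^ 2 ≤ ((a + b) ^ 2 / (1 + a * b) + (a - b) ^ 2 / (1 - a * b)) / 2 := by
  rw [comb_sq h]
  have hAB := sq_mul_lt_one h
  rw [le_div_iff₀ (by linarith)]
  have h0' : 0 ≤ b ^ 2 := sq_nonneg b
  have h2 : 0 ≤ b ^ 2 * (1 - a ^ 2) ^ 2 := mul_nonneg h0' (sq_nonneg _)
  nlinarith

lemma le_comb_sq_right {a b : ℝ} (h : |a * b| < 1) :
    b ^ 2 ≤ ((a + b) ^ 2 / (1 + a * b) + (a - b) ^ 2 / (1 - a * b)) / 2 := by
  rw [comb_sq h]
  have hAB := sq_mul_lt_one h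
  rw [le_div_iff₀ (by linarith)]
  have h0' : 0 ≤ a ^ 2 := sq_nonneg a
  have h2 : 0 ≤ a ^ 2 * (1 - b ^ 2) ^ 2 := mul_nonneg h0' (sq_nonneg _)
  nlinarith

/-! ### recursion for the second moment: upper bound -/

lemma one_sub_div_pow_ge {b : ℕ} (hb : 2 ≤ b) {X : ℝ} (_hX0 : 0 ≤ X) (hX1 : X ≤ 1) :
    (1 - X / 2) ^ 2 ≤ (1 - X / b) ^ b := by
  have hb' : (2 : ℝ) ≤ b := by exact_mod_cast hb
  have hb0 : (0 : ℝ) < b := by linarith
  have hy : 0 ≤ 1 - X / b := by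
    rw [sub_nonneg, div_le_one hb0]
    linarith
  have h1 := one_add_mul_self_le_rpow_one_add (s := -(X / b)) (p := (b : ℝ) / 2)
    (by linarith) (by linarith)
  have h2 : 1 + (b : ℝ) / 2 * -(X / b) = 1 - X / 2 := by
    field_simp
    ring
  rw [h2] at h1
  have h3 : 1 + -(X / (b : ℝ)) = 1 - X / b := by ring
  rw [h3] at h1
  have h4 : ((1 - X / b) ^ ((b : ℝ) / 2)) ^ 2 = (1 - X / b) ^ b := by
    rw [← Real.rpow_natCast ((1 - X / b) ^ ((b : ℝ) / 2)) 2, ← Real.rpow_mul hy]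
    have : (b : ℝ) / 2 * ((2 : ℕ) : ℝ) = (b : ℝ) := by
      push_cast
      ring
    rw [this, Real.rpow_natCast]
  rw [← h4]
  exact pow_le_pow_left₀ (by linarith) h1 2

lemma upper_step {b : ℕ} (hb : 2 ≤ b) {I X : ℝ} (hI : 0 ≤ I) (hX0 : 0 ≤ X)
    (hX : 4 * I ≤ X ^ 2) (hX1 : X ≤ 1) : 1 - X ≤ (1 - I) * (1 - X / b) ^ b := by
  have h1 := one_sub_div_pow_ge hb hX0 hX1
  have hI1 : I ≤ 1 := by nlinarith
  have h2 : (1 - I) * (1 - X / 2) ^ 2 ≤ (1 - I) * (1 - X / b) ^ b :=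
    mul_le_mul_of_nonneg_left h1 (by linarith)
  refine le_trans ?_ h2
  have h3 : (1 - X / 2) ^ 2 ≤ 1 := by nlinarith
  nlinarith

/-! ### recursion for the second moment: lower bound -/

lemma exp_neg_two_le {s : ℝ} (hs : 0 ≤ s) : Real.exp (-(2 * s)) ≤ 1 - 2 * s + 2 * s ^ 2 := by
  have h := Real.quadratic_le_exp_of_nonneg (x := 2 * s) (by linarith)
  rw [Real.exp_neg]
  have h1 : 0 < 1 + 2 * s + (2 * s) ^ 2 / 2 := by nlinarith
  have h2 : (Real.exp (2 * s))⁻¹ ≤ (1 + 2 * s + (2 * s) ^ 2 / 2)⁻¹ :=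
    inv_anti₀ h1 h
  refine le_trans h2 ?_
  rw [inv_le_iff_one_le_mul₀ h1]
  nlinarith [pow_nonneg hs 4]

lemma lower_step {b : ℕ} {θ I I0 l : ℝ} (hI0 : 0 ≤ I0) (hI : I0 ≤ I) (hI1 : I0 ≤ 1 / 16)
    (hδ : 1 - Real.sqrt I0 ≤ b * θ ^ 2) (hθ : b * θ ^ 2 ≤ 1) (hl0 : 0 ≤ l)
    (hl : l ≤ Real.sqrt I0 / 4) :
    l + I0 / 2 ≤ (1 - max (1 - 2 * I) 0 * (max (1 - 2 * (θ ^ 2 * l)) 0) ^ b) / 2 := by
  set r := Real.sqrt I0 with hr
  have hr0 : 0 ≤ r := Real.sqrt_nonneg _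
  have hrr : r * r = I0 := Real.mul_self_sqrt hI0
  have hr1 : r ≤ 1 / 4 := by
    rw [hr, show (1 : ℝ) / 4 = Real.sqrt ((1 / 4) ^ 2) by
      rw [Real.sqrt_sq (by norm_num)]]
    exact Real.sqrt_le_sqrt (by norm_num; linarith)
  set s := I0 + b * θ ^ 2 * l with hs
  have hbl : 0 ≤ b * θ ^ 2 * l := by positivity
  have hs0 : 0 ≤ s := by positivity
  have h1 : max (1 - 2 * I) 0 ≤ Real.exp (-(2 * I0)) := by
    apply max_le _ (Real.exp_pos _).le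
    have := Real.add_one_le_exp (-(2 * I0))
    linarith
  have h2 : max (1 - 2 * (θ ^ 2 * l)) 0 ≤ Real.exp (-(2 * (θ ^ 2 * l))) := by
    apply max_le _ (Real.exp_pos _).le
    have := Real.add_one_le_exp (-(2 * (θ ^ 2 * l)))
    linarith
  have h3 : (max (1 - 2 * (θ ^ 2 * l)) 0) ^ b ≤ Real.exp (-(2 * (θ ^ 2 * l))) ^ b :=
    pow_le_pow_left₀ (le_max_right _ _) h2 b
  have h4 : max (1 - 2 * I) 0 * (max (1 - 2 * (θ ^ 2 * l)) 0) ^ b ≤ Real.exp (-(2 * s)) := by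
    calc _ ≤ Real.exp (-(2 * I0)) * Real.exp (-(2 * (θ ^ 2 * l))) ^ b :=
          mul_le_mul h1 h3 (pow_nonneg (le_max_right _ _) _) (Real.exp_pos _).le
      _ = Real.exp (-(2 * s)) := by
          rw [← Real.exp_nat_mul, ← Real.exp_add]
          congr 1
          rw [hs]
          ring
  have h5 := exp_neg_two_le hs0
  have h6 : s ≤ r / 2 := by
    have : b * θ ^ 2 * l ≤ 1 * l := mul_le_mul_of_nonneg_right hθ hl0
    nlinarith
  have h7 : s ^ 2 ≤ I0 / 4 := by nlinarith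
  have h8 : (1 - r) * l ≤ b * θ ^ 2 * l := mul_le_mul_of_nonneg_right hδ hl0
  have h9 : r * l ≤ I0 / 4 := by nlinarith
  linarith

/-! ### submultiplicativity -/

lemma max_submul {q q1 q2 : ℝ} (h : q1 + q2 - 2 * (q1 * q2) ≤ q) (h1 : q1 ≤ q) (h2 : q2 ≤ q) :
    max (1 - 2 * q) 0 ≤ max (1 - 2 * q1) 0 * max (1 - 2 * q2) 0 := by
  apply max_le _ (mul_nonneg (le_max_right _ _) (le_max_right _ _))
  rcases le_or_gt (1 / 2) q1 with hq1 | hq1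
  · have : 1 - 2 * q ≤ 0 := by linarith
    exact this.trans (mul_nonneg (le_max_right _ _) (le_max_right _ _))
  · rcases le_or_gt (1 / 2) q2 with hq2 | hq2
    · have : 1 - 2 * q ≤ 0 := by linarith
      exact this.trans (mul_nonneg (le_max_right _ _) (le_max_right _ _))
    · rw [max_eq_left (by linarith), max_eq_left (by linarith)]
      nlinarith

/-! ### slopes -/

/-- normalised slope as a function of the cavity bias -/
noncomputable def rhoh (θ y : ℝ) : ℝ := (1 - y ^ 2) / (1 - θ ^ 2 * y ^ 2)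

lemma rhoh_den_pos {θ y : ℝ} (hθ : θ ^ 2 ≤ 1 / 2) (hy : |y| ≤ 1) : 0 < 1 - θ ^ 2 * y ^ 2 := by
  have hY : y ^ 2 ≤ 1 := by
    have := sq_abs y ▸ pow_le_one₀ (abs_nonneg y) hy (n := 2)
    simpa using this
  nlinarith [sq_nonneg θ, sq_nonneg y]

lemma rhoh_nonneg {θ y : ℝ} (hθ : θ ^ 2 ≤ 1 / 2) (hy : |y| ≤ 1) : 0 ≤ rhoh θ y := by
  have hY : y ^ 2 ≤ 1 := by
    have := sq_abs y ▸ pow_le_one₀ (abs_nonneg y) hy (n := 2)
    simpa using this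
  exact div_nonneg (by linarith) (rhoh_den_pos hθ hy).le

lemma rhoh_le {θ y : ℝ} (hθ : θ ^ 2 ≤ 1 / 2) (hy : |y| ≤ 1) : rhoh θ y ≤ 1 - y ^ 2 / 2 := by
  have hY : y ^ 2 ≤ 1 := by
    have := sq_abs y ▸ pow_le_one₀ (abs_nonneg y) hy (n := 2)
    simpa using this
  rw [rhoh, div_le_iff₀ (rhoh_den_pos hθ hy)]
  have h0 := sq_nonneg y
  have h1 := sq_nonneg θ
  have h2 : θ ^ 2 * y ^ 2 ≤ 1 / 2 * y ^ 2 := mul_le_mul_of_nonneg_right hθ h0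
  have h3 : 0 ≤ θ ^ 2 * y ^ 2 * y ^ 2 := by positivity
  nlinarith

lemma rhoh_le_one {θ y : ℝ} (hθ : θ ^ 2 ≤ 1 / 2) (hy : |y| ≤ 1) : rhoh θ y ≤ 1 := by
  have := rhoh_le hθ hy
  nlinarith [sq_nonneg y]

/-- two consecutive slopes give a gain in terms of the off-path bias -/
lemma two_step_gain {θ y z g : ℝ} (h0 : 0 ≤ θ) (hθ : θ ^ 2 ≤ 1 / 2) (hy : |y| ≤ 1) (hz : |z| ≤ 1)
    (h : y * (1 + g * (θ * z)) = g + θ * z) :
    rhoh θ y * rhoh θ z ≤ 1 - g ^ 2 / 96 := by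
  have hY : y ^ 2 ≤ 1 := by
    have := sq_abs y ▸ pow_le_one₀ (abs_nonneg y) hy (n := 2)
    simpa using this
  have hZ : z ^ 2 ≤ 1 := by
    have := sq_abs z ▸ pow_le_one₀ (abs_nonneg z) hz (n := 2)
    simpa using this
  have h1 : rhoh θ y * rhoh θ z ≤ (1 - y ^ 2 / 2) * (1 - z ^ 2 / 2) :=
    mul_le_mul (rhoh_le hθ hy) (rhoh_le hθ hz) (rhoh_nonneg hθ hz) (by linarith)
  refine h1.trans ?_
  have hg : g * (1 - θ * (y * z)) = y - θ * z := by linarith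
  have hyz : |y * z| ≤ 1 := by
    rw [abs_mul]
    exact mul_le_one₀ hy (abs_nonneg z) hz
  have hyz1 := (abs_le.mp hyz).2
  have hyz2 := (abs_le.mp hyz).1
  have hθ1 : θ ≤ 71 / 100 := by nlinarith
  have h2 : 29 / 100 ≤ 1 - θ * (y * z) := by nlinarith
  have h3 : (29 / 100) ^ 2 * g ^ 2 ≤ (y - θ * z) ^ 2 := by
    rw [← hg, mul_pow]
    have : (29 / 100 : ℝ) ^ 2 ≤ (1 - θ * (y * z)) ^ 2 := pow_le_pow_left₀ (by norm_num) h2 2
    nlinarith [sq_nonneg g]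
  have h4 : (y - θ * z) ^ 2 ≤ 2 * (y ^ 2 + z ^ 2) := by
    nlinarith [sq_nonneg (y + θ * z), sq_nonneg z, sq_nonneg θ]
  nlinarith [sq_nonneg y, sq_nonneg z, mul_nonneg (sq_nonneg y) (sq_nonneg z)]

/-! ### exponentials -/

lemma exp_le_one_add_two_mul {x : ℝ} (h0 : 0 ≤ x) (h1 : x ≤ 1) : Real.exp x ≤ 1 + 2 * x := by
  have h := Real.abs_exp_sub_one_sub_id_le (x := x) (by rw [abs_of_nonneg h0]; exact h1)
  have h2 := (abs_le.mp h).2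
  nlinarith

end Crest.Agent.R160.Static
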