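import Mathlib
import Crest.Agent.R160.Glue
import Crest.Agent.R160.StaticField
import Crest.Agent.R160.StaticScalar

/-! Row 160, module E: planted expectations of functionals of the field, gluing along one edge. -/

set_option autoImplicit false
set_option linter.unusedSectionVars false

open MeasureTheory ProbabilityTheory
open scoped Classical

namespace Crest.Agent.R160.Static

open Crest.Agent.R160

variable {V : Type*} {G : SimpleGraph V} {θ : ℝ}

/-- positive field -/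
def Pos (f : V → ℝ × ℝ) : Prop := ∀ v, 0 < (f v).1 ∧ 0 < (f v).2

lemma Zf_pos' (h0 : 0 ≤ θ) (h1 : θ < 1) {f : V → ℝ × ℝ} (hf : Pos f) (S : Finset V) :
    0 < Zf G θ S f := Zf_pos h0 h1 fun v _ => hf v

lemma abs_magf_le' (h0 : 0 ≤ θ) (h1 : θ < 1) {f : V → ℝ × ℝ} (hf : Pos f) (S : Finset V) (x : V) :
    |magf G θ S f x| ≤ 1 := abs_magf_le h0 h1 (fun v _ => hf v) x

lemma dependsOn_numf (S : Finset V) (F : Finset V → ℝ) :
    DependsOn (fun f => numf G θ S f F) (S : Set V) := by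
  intro f g h
  unfold numf
  refine Finset.sum_congr rfl fun A _ => ?_
  congr 2
  unfold fw
  refine Finset.prod_congr rfl fun v hv => ?_
  rw [h v (by simpa using hv)]

lemma dependsOn_Zf (S : Finset V) : DependsOn (fun f => Zf G θ S f) (S : Set V) :=
  dependsOn_numf S _

lemma dependsOn_magf (S : Finset V) (x : V) : DependsOn (fun f => magf G θ S f x) (S : Set V) := by
  intro f g h
  have h1 := dependsOn_numf (G := G) (θ := θ) S (fun A => sg A x) h
  have h2 := dependsOn_Zf (G := G) (θ := θ) S h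
  simp only [magf, meanf] at h1 h2 ⊢
  rw [h1, h2]

lemma measurable_numf (S : Finset V) (F : Finset V → ℝ) :
    Measurable (fun f : V → ℝ × ℝ => numf G θ S f F) := by
  unfold numf fw
  refine Finset.measurable_fun_sum _ fun A _ => ?_
  refine Measurable.const_mul (Measurable.const_mul ?_ _) _
  refine Finset.measurable_fun_prod _ fun v _ => ?_
  split_ifs
  · exact measurable_fst.comp (measurable_pi_apply v)
  · exact measurable_snd.comp (measurable_pi_apply v)

lemma measurable_Zf (S : Finset V) : Measurable (fun f : V → ℝ × ℝ => Zf G θ S f) :=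
  measurable_numf S _

lemma measurable_magf (S : Finset V) (x : V) :
    Measurable (fun f : V → ℝ × ℝ => magf G θ S f x) := by
  unfold magf meanf
  exact (measurable_numf S _).div (measurable_Zf S)

lemma sg_sdiff {S A : Finset V} {v : V} (hv : v ∈ S) : sg (S \ A) v = -sg A v := by
  unfold sg
  by_cases h : v ∈ A
  · simp [h]
  · simp [h, hv]

lemma sgE_sdiff {S A : Finset V} {e : Sym2 V} (he : e ∈ S.sym2) : sgE (S \ A) e = sgE A e := by
  induction e with
  | h a b =>
    rw [Finset.mk_mem_sym2_iff] at he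
    simp only [sgE, Sym2.lift_mk]
    rw [sg_sdiff he.1, sg_sdiff he.2]
    ring

lemma ew_sdiff (S A : Finset V) : ew G θ S (S \ A) = ew G θ S A := by
  unfold ew
  refine Finset.prod_congr rfl fun e he => ?_
  rw [sgE_sdiff (Finset.mem_filter.1 he).1]

lemma numf_flip {S : Finset V} {B : Set V} (hSB : (S : Set V) ⊆ B) (f : V → ℝ × ℝ)
    (F : Finset V → ℝ) :
    numf G θ S (flipOn B f) F = numf G θ S f (fun A => F (S \ A)) := by
  unfold numf
  refine Finset.sum_nbij' (fun A => S \ A) (fun A => S \ A) ?_ ?_ ?_ ?_ ?_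
  · intro A _
    exact Finset.mem_powerset.2 Finset.sdiff_subset
  · intro A _
    exact Finset.mem_powerset.2 Finset.sdiff_subset
  · intro A hA
    exact Finset.sdiff_sdiff_eq_self (Finset.mem_powerset.1 hA)
  · intro A hA
    exact Finset.sdiff_sdiff_eq_self (Finset.mem_powerset.1 hA)
  · intro A hA
    simp only
    rw [ew_sdiff, Finset.sdiff_sdiff_eq_self (Finset.mem_powerset.1 hA)]
    congr 2
    unfold fw
    refine Finset.prod_congr rfl fun v hv => ?_
    have hvB : v ∈ B := hSB (by simpa using hv)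
    by_cases h : v ∈ A
    · simp [flipOn, hvB, h]
    · simp [flipOn, hvB, h, hv]

lemma Zf_flip {S : Finset V} {B : Set V} (hSB : (S : Set V) ⊆ B) (f : V → ℝ × ℝ) :
    Zf G θ S (flipOn B f) = Zf G θ S f := by
  unfold Zf
  rw [numf_flip hSB]

lemma magf_flip {S : Finset V} {B : Set V} (hSB : (S : Set V) ⊆ B) (f : V → ℝ × ℝ) {x : V}
    (hx : x ∈ S) : magf G θ S (flipOn B f) x = - magf G θ S f x := by
  unfold magf meanf
  rw [Zf_flip hSB, numf_flip hSB]
  have : numf G θ S f (fun A => sg (S \ A) x) = - numf G θ S f (fun A => sg A x) := by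
    unfold numf
    rw [← Finset.sum_neg_distrib]
    refine Finset.sum_congr rfl fun A _ => ?_
    simp only
    rw [sg_sdiff hx]
    ring
  rw [this, neg_div]

/-- agreement outside of the flipped set -/
lemma flipOn_of_notMem {B : Set V} {v : V} (hv : v ∉ B) (f : V → ℝ × ℝ) : flipOn B f v = f v := by
  simp [flipOn, hv]

lemma dependsOn_flip {β : Type*} {F : (V → ℝ × ℝ) → β} {S : Finset V} {B : Set V}
    (hF : DependsOn F (S : Set V)) (hB : Disjoint (S : Set V) B) (f : V → ℝ × ℝ) :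
    F (flipOn B f) = F f := by
  apply hF
  intro v hv
  exact flipOn_of_notMem (Set.disjoint_left.mp hB hv) f

/-- normalised partition function -/
noncomputable def zf (G : SimpleGraph V) (θ : ℝ) (S : Finset V) (f : V → ℝ × ℝ) : ℝ :=
  Zf G θ S f / 2 ^ S.card

lemma zf_pos (h0 : 0 ≤ θ) (h1 : θ < 1) {f : V → ℝ × ℝ} (hf : Pos f) (S : Finset V) :
    0 < zf G θ S f := div_pos (Zf_pos' h0 h1 hf S) (by positivity)

lemma dependsOn_zf (S : Finset V) : DependsOn (fun f => zf G θ S f) (S : Set V) := by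
  intro f g h
  have h2 := dependsOn_Zf (G := G) (θ := θ) S h
  simp only [zf] at h2 ⊢
  rw [h2]

lemma measurable_zf (S : Finset V) : Measurable (fun f : V → ℝ × ℝ => zf G θ S f) :=
  (measurable_Zf S).div_const _

lemma zf_flip {S : Finset V} {B : Set V} (hSB : (S : Set V) ⊆ B) (f : V → ℝ × ℝ) :
    zf G θ S (flipOn B f) = zf G θ S f := by
  unfold zf
  rw [Zf_flip hSB]

/-- two disjoint finite sets of vertices joined by a single edge -/
structure Edge1 (G : SimpleGraph V) (S1 S2 : Finset V) (x c : V) : Prop where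
  disj : Disjoint S1 S2
  hx : x ∈ S1
  hc : c ∈ S2
  adj : G.Adj x c
  edge : ∀ a ∈ S1, ∀ b ∈ S2, G.Adj a b → a = x ∧ b = c

lemma Edge1.symm {S1 S2 : Finset V} {x c : V} (e : Edge1 G S1 S2 x c) : Edge1 G S2 S1 c x :=
  ⟨e.disj.symm, e.hc, e.hx, e.adj.symm, fun a ha b hb hab =>
    (e.edge b hb a ha hab.symm).symm⟩

lemma zf_glue {S1 S2 : Finset V} {x c : V} (e : Edge1 G S1 S2 x c) (h0 : 0 ≤ θ) (h1 : θ < 1)
    {f : V → ℝ × ℝ} (hf : Pos f) :
    zf G θ (S1 ∪ S2) f = zf G θ S1 f * zf G θ S2 f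
      * (1 + θ * magf G θ S1 f x * magf G θ S2 f c) := by
  unfold zf
  rw [Zf_glue h0 h1 e.disj e.hx e.hc e.adj e.edge (fun v _ => hf v),
    Finset.card_union_of_disjoint e.disj]
  field_simp
  ring

lemma magf_glue {S1 S2 : Finset V} {x c : V} (e : Edge1 G S1 S2 x c) (h0 : 0 ≤ θ) (h1 : θ < 1)
    {f : V → ℝ × ℝ} (hf : Pos f) :
    magf G θ (S1 ∪ S2) f x = mg θ (magf G θ S1 f x) (magf G θ S2 f c) :=
  magf_glue_left h0 h1 e.disj e.hx e.hc e.adj e.edge (fun v _ => hf v)

/-! ### bounded functionals -/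

section Prob

variable {Ω : Type*} [MeasurableSpace Ω] {P : Measure Ω} {X : V → Ω → ℝ × ℝ}

/-- the field at `ω` -/
def fd (X : V → Ω → ℝ × ℝ) (ω : Ω) : V → ℝ × ℝ := fun v => X v ω

/-- functional bounded along the random field -/
def Bdd (X : V → Ω → ℝ × ℝ) (F : (V → ℝ × ℝ) → ℝ) : Prop := ∃ K, ∀ ω, |F (fd X ω)| ≤ K

lemma Bdd.const (c : ℝ) : Bdd X (fun _ => c) := ⟨|c|, fun _ => le_rfl⟩

lemma Bdd.mul {F H : (V → ℝ × ℝ) → ℝ} (hF : Bdd X F) (hH : Bdd X H) :
    Bdd X (fun f => F f * H f) := by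
  obtain ⟨K, hK⟩ := hF
  obtain ⟨L, hL⟩ := hH
  refine ⟨K * L, fun ω => ?_⟩
  rw [abs_mul]
  exact mul_le_mul (hK ω) (hL ω) (abs_nonneg _) ((abs_nonneg _).trans (hK ω))

lemma Bdd.add {F H : (V → ℝ × ℝ) → ℝ} (hF : Bdd X F) (hH : Bdd X H) :
    Bdd X (fun f => F f + H f) := by
  obtain ⟨K, hK⟩ := hF
  obtain ⟨L, hL⟩ := hH
  exact ⟨K + L, fun ω => (abs_add_le _ _).trans (add_le_add (hK ω) (hL ω))⟩

lemma Bdd.sum {ι : Type*} {s : Finset ι} {F : ι → (V → ℝ × ℝ) → ℝ} (hF : ∀ i ∈ s, Bdd X (F i)) :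
    Bdd X (fun f => ∑ i ∈ s, F i f) := by
  induction s using Finset.induction_on with
  | empty => simpa using Bdd.const (X := X) 0
  | insert a s ha ih =>
    have h1 := ih fun i hi => hF i (Finset.mem_insert_of_mem hi)
    have h2 := hF a (Finset.mem_insert_self _ _)
    simpa [Finset.sum_insert ha] using h2.add h1

lemma Bdd.prod {ι : Type*} {s : Finset ι} {F : ι → (V → ℝ × ℝ) → ℝ} (hF : ∀ i ∈ s, Bdd X (F i)) :
    Bdd X (fun f => ∏ i ∈ s, F i f) := by
  induction s using Finset.induction_on with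
  | empty => simpa using Bdd.const (X := X) 1
  | insert a s ha ih =>
    have h1 := ih fun i hi => hF i (Finset.mem_insert_of_mem hi)
    have h2 := hF a (Finset.mem_insert_self _ _)
    simpa [Finset.prod_insert ha] using h2.mul h1

lemma FieldData.posf (h : FieldData P X) (ω : Ω) : Pos (fd X ω) := fun v => h.pos v ω

lemma FieldData.bdd_numf (h : FieldData P X) (S : Finset V) (F : Finset V → ℝ) :
    Bdd X (fun f => numf G θ S f F) := by
  obtain ⟨C, hC⟩ := h.bdd
  unfold numf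
  refine Bdd.sum fun A _ => (Bdd.const _).mul ((Bdd.const _).mul ?_)
  unfold fw
  refine Bdd.prod fun v _ => ⟨C, fun ω => ?_⟩
  split_ifs
  · change |(X v ω).1| ≤ C
    rw [abs_of_pos (h.pos v ω).1]
    exact (hC v ω).1
  · change |(X v ω).2| ≤ C
    rw [abs_of_pos (h.pos v ω).2]
    exact (hC v ω).2

lemma FieldData.bdd_zf (h : FieldData P X) (S : Finset V) : Bdd X (fun f => zf G θ S f) := by
  unfold zf
  have := (h.bdd_numf (G := G) (θ := θ) S (fun _ => 1)).mul (Bdd.const (X := X) (1 / 2 ^ S.card))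
  simpa [Zf, div_eq_mul_inv] using this

lemma FieldData.bdd_magf (h : FieldData P X) (h0 : 0 ≤ θ) (h1 : θ < 1) (S : Finset V) (x : V) :
    Bdd X (fun f => magf G θ S f x) := ⟨1, fun ω => abs_magf_le' h0 h1 (h.posf ω) S x⟩

lemma FieldData.integrable (h : FieldData P X) {F : (V → ℝ × ℝ) → ℝ} (hF : Measurable F)
    (hb : Bdd X F) : Integrable (fun ω => F (fd X ω)) P := by
  have := h.prob
  obtain ⟨K, hK⟩ := hb
  refine Integrable.of_bound (hF.comp h.measurable_field).aestronglyMeasurable K ?_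
  exact Filter.Eventually.of_forall fun ω => by rw [Real.norm_eq_abs]; exact hK ω

/-- even functionals of one side are independent of the other side under the planted law -/
theorem FieldData.planted_mul (h : FieldData P X) (h0 : 0 ≤ θ) (h1 : θ < 1) {S1 S2 : Finset V} {x c : V}
    (e : Edge1 G S1 S2 x c) {F H : (V → ℝ × ℝ) → ℝ} (hF : Measurable F) (hH : Measurable H)
    (hFd : DependsOn F (S1 : Set V)) (hHd : DependsOn H (S2 : Set V)) (hFb : Bdd X F)
    (hHb : Bdd X H) (heven : ∀ f, F (flipOn (S1 : Set V) f) = F f) :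
    ∫ ω, zf G θ (S1 ∪ S2) (fd X ω) * (F (fd X ω) * H (fd X ω)) ∂P
      = (∫ ω, zf G θ S1 (fd X ω) * F (fd X ω) ∂P)
        * ∫ ω, zf G θ S2 (fd X ω) * H (fd X ω) ∂P := by
  have hz1 := measurable_zf (G := G) (θ := θ) S1
  have hz2 := measurable_zf (G := G) (θ := θ) S2
  have hm1 := measurable_magf (G := G) (θ := θ) S1 x
  have hm2 := measurable_magf (G := G) (θ := θ) S2 c
  have dz1 := dependsOn_zf (G := G) (θ := θ) S1
  have dz2 := dependsOn_zf (G := G) (θ := θ) S2
  have dm1 := dependsOn_magf (G := G) (θ := θ) S1 x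
  have dm2 := dependsOn_magf (G := G) (θ := θ) S2 c
  have e1 : ∀ ω, zf G θ (S1 ∪ S2) (fd X ω) * (F (fd X ω) * H (fd X ω))
      = (zf G θ S1 (fd X ω) * F (fd X ω)) * (zf G θ S2 (fd X ω) * H (fd X ω))
        + θ * ((zf G θ S1 (fd X ω) * magf G θ S1 (fd X ω) x * F (fd X ω))
          * (zf G θ S2 (fd X ω) * magf G θ S2 (fd X ω) c * H (fd X ω))) := by
    intro ω
    rw [zf_glue e h0 h1 (h.posf ω)]
    ring
  simp only [e1]
  have D1 : DependsOn (fun f => zf G θ S1 f * F f) (S1 : Set V) := by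
    intro f g hfg
    have a := dz1 hfg
    have b := hFd hfg
    simp only at a b ⊢
    rw [a, b]
  have D2 : DependsOn (fun f => zf G θ S2 f * H f) (S2 : Set V) := by
    intro f g hfg
    have a := dz2 hfg
    have b := hHd hfg
    simp only at a b ⊢
    rw [a, b]
  have D3 : DependsOn (fun f => zf G θ S1 f * magf G θ S1 f x * F f) (S1 : Set V) := by
    intro f g hfg
    have a := dz1 hfg
    have a' := dm1 hfg
    have b := hFd hfg
    simp only at a a' b ⊢
    rw [a, a', b]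
  have D4 : DependsOn (fun f => zf G θ S2 f * magf G θ S2 f c * H f) (S2 : Set V) := by
    intro f g hfg
    have a := dz2 hfg
    have a' := dm2 hfg
    have b := hHd hfg
    simp only at a a' b ⊢
    rw [a, a', b]
  have I1 := h.integrable ((hz1.mul hF).mul (hz2.mul hH))
    (((h.bdd_zf (G := G) (θ := θ) S1).mul hFb).mul ((h.bdd_zf (G := G) (θ := θ) S2).mul hHb))
  have I2 := h.integrable (((hz1.mul hm1).mul hF).mul ((hz2.mul hm2).mul hH))
    ((((h.bdd_zf (G := G) (θ := θ) S1).mul (h.bdd_magf (G := G) h0 h1 S1 x)).mul hFb).mul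
      (((h.bdd_zf (G := G) (θ := θ) S2).mul (h.bdd_magf (G := G) h0 h1 S2 c)).mul hHb))
  have J1 := h.integral_mul (hz1.mul hF) (hz2.mul hH) D1 D2 e.disj
  have J2 := h.integral_mul ((hz1.mul hm1).mul hF) ((hz2.mul hm2).mul hH) D3 D4 e.disj
  have J3 := h.integral_odd ((hz1.mul hm1).mul hF) D3 (S1 : Set V) (by
    intro f
    simp only [Pi.mul_apply]
    rw [zf_flip (subset_refl _), magf_flip (subset_refl _) f e.hx, heven]
    ring)
  rw [J3, zero_mul] at J2
  have I1' : Integrable (fun ω => (zf G θ S1 (fd X ω) * F (fd X ω))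
      * (zf G θ S2 (fd X ω) * H (fd X ω))) P := I1
  have I2' : Integrable (fun ω => θ * ((zf G θ S1 (fd X ω) * magf G θ S1 (fd X ω) x
      * F (fd X ω)) * (zf G θ S2 (fd X ω) * magf G θ S2 (fd X ω) c * H (fd X ω)))) P :=
    I2.const_mul θ
  rw [integral_add I1' I2', integral_const_mul]
  have J1' : ∫ ω, (zf G θ S1 (fd X ω) * F (fd X ω)) * (zf G θ S2 (fd X ω) * H (fd X ω)) ∂P
      = (∫ ω, zf G θ S1 (fd X ω) * F (fd X ω) ∂P)
        * ∫ ω, zf G θ S2 (fd X ω) * H (fd X ω) ∂P := J1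
  have J2' : ∫ ω, (zf G θ S1 (fd X ω) * magf G θ S1 (fd X ω) x * F (fd X ω))
      * (zf G θ S2 (fd X ω) * magf G θ S2 (fd X ω) c * H (fd X ω)) ∂P = 0 := J2
  rw [J1', J2']
  ring

lemma DependsOn.mul' {A : Finset V} {F H : (V → ℝ × ℝ) → ℝ} (hF : DependsOn F (A : Set V))
    (hH : DependsOn H (A : Set V)) : DependsOn (fun f => F f * H f) (A : Set V) := by
  intro f g hfg
  have a := hF hfg
  have b := hH hfg
  simp only at a b ⊢
  rw [a, b]

lemma DependsOn.mono' {A B : Finset V} (h : A ⊆ B) {F : (V → ℝ × ℝ) → ℝ}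
    (hF : DependsOn F (A : Set V)) : DependsOn F (B : Set V) := by
  intro f g hfg
  exact hF fun v hv => hfg v (by simpa using h (by simpa using hv))

/-- restriction of the volume -/
theorem FieldData.planted_restrict (h : FieldData P X) (h0 : 0 ≤ θ) (h1 : θ < 1)
    {S1 S2 : Finset V} {x c : V} (e : Edge1 G S1 S2 x c) {F : (V → ℝ × ℝ) → ℝ}
    (hF : Measurable F) (hFd : DependsOn F (S1 : Set V)) (hFb : Bdd X F)
    (hz : ∫ ω, zf G θ S2 (fd X ω) ∂P = 1) :
    ∫ ω, zf G θ (S1 ∪ S2) (fd X ω) * F (fd X ω) ∂P = ∫ ω, zf G θ S1 (fd X ω) * F (fd X ω) ∂P := by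
  have h2 := h.planted_mul (G := G) h0 h1 e.symm (F := fun _ => 1) (H := F) measurable_const hF
    (fun _ _ _ => rfl) hFd (Bdd.const 1) hFb (fun _ => rfl)
  simp only [one_mul, mul_one] at h2
  rw [Finset.union_comm, h2, hz, one_mul]

theorem FieldData.planted_one (h : FieldData P X) (h0 : 0 ≤ θ) (h1 : θ < 1)
    {S1 S2 : Finset V} {x c : V} (e : Edge1 G S1 S2 x c)
    (hz1 : ∫ ω, zf G θ S1 (fd X ω) ∂P = 1) (hz2 : ∫ ω, zf G θ S2 (fd X ω) ∂P = 1) :
    ∫ ω, zf G θ (S1 ∪ S2) (fd X ω) ∂P = 1 := by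
  have h2 := h.planted_restrict (G := G) h0 h1 e (F := fun _ => 1) measurable_const
    (fun _ _ _ => rfl) (Bdd.const 1) hz2
  simpa [hz1] using h2

/-- average over the two relative signs of `φ (u ⊕ w)`, `w` already multiplied by `θ` -/
noncomputable def avg2 (φ : ℝ → ℝ) (u w : ℝ) : ℝ :=
  ((1 + u * w) * φ ((u + w) / (1 + u * w)) + (1 - u * w) * φ ((u - w) / (1 - u * w))) / 2

theorem FieldData.planted_phi (h : FieldData P X) (h0 : 0 ≤ θ) (h1 : θ < 1)
    {S1 S2 : Finset V} {x c : V} (e : Edge1 G S1 S2 x c) {φ : ℝ → ℝ} (hφ : Measurable φ)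
    (heven : ∀ u, φ (-u) = φ u) {K : ℝ} (hK : ∀ u, |u| ≤ 1 → |φ u| ≤ K) :
    ∫ ω, zf G θ (S1 ∪ S2) (fd X ω) * φ (magf G θ (S1 ∪ S2) (fd X ω) x) ∂P
      = ∫ ω, zf G θ S1 (fd X ω) * zf G θ S2 (fd X ω)
          * avg2 φ (magf G θ S1 (fd X ω) x) (θ * magf G θ S2 (fd X ω) c) ∂P := by
  have hz1 := measurable_zf (G := G) (θ := θ) S1
  have hz2 := measurable_zf (G := G) (θ := θ) S2
  have hm1 := measurable_magf (G := G) (θ := θ) S1 x
  have hm2 := measurable_magf (G := G) (θ := θ) S2 c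
  -- the functional
  let Ψ : (V → ℝ × ℝ) → ℝ := fun f => zf G θ S1 f * zf G θ S2 f *
    ((1 + magf G θ S1 f x * (θ * magf G θ S2 f c)) *
      φ ((magf G θ S1 f x + θ * magf G θ S2 f c) / (1 + magf G θ S1 f x * (θ * magf G θ S2 f c))))
  have hΨ : Measurable Ψ := by
    refine (hz1.mul hz2).mul ?_
    have a : Measurable (fun f : V → ℝ × ℝ => 1 + magf G θ S1 f x * (θ * magf G θ S2 f c)) :=
      (hm1.mul (hm2.const_mul θ)).const_add 1
    exact a.mul (hφ.comp ((hm1.add (hm2.const_mul θ)).div a))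
  have hΨd : DependsOn Ψ ((S1 ∪ S2 : Finset V) : Set V) := by
    intro f g hfg
    have i1 : ∀ v ∈ (S1 : Set V), f v = g v := fun v hv => hfg v (by simp at hv ⊢; exact Or.inl hv)
    have i2 : ∀ v ∈ (S2 : Set V), f v = g v := fun v hv => hfg v (by simp at hv ⊢; exact Or.inr hv)
    have a1 := dependsOn_zf (G := G) (θ := θ) S1 i1
    have a2 := dependsOn_zf (G := G) (θ := θ) S2 i2
    have a3 := dependsOn_magf (G := G) (θ := θ) S1 x i1
    have a4 := dependsOn_magf (G := G) (θ := θ) S2 c i2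
    simp only at a1 a2 a3 a4
    simp only [Ψ]
    rw [a1, a2, a3, a4]
  have e1 : ∀ ω, zf G θ (S1 ∪ S2) (fd X ω) * φ (magf G θ (S1 ∪ S2) (fd X ω) x) = Ψ (fd X ω) := by
    intro ω
    simp only [Ψ]
    rw [zf_glue e h0 h1 (h.posf ω), magf_glue e h0 h1 (h.posf ω)]
    unfold mg
    have r : θ * magf G θ S1 (fd X ω) x * magf G θ S2 (fd X ω) c
        = magf G θ S1 (fd X ω) x * (θ * magf G θ S2 (fd X ω) c) := by ring
    rw [r]
    ring
  have hΨb : Bdd X Ψ := by
    obtain ⟨K1, hK1⟩ := h.bdd_zf (G := G) (θ := θ) (S1 ∪ S2)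
    refine ⟨K1 * K, fun ω => ?_⟩
    rw [← e1 ω, abs_mul]
    exact mul_le_mul (hK1 ω) (hK _ (abs_magf_le' h0 h1 (h.posf ω) _ _)) (abs_nonneg _)
      ((abs_nonneg _).trans (hK1 ω))
  have e2 : ∀ f : V → ℝ × ℝ, Ψ (flipOn (S1 : Set V) f) = zf G θ S1 f * zf G θ S2 f *
      ((1 - magf G θ S1 f x * (θ * magf G θ S2 f c)) *
        φ ((magf G θ S1 f x - θ * magf G θ S2 f c) /
          (1 - magf G θ S1 f x * (θ * magf G θ S2 f c)))) := by
    intro f
    simp only [Ψ]
    have b1 := zf_flip (G := G) (θ := θ) (subset_refl (S1 : Set V)) f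
    have b2 := magf_flip (G := G) (θ := θ) (subset_refl (S1 : Set V)) f e.hx
    have hd : Disjoint (S2 : Set V) (S1 : Set V) := by
      rw [Finset.disjoint_coe]
      exact e.disj.symm
    have b3 : zf G θ S2 (flipOn (S1 : Set V) f) = zf G θ S2 f :=
      dependsOn_flip (dependsOn_zf (G := G) (θ := θ) S2) hd f
    have b4 : magf G θ S2 (flipOn (S1 : Set V) f) c = magf G θ S2 f c :=
      dependsOn_flip (dependsOn_magf (G := G) (θ := θ) S2 c) hd f
    rw [b1, b2, b3, b4]
    have r1 : (-magf G θ S1 f x + θ * magf G θ S2 f c)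
        / (1 + -magf G θ S1 f x * (θ * magf G θ S2 f c))
        = -((magf G θ S1 f x - θ * magf G θ S2 f c)
          / (1 - magf G θ S1 f x * (θ * magf G θ S2 f c))) := by
      rw [← neg_div]
      congr 1 <;> ring
    rw [r1, heven]
    ring
  have hflip := h.integral_flip hΨ hΨd (S1 : Set V)
  have i1 : Integrable (fun ω => Ψ (fd X ω)) P := h.integrable hΨ hΨb
  have hflipm : Measurable (fun f : V → ℝ × ℝ => Ψ (flipOn (S1 : Set V) f)) := by
    have : (fun f : V → ℝ × ℝ => Ψ (flipOn (S1 : Set V) f)) = fun f => zf G θ S1 f * zf G θ S2 f *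
      ((1 - magf G θ S1 f x * (θ * magf G θ S2 f c)) *
        φ ((magf G θ S1 f x - θ * magf G θ S2 f c) /
          (1 - magf G θ S1 f x * (θ * magf G θ S2 f c)))) := funext e2
    rw [this]
    refine (hz1.mul hz2).mul ?_
    have a : Measurable (fun f : V → ℝ × ℝ => 1 - magf G θ S1 f x * (θ * magf G θ S2 f c)) :=
      (hm1.mul (hm2.const_mul θ)).const_sub 1
    exact a.mul (hφ.comp ((hm1.sub (hm2.const_mul θ)).div a))
  have i2 : Integrable (fun ω => Ψ (flipOn (S1 : Set V) (fd X ω))) P := by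
    have := h.prob
    obtain ⟨K1, hK1⟩ := h.bdd_zf (G := G) (θ := θ) S1
    obtain ⟨K2, hK2⟩ := h.bdd_zf (G := G) (θ := θ) S2
    refine Integrable.of_bound (hflipm.comp h.measurable_field).aestronglyMeasurable
      (K1 * K2 * (2 * K)) ?_
    refine Filter.Eventually.of_forall fun ω => ?_
    rw [Real.norm_eq_abs, e2]
    have c1 := abs_magf_le' (G := G) h0 h1 (h.posf ω) S1 x
    have c2 := abs_magf_le' (G := G) h0 h1 (h.posf ω) S2 c
    have c3 : |θ * magf G θ S2 (fd X ω) c| ≤ θ := by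
      rw [abs_mul, abs_of_nonneg h0]
      exact mul_le_of_le_one_right h0 c2
    set u := magf G θ S1 (fd X ω) x
    set w := θ * magf G θ S2 (fd X ω) c
    have hw1 : |w| < 1 := lt_of_le_of_lt c3 h1
    have huw : |u * w| < 1 := by
      rw [abs_mul]
      exact lt_of_le_of_lt (mul_le_of_le_one_left (abs_nonneg _) c1) hw1
    have d1 := (abs_lt.mp huw).1
    have d2 := (abs_lt.mp huw).2
    have c4 : |1 - u * w| ≤ 2 := by
      rw [abs_le]
      constructor <;> linarith
    have c5 : |(u - w) / (1 - u * w)| ≤ 1 := by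
      have hpos' : 0 < 1 - u * w := by linarith
      rw [abs_div, abs_of_pos hpos', div_le_one hpos', abs_le]
      have u1 := (abs_le.mp c1).1
      have u2 := (abs_le.mp c1).2
      have w1 := (abs_lt.mp hw1).1
      have w2 := (abs_lt.mp hw1).2
      constructor <;> nlinarith
    have hK0 : 0 ≤ K := (abs_nonneg _).trans (hK _ c5)
    rw [abs_mul, abs_mul, abs_mul]
    refine mul_le_mul (mul_le_mul (hK1 ω) (hK2 ω) (abs_nonneg _) ((abs_nonneg _).trans (hK1 ω)))
      (mul_le_mul c4 (hK _ c5) (abs_nonneg _) (by norm_num)) (by positivity)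
      (mul_nonneg ((abs_nonneg _).trans (hK1 ω)) ((abs_nonneg _).trans (hK2 ω)))
  have e3 : ∫ ω, Ψ (fd X ω) ∂P
      = ∫ ω, (Ψ (fd X ω) + Ψ (flipOn (S1 : Set V) (fd X ω))) / 2 ∂P := by
    rw [integral_div, integral_add i1 i2]
    have hflip' : ∫ ω, Ψ (flipOn (S1 : Set V) (fd X ω)) ∂P = ∫ ω, Ψ (fd X ω) ∂P := hflip
    rw [hflip']
    ring
  simp only [e1]
  rw [e3]
  refine integral_congr_ae (Filter.Eventually.of_forall fun ω => ?_)
  simp only
  rw [e2]
  simp only [Ψ, avg2]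
  ring

end Prob

end Crest.Agent.R160.Static
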