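import Mathlib
import Crest.Agent.R160.Balls

/-! Row 160, module E: forward balls (branches of finite depth) in a tree. -/

set_option autoImplicit false
set_option linter.unusedSectionVars false

open SimpleGraph
open scoped Classical

namespace Crest.Agent.R160.Static

open Crest.Agent.R160 Crest.Agent.R160.TreeAut

variable {V : Type*} {G : SimpleGraph V} [G.LocallyFinite]

/-- forward ball: the vertices `v` at distance at most `n` from `x`, on the side of `x` of the
edge `yx` -/
noncomputable def BB (G : SimpleGraph V) [G.LocallyFinite] (y x : V) (n : ℕ) : Finset V :=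
  (bal G x n).filter fun v => G.dist y v = G.dist x v + 1

lemma mem_BB (hT : G.IsTree) {y x v : V} {n : ℕ} :
    v ∈ BB G y x n ↔ G.dist x v ≤ n ∧ G.dist y v = G.dist x v + 1 := by
  rw [BB, Finset.mem_filter, mem_bal hT]

lemma self_mem_BB (hT : G.IsTree) {y x : V} (hxy : G.Adj y x) (n : ℕ) : x ∈ BB G y x n := by
  rw [mem_BB hT, SimpleGraph.dist_self, SimpleGraph.dist_eq_one_iff_adj.mpr hxy]
  exact ⟨Nat.zero_le _, rfl⟩

lemma notMem_BB (hT : G.IsTree) {y x : V} (n : ℕ) : y ∉ BB G y x n := by
  rw [mem_BB hT, SimpleGraph.dist_self]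
  rintro ⟨-, h⟩
  omega

lemma disjoint_BB (hT : G.IsTree) {x c c' : V} (hc : G.Adj x c) (hc' : G.Adj x c') (hne : c ≠ c')
    (n : ℕ) : Disjoint (BB G x c n) (BB G x c' n) := by
  rw [Finset.disjoint_left]
  intro v hv hv'
  rw [mem_BB hT] at hv hv'
  apply hne
  refine unique_closer hT (r := v) hc hc' ?_ ?_
  · rw [SimpleGraph.dist_comm (u := v) (v := c), SimpleGraph.dist_comm (u := v) (v := x)]
    exact hv.2.symm
  · rw [SimpleGraph.dist_comm (u := v) (v := c'), SimpleGraph.dist_comm (u := v) (v := x)]
    exact hv'.2.symm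

/-- the vertex `x` together with the forward balls of depth `n` at the neighbours in `T` -/
noncomputable def star (G : SimpleGraph V) [G.LocallyFinite] (x : V) (T : Finset V) (n : ℕ) :
    Finset V :=
  insert x (T.biUnion fun c => BB G x c n)

lemma star_empty (x : V) (n : ℕ) : star G x ∅ n = {x} := by
  simp [star]

lemma mem_star_self (x : V) (T : Finset V) (n : ℕ) : x ∈ star G x T n :=
  Finset.mem_insert_self _ _

lemma star_insert (x c : V) (T : Finset V) (n : ℕ) :
    star G x (insert c T) n = star G x T n ∪ BB G x c n := by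
  ext v
  simp only [star, Finset.mem_insert, Finset.mem_biUnion, Finset.mem_union]
  constructor
  · rintro (h | ⟨a, rfl | ha, hv⟩)
    · exact Or.inl (Or.inl h)
    · exact Or.inr hv
    · exact Or.inl (Or.inr ⟨a, ha, hv⟩)
  · rintro ((h | ⟨a, ha, hv⟩) | hv)
    · exact Or.inl h
    · exact Or.inr ⟨a, Or.inr ha, hv⟩
    · exact Or.inr ⟨c, Or.inl rfl, hv⟩

lemma disjoint_star (hT : G.IsTree) {x c : V} {T : Finset V} (hTn : ∀ a ∈ T, G.Adj x a)
    (hc : G.Adj x c) (hcT : c ∉ T) (n : ℕ) : Disjoint (star G x T n) (BB G x c n) := by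
  rw [Finset.disjoint_left]
  intro v hv hv'
  rw [star, Finset.mem_insert, Finset.mem_biUnion] at hv
  rcases hv with rfl | ⟨a, ha, hv⟩
  · exact notMem_BB hT n hv'
  · have hne : a ≠ c := by
      rintro rfl
      exact hcT ha
    exact Finset.disjoint_left.mp (disjoint_BB hT (hTn a ha) hc hne n) hv hv'

/-- a vertex of the branch of `c` seen from `x` -/
lemma star_notMem_side (hT : G.IsTree) {x c : V} {T : Finset V} (hTn : ∀ a ∈ T, G.Adj x a)
    (hc : G.Adj x c) (hcT : c ∉ T) {n : ℕ} {v : V} (hv : v ∈ star G x T n) :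
    G.dist c v = G.dist x v + 1 := by
  rw [star, Finset.mem_insert, Finset.mem_biUnion] at hv
  rcases hv with rfl | ⟨a, ha, hv⟩
  · rw [SimpleGraph.dist_self, SimpleGraph.dist_comm, SimpleGraph.dist_eq_one_iff_adj.mpr hc]
  · rw [mem_BB hT] at hv
    rcases hT.dist_eq_dist_add_one_of_adj v hc with h | h
    · exfalso
      apply hcT
      have : c = a := by
        refine unique_closer hT (r := v) hc (hTn a ha) h.symm ?_
        rw [SimpleGraph.dist_comm (u := v) (v := a), SimpleGraph.dist_comm (u := v) (v := x)]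
        exact hv.2.symm
      rwa [this]
    · rw [SimpleGraph.dist_comm (u := c), SimpleGraph.dist_comm (u := x)]
      exact h

/-- the only edge between the two sides of the edge `xc` is `xc` -/
lemma crossing (hT : G.IsTree) {x c v w : V} (_hxc : G.Adj x c) (hvw : G.Adj w v)
    (hv : G.dist x v = G.dist c v + 1) (hw : G.dist c w = G.dist x w + 1) : w = x ∧ v = c := by
  have h1 := hT.dist_eq_dist_add_one_of_adj x hvw
  have h2 := hT.dist_eq_dist_add_one_of_adj c hvw
  have h3 : G.dist c v = G.dist x w := by omega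
  have h4 : v = c := by
    by_contra hne
    have hne' : v ≠ c := hne
    have p1 := par_adj hT (r := c) hne'
    have p2 := par_dist hT (r := c) hne'
    set w' := par G c v with hw'
    have h5 : G.dist x w' ≤ G.dist x c + G.dist c w' := hT.connected.dist_triangle
    have h5' : G.dist x c = 1 := SimpleGraph.dist_eq_one_iff_adj.mpr _hxc
    have h6 : G.dist x v ≤ G.dist x w' + G.dist w' v := hT.connected.dist_triangle
    have h6' : G.dist w' v = 1 := SimpleGraph.dist_eq_one_iff_adj.mpr p1.symm
    have h7 : w' = w := by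
      refine unique_closer hT (r := x) p1 hvw.symm ?_ ?_
      · omega
      · omega
    rw [h7] at p2
    omega
  refine ⟨?_, h4⟩
  rw [h4, SimpleGraph.dist_self] at h3
  exact ((hT.connected.dist_eq_zero_iff).1 h3.symm).symm

lemma star_edge (hT : G.IsTree) {x c : V} {T : Finset V} (hTn : ∀ a ∈ T, G.Adj x a)
    (hc : G.Adj x c) (hcT : c ∉ T) (n : ℕ) :
    ∀ a ∈ star G x T n, ∀ b ∈ BB G x c n, G.Adj a b → a = x ∧ b = c := by
  intro a ha b hb hab
  exact crossing hT hc hab ((mem_BB hT).mp hb).2 (star_notMem_side hT hTn hc hcT ha)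

lemma BB_zero (hT : G.IsTree) {y x : V} (hxy : G.Adj y x) : BB G y x 0 = {x} := by
  ext v
  rw [mem_BB hT, Finset.mem_singleton]
  constructor
  · rintro ⟨h, -⟩
    exact ((hT.connected.dist_eq_zero_iff).1 (Nat.le_zero.mp h)).symm
  · rintro rfl
    rw [SimpleGraph.dist_self, SimpleGraph.dist_eq_one_iff_adj.mpr hxy]
    exact ⟨le_rfl, rfl⟩

lemma bal_zero' (x : V) : bal G x 0 = {x} := rfl

lemma bal_succ_eq (hT : G.IsTree) (x : V) (n : ℕ) :
    bal G x (n + 1) = star G x (G.neighborFinset x) n := by
  ext v
  rw [mem_bal hT, star, Finset.mem_insert, Finset.mem_biUnion]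
  constructor
  · intro h
    by_cases hv : v = x
    · exact Or.inl hv
    · right
      have hx : x ≠ v := fun h' => hv h'.symm
      have p1 := par_adj hT (r := v) hx
      have p2 := par_dist hT (r := v) hx
      refine ⟨par G v x, by simpa using p1, ?_⟩
      rw [mem_BB hT, SimpleGraph.dist_comm (u := par G v x), SimpleGraph.dist_comm (u := x)]
      rw [SimpleGraph.dist_comm] at h
      exact ⟨by omega, p2.symm⟩
  · rintro (rfl | ⟨c, -, hc⟩)
    · rw [SimpleGraph.dist_self]
      exact Nat.zero_le _
    · rw [mem_BB hT] at hc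
      omega

lemma BB_succ_eq (hT : G.IsTree) {y x : V} (hxy : G.Adj y x) (n : ℕ) :
    BB G y x (n + 1) = star G x ((G.neighborFinset x).erase y) n := by
  ext v
  rw [mem_BB hT, star, Finset.mem_insert, Finset.mem_biUnion]
  constructor
  · rintro ⟨h, h'⟩
    by_cases hv : v = x
    · exact Or.inl hv
    · right
      have hx : x ≠ v := fun h' => hv h'.symm
      have p1 := par_adj hT (r := v) hx
      have p2 := par_dist hT (r := v) hx
      have p3 : par G v x ≠ y := by
        intro h3
        rw [h3, SimpleGraph.dist_comm (u := v) (v := y), SimpleGraph.dist_comm (u := v) (v := x)]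
          at p2
        omega
      refine ⟨par G v x, by simpa using ⟨p3, p1⟩, ?_⟩
      rw [mem_BB hT, SimpleGraph.dist_comm (u := par G v x), SimpleGraph.dist_comm (u := x)]
      rw [SimpleGraph.dist_comm] at h
      exact ⟨by omega, p2.symm⟩
  · rintro (rfl | ⟨c, hc, hcv⟩)
    · rw [SimpleGraph.dist_self, SimpleGraph.dist_eq_one_iff_adj.mpr hxy]
      exact ⟨Nat.zero_le _, rfl⟩
    · rw [mem_BB hT] at hcv
      rw [Finset.mem_erase, SimpleGraph.mem_neighborFinset] at hc
      refine ⟨by omega, ?_⟩
      rcases hT.dist_eq_dist_add_one_of_adj v hxy with h | h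
      · rw [SimpleGraph.dist_comm (u := y), SimpleGraph.dist_comm (u := x)]
        exact h
      · exfalso
        apply hc.1
        refine unique_closer hT (r := v) hc.2 hxy.symm ?_ h.symm
        rw [SimpleGraph.dist_comm (u := v) (v := c), SimpleGraph.dist_comm (u := v) (v := x)]
        exact hcv.2.symm

lemma card_neighbor {b : ℕ} (hreg : G.IsRegularOfDegree (b + 1)) (x : V) :
    (G.neighborFinset x).card = b + 1 := by
  have := hreg x
  rw [SimpleGraph.card_neighborFinset_eq_degree, this]

lemma card_neighbor_erase {b : ℕ} (hreg : G.IsRegularOfDegree (b + 1)) {y x : V}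
    (hxy : G.Adj y x) : ((G.neighborFinset x).erase y).card = b := by
  rw [Finset.card_erase_of_mem (by simpa using hxy.symm), card_neighbor hreg]
  rfl

end Crest.Agent.R160.Static
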