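import Mathlib
import Crest.Agent.R160.StaticPE
import Crest.Agent.R160.StaticTree

/-! Row 160, module E: recursions for the second moment of the cavity bias. -/

set_option autoImplicit false
set_option linter.unusedSectionVars false

open MeasureTheory ProbabilityTheory
open scoped Classical

namespace Crest.Agent.R160.Static

open Crest.Agent.R160

variable {V : Type*} {G : SimpleGraph V} {θ : ℝ}
variable {Ω : Type*} [MeasurableSpace Ω] {P : Measure Ω} {X : V → Ω → ℝ × ℝ}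

/-- second moment of the bias at `x` of the system `S` -/
noncomputable def qq (P : Measure Ω) (X : V → Ω → ℝ × ℝ) (G : SimpleGraph V) (θ : ℝ)
    (S : Finset V) (x : V) : ℝ :=
  ∫ ω, zf G θ S (fd X ω) * (magf G θ S (fd X ω) x) ^ 2 ∂P

/-- total mass of the planted law of the system `S` -/
noncomputable def zz (P : Measure Ω) (X : V → Ω → ℝ × ℝ) (G : SimpleGraph V) (θ : ℝ)
    (S : Finset V) : ℝ := ∫ ω, zf G θ S (fd X ω) ∂P

section step

variable {S1 S2 : Finset V} {x c : V}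

lemma avg2_sq {u w : ℝ} (h : |u * w| < 1) : avg2 (fun y => y ^ 2) u w
    = ((u + w) ^ 2 / (1 + u * w) + (u - w) ^ 2 / (1 - u * w)) / 2 := by
  have h1 := (abs_lt.mp h).1
  have h2 := (abs_lt.mp h).2
  have h3 : (1 + u * w) ≠ 0 := by linarith
  have h4 : (1 - u * w) ≠ 0 := by linarith
  unfold avg2
  simp only
  rw [div_pow, div_pow]
  congr 2
  · field_simp
  · field_simp

lemma FieldData.theta_bounds (h : FieldData P X) (h0 : 0 ≤ θ) (h1 : θ < 1) (ω : Ω)
    (S1 S2 : Finset V) (x c : V) :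
    |magf G θ S1 (fd X ω) x| ≤ 1 ∧ |θ * magf G θ S2 (fd X ω) c| ≤ 1 ∧
      |magf G θ S1 (fd X ω) x * (θ * magf G θ S2 (fd X ω) c)| < 1 := by
  have c1 := abs_magf_le' (G := G) h0 h1 (h.posf ω) S1 x
  have c2 := abs_magf_le' (G := G) h0 h1 (h.posf ω) S2 c
  have c3 : |θ * magf G θ S2 (fd X ω) c| ≤ θ := by
    rw [abs_mul, abs_of_nonneg h0]
    exact mul_le_of_le_one_right h0 c2
  refine ⟨c1, c3.trans h1.le, ?_⟩
  rw [abs_mul]
  exact lt_of_le_of_lt (mul_le_of_le_one_left (abs_nonneg _) c1) (lt_of_le_of_lt c3 h1)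

theorem FieldData.qq_eq (h : FieldData P X) (h0 : 0 ≤ θ) (h1 : θ < 1) (e : Edge1 G S1 S2 x c) :
    qq P X G θ (S1 ∪ S2) x = ∫ ω, zf G θ S1 (fd X ω) * zf G θ S2 (fd X ω)
      * (((magf G θ S1 (fd X ω) x + θ * magf G θ S2 (fd X ω) c) ^ 2
            / (1 + magf G θ S1 (fd X ω) x * (θ * magf G θ S2 (fd X ω) c))
          + (magf G θ S1 (fd X ω) x - θ * magf G θ S2 (fd X ω) c) ^ 2
            / (1 - magf G θ S1 (fd X ω) x * (θ * magf G θ S2 (fd X ω) c))) / 2) ∂P := by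
  have h2 := h.planted_phi (G := G) h0 h1 e (φ := fun y => y ^ 2) (by fun_prop)
    (fun u => by ring) (K := 1) (fun u hu => by
      rw [abs_pow]
      exact pow_le_one₀ (abs_nonneg _) hu)
  unfold qq
  rw [h2]
  refine integral_congr_ae (Filter.Eventually.of_forall fun ω => ?_)
  simp only
  rw [avg2_sq (h.theta_bounds h0 h1 ω S1 S2 x c).2.2]

/-- integral of a quadratic expression under the product of the two planted laws -/
theorem FieldData.quad (h : FieldData P X) (h0 : 0 ≤ θ) (h1 : θ < 1) (e : Edge1 G S1 S2 x c)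
    (hz1 : zz P X G θ S1 = 1) (hz2 : zz P X G θ S2 = 1) (α β γ : ℝ) :
    Integrable (fun ω => zf G θ S1 (fd X ω) * zf G θ S2 (fd X ω)
      * (α * magf G θ S1 (fd X ω) x ^ 2 + β * (θ * magf G θ S2 (fd X ω) c) ^ 2
        + γ * (magf G θ S1 (fd X ω) x ^ 2 * (θ * magf G θ S2 (fd X ω) c) ^ 2))) P ∧
    ∫ ω, zf G θ S1 (fd X ω) * zf G θ S2 (fd X ω)
      * (α * magf G θ S1 (fd X ω) x ^ 2 + β * (θ * magf G θ S2 (fd X ω) c) ^ 2
        + γ * (magf G θ S1 (fd X ω) x ^ 2 * (θ * magf G θ S2 (fd X ω) c) ^ 2)) ∂P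
      = α * qq P X G θ S1 x + β * (θ ^ 2 * qq P X G θ S2 c)
        + γ * (qq P X G θ S1 x * (θ ^ 2 * qq P X G θ S2 c)) := by
  have hz1m := measurable_zf (G := G) (θ := θ) S1
  have hz2m := measurable_zf (G := G) (θ := θ) S2
  have hm1 := (measurable_magf (G := G) (θ := θ) S1 x).pow_const 2
  have hm2 := (measurable_magf (G := G) (θ := θ) S2 c).pow_const 2
  have dz1 := dependsOn_zf (G := G) (θ := θ) S1
  have dz2 := dependsOn_zf (G := G) (θ := θ) S2
  have dm1 : DependsOn (fun f => magf G θ S1 f x ^ 2) (S1 : Set V) := by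
    intro f g hfg
    have a := dependsOn_magf (G := G) (θ := θ) S1 x hfg
    simp only at a ⊢
    rw [a]
  have dm2 : DependsOn (fun f => magf G θ S2 f c ^ 2) (S2 : Set V) := by
    intro f g hfg
    have a := dependsOn_magf (G := G) (θ := θ) S2 c hfg
    simp only at a ⊢
    rw [a]
  have bz1 := h.bdd_zf (G := G) (θ := θ) S1
  have bz2 := h.bdd_zf (G := G) (θ := θ) S2
  have bm1 : Bdd X (fun f => magf G θ S1 f x ^ 2) := ⟨1, fun ω => by
    rw [abs_pow]
    exact pow_le_one₀ (abs_nonneg _) (abs_magf_le' h0 h1 (h.posf ω) _ _)⟩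
  have bm2 : Bdd X (fun f => magf G θ S2 f c ^ 2) := ⟨1, fun ω => by
    rw [abs_pow]
    exact pow_le_one₀ (abs_nonneg _) (abs_magf_le' h0 h1 (h.posf ω) _ _)⟩
  -- the three products
  have K1 : ∫ ω, (zf G θ S1 (fd X ω) * magf G θ S1 (fd X ω) x ^ 2) * zf G θ S2 (fd X ω) ∂P
      = qq P X G θ S1 x * zz P X G θ S2 :=
    h.integral_mul (hz1m.mul hm1) hz2m (DependsOn.mul' dz1 dm1) dz2 e.disj
  have K2 : ∫ ω, zf G θ S1 (fd X ω) * (zf G θ S2 (fd X ω) * magf G θ S2 (fd X ω) c ^ 2) ∂P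
      = zz P X G θ S1 * qq P X G θ S2 c :=
    h.integral_mul hz1m (hz2m.mul hm2) dz1 (DependsOn.mul' dz2 dm2) e.disj
  have K3 : ∫ ω, (zf G θ S1 (fd X ω) * magf G θ S1 (fd X ω) x ^ 2)
      * (zf G θ S2 (fd X ω) * magf G θ S2 (fd X ω) c ^ 2) ∂P
      = qq P X G θ S1 x * qq P X G θ S2 c :=
    h.integral_mul (hz1m.mul hm1) (hz2m.mul hm2) (DependsOn.mul' dz1 dm1) (DependsOn.mul' dz2 dm2)
      e.disj
  have i1 : Integrable (fun ω => (zf G θ S1 (fd X ω) * magf G θ S1 (fd X ω) x ^ 2)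
      * zf G θ S2 (fd X ω)) P := h.integrable ((hz1m.mul hm1).mul hz2m) ((bz1.mul bm1).mul bz2)
  have i2 : Integrable (fun ω => zf G θ S1 (fd X ω)
      * (zf G θ S2 (fd X ω) * magf G θ S2 (fd X ω) c ^ 2)) P :=
    h.integrable (hz1m.mul (hz2m.mul hm2)) (bz1.mul (bz2.mul bm2))
  have i3 : Integrable (fun ω => (zf G θ S1 (fd X ω) * magf G θ S1 (fd X ω) x ^ 2)
      * (zf G θ S2 (fd X ω) * magf G θ S2 (fd X ω) c ^ 2)) P :=
    h.integrable ((hz1m.mul hm1).mul (hz2m.mul hm2)) ((bz1.mul bm1).mul (bz2.mul bm2))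
  have e1 : ∀ ω, zf G θ S1 (fd X ω) * zf G θ S2 (fd X ω)
      * (α * magf G θ S1 (fd X ω) x ^ 2 + β * (θ * magf G θ S2 (fd X ω) c) ^ 2
        + γ * (magf G θ S1 (fd X ω) x ^ 2 * (θ * magf G θ S2 (fd X ω) c) ^ 2))
      = α * ((zf G θ S1 (fd X ω) * magf G θ S1 (fd X ω) x ^ 2) * zf G θ S2 (fd X ω))
        + (β * θ ^ 2) * (zf G θ S1 (fd X ω) * (zf G θ S2 (fd X ω) * magf G θ S2 (fd X ω) c ^ 2))
        + (γ * θ ^ 2) * ((zf G θ S1 (fd X ω) * magf G θ S1 (fd X ω) x ^ 2)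
            * (zf G θ S2 (fd X ω) * magf G θ S2 (fd X ω) c ^ 2)) := by
    intro ω
    ring
  simp only [e1]
  have i12 : Integrable (fun ω =>
      α * ((zf G θ S1 (fd X ω) * magf G θ S1 (fd X ω) x ^ 2) * zf G θ S2 (fd X ω))
        + (β * θ ^ 2) * (zf G θ S1 (fd X ω) * (zf G θ S2 (fd X ω) * magf G θ S2 (fd X ω) c ^ 2))) P :=
    (i1.const_mul α).add (i2.const_mul (β * θ ^ 2))
  refine ⟨i12.add (i3.const_mul (γ * θ ^ 2)), ?_⟩
  rw [integral_add i12 (i3.const_mul (γ * θ ^ 2)),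
    integral_add (i1.const_mul α) (i2.const_mul (β * θ ^ 2)), integral_const_mul,
    integral_const_mul, integral_const_mul, K1, K2, K3, hz1, hz2]
  ring

lemma FieldData.integrable_qq (h : FieldData P X) (h0 : 0 ≤ θ) (h1 : θ < 1)
    (_e : Edge1 G S1 S2 x c) : Integrable (fun ω => zf G θ S1 (fd X ω) * zf G θ S2 (fd X ω)
      * (((magf G θ S1 (fd X ω) x + θ * magf G θ S2 (fd X ω) c) ^ 2
            / (1 + magf G θ S1 (fd X ω) x * (θ * magf G θ S2 (fd X ω) c))
          + (magf G θ S1 (fd X ω) x - θ * magf G θ S2 (fd X ω) c) ^ 2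
            / (1 - magf G θ S1 (fd X ω) x * (θ * magf G θ S2 (fd X ω) c))) / 2)) P := by
  have hz1m := measurable_zf (G := G) (θ := θ) S1
  have hz2m := measurable_zf (G := G) (θ := θ) S2
  have hm1 := measurable_magf (G := G) (θ := θ) S1 x
  have hm2 := measurable_magf (G := G) (θ := θ) S2 c
  obtain ⟨K1, hK1⟩ := h.bdd_zf (G := G) (θ := θ) S1
  obtain ⟨K2, hK2⟩ := h.bdd_zf (G := G) (θ := θ) S2
  refine h.integrable (F := fun f => zf G θ S1 f * zf G θ S2 f
      * (((magf G θ S1 f x + θ * magf G θ S2 f c) ^ 2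
            / (1 + magf G θ S1 f x * (θ * magf G θ S2 f c))
          + (magf G θ S1 f x - θ * magf G θ S2 f c) ^ 2
            / (1 - magf G θ S1 f x * (θ * magf G θ S2 f c))) / 2)) ?_ ?_
  · have a : Measurable (fun f : V → ℝ × ℝ => 1 + magf G θ S1 f x * (θ * magf G θ S2 f c)) :=
      (hm1.mul (hm2.const_mul θ)).const_add 1
    have a' : Measurable (fun f : V → ℝ × ℝ => 1 - magf G θ S1 f x * (θ * magf G θ S2 f c)) :=
      (hm1.mul (hm2.const_mul θ)).const_sub 1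
    exact (hz1m.mul hz2m).mul (((((hm1.add (hm2.const_mul θ)).pow_const 2).div a).add
      (((hm1.sub (hm2.const_mul θ)).pow_const 2).div a')).div_const 2)
  · refine ⟨K1 * K2 * 2, fun ω => ?_⟩
    obtain ⟨b1, b2, b3⟩ := h.theta_bounds (G := G) h0 h1 ω S1 S2 x c
    have b4 := comb_sq_le b1 b2 b3
    have b5 := le_comb_sq_left b3
    have b6 : magf G θ S1 (fd X ω) x ^ 2 ≤ 1 := by
      have := pow_le_one₀ (abs_nonneg _) b1 (n := 2)
      rwa [sq_abs] at this
    have b7 : (θ * magf G θ S2 (fd X ω) c) ^ 2 ≤ 1 := by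
      have := pow_le_one₀ (abs_nonneg _) b2 (n := 2)
      rwa [sq_abs] at this
    have b8 := sq_nonneg (magf G θ S1 (fd X ω) x)
    have b9 := sq_nonneg (θ * magf G θ S2 (fd X ω) c)
    rw [abs_mul, abs_mul]
    refine mul_le_mul (mul_le_mul (hK1 ω) (hK2 ω) (abs_nonneg _) ((abs_nonneg _).trans (hK1 ω)))
      ?_ (abs_nonneg _) (mul_nonneg ((abs_nonneg _).trans (hK1 ω)) ((abs_nonneg _).trans (hK2 ω)))
    rw [abs_of_nonneg (b8.trans b5)]
    have := mul_nonneg b8 b9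
    linarith

theorem FieldData.qq_le (h : FieldData P X) (h0 : 0 ≤ θ) (h1 : θ < 1) (e : Edge1 G S1 S2 x c)
    (hz1 : zz P X G θ S1 = 1) (hz2 : zz P X G θ S2 = 1) :
    qq P X G θ (S1 ∪ S2) x ≤ qq P X G θ S1 x + θ ^ 2 * qq P X G θ S2 c
      - qq P X G θ S1 x * (θ ^ 2 * qq P X G θ S2 c) := by
  obtain ⟨i, q⟩ := h.quad h0 h1 e hz1 hz2 1 1 (-1)
  rw [h.qq_eq h0 h1 e]
  have : qq P X G θ S1 x + θ ^ 2 * qq P X G θ S2 c
      - qq P X G θ S1 x * (θ ^ 2 * qq P X G θ S2 c) = 1 * qq P X G θ S1 x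
      + 1 * (θ ^ 2 * qq P X G θ S2 c) + (-1) * (qq P X G θ S1 x * (θ ^ 2 * qq P X G θ S2 c)) := by
    ring
  rw [this, ← q]
  refine integral_mono (h.integrable_qq h0 h1 e) i fun ω => ?_
  obtain ⟨b1, b2, b3⟩ := h.theta_bounds (G := G) h0 h1 ω S1 S2 x c
  have b4 := comb_sq_le b1 b2 b3
  simp only
  refine mul_le_mul_of_nonneg_left ?_
    (mul_nonneg (zf_pos h0 h1 (h.posf ω) _).le (zf_pos h0 h1 (h.posf ω) _).le)
  linarith

theorem FieldData.le_qq (h : FieldData P X) (h0 : 0 ≤ θ) (h1 : θ < 1) (e : Edge1 G S1 S2 x c)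
    (hz1 : zz P X G θ S1 = 1) (hz2 : zz P X G θ S2 = 1) :
    qq P X G θ S1 x + θ ^ 2 * qq P X G θ S2 c - 2 * (qq P X G θ S1 x * (θ ^ 2 * qq P X G θ S2 c))
      ≤ qq P X G θ (S1 ∪ S2) x := by
  obtain ⟨i, q⟩ := h.quad h0 h1 e hz1 hz2 1 1 (-2)
  rw [h.qq_eq h0 h1 e]
  have : qq P X G θ S1 x + θ ^ 2 * qq P X G θ S2 c
      - 2 * (qq P X G θ S1 x * (θ ^ 2 * qq P X G θ S2 c)) = 1 * qq P X G θ S1 x
      + 1 * (θ ^ 2 * qq P X G θ S2 c) + (-2) * (qq P X G θ S1 x * (θ ^ 2 * qq P X G θ S2 c)) := by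
    ring
  rw [this, ← q]
  refine integral_mono i (h.integrable_qq h0 h1 e) fun ω => ?_
  obtain ⟨b1, b2, b3⟩ := h.theta_bounds (G := G) h0 h1 ω S1 S2 x c
  have b4 := le_comb_sq b1 b2 b3
  simp only
  refine mul_le_mul_of_nonneg_left ?_
    (mul_nonneg (zf_pos h0 h1 (h.posf ω) _).le (zf_pos h0 h1 (h.posf ω) _).le)
  linarith

theorem FieldData.le_qq_left (h : FieldData P X) (h0 : 0 ≤ θ) (h1 : θ < 1)
    (e : Edge1 G S1 S2 x c) (hz1 : zz P X G θ S1 = 1) (hz2 : zz P X G θ S2 = 1) :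
    qq P X G θ S1 x ≤ qq P X G θ (S1 ∪ S2) x := by
  obtain ⟨i, q⟩ := h.quad h0 h1 e hz1 hz2 1 0 0
  rw [h.qq_eq h0 h1 e]
  have : qq P X G θ S1 x = 1 * qq P X G θ S1 x
      + 0 * (θ ^ 2 * qq P X G θ S2 c) + 0 * (qq P X G θ S1 x * (θ ^ 2 * qq P X G θ S2 c)) := by
    ring
  rw [this, ← q]
  refine integral_mono i (h.integrable_qq h0 h1 e) fun ω => ?_
  obtain ⟨b1, b2, b3⟩ := h.theta_bounds (G := G) h0 h1 ω S1 S2 x c
  have b4 := le_comb_sq_left b3
  simp only
  refine mul_le_mul_of_nonneg_left ?_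
    (mul_nonneg (zf_pos h0 h1 (h.posf ω) _).le (zf_pos h0 h1 (h.posf ω) _).le)
  linarith

theorem FieldData.le_qq_right (h : FieldData P X) (h0 : 0 ≤ θ) (h1 : θ < 1)
    (e : Edge1 G S1 S2 x c) (hz1 : zz P X G θ S1 = 1) (hz2 : zz P X G θ S2 = 1) :
    θ ^ 2 * qq P X G θ S2 c ≤ qq P X G θ (S1 ∪ S2) x := by
  obtain ⟨i, q⟩ := h.quad h0 h1 e hz1 hz2 0 1 0
  rw [h.qq_eq h0 h1 e]
  have : θ ^ 2 * qq P X G θ S2 c = 0 * qq P X G θ S1 x
      + 1 * (θ ^ 2 * qq P X G θ S2 c) + 0 * (qq P X G θ S1 x * (θ ^ 2 * qq P X G θ S2 c)) := by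
    ring
  rw [this, ← q]
  refine integral_mono i (h.integrable_qq h0 h1 e) fun ω => ?_
  obtain ⟨b1, b2, b3⟩ := h.theta_bounds (G := G) h0 h1 ω S1 S2 x c
  have b4 := le_comb_sq_right b3
  simp only
  refine mul_le_mul_of_nonneg_left ?_
    (mul_nonneg (zf_pos h0 h1 (h.posf ω) _).le (zf_pos h0 h1 (h.posf ω) _).le)
  linarith

end step

/-! ### singletons -/

lemma ew_singleton (v : V) (A : Finset V) : ew G θ {v} A = 1 := by
  unfold ew
  refine Finset.prod_eq_one fun e he => ?_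
  exfalso
  induction e with
  | _ a b =>
    rw [Finset.mem_filter, Finset.mk_mem_sym2_iff, Finset.mem_singleton, Finset.mem_singleton,
      SimpleGraph.mem_edgeSet] at he
    obtain ⟨⟨rfl, rfl⟩, h⟩ := he
    exact h.ne rfl

lemma powerset_singleton' (v : V) : ({v} : Finset V).powerset = {∅, {v}} := by
  ext A
  simp [Finset.subset_singleton_iff]

lemma numf_singleton (v : V) (f : V → ℝ × ℝ) (F : Finset V → ℝ) :
    numf G θ {v} f F = F ∅ * (f v).2 + F {v} * (f v).1 := by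
  unfold numf
  rw [powerset_singleton', Finset.sum_pair (by simp)]
  simp [ew_singleton, fw]

lemma zf_singleton (v : V) (f : V → ℝ × ℝ) : zf G θ {v} f = ((f v).1 + (f v).2) / 2 := by
  unfold zf Zf
  rw [numf_singleton]
  simp
  ring

lemma magf_singleton (v : V) (f : V → ℝ × ℝ) :
    magf G θ {v} f v = ((f v).1 - (f v).2) / ((f v).1 + (f v).2) := by
  unfold magf meanf Zf
  rw [numf_singleton, numf_singleton]
  simp [sg]
  ring

lemma FieldData.mean_snd (h : FieldData P X) (v : V) : ∫ ω, (X v ω).2 ∂P = 1 := by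
  have h1 : ∫ ω, (X v ω).2 ∂P = ∫ p, p.1 ∂(P.map (fun ω => (X v ω).swap)) := by
    have hm : Measurable (fun ω => (X v ω).swap) := measurable_swap.comp (h.meas v)
    rw [integral_map hm.aemeasurable measurable_fst.aestronglyMeasurable]
    rfl
  have h2 : ∫ ω, (X v ω).1 ∂P = ∫ p, p.1 ∂(P.map (X v)) := by
    rw [integral_map (h.meas v).aemeasurable measurable_fst.aestronglyMeasurable]
  rw [h1, h.symm v, ← h2, h.mean v]

lemma FieldData.integrable_fst (h : FieldData P X) (v : V) : Integrable (fun ω => (X v ω).1) P := by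
  have := h.prob
  obtain ⟨C, hC⟩ := h.bdd
  refine Integrable.of_bound (measurable_fst.comp (h.meas v)).aestronglyMeasurable C ?_
  refine Filter.Eventually.of_forall fun ω => ?_
  rw [Real.norm_eq_abs]
  exact abs_le.mpr ⟨by linarith [(h.pos v ω).1, (hC v ω).1], (hC v ω).1⟩

lemma FieldData.integrable_snd (h : FieldData P X) (v : V) : Integrable (fun ω => (X v ω).2) P := by
  have := h.prob
  obtain ⟨C, hC⟩ := h.bdd
  refine Integrable.of_bound (measurable_snd.comp (h.meas v)).aestronglyMeasurable C ?_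
  refine Filter.Eventually.of_forall fun ω => ?_
  rw [Real.norm_eq_abs]
  exact abs_le.mpr ⟨by linarith [(h.pos v ω).2, (hC v ω).2], (hC v ω).2⟩

lemma FieldData.zz_singleton (h : FieldData P X) (v : V) : zz P X G θ {v} = 1 := by
  unfold zz
  have : ∀ ω, zf G θ {v} (fd X ω) = ((X v ω).1 + (X v ω).2) / 2 := fun ω => zf_singleton v _
  simp only [this]
  rw [integral_div, integral_add (h.integrable_fst v) (h.integrable_snd v), h.mean v, h.mean_snd v]
  norm_num

lemma FieldData.qq_nonneg (h : FieldData P X) (h0 : 0 ≤ θ) (h1 : θ < 1) (S : Finset V) (x : V) :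
    0 ≤ qq P X G θ S x :=
  integral_nonneg fun ω => mul_nonneg (zf_pos h0 h1 (h.posf ω) S).le (sq_nonneg _)

lemma FieldData.qq_le_one (h : FieldData P X) (h0 : 0 ≤ θ) (h1 : θ < 1) {S : Finset V}
    (hz : zz P X G θ S = 1) (x : V) : qq P X G θ S x ≤ 1 := by
  rw [← hz]
  refine integral_mono (h.integrable ((measurable_zf S).mul ((measurable_magf S x).pow_const 2))
    ((h.bdd_zf S).mul ⟨1, fun ω => ?_⟩)) (h.integrable (measurable_zf S) (h.bdd_zf S)) fun ω => ?_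
  · rw [abs_pow]
    exact pow_le_one₀ (abs_nonneg _) (abs_magf_le' h0 h1 (h.posf ω) _ _)
  · have := pow_le_one₀ (abs_nonneg _) (abs_magf_le' (G := G) h0 h1 (h.posf ω) S x) (n := 2)
    rw [sq_abs] at this
    simp only
    exact mul_le_of_le_one_right (zf_pos h0 h1 (h.posf ω) S).le this

/-! ### stars -/

section star

variable [G.LocallyFinite]

lemma edge1_star (hT : G.IsTree) {x c : V} {T : Finset V} (hTn : ∀ a ∈ T, G.Adj x a)
    (hc : G.Adj x c) (hcT : c ∉ T) (n : ℕ) : Edge1 G (star G x T n) (BB G x c n) x c :=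
  ⟨disjoint_star hT hTn hc hcT n, mem_star_self x T n, self_mem_BB hT hc n, hc,
    star_edge hT hTn hc hcT n⟩

theorem FieldData.zz_star (h : FieldData P X) (hT : G.IsTree) (h0 : 0 ≤ θ) (h1 : θ < 1) {x : V}
    {T : Finset V} (hTn : ∀ a ∈ T, G.Adj x a) {n : ℕ} (hc : ∀ c ∈ T, zz P X G θ (BB G x c n) = 1) :
    zz P X G θ (star G x T n) = 1 := by
  induction T using Finset.induction_on with
  | empty => rw [star_empty]; exact h.zz_singleton x
  | insert c T hcT ih =>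
    rw [star_insert]
    have hTn' : ∀ a ∈ T, G.Adj x a := fun a ha => hTn a (Finset.mem_insert_of_mem ha)
    exact h.planted_one h0 h1 (edge1_star hT hTn' (hTn c (Finset.mem_insert_self _ _)) hcT n)
      (ih hTn' fun a ha => hc a (Finset.mem_insert_of_mem ha)) (hc c (Finset.mem_insert_self _ _))

theorem FieldData.zz_BB (h : FieldData P X) (hT : G.IsTree) (h0 : 0 ≤ θ) (h1 : θ < 1) (n : ℕ) :
    ∀ {y x : V}, G.Adj y x → zz P X G θ (BB G y x n) = 1 := by
  induction n with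
  | zero =>
    intro y x hyx
    rw [BB_zero hT hyx]
    exact h.zz_singleton x
  | succ n ih =>
    intro y x hyx
    rw [BB_succ_eq hT hyx]
    have hTn : ∀ a ∈ (G.neighborFinset x).erase y, G.Adj x a := fun a ha => by
      simpa using Finset.mem_of_mem_erase ha
    exact h.zz_star hT h0 h1 hTn fun c hc => ih (hTn c hc)

theorem FieldData.zz_star' (h : FieldData P X) (hT : G.IsTree) (h0 : 0 ≤ θ) (h1 : θ < 1) {x : V}
    {T : Finset V} (hTn : ∀ a ∈ T, G.Adj x a) (n : ℕ) : zz P X G θ (star G x T n) = 1 :=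
  h.zz_star hT h0 h1 hTn fun c hc => h.zz_BB hT h0 h1 n (hTn c hc)

theorem FieldData.zz_bal (h : FieldData P X) (hT : G.IsTree) (h0 : 0 ≤ θ) (h1 : θ < 1) (x : V)
    (n : ℕ) : zz P X G θ (bal G x n) = 1 := by
  cases n with
  | zero => exact h.zz_singleton x
  | succ n =>
    rw [bal_succ_eq hT]
    exact h.zz_star' hT h0 h1 (fun a ha => by simpa using ha) n

theorem FieldData.star_upper (h : FieldData P X) (hT : G.IsTree) (h0 : 0 ≤ θ) (h1 : θ < 1) {x : V}
    {T : Finset V} (hTn : ∀ a ∈ T, G.Adj x a) (n : ℕ) :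
    (1 - qq P X G θ {x} x) * ∏ c ∈ T, (1 - θ ^ 2 * qq P X G θ (BB G x c n) c)
      ≤ 1 - qq P X G θ (star G x T n) x := by
  induction T using Finset.induction_on with
  | empty => rw [star_empty]; simp
  | insert c T hcT ih =>
    rw [star_insert, Finset.prod_insert hcT]
    have hTn' : ∀ a ∈ T, G.Adj x a := fun a ha => hTn a (Finset.mem_insert_of_mem ha)
    have hc := hTn c (Finset.mem_insert_self _ _)
    have e := edge1_star hT hTn' hc hcT n
    have h2 := h.qq_le h0 h1 e (h.zz_star' hT h0 h1 hTn' n) (h.zz_BB hT h0 h1 n hc)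
    have h3 := ih hTn'
    have h4 : θ ^ 2 * qq P X G θ (BB G x c n) c ≤ 1 := by
      have := h.qq_le_one (G := G) h0 h1 (h.zz_BB hT h0 h1 n hc) c
      have := h.qq_nonneg (G := G) h0 h1 (BB G x c n) c
      nlinarith
    have h5 := mul_le_mul_of_nonneg_right h3 (sub_nonneg.mpr h4)
    nlinarith

theorem FieldData.star_lower (h : FieldData P X) (hT : G.IsTree) (h0 : 0 ≤ θ) (h1 : θ < 1) {x : V}
    {T : Finset V} (hTn : ∀ a ∈ T, G.Adj x a) (n : ℕ) :
    max (1 - 2 * qq P X G θ (star G x T n) x) 0 ≤ max (1 - 2 * qq P X G θ {x} x) 0 *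
      ∏ c ∈ T, max (1 - 2 * (θ ^ 2 * qq P X G θ (BB G x c n) c)) 0 := by
  induction T using Finset.induction_on with
  | empty => rw [star_empty]; simp
  | insert c T hcT ih =>
    rw [star_insert, Finset.prod_insert hcT]
    have hTn' : ∀ a ∈ T, G.Adj x a := fun a ha => hTn a (Finset.mem_insert_of_mem ha)
    have hc := hTn c (Finset.mem_insert_self _ _)
    have e := edge1_star hT hTn' hc hcT n
    have z1 := h.zz_star' (G := G) hT h0 h1 hTn' n
    have z2 := h.zz_BB (G := G) hT h0 h1 n hc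
    have h2 := max_submul (h.le_qq h0 h1 e z1 z2) (h.le_qq_left h0 h1 e z1 z2)
      (h.le_qq_right h0 h1 e z1 z2)
    have h3 := ih hTn'
    refine h2.trans ?_
    calc _ ≤ (max (1 - 2 * qq P X G θ {x} x) 0 *
          ∏ c ∈ T, max (1 - 2 * (θ ^ 2 * qq P X G θ (BB G x c n) c)) 0)
          * max (1 - 2 * (θ ^ 2 * qq P X G θ (BB G x c n) c)) 0 :=
        mul_le_mul_of_nonneg_right h3 (le_max_right _ _)
      _ = _ := by ring

theorem FieldData.star_ge_self (h : FieldData P X) (hT : G.IsTree) (h0 : 0 ≤ θ) (h1 : θ < 1)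
    {x : V} {T : Finset V} (hTn : ∀ a ∈ T, G.Adj x a) (n : ℕ) :
    qq P X G θ {x} x ≤ qq P X G θ (star G x T n) x := by
  induction T using Finset.induction_on with
  | empty => rw [star_empty]
  | insert c T hcT ih =>
    rw [star_insert]
    have hTn' : ∀ a ∈ T, G.Adj x a := fun a ha => hTn a (Finset.mem_insert_of_mem ha)
    have hc := hTn c (Finset.mem_insert_self _ _)
    exact (ih hTn').trans (h.le_qq_left h0 h1 (edge1_star hT hTn' hc hcT n)
      (h.zz_star' hT h0 h1 hTn' n) (h.zz_BB hT h0 h1 n hc))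

theorem FieldData.star_ge_child (h : FieldData P X) (hT : G.IsTree) (h0 : 0 ≤ θ) (h1 : θ < 1)
    {x : V} {T : Finset V} (hTn : ∀ a ∈ T, G.Adj x a) (n : ℕ) {c : V} (hc : c ∈ T) :
    θ ^ 2 * qq P X G θ (BB G x c n) c ≤ qq P X G θ (star G x T n) x := by
  rw [← Finset.insert_erase hc, star_insert]
  have hTn' : ∀ a ∈ T.erase c, G.Adj x a := fun a ha => hTn a (Finset.mem_of_mem_erase ha)
  exact h.le_qq_right h0 h1 (edge1_star hT hTn' (hTn c hc) (Finset.notMem_erase _ _) n)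
    (h.zz_star' hT h0 h1 hTn' n) (h.zz_BB hT h0 h1 n (hTn c hc))

end star

end Crest.Agent.R160.Static
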