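import Mathlib
import Crest.Agent.R160.StaticRec

/-! Row 160, module E: bounds for the second moment of the cavity biases. -/

set_option autoImplicit false
set_option linter.unusedSectionVars false

open MeasureTheory ProbabilityTheory
open scoped Classical

namespace Crest.Agent.R160.Static

open Crest.Agent.R160

variable {V : Type*} {G : SimpleGraph V} [G.LocallyFinite] {θ : ℝ}
variable {Ω : Type*} [MeasurableSpace Ω] {P : Measure Ω} {X : V → Ω → ℝ × ℝ}

lemma theta_lt_one' {b : ℕ} (hb : 2 ≤ b) {θ : ℝ} (h0 : 0 ≤ θ) (hθ : (b : ℝ) * θ ^ 2 ≤ 1) :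
    θ < 1 := by
  have hb' : (2 : ℝ) ≤ b := by exact_mod_cast hb
  nlinarith [sq_nonneg θ]

lemma theta_sq_le_half {b : ℕ} (hb : 2 ≤ b) {θ : ℝ} (hθ : (b : ℝ) * θ ^ 2 ≤ 1) :
    θ ^ 2 ≤ 1 / 2 := by
  have hb' : (2 : ℝ) ≤ b := by exact_mod_cast hb
  nlinarith [sq_nonneg θ]

theorem FieldData.BB_upper (h : FieldData P X) (hT : G.IsTree) {b : ℕ} (hb : 2 ≤ b)
    (hreg : G.IsRegularOfDegree (b + 1)) (h0 : 0 ≤ θ) (hθ : (b : ℝ) * θ ^ 2 ≤ 1) {I Y : ℝ}
    (hI : ∀ v : V, qq P X G θ {v} v ≤ I) (hY0 : 0 ≤ Y) (hY : 4 * I ≤ Y ^ 2) (n : ℕ) :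
    ∀ {y x : V}, G.Adj y x → qq P X G θ (BB G y x n) x ≤ Y := by
  have h1 := theta_lt_one' hb h0 hθ
  have hb' : (2 : ℝ) ≤ b := by exact_mod_cast hb
  rcases lt_or_ge 1 Y with hY1 | hY1
  · intro y x hyx
    exact (h.qq_le_one h0 h1 (h.zz_BB hT h0 h1 n hyx) x).trans hY1.le
  induction n with
  | zero =>
    intro y x hyx
    rw [BB_zero hT hyx]
    refine (hI x).trans ?_
    nlinarith
  | succ n ih =>
    intro y x hyx
    rw [BB_succ_eq hT hyx]
    have hTn : ∀ a ∈ (G.neighborFinset x).erase y, G.Adj x a := fun a ha => by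
      simpa using Finset.mem_of_mem_erase ha
    have hI0 : 0 ≤ I := (h.qq_nonneg h0 h1 {x} x).trans (hI x)
    have hI1 : I ≤ 1 := by nlinarith
    have s1 := h.star_upper hT h0 h1 hTn n
    have s2 : (1 - Y / b) ^ b ≤
        ∏ c ∈ (G.neighborFinset x).erase y, (1 - θ ^ 2 * qq P X G θ (BB G x c n) c) := by
      rw [← card_neighbor_erase hreg hyx, ← Finset.prod_const]
      refine Finset.prod_le_prod (fun c _ => ?_) (fun c hc => ?_)
      · rw [card_neighbor_erase hreg hyx, sub_nonneg, div_le_one (by linarith)]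
        linarith
      · rw [card_neighbor_erase hreg hyx]
        have i1 := ih (hTn c hc)
        have i2 := h.qq_nonneg (G := G) h0 h1 (BB G x c n) c
        have i3 : θ ^ 2 ≤ 1 / b := by
          rw [le_div_iff₀ (by linarith)]
          linarith
        have i4 : θ ^ 2 * qq P X G θ (BB G x c n) c ≤ 1 / b * Y :=
          mul_le_mul i3 i1 i2 (by positivity)
        have i5 : 1 / (b : ℝ) * Y = Y / b := by ring
        linarith
    have s3 := upper_step hb hI0 hY0 hY hY1
    have s4 : (1 - I) * (1 - Y / b) ^ b ≤ (1 - qq P X G θ {x} x)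
        * ∏ c ∈ (G.neighborFinset x).erase y, (1 - θ ^ 2 * qq P X G θ (BB G x c n) c) := by
      refine mul_le_mul (by linarith [hI x]) s2 ?_ ?_
      · refine pow_nonneg ?_ _
        rw [sub_nonneg, div_le_one (by linarith)]
        linarith
      · linarith [hI x]
    linarith

theorem FieldData.bal_upper (h : FieldData P X) (hT : G.IsTree) {b : ℕ} (hb : 2 ≤ b)
    (hreg : G.IsRegularOfDegree (b + 1)) (h0 : 0 ≤ θ) (hθ : (b : ℝ) * θ ^ 2 ≤ 1) {I Y : ℝ}
    (hI : ∀ v : V, qq P X G θ {v} v ≤ I) (hY0 : 0 ≤ Y) (hY : 4 * I ≤ Y ^ 2) (n : ℕ) (x : V) :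
    qq P X G θ (bal G x n) x ≤ 2 * Y := by
  have h1 := theta_lt_one' hb h0 hθ
  have hb' : (2 : ℝ) ≤ b := by exact_mod_cast hb
  rcases lt_or_ge 1 Y with hY1 | hY1
  · exact (h.qq_le_one h0 h1 (h.zz_bal hT h0 h1 x n) x).trans (by linarith)
  have hI0 : 0 ≤ I := (h.qq_nonneg h0 h1 {x} x).trans (hI x)
  cases n with
  | zero =>
    rw [bal_zero']
    refine (hI x).trans ?_
    nlinarith
  | succ n =>
    rw [bal_succ_eq hT]
    have hTn : ∀ a ∈ G.neighborFinset x, G.Adj x a := fun a ha => by simpa using ha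
    have hI1 : I ≤ 1 := by nlinarith
    have s1 := h.star_upper hT h0 h1 hTn n
    have s2 : (1 - Y / b) ^ (b + 1) ≤
        ∏ c ∈ G.neighborFinset x, (1 - θ ^ 2 * qq P X G θ (BB G x c n) c) := by
      rw [← card_neighbor hreg x, ← Finset.prod_const]
      refine Finset.prod_le_prod (fun c _ => ?_) (fun c hc => ?_)
      · rw [sub_nonneg, div_le_one (by linarith)]
        linarith
      · have i1 := h.BB_upper hT hb hreg h0 hθ hI hY0 hY n (hTn c hc)
        have i2 := h.qq_nonneg (G := G) h0 h1 (BB G x c n) c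
        have i3 : θ ^ 2 ≤ 1 / b := by
          rw [le_div_iff₀ (by linarith)]
          linarith
        have i4 : θ ^ 2 * qq P X G θ (BB G x c n) c ≤ 1 / b * Y :=
          mul_le_mul i3 i1 i2 (by positivity)
        have i5 : 1 / (b : ℝ) * Y = Y / b := by ring
        linarith
    have s3 := upper_step hb hI0 hY0 hY hY1
    have hy : 0 ≤ 1 - Y / b := by
      rw [sub_nonneg, div_le_one (by linarith)]
      linarith
    have s4 : (1 - I) * (1 - Y / b) ^ (b + 1) ≤ (1 - qq P X G θ {x} x)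
        * ∏ c ∈ G.neighborFinset x, (1 - θ ^ 2 * qq P X G θ (BB G x c n) c) := by
      refine mul_le_mul (by linarith [hI x]) s2 (pow_nonneg hy _) ?_
      linarith [hI x]
    have s5 : (1 - Y) * (1 - Y / b) ≤ (1 - I) * (1 - Y / b) ^ (b + 1) := by
      rw [pow_succ, ← mul_assoc]
      exact mul_le_mul_of_nonneg_right s3 hy
    have s6 : Y / b ≤ Y := div_le_self hY0 (by linarith)
    have s7 : 0 ≤ Y * (Y / b) := by positivity
    nlinarith

/-- lower bound for the second moment of the cavity bias -/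
theorem FieldData.BB_lower (h : FieldData P X) (hT : G.IsTree) {b : ℕ} (hb : 2 ≤ b)
    (hreg : G.IsRegularOfDegree (b + 1)) (h0 : 0 ≤ θ) (hθ : (b : ℝ) * θ ^ 2 ≤ 1) {I : ℝ}
    (hI0 : 0 ≤ I) (hI1 : I ≤ 1 / 16) (hI : ∀ v : V, I ≤ qq P X G θ {v} v)
    (hδ : 1 - Real.sqrt I ≤ b * θ ^ 2) (n : ℕ) :
    ∀ {y x : V}, G.Adj y x → min (n * (I / 2)) (Real.sqrt I / 4) ≤ qq P X G θ (BB G y x n) x := by
  have h1 := theta_lt_one' hb h0 hθ
  induction n with
  | zero =>
    intro y x hyx
    refine (min_le_left _ _).trans ?_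
    have := h.qq_nonneg (G := G) h0 h1 (BB G y x 0) x
    simpa using this
  | succ n ih =>
    intro y x hyx
    rw [BB_succ_eq hT hyx]
    have hTn : ∀ a ∈ (G.neighborFinset x).erase y, G.Adj x a := fun a ha => by
      simpa using Finset.mem_of_mem_erase ha
    set l := min ((n : ℝ) * (I / 2)) (Real.sqrt I / 4) with hl
    have hl0 : 0 ≤ l := le_min (by positivity) (by positivity)
    have s1 := h.star_lower hT h0 h1 hTn n
    have s2 : ∏ c ∈ (G.neighborFinset x).erase y,
        max (1 - 2 * (θ ^ 2 * qq P X G θ (BB G x c n) c)) 0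
        ≤ (max (1 - 2 * (θ ^ 2 * l)) 0) ^ b := by
      rw [← card_neighbor_erase hreg hyx, ← Finset.prod_const]
      refine Finset.prod_le_prod (fun c _ => le_max_right _ _) (fun c hc => ?_)
      have i1 := ih (hTn c hc)
      have i2 : θ ^ 2 * l ≤ θ ^ 2 * qq P X G θ (BB G x c n) c :=
        mul_le_mul_of_nonneg_left i1 (sq_nonneg _)
      exact max_le_max (by linarith) le_rfl
    have s3 : max (1 - 2 * qq P X G θ {x} x) 0 *
        ∏ c ∈ (G.neighborFinset x).erase y,
          max (1 - 2 * (θ ^ 2 * qq P X G θ (BB G x c n) c)) 0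
        ≤ max (1 - 2 * I) 0 * (max (1 - 2 * (θ ^ 2 * l)) 0) ^ b := by
      refine mul_le_mul (max_le_max (by linarith [hI x]) le_rfl) s2
        (Finset.prod_nonneg fun c _ => le_max_right _ _) (le_max_right _ _)
    have s4 := lower_step (b := b) (θ := θ) hI0 le_rfl hI1 hδ hθ hl0 (min_le_right _ _)
    have s5 := le_max_left (1 - 2 * qq P X G θ (star G x ((G.neighborFinset x).erase y) n) x) 0
    have s6 : min ((((n + 1 : ℕ) : ℝ)) * (I / 2)) (Real.sqrt I / 4) ≤ l + I / 2 := by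
      push_cast
      rcases min_cases ((n : ℝ) * (I / 2)) (Real.sqrt I / 4) with ⟨h3, _⟩ | ⟨h3, _⟩
      · rw [hl, h3]
        refine (min_le_left _ _).trans ?_
        linarith
      · rw [hl, h3]
        refine (min_le_right _ _).trans ?_
        linarith
    refine s6.trans ?_
    linarith

end Crest.Agent.R160.Static
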