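import Mathlib
import Crest.Agent.R160.StaticPE
import Crest.Agent.R160.Product
import Crest.Agent.R160.Homog

/-! Row 160: convex sets, removal of leaves, volume restriction, martingale property of the
magnetization under the planted law, monotonicity of second moments, and the path bound
`PE ∏ ρ ≤ (1 - I/40)^n`. -/

set_option autoImplicit false
set_option linter.unusedSectionVars false

open MeasureTheory ProbabilityTheory
open scoped Classical

namespace Crest.Agent.R160.PathBound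

open Crest.Agent.R160 Crest.Agent.R160.TreeAut Crest.Agent.R160.Static

variable {V : Type*} {G : SimpleGraph V} {θ : ℝ}

/-- geodesically convex finite sets -/
def Cvx (G : SimpleGraph V) (S : Finset V) : Prop := ∀ x ∈ S, ∀ y ∈ S, x ≠ y → par G x y ∈ S

lemma cvx_singleton (v : V) : Cvx G {v} := by
  intro x hx y hy h
  rw [Finset.mem_singleton] at hx hy
  exact absurd (hx.trans hy.symm) h

lemma cvx_side (hT : G.IsTree) {S : Finset V} (hS : Cvx G S) {x c : V} (hxc : G.Adj x c) :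
    Cvx G (side G S x c) := by
  intro y hy z hz hyz
  rw [mem_side] at hy hz ⊢
  refine ⟨hS y hy.1 z hz.1 hyz, ?_⟩
  by_contra hcon
  have h1 := hT.dist_eq_dist_add_one_of_adj (par G y z) hxc
  have h2 : G.dist (par G y z) c < G.dist (par G y z) x := by omega
  have hadj := par_adj hT (Ne.symm hyz)
  obtain ⟨h3, h4⟩ := crossing_edge hT hxc hadj hz.2 h2
  have h5 := par_dist hT (Ne.symm hyz)
  rw [h4, h3] at h5
  omega

/-- a leaf of the big set outside of the small set -/
lemma exists_leaf (hT : G.IsTree) {S0 S : Finset V} (h0 : Cvx G S0) (hS : Cvx G S)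
    (hsub : S0 ⊆ S) (hne : S0 ≠ S) {v : V} (hv : v ∈ S0) :
    ∃ u ∈ S, u ∉ S0 ∧ u ≠ v ∧ par G v u ∈ S.erase u ∧ Cvx G (S.erase u) ∧ S0 ⊆ S.erase u ∧
      Edge1 G (S.erase u) {u} (par G v u) u ∧ S.erase u ∪ {u} = S := by
  have hne' : (S \ S0).Nonempty := by
    rw [Finset.sdiff_nonempty]
    intro h
    exact hne (Finset.Subset.antisymm hsub h)
  obtain ⟨u, hu, hmax⟩ := Finset.exists_max_image (S \ S0) (fun u => G.dist v u) hne'
  rw [Finset.mem_sdiff] at hu
  have huv : u ≠ v := by rintro rfl; exact hu.2 hv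
  have hvS := hsub hv
  have hpar : par G v u ∈ S := hS v hvS u hu.1 (Ne.symm huv)
  have hadj := par_adj hT huv
  -- the leaf property
  have hleaf : ∀ w ∈ S, w ≠ v → par G v w ≠ u := by
    intro w hw hwv hpw
    have h1 := par_dist hT hwv
    rw [hpw] at h1
    by_cases hw0 : w ∈ S0
    · exact hu.2 (hpw ▸ h0 v hv w hw0 (Ne.symm hwv))
    · have := hmax w (Finset.mem_sdiff.mpr ⟨hw, hw0⟩)
      omega
  -- neighbours of `u` in `S`
  have hnb : ∀ w ∈ S, G.Adj w u → w = par G v u := by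
    intro w hw hwu
    rcases adj_cases hT v hwu with ⟨h1, h2⟩ | ⟨h1, h2⟩
    · exact absurd h2 (hleaf w hw h1)
    · exact h2.symm
  have hparne : par G v u ≠ u := fun h => by rw [h] at hadj; exact hadj.ne rfl
  refine ⟨u, hu.1, hu.2, huv, Finset.mem_erase.mpr ⟨hparne, hpar⟩, ?_, ?_, ?_, ?_⟩
  · intro x hx y hy hxy
    rw [Finset.mem_erase] at hx hy ⊢
    refine ⟨?_, hS x hx.2 y hy.2 hxy⟩
    intro hp
    -- `par x y = u`, so `u` has two neighbours in `S`
    have h1 := par_adj hT (Ne.symm hxy)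
    rw [hp] at h1
    have h2 := hnb y hy.2 h1
    have hxu : u ≠ x := Ne.symm hx.1
    have h3 := par_adj hT hxu
    have h4 : par G x u ∈ S := hS x hx.2 u hu.1 (Ne.symm hxu)
    have h5 := hnb _ h4 h3.symm
    have h6 := par_dist hT hxu
    have h7 := par_dist hT (Ne.symm hxy)
    rw [hp] at h7
    rw [h5, ← h2] at h6
    omega
  · intro w hw
    rw [Finset.mem_erase]
    exact ⟨fun h => hu.2 (h ▸ hw), hsub hw⟩
  · refine ⟨?_, Finset.mem_erase.mpr ⟨hparne, hpar⟩, Finset.mem_singleton_self u, hadj.symm, ?_⟩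
    · rw [Finset.disjoint_singleton_right]
      exact Finset.notMem_erase u S
    · intro a ha b hb hab
      rw [Finset.mem_singleton] at hb
      subst hb
      exact ⟨hnb a (Finset.mem_of_mem_erase ha) hab, rfl⟩
  · ext w
    simp only [Finset.mem_union, Finset.mem_erase, Finset.mem_singleton]
    constructor
    · rintro (h | rfl)
      · exact h.2
      · exact hu.1
    · intro h
      by_cases hw : w = u
      · exact Or.inr hw
      · exact Or.inl ⟨hw, h⟩

lemma numf_singleton (u : V) (f : V → ℝ × ℝ) (F : Finset V → ℝ) :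
    numf G θ {u} f F = F ∅ * (f u).2 + F {u} * (f u).1 := by
  unfold numf
  have hp : ({u} : Finset V).powerset = {∅, {u}} := by
    ext A
    rw [Finset.mem_powerset, Finset.subset_singleton_iff]
    simp
  rw [hp, Finset.sum_pair (Finset.singleton_ne_empty u).symm]
  have hew : ∀ A : Finset V, ew G θ {u} A = 1 := by
    intro A
    unfold ew
    apply Finset.prod_eq_one
    intro e he
    rw [Finset.mem_filter] at he
    exfalso
    have h1 := he.1
    have h2 := he.2
    induction e using Sym2.ind with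
    | _ a b =>
      rw [Finset.mk_mem_sym2_iff] at h1
      simp only [Finset.mem_singleton] at h1
      rw [SimpleGraph.mem_edgeSet, h1.1, h1.2] at h2
      exact h2.ne rfl
  rw [hew, hew]
  simp [fw]

section

variable {Ω : Type*} [MeasurableSpace Ω] {P : Measure Ω} {X : V → Ω → ℝ × ℝ}

lemma mean_snd (h : FieldData P X) (v : V) : ∫ ω, (X v ω).2 ∂P = 1 := by
  rw [← h.mean v]
  have h1 : ∫ ω, (X v ω).2 ∂P = ∫ p : ℝ × ℝ, p.1 ∂(P.map (fun ω => (X v ω).swap)) := by
    rw [integral_map]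
    · rfl
    · exact (measurable_swap.comp (h.meas v)).aemeasurable
    · exact measurable_fst.aestronglyMeasurable
  have h2 : ∫ ω, (X v ω).1 ∂P = ∫ p : ℝ × ℝ, p.1 ∂(P.map (X v)) := by
    rw [integral_map]
    · exact (h.meas v).aemeasurable
    · exact measurable_fst.aestronglyMeasurable
  rw [h1, h2, h.symm v]

lemma integrable_fst (h : FieldData P X) (v : V) : Integrable (fun ω => (X v ω).1) P := by
  have := h.prob
  obtain ⟨C, hC⟩ := h.bdd
  refine Integrable.of_bound (measurable_fst.comp (h.meas v)).aestronglyMeasurable C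
    (Filter.Eventually.of_forall fun ω => ?_)
  rw [Real.norm_of_nonneg (h.pos v ω).1.le]
  exact (hC v ω).1

lemma integrable_snd (h : FieldData P X) (v : V) : Integrable (fun ω => (X v ω).2) P := by
  have := h.prob
  obtain ⟨C, hC⟩ := h.bdd
  refine Integrable.of_bound (measurable_snd.comp (h.meas v)).aestronglyMeasurable C
    (Filter.Eventually.of_forall fun ω => ?_)
  rw [Real.norm_of_nonneg (h.pos v ω).2.le]
  exact (hC v ω).2

lemma zf_singleton (h : FieldData P X) (u : V) : ∫ ω, zf G θ {u} (fd X ω) ∂P = 1 := by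
  have e : ∀ ω, zf G θ {u} (fd X ω) = ((X u ω).2 + (X u ω).1) / 2 := by
    intro ω
    unfold zf Zf
    rw [numf_singleton]
    simp [fd]
  simp only [e]
  rw [integral_div, integral_add (integrable_snd h u) (integrable_fst h u), mean_snd h u, h.mean u]
  norm_num

lemma num_singleton_zero (h : FieldData P X) (u : V) :
    ∫ ω, numf G θ {u} (fd X ω) (fun A => sg A u) ∂P = 0 := by
  have e : ∀ ω, numf G θ {u} (fd X ω) (fun A => sg A u) = (X u ω).1 - (X u ω).2 := by
    intro ω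
    rw [numf_singleton]
    simp [fd, sg]
    ring
  simp only [e]
  rw [integral_sub (integrable_fst h u) (integrable_snd h u), mean_snd h u, h.mean u]
  norm_num

/-- volume restriction for convex sets -/
theorem restrict (hT : G.IsTree) (h : FieldData P X) (h0 : 0 ≤ θ) (h1 : θ < 1)
    {S0 : Finset V} (hc0 : Cvx G S0) {v : V} (hv : v ∈ S0) {F : (V → ℝ × ℝ) → ℝ}
    (hF : Measurable F) (hFd : DependsOn F (S0 : Set V)) (hFb : Bdd X F) :
    ∀ S : Finset V, Cvx G S → S0 ⊆ S →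
      ∫ ω, zf G θ S (fd X ω) * F (fd X ω) ∂P = ∫ ω, zf G θ S0 (fd X ω) * F (fd X ω) ∂P := by
  intro S
  induction hn : S.card using Nat.strong_induction_on generalizing S with
  | _ n ih =>
    intro hS hsub
    by_cases hne : S0 = S
    · rw [hne]
    · obtain ⟨u, huS, _, _, _, hcv, hsub', hE, hU⟩ := exists_leaf hT hc0 hS hsub hne hv
      have h2 := h.planted_restrict h0 h1 hE hF (DependsOn.mono' hsub' hFd) hFb
        (zf_singleton h u)
      rw [hU] at h2
      rw [h2]
      refine ih _ ?_ _ rfl hcv hsub'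
      rw [← hn]
      exact Finset.card_erase_lt_of_mem huS

theorem zf_one (hT : G.IsTree) (h : FieldData P X) (h0 : 0 ≤ θ) (h1 : θ < 1)
    {S : Finset V} (hc : Cvx G S) {v : V} (hv : v ∈ S) : ∫ ω, zf G θ S (fd X ω) ∂P = 1 := by
  have h2 := restrict (G := G) hT h h0 h1 (cvx_singleton v) (Finset.mem_singleton_self v)
    (F := fun _ => 1) measurable_const (fun _ _ _ => rfl) (Bdd.const 1) S hc (by simpa using hv)
  simp only [mul_one] at h2
  rw [h2]
  exact zf_singleton h v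

/-- martingale property, one leaf -/
theorem mart_one (h : FieldData P X) (h0 : 0 ≤ θ) (h1 : θ < 1) {S1 : Finset V} {x u v : V}
    (e : Edge1 G S1 {u} x u) (hv : v ∈ S1) {H : (V → ℝ × ℝ) → ℝ} (hH : Measurable H)
    (hHd : DependsOn H (S1 : Set V)) (hHb : Bdd X H) :
    ∫ ω, zf G θ (S1 ∪ {u}) (fd X ω) * (magf G θ (S1 ∪ {u}) (fd X ω) v * H (fd X ω)) ∂P
      = ∫ ω, zf G θ S1 (fd X ω) * (magf G θ S1 (fd X ω) v * H (fd X ω)) ∂P := by
  have hcard : (S1 ∪ {u}).card = S1.card + 1 := by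
    rw [Finset.card_union_of_disjoint e.disj, Finset.card_singleton]
  -- numerators
  have hz : ∀ (S : Finset V) (ω : Ω), zf G θ S (fd X ω) * magf G θ S (fd X ω) v =
      numf G θ S (fd X ω) (fun A => sg A v) / 2 ^ S.card := by
    intro S ω
    have hp := Zf_pos' (G := G) h0 h1 (h.posf ω) S
    unfold zf magf meanf
    field_simp
  have hglue : ∀ ω, numf G θ (S1 ∪ {u}) (fd X ω) (fun A => sg A v) =
      numf G θ S1 (fd X ω) (fun A => sg A v) * Zf G θ {u} (fd X ω) +
      θ * (numf G θ S1 (fd X ω) (fun A => sg A v * sg A x) *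
        numf G θ {u} (fd X ω) (fun A => sg A u)) := by
    intro ω
    have h2 := numf_glue (θ := θ) e.disj e.hx e.hc e.adj e.edge (fd X ω)
      (F1 := fun A => sg A v) (F2 := fun _ => 1) (fun A => sg_congr (by simp [hv])) (fun _ => rfl)
    simp only [mul_one, one_mul] at h2
    rw [h2]
    rfl
  have e1 : ∀ ω, zf G θ (S1 ∪ {u}) (fd X ω) * (magf G θ (S1 ∪ {u}) (fd X ω) v * H (fd X ω)) =
      (zf G θ S1 (fd X ω) * (magf G θ S1 (fd X ω) v * H (fd X ω))) * zf G θ {u} (fd X ω) +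
      θ / 2 ^ (S1.card + 1) * ((numf G θ S1 (fd X ω) (fun A => sg A v * sg A x) * H (fd X ω)) *
        numf G θ {u} (fd X ω) (fun A => sg A u)) := by
    intro ω
    have hzu : zf G θ {u} (fd X ω) = Zf G θ {u} (fd X ω) / 2 := by
      unfold zf; rw [Finset.card_singleton, pow_one]
    have hz1 : zf G θ S1 (fd X ω) * (magf G θ S1 (fd X ω) v * H (fd X ω)) =
        numf G θ S1 (fd X ω) (fun A => sg A v) / 2 ^ S1.card * H (fd X ω) := by
      rw [← mul_assoc, hz]
    rw [hz1, ← mul_assoc, hz, hglue, hcard, hzu]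
    field_simp
    ring
  simp only [e1]
  have hdisj : Disjoint S1 {u} := e.disj
  have m1 : Measurable fun f : V → ℝ × ℝ => zf G θ S1 f * (magf G θ S1 f v * H f) :=
    (measurable_zf S1).mul ((measurable_magf S1 v).mul hH)
  have m3 : Measurable fun f : V → ℝ × ℝ => numf G θ S1 f (fun A => sg A v * sg A x) * H f :=
    (measurable_numf S1 _).mul hH
  have d1 : DependsOn (fun f : V → ℝ × ℝ => zf G θ S1 f * (magf G θ S1 f v * H f))
      (S1 : Set V) :=
    DependsOn.mul' (dependsOn_zf S1) (DependsOn.mul' (dependsOn_magf S1 v) hHd)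
  have d3 : DependsOn (fun f : V → ℝ × ℝ => numf G θ S1 f (fun A => sg A v * sg A x) * H f)
      (S1 : Set V) := DependsOn.mul' (dependsOn_numf S1 _) hHd
  have b1 : Bdd X fun f => zf G θ S1 f * (magf G θ S1 f v * H f) :=
    (h.bdd_zf S1).mul ((h.bdd_magf h0 h1 S1 v).mul hHb)
  have b3 : Bdd X fun f => numf G θ S1 f (fun A => sg A v * sg A x) * H f :=
    (h.bdd_numf S1 _).mul hHb
  have J1 := h.integral_mul m1 (measurable_zf (G := G) (θ := θ) {u}) d1 (dependsOn_zf {u}) hdisj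
  have J2 := h.integral_mul m3 (measurable_numf (G := G) (θ := θ) {u} (fun A => sg A u)) d3
    (dependsOn_numf {u} _) hdisj
  have K1 : Integrable (fun ω => zf G θ S1 (fd X ω) * (magf G θ S1 (fd X ω) v * H (fd X ω)) *
      zf G θ {u} (fd X ω)) P :=
    h.integrable (m1.mul (measurable_zf (G := G) (θ := θ) {u})) (b1.mul (h.bdd_zf {u}))
  have K2 : Integrable (fun ω => (numf G θ S1 (fd X ω) (fun A => sg A v * sg A x) * H (fd X ω)) *
      numf G θ {u} (fd X ω) (fun A => sg A u)) P :=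
    h.integrable (m3.mul (measurable_numf (G := G) (θ := θ) {u} (fun A => sg A u)))
      (b3.mul (h.bdd_numf {u} _))
  rw [integral_add K1 (K2.const_mul _), integral_const_mul]
  have J1' : ∫ ω, zf G θ S1 (fd X ω) * (magf G θ S1 (fd X ω) v * H (fd X ω)) *
      zf G θ {u} (fd X ω) ∂P = (∫ ω, zf G θ S1 (fd X ω) * (magf G θ S1 (fd X ω) v *
        H (fd X ω)) ∂P) * ∫ ω, zf G θ {u} (fd X ω) ∂P := J1
  have J2' : ∫ ω, numf G θ S1 (fd X ω) (fun A => sg A v * sg A x) * H (fd X ω) *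
      numf G θ {u} (fd X ω) (fun A => sg A u) ∂P =
      (∫ ω, numf G θ S1 (fd X ω) (fun A => sg A v * sg A x) * H (fd X ω) ∂P) *
        ∫ ω, numf G θ {u} (fd X ω) (fun A => sg A u) ∂P := J2
  rw [J1', J2', zf_singleton h u, num_singleton_zero h u]
  ring

/-- martingale property -/
theorem mart (hT : G.IsTree) (h : FieldData P X) (h0 : 0 ≤ θ) (h1 : θ < 1)
    {S0 : Finset V} (hc0 : Cvx G S0) {v : V} (hv : v ∈ S0) {H : (V → ℝ × ℝ) → ℝ}
    (hH : Measurable H) (hHd : DependsOn H (S0 : Set V)) (hHb : Bdd X H) :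
    ∀ S : Finset V, Cvx G S → S0 ⊆ S →
      ∫ ω, zf G θ S (fd X ω) * (magf G θ S (fd X ω) v * H (fd X ω)) ∂P
        = ∫ ω, zf G θ S0 (fd X ω) * (magf G θ S0 (fd X ω) v * H (fd X ω)) ∂P := by
  intro S
  induction hn : S.card using Nat.strong_induction_on generalizing S with
  | _ n ih =>
    intro hS hsub
    by_cases hne : S0 = S
    · rw [hne]
    · obtain ⟨u, huS, _, _, _, hcv, hsub', hE, hU⟩ := exists_leaf hT hc0 hS hsub hne hv
      have h2 := mart_one h h0 h1 hE (hsub' hv) hH (DependsOn.mono' hsub' hHd) hHb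
      rw [hU] at h2
      rw [h2]
      refine ih _ ?_ _ rfl hcv hsub'
      rw [← hn]
      exact Finset.card_erase_lt_of_mem huS

lemma measurable_magf_sq (S : Finset V) (x : V) :
    Measurable (fun f : V → ℝ × ℝ => magf G θ S f x ^ 2) := (measurable_magf S x).pow_const 2

lemma bdd_magf_sq (h : FieldData P X) (h0 : 0 ≤ θ) (h1 : θ < 1) (S : Finset V) (x : V) :
    Bdd X (fun f => magf G θ S f x ^ 2) := by
  have := (h.bdd_magf (G := G) h0 h1 S x).mul (h.bdd_magf (G := G) h0 h1 S x)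
  simpa [sq] using this

lemma dependsOn_magf_sq (S : Finset V) (x : V) :
    DependsOn (fun f => magf G θ S f x ^ 2) (S : Set V) := by
  intro f g hfg
  have := dependsOn_magf (G := G) (θ := θ) S x hfg
  simp only at this ⊢
  rw [this]

/-- energy identity -/
theorem energy (hT : G.IsTree) (h : FieldData P X) (h0 : 0 ≤ θ) (h1 : θ < 1)
    {S0 : Finset V} (hc0 : Cvx G S0) {v : V} (hv : v ∈ S0) {S : Finset V} (hS : Cvx G S)
    (hsub : S0 ⊆ S) :
    ∫ ω, zf G θ S (fd X ω) * (magf G θ S (fd X ω) v - magf G θ S0 (fd X ω) v) ^ 2 ∂P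
      = ∫ ω, zf G θ S (fd X ω) * magf G θ S (fd X ω) v ^ 2 ∂P
        - ∫ ω, zf G θ S0 (fd X ω) * magf G θ S0 (fd X ω) v ^ 2 ∂P := by
  have e1 := mart hT h h0 h1 hc0 hv (H := fun f => magf G θ S0 f v) (measurable_magf S0 v)
    (dependsOn_magf S0 v) (h.bdd_magf h0 h1 S0 v) S hS hsub
  have e2 := restrict hT h h0 h1 hc0 hv (F := fun f => magf G θ S0 f v ^ 2)
    (measurable_magf_sq S0 v) (dependsOn_magf_sq S0 v) (bdd_magf_sq h h0 h1 S0 v) S hS hsub
  have e3 : ∫ ω, zf G θ S0 (fd X ω) * (magf G θ S0 (fd X ω) v * magf G θ S0 (fd X ω) v) ∂P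
      = ∫ ω, zf G θ S0 (fd X ω) * magf G θ S0 (fd X ω) v ^ 2 ∂P := by
    simp only [sq]
  have i1 : Integrable (fun ω => zf G θ S (fd X ω) * magf G θ S (fd X ω) v ^ 2) P :=
    h.integrable ((measurable_zf S).mul (measurable_magf_sq S v))
      ((h.bdd_zf S).mul (bdd_magf_sq h h0 h1 S v))
  have i2 : Integrable (fun ω => zf G θ S (fd X ω) *
      (magf G θ S (fd X ω) v * magf G θ S0 (fd X ω) v)) P :=
    h.integrable ((measurable_zf S).mul ((measurable_magf S v).mul (measurable_magf S0 v)))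
      ((h.bdd_zf S).mul ((h.bdd_magf h0 h1 S v).mul (h.bdd_magf h0 h1 S0 v)))
  have i3 : Integrable (fun ω => zf G θ S (fd X ω) * magf G θ S0 (fd X ω) v ^ 2) P :=
    h.integrable ((measurable_zf S).mul (measurable_magf_sq S0 v))
      ((h.bdd_zf S).mul (bdd_magf_sq h h0 h1 S0 v))
  have e4 : ∀ ω, zf G θ S (fd X ω) * (magf G θ S (fd X ω) v - magf G θ S0 (fd X ω) v) ^ 2
      = (zf G θ S (fd X ω) * magf G θ S (fd X ω) v ^ 2
        - 2 * (zf G θ S (fd X ω) * (magf G θ S (fd X ω) v * magf G θ S0 (fd X ω) v)))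
        + zf G θ S (fd X ω) * magf G θ S0 (fd X ω) v ^ 2 := by
    intro ω; ring
  simp only [e4]
  have i12 : Integrable (fun ω => zf G θ S (fd X ω) * magf G θ S (fd X ω) v ^ 2
      - 2 * (zf G θ S (fd X ω) * (magf G θ S (fd X ω) v * magf G θ S0 (fd X ω) v))) P :=
    i1.sub (i2.const_mul 2)
  rw [integral_add i12 i3, integral_sub i1 (i2.const_mul 2), integral_const_mul, e1, e2, e3]
  ring

/-- second moments increase with the volume -/
theorem second_mono (hT : G.IsTree) (h : FieldData P X) (h0 : 0 ≤ θ) (h1 : θ < 1)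
    {S0 : Finset V} (hc0 : Cvx G S0) {v : V} (hv : v ∈ S0) {S : Finset V} (hS : Cvx G S)
    (hsub : S0 ⊆ S) :
    ∫ ω, zf G θ S0 (fd X ω) * magf G θ S0 (fd X ω) v ^ 2 ∂P
      ≤ ∫ ω, zf G θ S (fd X ω) * magf G θ S (fd X ω) v ^ 2 ∂P := by
  have e := energy hT h h0 h1 hc0 hv hS hsub
  have : 0 ≤ ∫ ω, zf G θ S (fd X ω) *
      (magf G θ S (fd X ω) v - magf G θ S0 (fd X ω) v) ^ 2 ∂P :=
    integral_nonneg fun ω => mul_nonneg (zf_pos h0 h1 (h.posf ω) S).le (sq_nonneg _)
  linarith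

/-! ### the path decomposition -/

/-- the part of `S` beyond the `i`-th edge of the path -/
noncomputable def AA (G : SimpleGraph V) (S : Finset V) (p : ℕ → V) : ℕ → Finset V
  | 0 => S
  | i + 1 => side G (AA G S p i) (p (i + 1)) (p i)

/-- the part of `S` hanging at `p i` off the path of length `n` -/
noncomputable def TT' (G : SimpleGraph V) (S : Finset V) (p : ℕ → V) (n i : ℕ) : Finset V :=
  if i < n then side G (AA G S p i) (p i) (p (i + 1)) else AA G S p i

lemma AA_sub (S : Finset V) (p : ℕ → V) (i : ℕ) : AA G S p i ⊆ S := by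
  induction i with
  | zero => exact subset_rfl
  | succ i ih => exact (side_subset _ _ _).trans ih

lemma AA_cvx (hT : G.IsTree) {S : Finset V} (hS : Cvx G S) {n : ℕ} {p : ℕ → V} (hp : IsNB G n p)
    {i : ℕ} (hi : i ≤ n) : Cvx G (AA G S p i) := by
  induction i with
  | zero => exact hS
  | succ i ih => exact cvx_side hT (ih (by omega)) (hp.adj i (by omega)).symm

lemma TT_cvx (hT : G.IsTree) {S : Finset V} (hS : Cvx G S) {n : ℕ} {p : ℕ → V} (hp : IsNB G n p)
    {i : ℕ} (hi : i ≤ n) : Cvx G (TT' G S p n i) := by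
  unfold TT'
  split_ifs with h
  · exact cvx_side hT (AA_cvx hT hS hp hi) (hp.adj i h)
  · exact AA_cvx hT hS hp hi

lemma mem_AA (hT : G.IsTree) {S : Finset V} {n : ℕ} {p : ℕ → V} (hp : IsNB G n p)
    (hpS : ∀ i ≤ n, p i ∈ S) {i j : ℕ} (hij : i ≤ j) (hj : j ≤ n) : p j ∈ AA G S p i := by
  induction i with
  | zero => exact hpS j hj
  | succ i ih =>
    rw [AA, mem_side]
    refine ⟨ih (by omega), ?_⟩
    rw [SimpleGraph.dist_comm (u := p j) (v := p (i + 1)),
      SimpleGraph.dist_comm (u := p j) (v := p i), hp.dist hT hij hj,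
      hp.dist hT (by omega) hj]
    omega

lemma mem_TT (hT : G.IsTree) {S : Finset V} {n : ℕ} {p : ℕ → V} (hp : IsNB G n p)
    (hpS : ∀ i ≤ n, p i ∈ S) {i : ℕ} (hi : i ≤ n) : p i ∈ TT' G S p n i := by
  unfold TT'
  split_ifs with h
  · exact left_mem_side (mem_AA hT hp hpS le_rfl hi) (hp.adj i h)
  · exact mem_AA hT hp hpS le_rfl hi

lemma AA_eq (hT : G.IsTree) {S : Finset V} {n : ℕ} {p : ℕ → V} (hp : IsNB G n p) {i : ℕ}
    (hi : i < n) : AA G S p (i + 1) = side G S (p (i + 1)) (p i) := by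
  induction i with
  | zero => rfl
  | succ i ih =>
    have h1 := ih (by omega)
    rw [AA, h1]
    ext y
    rw [mem_side, mem_side, mem_side]
    constructor
    · rintro ⟨⟨h2, _⟩, h3⟩
      exact ⟨h2, h3⟩
    · rintro ⟨h2, h3⟩
      refine ⟨⟨h2, ?_⟩, h3⟩
      by_contra h4
      have a1 := hp.adj i (by omega)
      have a2 := hp.adj (i + 1) hi
      have b1 := hT.dist_eq_dist_add_one_of_adj y a1
      have b2 := hT.dist_eq_dist_add_one_of_adj y a2
      have h5 : p (i + 1 + 1) = p i := unique_closer hT (r := y) a2 a1.symm (by omega) (by omega)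
      exact hp.nb i (by omega) h5

lemma TT_edge (hT : G.IsTree) {S : Finset V} {n : ℕ} {p : ℕ → V} (hp : IsNB G n p)
    (hpS : ∀ i ≤ n, p i ∈ S) {i : ℕ} (hi : i < n) :
    Edge1 G (TT' G S p n i) (AA G S p (i + 1)) (p i) (p (i + 1)) ∧
      TT' G S p n i ∪ AA G S p (i + 1) = AA G S p i := by
  have e : TT' G S p n i = side G (AA G S p i) (p i) (p (i + 1)) := by
    unfold TT'; rw [if_pos hi]
  rw [e]
  have hadj := hp.adj i hi
  refine ⟨⟨side_disjoint _ _ _, left_mem_side (mem_AA hT hp hpS le_rfl hi.le) hadj, ?_, hadj,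
    side_only hT _ hadj⟩, side_union hT _ hadj⟩
  exact left_mem_side (mem_AA hT hp hpS (by omega) (by omega)) hadj.symm

/-- the functional `1 - γ_i²/40` -/
noncomputable def gg (G : SimpleGraph V) (θ : ℝ) (S : Finset V) (p : ℕ → V) (n i : ℕ)
    (f : V → ℝ × ℝ) : ℝ := 1 - magf G θ (TT' G S p n i) f (p i) ^ 2 / 40

lemma TT_sub_AA (S : Finset V) (p : ℕ → V) (n i : ℕ) : TT' G S p n i ⊆ AA G S p i := by
  unfold TT'
  split_ifs
  · exact side_subset _ _ _
  · exact subset_rfl

lemma AA_anti (S : Finset V) (p : ℕ → V) {i j : ℕ} (hij : i ≤ j) : AA G S p j ⊆ AA G S p i := by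
  induction j with
  | zero =>
    have : i = 0 := by omega
    rw [this]
  | succ j ih =>
    rcases Nat.lt_or_ge i (j + 1) with h | h
    · exact (side_subset _ _ _).trans (ih (by omega))
    · have : i = j + 1 := by omega
      rw [this]

lemma measurable_gg (S : Finset V) (p : ℕ → V) (n i : ℕ) : Measurable (gg G θ S p n i) := by
  unfold gg
  exact ((measurable_magf_sq _ _).div_const _).const_sub 1

lemma dependsOn_gg (S : Finset V) (p : ℕ → V) (n i : ℕ) :
    DependsOn (gg G θ S p n i) (TT' G S p n i : Set V) := by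
  intro f g hfg
  have := dependsOn_magf_sq (G := G) (θ := θ) (TT' G S p n i) (p i) hfg
  simp only [gg] at this ⊢
  rw [this]

lemma bdd_gg (h : FieldData P X) (h0 : 0 ≤ θ) (h1 : θ < 1) (S : Finset V) (p : ℕ → V) (n i : ℕ) :
    Bdd X (gg G θ S p n i) := by
  refine ⟨1, fun ω => ?_⟩
  have h2 := abs_magf_le' (G := G) h0 h1 (h.posf ω) (TT' G S p n i) (p i)
  have h3 := sq_le_one_of_abs h2
  unfold gg
  rw [abs_le]
  constructor <;> nlinarith [sq_nonneg (magf G θ (TT' G S p n i) (fd X ω) (p i))]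

lemma even_gg (hT : G.IsTree) {S : Finset V} {n : ℕ} {p : ℕ → V} (hp : IsNB G n p)
    (hpS : ∀ i ≤ n, p i ∈ S) {i : ℕ} (hi : i ≤ n) (f : V → ℝ × ℝ) :
    gg G θ S p n i (flipOn (TT' G S p n i : Set V) f) = gg G θ S p n i f := by
  unfold gg
  rw [magf_flip subset_rfl f (mem_TT hT hp hpS hi)]
  ring

/-- second moment of the local datum at `v` -/
noncomputable def own (P : Measure Ω) (X : V → Ω → ℝ × ℝ) (G : SimpleGraph V) (θ : ℝ) (v : V) : ℝ :=
  ∫ ω, zf G θ {v} (fd X ω) * magf G θ {v} (fd X ω) v ^ 2 ∂P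

/-- `PE (1 - γ_i²/40) ≤ 1 - I/40` -/
lemma int_gg_le (hT : G.IsTree) (h : FieldData P X) (h0 : 0 ≤ θ) (h1 : θ < 1) {S : Finset V}
    (hS : Cvx G S) {n : ℕ} {p : ℕ → V} (hp : IsNB G n p) (hpS : ∀ i ≤ n, p i ∈ S) {i : ℕ}
    (hi : i ≤ n) {I : ℝ} (hI : I ≤ own P X G θ (p i)) :
    ∫ ω, zf G θ (TT' G S p n i) (fd X ω) * gg G θ S p n i (fd X ω) ∂P ≤ 1 - I / 40 := by
  have hmem := mem_TT hT hp hpS hi
  have hc := TT_cvx hT hS hp hi
  have e : ∀ ω, zf G θ (TT' G S p n i) (fd X ω) * gg G θ S p n i (fd X ω)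
      = zf G θ (TT' G S p n i) (fd X ω)
        - (zf G θ (TT' G S p n i) (fd X ω) * magf G θ (TT' G S p n i) (fd X ω) (p i) ^ 2) / 40 := by
    intro ω
    unfold gg
    ring
  simp only [e]
  rw [integral_sub, integral_div, zf_one hT h h0 h1 hc hmem]
  · have h2 := second_mono hT h h0 h1 (cvx_singleton (p i)) (Finset.mem_singleton_self _) hc
      (by simpa using hmem)
    unfold own at hI
    linarith
  · exact h.integrable (measurable_zf _) (h.bdd_zf _)
  · exact (h.integrable ((measurable_zf (G := G) (θ := θ) (TT' G S p n i)).mul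
      (measurable_magf_sq _ _)) ((h.bdd_zf _).mul (bdd_magf_sq h h0 h1 _ _))).div_const _

lemma dependsOn_prod_gg (S : Finset V) (p : ℕ → V) (n i : ℕ) :
    DependsOn (fun f => ∏ j ∈ Finset.Ico i (n + 1), gg G θ S p n j f) (AA G S p i : Set V) := by
  intro f g hfg
  simp only
  refine Finset.prod_congr rfl fun j hj => ?_
  rw [Finset.mem_Ico] at hj
  apply dependsOn_gg (G := G) (θ := θ) S p n j
  intro v hv
  apply hfg
  have h1 := TT_sub_AA (G := G) S p n j
  have h2 := AA_anti (G := G) S p hj.1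
  exact_mod_cast h2 (h1 (by exact_mod_cast hv))

lemma measurable_prod_gg (S : Finset V) (p : ℕ → V) (n i : ℕ) :
    Measurable (fun f : V → ℝ × ℝ => ∏ j ∈ Finset.Ico i (n + 1), gg G θ S p n j f) :=
  Finset.measurable_fun_prod _ fun j _ => measurable_gg S p n j

/-- factorisation along the path -/
lemma prod_gg_le (hT : G.IsTree) (h : FieldData P X) (h0 : 0 ≤ θ) (h1 : θ < 1) {S : Finset V}
    (hS : Cvx G S) {n : ℕ} {p : ℕ → V} (hp : IsNB G n p) (hpS : ∀ i ≤ n, p i ∈ S) {I : ℝ}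
    (hI1 : I ≤ 40) (hI : ∀ i ≤ n, I ≤ own P X G θ (p i)) (k : ℕ) (hk : k ≤ n) :
    ∫ ω, zf G θ (AA G S p (n - k)) (fd X ω) *
      ∏ j ∈ Finset.Ico (n - k) (n + 1), gg G θ S p n j (fd X ω) ∂P ≤ (1 - I / 40) ^ (k + 1) := by
  induction k with
  | zero =>
    have h2 := int_gg_le hT h h0 h1 hS hp hpS le_rfl (hI n le_rfl)
    have e : TT' G S p n n = AA G S p n := by unfold TT'; rw [if_neg (lt_irrefl n)]
    rw [e] at h2
    simpa [Nat.Ico_succ_singleton] using h2
  | succ k ih =>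
    have hlt : n - (k + 1) < n := by omega
    have hk' : n - (k + 1) + 1 = n - k := by omega
    obtain ⟨hE, hU⟩ := TT_edge hT hp hpS hlt
    rw [hk'] at hE hU
    have h2 := h.planted_mul h0 h1 hE (F := gg G θ S p n (n - (k + 1)))
      (H := fun f => ∏ j ∈ Finset.Ico (n - k) (n + 1), gg G θ S p n j f)
      (measurable_gg S p n _) (measurable_prod_gg S p n _) (dependsOn_gg S p n _)
      (dependsOn_prod_gg S p n _) (bdd_gg h h0 h1 S p n _)
      (Bdd.prod fun j _ => bdd_gg h h0 h1 S p n j) (even_gg hT hp hpS hlt.le)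
    rw [hU] at h2
    have e : ∀ f, ∏ j ∈ Finset.Ico (n - (k + 1)) (n + 1), gg G θ S p n j f
        = gg G θ S p n (n - (k + 1)) f * ∏ j ∈ Finset.Ico (n - k) (n + 1), gg G θ S p n j f := by
      intro f
      rw [Finset.prod_eq_prod_Ico_succ_bot (by omega), hk']
    simp only [e]
    rw [h2, pow_succ, mul_comm]
    have h3 := int_gg_le hT h h0 h1 hS hp hpS hlt.le (hI _ hlt.le)
    have h4 : 0 ≤ ∫ ω, zf G θ (TT' G S p n (n - (k + 1))) (fd X ω) *
        gg G θ S p n (n - (k + 1)) (fd X ω) ∂P := by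
      refine integral_nonneg fun ω => mul_nonneg (zf_pos h0 h1 (h.posf ω) _).le ?_
      have h5 := sq_le_one_of_abs
        (abs_magf_le' (G := G) h0 h1 (h.posf ω) (TT' G S p n (n - (k + 1))) (p (n - (k + 1))))
      unfold gg
      linarith
    have h6 : 0 ≤ 1 - I / 40 := by linarith
    exact mul_le_mul (ih (by omega)) h3 h4 (by positivity)

/-- pathwise bound -/
lemma rprod_le_gg (hT : G.IsTree) (h0 : 0 ≤ θ) (h2 : θ ^ 2 ≤ 1 / 2) {S : Finset V}
    {n : ℕ} {p : ℕ → V} (hp : IsNB G n p) (hpS : ∀ i ≤ n, p i ∈ S)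
    {f : V → ℝ × ℝ} (hf : Pos f) :
    rprod G θ (magf G θ S f) (p 0) (p n) ≤ ∏ j ∈ Finset.Ico 1 (n + 1), gg G θ S p n j f := by
  have h1 := theta_lt_one h0 h2
  have hf' : ∀ v ∈ S, 0 < (f v).1 ∧ 0 < (f v).2 := fun v _ => hf v
  rw [rprod_path hT θ _ hp]
  have e1 : ∀ i ∈ Finset.range n, rho θ (magf G θ S f (p i)) (magf G θ S f (p (i + 1)))
      = (1 - magf G θ (AA G S p (i + 1)) f (p (i + 1)) ^ 2) /
        (1 - θ ^ 2 * magf G θ (AA G S p (i + 1)) f (p (i + 1)) ^ 2) := by
    intro i hi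
    rw [Finset.mem_range] at hi
    rw [AA_eq hT hp hi]
    exact (mag_edge hT h0 h1 hf' (hpS i hi.le) (hpS (i + 1) hi) (hp.adj i hi)).2.2
  rw [Finset.prod_congr rfl e1]
  have e2 := prod_rho_le h0 h2 n (fun i => magf G θ (AA G S p (i + 1)) f (p (i + 1)))
    (fun i => magf G θ (TT' G S p n (i + 1)) f (p (i + 1)))
    (fun j _ => abs_magf_le' h0 h1 hf _ _) (fun j _ => abs_magf_le' h0 h1 hf _ _)
    (fun j hj => by
      obtain ⟨hE, hU⟩ := TT_edge hT hp hpS hj
      have := magf_glue hE h0 h1 hf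
      rw [hU] at this
      exact this)
    (fun j hj => by
      have : TT' G S p n (j + 1) = AA G S p (j + 1) := by
        unfold TT'; rw [if_neg (by omega)]
      simp only [this])
  refine e2.trans (le_of_eq ?_)
  rw [Finset.prod_Ico_eq_prod_range]
  refine Finset.prod_congr (by congr 1) fun j _ => ?_
  unfold gg
  rw [add_comm 1 j]

/-- **Path bound**. -/
theorem path_bound (hT : G.IsTree) (h : FieldData P X) (h0 : 0 ≤ θ) (h2 : θ ^ 2 ≤ 1 / 2)
    {S : Finset V} (hS : Cvx G S) {n : ℕ} {p : ℕ → V} (hp : IsNB G n p) (hpS : ∀ i ≤ n, p i ∈ S)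
    {I : ℝ} (hI1 : I ≤ 40) (hI : ∀ i ≤ n, I ≤ own P X G θ (p i)) :
    ∫ ω, zf G θ S (fd X ω) * rprod G θ (magf G θ S (fd X ω)) (p 0) (p n) ∂P
      ≤ (1 - I / 40) ^ n := by
  have h1 := theta_lt_one h0 h2
  have hint : Integrable (fun ω => zf G θ S (fd X ω) *
      ∏ j ∈ Finset.Ico 1 (n + 1), gg G θ S p n j (fd X ω)) P :=
    h.integrable ((measurable_zf S).mul (measurable_prod_gg S p n 1))
      ((h.bdd_zf S).mul (Bdd.prod fun j _ => bdd_gg h h0 h1 S p n j))
  have hle : ∫ ω, zf G θ S (fd X ω) * rprod G θ (magf G θ S (fd X ω)) (p 0) (p n) ∂P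
      ≤ ∫ ω, zf G θ S (fd X ω) * ∏ j ∈ Finset.Ico 1 (n + 1), gg G θ S p n j (fd X ω) ∂P := by
    refine integral_mono_of_nonneg (Filter.Eventually.of_forall fun ω => ?_) hint
      (Filter.Eventually.of_forall fun ω => ?_)
    · exact mul_nonneg (zf_pos h0 h1 (h.posf ω) S).le
        (rprod_nonneg h0 h1 (fun v => abs_magf_le' h0 h1 (h.posf ω) S v) _ _)
    · exact mul_le_mul_of_nonneg_left (rprod_le_gg hT h0 h2 hp hpS (h.posf ω))
        (zf_pos h0 h1 (h.posf ω) S).le
  refine hle.trans ?_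
  rcases Nat.eq_zero_or_pos n with hn | hn
  · subst hn
    simp only [zero_add, Finset.Ico_self, Finset.prod_empty, mul_one, pow_zero]
    exact (zf_one hT h h0 h1 hS (hpS 0 le_rfl)).le
  · obtain ⟨hE, hU⟩ := TT_edge hT hp hpS hn
    have h3 := h.planted_mul h0 h1 hE (F := fun _ => 1)
      (H := fun f => ∏ j ∈ Finset.Ico 1 (n + 1), gg G θ S p n j f)
      measurable_const (measurable_prod_gg S p n _) (fun _ _ _ => rfl)
      (dependsOn_prod_gg S p n _) (Bdd.const 1)
      (Bdd.prod fun j _ => bdd_gg h h0 h1 S p n j) (fun _ => rfl)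
    rw [hU] at h3
    have hA0 : AA G S p 0 = S := rfl
    rw [hA0] at h3
    simp only [one_mul, mul_one] at h3
    rw [h3, zf_one hT h h0 h1 (TT_cvx hT hS hp hn.le) (mem_TT hT hp hpS hn.le), one_mul]
    have h4 := prod_gg_le hT h h0 h1 hS hp hpS hI1 hI (n - 1) (by omega)
    rw [show n - (n - 1) = 1 by omega, show n - 1 + 1 = n by omega] at h4
    exact h4

lemma path_mem (hT : G.IsTree) {S : Finset V} (hS : Cvx G S) {n : ℕ} {p : ℕ → V}
    (hp : IsNB G n p) (h0 : p 0 ∈ S) (hn : p n ∈ S) : ∀ i ≤ n, p i ∈ S := by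
  have key : ∀ k ≤ n, p (n - k) ∈ S := by
    intro k
    induction k with
    | zero => intro _; simpa using hn
    | succ k ih =>
      intro hk
      have h1 := ih (by omega)
      have h2 := hp.dist_par hT (n - k) (by omega)
      have h3 := h2.2 (by omega)
      have hne : p 0 ≠ p (n - k) := by
        intro h
        rw [← h, SimpleGraph.dist_self] at h2
        omega
      have h4 := hS _ h0 _ h1 hne
      rw [h3] at h4
      rwa [show n - k - 1 = n - (k + 1) by omega] at h4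
  intro i hi
  have := key (n - i) (by omega)
  rwa [show n - (n - i) = i by omega] at this

/-- **Path bound**, vertex form. -/
theorem path_bound' (hT : G.IsTree) (h : FieldData P X) (h0 : 0 ≤ θ) (h2 : θ ^ 2 ≤ 1 / 2)
    {S : Finset V} (hS : Cvx G S) {v x : V} (hv : v ∈ S) (hx : x ∈ S)
    {I : ℝ} (hI1 : I ≤ 40) (hI : ∀ u ∈ S, I ≤ own P X G θ u) :
    ∫ ω, zf G θ S (fd X ω) * rprod G θ (magf G θ S (fd X ω)) v x ∂P
      ≤ (1 - I / 40) ^ G.dist v x := by
  obtain ⟨p, hp, e0, en⟩ := exists_geodesic hT v x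
  have hpS := path_mem hT hS hp (by rwa [e0]) (by rwa [en])
  have := path_bound hT h h0 h2 hS hp hpS hI1 (fun i hi => hI _ (hpS i hi))
  rwa [e0, en] at this

/-- second moment of the covariance -/
theorem cov_sq_le (hT : G.IsTree) (h : FieldData P X) (h0 : 0 ≤ θ) (h2 : θ ^ 2 ≤ 1 / 2)
    {S : Finset V} (hS : Cvx G S) {v x : V} (hv : v ∈ S) (hx : x ∈ S)
    {I : ℝ} (hI1 : I ≤ 40) (hI : ∀ u ∈ S, I ≤ own P X G θ u) :
    ∫ ω, zf G θ S (fd X ω) * covf G θ S (fd X ω) v x ^ 2 ∂P
      ≤ (θ ^ 2 * (1 - I / 40)) ^ G.dist v x := by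
  have h1 := theta_lt_one h0 h2
  have hle : ∀ ω, zf G θ S (fd X ω) * covf G θ S (fd X ω) v x ^ 2 ≤
      (θ ^ 2) ^ G.dist v x * (zf G θ S (fd X ω) * rprod G θ (magf G θ S (fd X ω)) v x) := by
    intro ω
    have hm : ∀ v, |magf G θ S (fd X ω) v| ≤ 1 := fun v => abs_magf_le' h0 h1 (h.posf ω) S v
    rw [covf_eq_MM hT h0 h1 (fun v _ => (h.posf ω) v) hS hv hx]
    have a1 := rprod_nonneg (G := G) h0 h1 hm v x
    have a2 := rprod_le_one (G := G) h0 h2 hm v x
    have a3 := sq_le_one_of_abs (hm v)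
    have a4 := (zf_pos (G := G) h0 h1 (h.posf ω) S).le
    have a5 : MM G θ (magf G θ S (fd X ω)) v x ^ 2 ≤ (θ ^ 2) ^ G.dist v x *
        rprod G θ (magf G θ S (fd X ω)) v x := by
      unfold MM
      rw [mul_pow, mul_pow, ← pow_mul, ← pow_mul, mul_comm (G.dist v x) 2]
      have b1 : (1 - magf G θ S (fd X ω) v ^ 2) ^ 2 ≤ 1 := by
        nlinarith [sq_nonneg (magf G θ S (fd X ω) v)]
      have b2 : rprod G θ (magf G θ S (fd X ω)) v x ^ 2 ≤
          rprod G θ (magf G θ S (fd X ω)) v x := by nlinarith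
      have b3 : 0 ≤ θ ^ (2 * G.dist v x) := by positivity
      calc (1 - magf G θ S (fd X ω) v ^ 2) ^ 2 * θ ^ (2 * G.dist v x) *
            rprod G θ (magf G θ S (fd X ω)) v x ^ 2
          ≤ 1 * θ ^ (2 * G.dist v x) * rprod G θ (magf G θ S (fd X ω)) v x := by
            gcongr
        _ = θ ^ (2 * G.dist v x) * rprod G θ (magf G θ S (fd X ω)) v x := by ring
    calc zf G θ S (fd X ω) * MM G θ (magf G θ S (fd X ω)) v x ^ 2
        ≤ zf G θ S (fd X ω) * ((θ ^ 2) ^ G.dist v x *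
          rprod G θ (magf G θ S (fd X ω)) v x) := mul_le_mul_of_nonneg_left a5 a4
      _ = _ := by ring
  have hmr : Measurable fun ω => rprod G θ (magf G θ S (fd X ω)) v x :=
    measurable_rprod θ (fun u => (measurable_magf S u).comp h.measurable_field) v x
  have hir : Integrable (fun ω => zf G θ S (fd X ω) * rprod G θ (magf G θ S (fd X ω)) v x) P := by
    have := h.prob
    obtain ⟨K, hK⟩ := h.bdd_zf (G := G) (θ := θ) S
    refine Integrable.of_bound (((measurable_zf S).comp h.measurable_field).mul hmr).aestronglyMeasurable K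
      (Filter.Eventually.of_forall fun ω => ?_)
    have hm : ∀ v, |magf G θ S (fd X ω) v| ≤ 1 := fun v => abs_magf_le' h0 h1 (h.posf ω) S v
    rw [Real.norm_eq_abs, abs_mul, abs_of_nonneg (rprod_nonneg (G := G) h0 h1 hm v x)]
    exact (mul_le_of_le_one_right (abs_nonneg _) (rprod_le_one (G := G) h0 h2 hm v x)).trans (hK ω)
  calc ∫ ω, zf G θ S (fd X ω) * covf G θ S (fd X ω) v x ^ 2 ∂P
      ≤ ∫ ω, (θ ^ 2) ^ G.dist v x *
        (zf G θ S (fd X ω) * rprod G θ (magf G θ S (fd X ω)) v x) ∂P := by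
        refine integral_mono_of_nonneg (Filter.Eventually.of_forall fun ω => ?_)
          (hir.const_mul _) (Filter.Eventually.of_forall hle)
        exact mul_nonneg (zf_pos h0 h1 (h.posf ω) S).le (sq_nonneg _)
    _ = (θ ^ 2) ^ G.dist v x *
        ∫ ω, zf G θ S (fd X ω) * rprod G θ (magf G θ S (fd X ω)) v x ∂P := integral_const_mul _ _
    _ ≤ (θ ^ 2) ^ G.dist v x * (1 - I / 40) ^ G.dist v x := by
        apply mul_le_mul_of_nonneg_left (path_bound' hT h h0 h2 hS hv hx hI1 hI) (by positivity)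
    _ = _ := by rw [mul_pow]

end

end Crest.Agent.R160.PathBound
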