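import Mathlib
import Crest.Agent.R160.PathBound

/-! Row 160: comparison of the magnetizations in two convex volumes under the planted law. -/

set_option autoImplicit false
set_option linter.unusedSectionVars false

open MeasureTheory ProbabilityTheory
open scoped Classical

namespace Crest.Agent.R160.PathBound

open Crest.Agent.R160 Crest.Agent.R160.TreeAut Crest.Agent.R160.Static

variable {V : Type*} {G : SimpleGraph V} {θ : ℝ}

section

variable {Ω : Type*} [MeasurableSpace Ω] {P : Measure Ω} {X : V → Ω → ℝ × ℝ}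

lemma measurable_covf (S : Finset V) (v x : V) :
    Measurable (fun f : V → ℝ × ℝ => covf G θ S f v x) := by
  unfold covf meanf
  exact ((measurable_numf S _).div (measurable_Zf S)).sub
    ((measurable_magf S v).mul (measurable_magf S x))

lemma dependsOn_covf (S : Finset V) (v x : V) :
    DependsOn (fun f : V → ℝ × ℝ => covf G θ S f v x) (S : Set V) := by
  intro f g hfg
  have a1 := dependsOn_numf (G := G) (θ := θ) S (fun A => sg A v * sg A x) hfg
  have a2 := dependsOn_Zf (G := G) (θ := θ) S hfg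
  have a3 := dependsOn_magf (G := G) (θ := θ) S v hfg
  have a4 := dependsOn_magf (G := G) (θ := θ) S x hfg
  simp only [covf, meanf] at a1 a2 a3 a4 ⊢
  rw [a1, a2, a3, a4]

lemma abs_covf_le (h0 : 0 ≤ θ) (h1 : θ < 1) {f : V → ℝ × ℝ} (hf : Pos f) (S : Finset V)
    (v x : V) : |covf G θ S f v x| ≤ 2 := by
  have a1 : |meanf G θ S f (fun A => sg A v * sg A x)| ≤ 1 :=
    abs_meanf_le h0 h1 (fun v _ => hf v) fun A _ => by
      rw [abs_mul, abs_sg_eq, abs_sg_eq, one_mul]
  have a2 := abs_magf_le' (G := G) h0 h1 hf S v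
  have a3 := abs_magf_le' (G := G) h0 h1 hf S x
  unfold covf
  have a4 : |magf G θ S f v * magf G θ S f x| ≤ 1 := by
    rw [abs_mul]; exact mul_le_one₀ a2 (abs_nonneg _) a3
  refine (abs_sub _ _).trans ?_
  linarith

/-- increment of the magnetization when a leaf is added -/
lemma incr (h0 : 0 ≤ θ) (h1 : θ < 1) {S1 : Finset V} {x u v : V} (e : Edge1 G S1 {u} x u)
    (hv : v ∈ S1) {f : V → ℝ × ℝ} (hf : Pos f) :
    magf G θ (S1 ∪ {u}) f v - magf G θ S1 f v =
      θ * magf G θ {u} f u * covf G θ S1 f v x / (1 + θ * magf G θ S1 f x * magf G θ {u} f u) := by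
  have h2 := meanf_glue h0 h1 e.disj e.hx e.hc e.adj e.edge (fun w _ => hf w)
    (F1 := fun A => sg A v) (F2 := fun _ => 1) (fun A => sg_congr (by simp [hv])) (fun _ => rfl)
  have e2 : meanf G θ {u} f (fun _ => 1) = 1 := meanf_one h0 h1 fun w _ => hf w
  simp only [mul_one, one_mul, e2] at h2
  have hD := cav_den_pos h0 h1 (abs_magf_le' (G := G) h0 h1 hf S1 x)
    (abs_magf_le' (G := G) h0 h1 hf {u} u)
  have h3 : magf G θ (S1 ∪ {u}) f v = _ := h2
  rw [h3]
  have hm : meanf G θ S1 f (fun A => sg A v) = magf G θ S1 f v := rfl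
  have hmu : meanf G θ {u} f (fun A => sg A u) = magf G θ {u} f u := rfl
  rw [hm, hmu]
  unfold covf
  rw [eq_div_iff hD.ne', sub_mul, div_mul_cancel₀ _ hD.ne']
  ring

theorem incr_sq_le (h : FieldData P X) (h0 : 0 ≤ θ) (h2 : θ ^ 2 ≤ 1 / 2) {S1 : Finset V}
    {x u v : V} (e : Edge1 G S1 {u} x u) (hv : v ∈ S1) :
    ∫ ω, zf G θ (S1 ∪ {u}) (fd X ω) *
      (magf G θ (S1 ∪ {u}) (fd X ω) v - magf G θ S1 (fd X ω) v) ^ 2 ∂P
      ≤ 2 * ∫ ω, zf G θ S1 (fd X ω) * covf G θ S1 (fd X ω) v x ^ 2 ∂P := by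
  have h1 := theta_lt_one h0 h2
  have hpt : ∀ ω, zf G θ (S1 ∪ {u}) (fd X ω) *
      (magf G θ (S1 ∪ {u}) (fd X ω) v - magf G θ S1 (fd X ω) v) ^ 2
      ≤ 2 * ((zf G θ S1 (fd X ω) * covf G θ S1 (fd X ω) v x ^ 2) * zf G θ {u} (fd X ω)) := by
    intro ω
    have hf := h.posf ω
    rw [incr h0 h1 e hv hf, zf_glue e h0 h1 hf]
    have b1 := abs_magf_le' (G := G) h0 h1 hf S1 x
    have b2 := abs_magf_le' (G := G) h0 h1 hf {u} u
    set m := magf G θ S1 (fd X ω) x
    set a := magf G θ {u} (fd X ω) u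
    set c := covf G θ S1 (fd X ω) v x
    have z1 := (zf_pos (G := G) h0 h1 hf S1).le
    have z2 := (zf_pos (G := G) h0 h1 hf {u}).le
    set Z1 := zf G θ S1 (fd X ω)
    set Z2 := zf G θ {u} (fd X ω)
    have hD : 7 / 25 ≤ 1 + θ * m * a := by
      have c1 := one_sub_pos h0 h2
      obtain ⟨_, c2⟩ := mul_le_one_of_abs b1 b2
      nlinarith
    have hD0 : 0 < 1 + θ * m * a := by linarith
    have e1 : Z1 * Z2 * (1 + θ * m * a) * (θ * a * c / (1 + θ * m * a)) ^ 2
        = (Z1 * Z2 * c ^ 2) * (θ ^ 2 * a ^ 2 / (1 + θ * m * a)) := by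
      field_simp
    rw [e1]
    have e2 : θ ^ 2 * a ^ 2 / (1 + θ * m * a) ≤ 2 := by
      rw [div_le_iff₀ hD0]
      have := sq_le_one_of_abs b2
      nlinarith [sq_nonneg θ, sq_nonneg a]
    have e3 : 0 ≤ Z1 * Z2 * c ^ 2 := by positivity
    calc (Z1 * Z2 * c ^ 2) * (θ ^ 2 * a ^ 2 / (1 + θ * m * a)) ≤ (Z1 * Z2 * c ^ 2) * 2 :=
          mul_le_mul_of_nonneg_left e2 e3
      _ = 2 * (Z1 * c ^ 2 * Z2) := by ring
  have mc : Measurable fun f : V → ℝ × ℝ => zf G θ S1 f * covf G θ S1 f v x ^ 2 :=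
    (measurable_zf S1).mul ((measurable_covf S1 v x).pow_const 2)
  have dc : DependsOn (fun f : V → ℝ × ℝ => zf G θ S1 f * covf G θ S1 f v x ^ 2)
      (S1 : Set V) := by
    intro f g hfg
    have a1 := dependsOn_zf (G := G) (θ := θ) S1 hfg
    have a2 := dependsOn_covf (G := G) (θ := θ) S1 v x hfg
    simp only at a1 a2 ⊢
    rw [a1, a2]
  have bc : Bdd X fun f => zf G θ S1 f * covf G θ S1 f v x ^ 2 := by
    refine (h.bdd_zf S1).mul ⟨4, fun ω => ?_⟩
    have := abs_covf_le (G := G) h0 h1 (h.posf ω) S1 v x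
    rw [abs_pow]
    calc |covf G θ S1 (fd X ω) v x| ^ 2 ≤ 2 ^ 2 := pow_le_pow_left₀ (abs_nonneg _) this 2
      _ = 4 := by norm_num
  have J := h.integral_mul mc (measurable_zf (G := G) (θ := θ) {u}) dc (dependsOn_zf {u}) e.disj
  have J' : ∫ ω, (zf G θ S1 (fd X ω) * covf G θ S1 (fd X ω) v x ^ 2) * zf G θ {u} (fd X ω) ∂P
      = (∫ ω, zf G θ S1 (fd X ω) * covf G θ S1 (fd X ω) v x ^ 2 ∂P) *
        ∫ ω, zf G θ {u} (fd X ω) ∂P := J
  have K : Integrable (fun ω => (zf G θ S1 (fd X ω) * covf G θ S1 (fd X ω) v x ^ 2) *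
      zf G θ {u} (fd X ω)) P :=
    h.integrable (mc.mul (measurable_zf (G := G) (θ := θ) {u})) (bc.mul (h.bdd_zf {u}))
  calc ∫ ω, zf G θ (S1 ∪ {u}) (fd X ω) *
      (magf G θ (S1 ∪ {u}) (fd X ω) v - magf G θ S1 (fd X ω) v) ^ 2 ∂P
      ≤ ∫ ω, 2 * ((zf G θ S1 (fd X ω) * covf G θ S1 (fd X ω) v x ^ 2) *
        zf G θ {u} (fd X ω)) ∂P := by
        refine integral_mono_of_nonneg (Filter.Eventually.of_forall fun ω => ?_)
          (K.const_mul 2) (Filter.Eventually.of_forall hpt)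
        exact mul_nonneg (zf_pos h0 h1 (h.posf ω) _).le (sq_nonneg _)
    _ = _ := by rw [integral_const_mul, J', zf_singleton h u, mul_one]

/-- **Volume comparison** under the planted law. -/
theorem vol_comp (hT : G.IsTree) (h : FieldData P X) (h0 : 0 ≤ θ) (h2 : θ ^ 2 ≤ 1 / 2)
    {S0 : Finset V} (hc0 : Cvx G S0) {v : V} (hv : v ∈ S0) {I : ℝ} (hI1 : I ≤ 40) :
    ∀ S : Finset V, Cvx G S → S0 ⊆ S → (∀ u ∈ S, I ≤ own P X G θ u) →
      ∫ ω, zf G θ S (fd X ω) * (magf G θ S (fd X ω) v - magf G θ S0 (fd X ω) v) ^ 2 ∂P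
        ≤ ∑ u ∈ S \ S0, 2 * (θ ^ 2 * (1 - I / 40)) ^ (G.dist v u - 1) := by
  have h1 := theta_lt_one h0 h2
  intro S
  induction hn : S.card using Nat.strong_induction_on generalizing S with
  | _ n ih =>
    intro hS hsub hI
    by_cases hne : S0 = S
    · subst hne
      simp
    · obtain ⟨u, huS, hu0, huv, hpar, hcv, hsub', hE, hU⟩ := exists_leaf hT hc0 hS hsub hne hv
      have hv' : v ∈ S.erase u := hsub' hv
      have hI' : ∀ w ∈ S.erase u, I ≤ own P X G θ w := fun w hw => hI w (Finset.mem_of_mem_erase hw)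
      have ihS := ih _ (by rw [← hn]; exact Finset.card_erase_lt_of_mem huS) (S.erase u) rfl hcv
        hsub' hI'
      have e1 := energy hT h h0 h1 hc0 hv hS hsub
      have e2 := energy hT h h0 h1 hc0 hv hcv hsub'
      have e3 := energy hT h h0 h1 hcv hv' hS (Finset.erase_subset u S)
      have e4 := incr_sq_le h h0 h2 hE hv'
      rw [hU] at e4
      have e5 := cov_sq_le hT h h0 h2 hcv hv' hpar hI1 hI'
      have e6 := par_dist hT huv
      have e7 : G.dist v (par G v u) = G.dist v u - 1 := by omega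
      rw [e7] at e5
      have hsd : S \ S0 = insert u (S.erase u \ S0) := by
        ext w
        simp only [Finset.mem_sdiff, Finset.mem_insert, Finset.mem_erase]
        constructor
        · rintro ⟨a, b⟩
          by_cases hw : w = u
          · exact Or.inl hw
          · exact Or.inr ⟨⟨hw, a⟩, b⟩
        · rintro (rfl | ⟨⟨_, a⟩, b⟩)
          · exact ⟨huS, hu0⟩
          · exact ⟨a, b⟩
      rw [hsd, Finset.sum_insert (by simp)]
      linarith

end

end Crest.Agent.R160.PathBound
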