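import Mathlib
import Crest.Agent.R160.LawCont1
import Crest.Agent.R160.VolComp
import Crest.Agent.R160.StaticBridge
import Crest.Agent.R160.StaticRec
import Crest.Agent.R160.StaticMom
import Crest.Agent.R160.VolLim
import Crest.Agent.R160.Kern
import Crest.Agent.R160.H0Conc
import Crest.Agent.R160.H0
import Crest.Agent.R160.Energy
import Crest.Agent.R160.MinfBasic
import Crest.Agent.R160.StaticOne

/-! Row 160: continuity in law at the critical parameter, uniformly in `t ≥ t0`. -/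

set_option autoImplicit false

open MeasureTheory Finset Filter
open scoped Classical Topology

namespace Crest.Agent.R160.LawCont

open Crest.Agent.R160 Crest.Agent.R160.TreeAut Crest.Agent.R160.Static

variable {V : Type*} {G : SimpleGraph V} [G.LocallyFinite] {Φ : ℝ → ℝ → ℝ}

/-- the error of the volume comparison -/
noncomputable def BN (b : ℕ) (I : ℝ) (N : ℕ) : ℝ :=
  2 / ((1 - I / 40) / b) * (2 * (1 - (1 - I / 40))⁻¹ * (1 - I / 40) ^ N)

lemma tendsto_BN (b : ℕ) {I : ℝ} (hI0 : 0 < I) (hI1 : I ≤ 1) :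
    Tendsto (BN b I) atTop (𝓝 0) := by
  unfold BN
  have h1 : Tendsto (fun N : ℕ => (1 - I / 40) ^ N) atTop (𝓝 0) :=
    tendsto_pow_atTop_nhds_zero_of_lt_one (by linarith) (by linarith)
  have h2 := (h1.const_mul (2 * (1 - (1 - I / 40))⁻¹)).const_mul (2 / ((1 - I / 40) / b))
  simpa using h2

lemma sum_far (hT : G.IsTree) {b : ℕ} (hb : 2 ≤ b) (hreg : G.IsRegularOfDegree (b + 1)) {θ I : ℝ}
    (_h0 : 0 ≤ θ) (hbθ : (b : ℝ) * θ ^ 2 ≤ 1) (hI0 : 0 < I) (hI1 : I ≤ 1) (v : V) (S : Finset V)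
    {N : ℕ} (hN : 1 ≤ N) (hS : ∀ u ∈ S, N ≤ G.dist v u) :
    ∑ u ∈ S, 2 * (θ ^ 2 * (1 - I / 40)) ^ (G.dist v u - 1) ≤ BN b I N := by
  have hb' : (2 : ℝ) ≤ b := by exact_mod_cast hb
  have hb0 : (0 : ℝ) < b := by linarith
  have hc : 0 < 1 - I / 40 := by linarith
  set q := (1 - I / 40) / b with hq
  have hq0 : 0 < q := div_pos hc hb0
  have hbq : (b : ℝ) * q = 1 - I / 40 := by rw [hq]; field_simp
  have hθq : θ ^ 2 * (1 - I / 40) ≤ q := by
    rw [hq, le_div_iff₀ hb0]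
    nlinarith
  have h1 : ∀ u ∈ S, 2 * (θ ^ 2 * (1 - I / 40)) ^ (G.dist v u - 1) ≤
      2 / q * q ^ (G.dist v u) := by
    intro u hu
    have h2 := hS u hu
    have h3 : q ^ (G.dist v u) = q ^ (G.dist v u - 1) * q := by
      rw [← pow_succ]; congr 1; omega
    rw [h3]
    have h4 : (θ ^ 2 * (1 - I / 40)) ^ (G.dist v u - 1) ≤ q ^ (G.dist v u - 1) :=
      pow_le_pow_left₀ (by positivity) hθq _
    have h5 : 2 / q * (q ^ (G.dist v u - 1) * q) = 2 * q ^ (G.dist v u - 1) := by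
      field_simp
    rw [h5]
    linarith
  have hd : ((b + 1 : ℕ) : ℝ) - 1 = b := by push_cast; ring
  have h2 := Kern.sum_far_le hT hreg (by omega) hq0.le (by rw [hd, hbq]; linarith) v S N hS
  rw [hd, hbq] at h2
  calc ∑ u ∈ S, 2 * (θ ^ 2 * (1 - I / 40)) ^ (G.dist v u - 1)
      ≤ ∑ u ∈ S, 2 / q * q ^ (G.dist v u) := Finset.sum_le_sum h1
    _ = 2 / q * ∑ u ∈ S, q ^ (G.dist v u) := by rw [Finset.mul_sum]
    _ ≤ 2 / q * (2 * (1 - (1 - I / 40))⁻¹ * (1 - I / 40) ^ N) :=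
        mul_le_mul_of_nonneg_left h2 (by positivity)
    _ = BN b I N := rfl

lemma int_lin {Ω : Type*} [MeasurableSpace Ω] {P : Measure Ω} {f g h : Ω → ℝ}
    (hf : Integrable f P) (hg : Integrable g P) (hh : Integrable h P) (a c : ℝ) :
    ∫ ω, (a * f ω + c * (g ω + h ω)) ∂P = a * ∫ ω, f ω ∂P + c * (∫ ω, g ω ∂P + ∫ ω, h ω ∂P) := by
  have h1 : Integrable (fun ω => a * f ω) P := hf.const_mul a
  have h2 : Integrable (fun ω => c * (g ω + h ω)) P := (hg.add hh).const_mul c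
  have h3 : ∫ ω, (g ω + h ω) ∂P = ∫ ω, g ω ∂P + ∫ ω, h ω ∂P := integral_add hg hh
  rw [integral_add h1 h2, integral_const_mul, integral_const_mul, h3]

/-- volume comparison of the law of two magnetizations -/
lemma vol_law (hT : G.IsTree) {b : ℕ} (hb : 2 ≤ b) (hreg : G.IsRegularOfDegree (b + 1))
    (hΦ : Continuous (Function.uncurry Φ)) {θ I t : ℝ}
    (h0 : 0 ≤ θ) (hbθ : (b : ℝ) * θ ^ 2 ≤ 1) (hI0 : 0 < I) (hI1 : I ≤ 1)
    (hown : ∀ v, I ≤ Static.qq (PP V) (Bridge.nfl t) G θ {v} v) {x y : V} (hxy : G.Adj x y)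
    {ε K : ℝ} (hK0 : 0 ≤ K)
    (hK : ∀ a b a' b' : ℝ, |a| ≤ 1 → |b| ≤ 1 → |a'| ≤ 1 → |b'| ≤ 1 →
      |Φ a b - Φ a' b'| ≤ ε + K * ((a - a') ^ 2 + (b - b') ^ 2))
    {N n : ℕ} (hN : 1 ≤ N) (hNn : N ≤ n) :
    |∫ ω, Φ (mfin G θ (bal G x n) ω t x) (mfin G θ (bal G x n) ω t y) ∂(PP V)
      - ∫ ω, Φ (mfin G θ (bal G x N) ω t x) (mfin G θ (bal G x N) ω t y) ∂(PP V)|
      ≤ ε + K * (2 * BN b I N) := by
  have h1 := theta_lt_one' hb h0 hbθ
  have h2 := theta_sq_le_half hb hbθ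
  have habs : |θ| < 1 := by rwa [abs_of_nonneg h0]
  obtain ⟨M, hM0, hM⟩ := exists_bound hΦ
  have hΦm : Measurable (Function.uncurry Φ) := hΦ.measurable
  have h := Bridge.fieldData (V := V) t
  -- the functional in field form
  have hmeas : ∀ S : Finset V, Measurable fun f : V → ℝ × ℝ =>
      Φ (magf G θ S f x) (magf G θ S f y) := fun S =>
    hΦm.comp ((measurable_magf S x).prodMk (measurable_magf S y))
  have hdep : ∀ S : Finset V, DependsOn (fun f : V → ℝ × ℝ =>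
      Φ (magf G θ S f x) (magf G θ S f y)) (S : Set V) := by
    intro S f g hfg
    have a1 := dependsOn_magf (G := G) (θ := θ) S x hfg
    have a2 := dependsOn_magf (G := G) (θ := θ) S y hfg
    simp only at a1 a2 ⊢
    rw [a1, a2]
  have hbd : ∀ (S : Finset V) (f : V → ℝ × ℝ), Pos f →
      |Φ (magf G θ S f x) (magf G θ S f y)| ≤ M := fun S f hf =>
    hM _ _ (abs_magf_le' h0 h1 hf S x) (abs_magf_le' h0 h1 hf S y)
  have hpl : ∀ S : Finset V, ∫ ω, Φ (mfin G θ S ω t x) (mfin G θ S ω t y) ∂(PP V) =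
      ∫ ω, zf G θ S (fd (Bridge.nfl t) ω) *
        Φ (magf G θ S (fd (Bridge.nfl t) ω) x) (magf G θ S (fd (Bridge.nfl t) ω) y) ∂(PP V) := by
    intro S
    rw [← Bridge.planted_formula' hT habs S t (hmeas S) (hdep S)
      ⟨M, fun f hf => hbd S f hf.pos⟩]
    refine integral_congr_ae (Eventually.of_forall fun ω => ?_)
    simp only [Bridge.mfin_eq]
  have hcN : PathBound.Cvx G (bal G x N) := Vol.GC_bal hT x N
  have hcn : PathBound.Cvx G (bal G x n) := Vol.GC_bal hT x n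
  have hsub : bal G x N ⊆ bal G x n := by
    intro w hw
    rw [mem_bal hT] at hw ⊢
    omega
  have hxN : x ∈ bal G x N := by rw [mem_bal hT, SimpleGraph.dist_self]; omega
  have hyN : y ∈ bal G x N := by
    rw [mem_bal hT, SimpleGraph.dist_eq_one_iff_adj.mpr hxy]; omega
  have hrest := PathBound.restrict hT h h0 h1 hcN hxN (hmeas (bal G x N)) (hdep (bal G x N))
    ⟨M, fun ω => hbd _ _ (h.posf ω)⟩ (bal G x n) hcn hsub
  rw [hpl, hpl, ← hrest]
  -- integrability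
  have i1 : ∀ S, Integrable (fun ω => zf G θ (bal G x n) (fd (Bridge.nfl t) ω) *
      Φ (magf G θ S (fd (Bridge.nfl t) ω) x) (magf G θ S (fd (Bridge.nfl t) ω) y)) (PP V) := fun S =>
    h.integrable ((measurable_zf (bal G x n)).mul (hmeas S))
      ((h.bdd_zf (bal G x n)).mul ⟨M, fun ω => hbd S _ (h.posf ω)⟩)
  have i2 : ∀ v, Integrable (fun ω => zf G θ (bal G x n) (fd (Bridge.nfl t) ω) *
      (magf G θ (bal G x n) (fd (Bridge.nfl t) ω) v - magf G θ (bal G x N) (fd (Bridge.nfl t) ω) v) ^ 2)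
      (PP V) := by
    intro v
    refine h.integrable ((measurable_zf (bal G x n)).mul
      (((measurable_magf (bal G x n) v).sub (measurable_magf (bal G x N) v)).pow_const 2))
      ((h.bdd_zf (bal G x n)).mul ⟨4, fun ω => ?_⟩)
    have b1 := abs_magf_le' (G := G) h0 h1 (h.posf ω) (bal G x n) v
    have b2 := abs_magf_le' (G := G) h0 h1 (h.posf ω) (bal G x N) v
    rw [abs_pow]
    calc |magf G θ (bal G x n) (fd (Bridge.nfl t) ω) v - magf G θ (bal G x N) (fd (Bridge.nfl t) ω) v| ^ 2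
        ≤ 2 ^ 2 := by
          apply pow_le_pow_left₀ (abs_nonneg _)
          refine (abs_sub _ _).trans ?_
          linarith
      _ = 4 := by norm_num
  have i3 : Integrable (fun ω => zf G θ (bal G x n) (fd (Bridge.nfl t) ω)) (PP V) :=
    h.integrable (measurable_zf _) (h.bdd_zf _)
  have hv : ∀ v ∈ bal G x N, (∀ u ∈ bal G x n \ bal G x N, N ≤ G.dist v u) →
      ∫ ω, zf G θ (bal G x n) (fd (Bridge.nfl t) ω) *
      (magf G θ (bal G x n) (fd (Bridge.nfl t) ω) v - magf G θ (bal G x N) (fd (Bridge.nfl t) ω) v) ^ 2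
      ∂(PP V) ≤ BN b I N := by
    intro v hvN hvd
    refine (PathBound.vol_comp hT h h0 h2 hcN hvN (by linarith : I ≤ 40) (bal G x n) hcn hsub
      (fun u _ => hown u)).trans ?_
    exact sum_far hT hb hreg h0 hbθ hI0 hI1 v _ hN hvd
  have hfar : ∀ u ∈ bal G x n \ bal G x N, N + 1 ≤ G.dist x u := by
    intro u hu
    rw [Finset.mem_sdiff, mem_bal hT, mem_bal hT] at hu
    omega
  have hx := hv x hxN fun u hu => by have := hfar u hu; omega
  have hy := hv y hyN fun u hu => by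
    have h3 := hfar u hu
    have h4 : G.dist x u ≤ G.dist x y + G.dist y u := hT.connected.dist_triangle
    rw [SimpleGraph.dist_eq_one_iff_adj.mpr hxy] at h4
    omega
  rw [← integral_sub (i1 _) (i1 _)]
  refine abs_integral_le_integral_abs.trans ?_
  have hle : ∀ ω, |zf G θ (bal G x n) (fd (Bridge.nfl t) ω) *
        Φ (magf G θ (bal G x n) (fd (Bridge.nfl t) ω) x) (magf G θ (bal G x n) (fd (Bridge.nfl t) ω) y) -
      zf G θ (bal G x n) (fd (Bridge.nfl t) ω) *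
        Φ (magf G θ (bal G x N) (fd (Bridge.nfl t) ω) x) (magf G θ (bal G x N) (fd (Bridge.nfl t) ω) y)|
      ≤ ε * zf G θ (bal G x n) (fd (Bridge.nfl t) ω) + K * (zf G θ (bal G x n) (fd (Bridge.nfl t) ω) *
        (magf G θ (bal G x n) (fd (Bridge.nfl t) ω) x - magf G θ (bal G x N) (fd (Bridge.nfl t) ω) x) ^ 2 +
        zf G θ (bal G x n) (fd (Bridge.nfl t) ω) *
        (magf G θ (bal G x n) (fd (Bridge.nfl t) ω) y - magf G θ (bal G x N) (fd (Bridge.nfl t) ω) y) ^ 2) := by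
    intro ω
    have hz := (zf_pos (G := G) h0 h1 (h.posf ω) (bal G x n)).le
    rw [← mul_sub, abs_mul, abs_of_nonneg hz]
    have := hK _ _ _ _ (abs_magf_le' (G := G) h0 h1 (h.posf ω) (bal G x n) x)
      (abs_magf_le' (G := G) h0 h1 (h.posf ω) (bal G x n) y)
      (abs_magf_le' (G := G) h0 h1 (h.posf ω) (bal G x N) x)
      (abs_magf_le' (G := G) h0 h1 (h.posf ω) (bal G x N) y)
    calc _ ≤ zf G θ (bal G x n) (fd (Bridge.nfl t) ω) * _ := mul_le_mul_of_nonneg_left this hz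
      _ = _ := by ring
  have iR : Integrable (fun ω => ε * zf G θ (bal G x n) (fd (Bridge.nfl t) ω) +
      K * (zf G θ (bal G x n) (fd (Bridge.nfl t) ω) *
        (magf G θ (bal G x n) (fd (Bridge.nfl t) ω) x - magf G θ (bal G x N) (fd (Bridge.nfl t) ω) x) ^ 2 +
        zf G θ (bal G x n) (fd (Bridge.nfl t) ω) *
        (magf G θ (bal G x n) (fd (Bridge.nfl t) ω) y - magf G θ (bal G x N) (fd (Bridge.nfl t) ω) y) ^ 2))
      (PP V) := (i3.const_mul ε).add (((i2 x).add (i2 y)).const_mul K)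
  calc ∫ ω, |zf G θ (bal G x n) (fd (Bridge.nfl t) ω) *
        Φ (magf G θ (bal G x n) (fd (Bridge.nfl t) ω) x) (magf G θ (bal G x n) (fd (Bridge.nfl t) ω) y) -
      zf G θ (bal G x n) (fd (Bridge.nfl t) ω) *
        Φ (magf G θ (bal G x N) (fd (Bridge.nfl t) ω) x) (magf G θ (bal G x N) (fd (Bridge.nfl t) ω) y)| ∂(PP V)
      ≤ _ := integral_mono ((i1 _).sub (i1 _)).abs iR hle
    _ = ε * 1 + K * ((∫ ω, zf G θ (bal G x n) (fd (Bridge.nfl t) ω) *
        (magf G θ (bal G x n) (fd (Bridge.nfl t) ω) x - magf G θ (bal G x N) (fd (Bridge.nfl t) ω) x) ^ 2 ∂(PP V)) +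
        ∫ ω, zf G θ (bal G x n) (fd (Bridge.nfl t) ω) *
        (magf G θ (bal G x n) (fd (Bridge.nfl t) ω) y - magf G θ (bal G x N) (fd (Bridge.nfl t) ω) y) ^ 2
          ∂(PP V)) := by
        rw [int_lin i3 (i2 x) (i2 y) ε K, PathBound.zf_one hT h h0 h1 hcn (hsub hxN)]
    _ ≤ ε + K * (2 * BN b I N) := by
        rw [mul_one]
        have : K * ((∫ ω, zf G θ (bal G x n) (fd (Bridge.nfl t) ω) *
          (magf G θ (bal G x n) (fd (Bridge.nfl t) ω) x - magf G θ (bal G x N) (fd (Bridge.nfl t) ω) x) ^ 2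
            ∂(PP V)) + ∫ ω, zf G θ (bal G x n) (fd (Bridge.nfl t) ω) *
          (magf G θ (bal G x n) (fd (Bridge.nfl t) ω) y - magf G θ (bal G x N) (fd (Bridge.nfl t) ω) y) ^ 2
            ∂(PP V)) ≤ K * (2 * BN b I N) :=
          mul_le_mul_of_nonneg_left (by linarith) hK0
        linarith

lemma fin_sub_le {Φ : ℝ → ℝ → ℝ} (hΦ : Continuous (Function.uncurry Φ)) {m m' : V → Om V → ℝ}
    (hm : ∀ v, Measurable (m v)) (hm' : ∀ v, Measurable (m' v)) {x y : V}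
    (hb : ∀ v, v = x ∨ v = y → ∀ ω, |m v ω| ≤ 1) (hb' : ∀ v, v = x ∨ v = y → ∀ ω, |m' v ω| ≤ 1)
    {ε K D : ℝ} (hK0 : 0 ≤ K)
    (hK : ∀ a b a' b' : ℝ, |a| ≤ 1 → |b| ≤ 1 → |a'| ≤ 1 → |b'| ≤ 1 →
      |Φ a b - Φ a' b'| ≤ ε + K * ((a - a') ^ 2 + (b - b') ^ 2))
    (hx : ∫ ω, (m x ω - m' x ω) ^ 2 ∂(PP V) ≤ D) (hy : ∫ ω, (m y ω - m' y ω) ^ 2 ∂(PP V) ≤ D) :
    |∫ ω, Φ (m x ω) (m y ω) ∂(PP V) - ∫ ω, Φ (m' x ω) (m' y ω) ∂(PP V)| ≤ ε + K * (2 * D) := by
  obtain ⟨M, hM0, hM⟩ := exists_bound hΦ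
  have hΦm : Measurable (Function.uncurry Φ) := hΦ.measurable
  have i1 : Integrable (fun ω => Φ (m x ω) (m y ω)) (PP V) :=
    Integrable.of_bound (hΦm.comp ((hm x).prodMk (hm y))).aestronglyMeasurable M
      (Eventually.of_forall fun ω => hM _ _ (hb x (Or.inl rfl) ω) (hb y (Or.inr rfl) ω))
  have i2 : Integrable (fun ω => Φ (m' x ω) (m' y ω)) (PP V) :=
    Integrable.of_bound (hΦm.comp ((hm' x).prodMk (hm' y))).aestronglyMeasurable M
      (Eventually.of_forall fun ω => hM _ _ (hb' x (Or.inl rfl) ω) (hb' y (Or.inr rfl) ω))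
  have i3 : ∀ v, v = x ∨ v = y → Integrable (fun ω => (m v ω - m' v ω) ^ 2) (PP V) := by
    intro v hv
    refine Integrable.of_bound (((hm v).sub (hm' v)).pow_const 2).aestronglyMeasurable (2 ^ 2)
      (Eventually.of_forall fun ω => ?_)
    rw [Real.norm_eq_abs, abs_pow]
    exact pow_le_pow_left₀ (abs_nonneg _)
      ((abs_sub _ _).trans (by linarith [hb v hv ω, hb' v hv ω])) 2
  rw [← integral_sub i1 i2]
  refine abs_integral_le_integral_abs.trans ?_
  have i0 : Integrable (fun _ : Om V => (1 : ℝ)) (PP V) := integrable_const 1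
  have hlin := int_lin i0 (i3 x (Or.inl rfl)) (i3 y (Or.inr rfl)) ε K
  calc ∫ ω, |Φ (m x ω) (m y ω) - Φ (m' x ω) (m' y ω)| ∂(PP V)
      ≤ ∫ ω, (ε * 1 + K * ((m x ω - m' x ω) ^ 2 + (m y ω - m' y ω) ^ 2)) ∂(PP V) := by
        refine integral_mono (i1.sub i2).abs
          ((i0.const_mul ε).add (((i3 x (Or.inl rfl)).add (i3 y (Or.inr rfl))).const_mul K))
          fun ω => ?_
        have := hK _ _ _ _ (hb x (Or.inl rfl) ω) (hb y (Or.inr rfl) ω) (hb' x (Or.inl rfl) ω)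
          (hb' y (Or.inr rfl) ω)
        simpa using this
    _ = _ := hlin
    _ ≤ ε + K * (2 * D) := by
        have h1 : ∫ _ω : Om V, (1 : ℝ) ∂(PP V) = 1 := by simp
        rw [h1, mul_one]
        have : K * (∫ ω, (m x ω - m' x ω) ^ 2 ∂(PP V) + ∫ ω, (m y ω - m' y ω) ^ 2 ∂(PP V)) ≤
          K * (2 * D) := mul_le_mul_of_nonneg_left (by linarith) hK0
        linarith

lemma vol_inf (hT : G.IsTree) {b : ℕ} (hb : 2 ≤ b) (hreg : G.IsRegularOfDegree (b + 1))
    (hΦ : Continuous (Function.uncurry Φ)) {θ I t : ℝ}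
    (h0 : 0 ≤ θ) (hbθ : (b : ℝ) * θ ^ 2 < 1) (hI0 : 0 < I) (hI1 : I ≤ 1) (ht : 0 ≤ t)
    (hown : ∀ v, I ≤ Static.qq (PP V) (Bridge.nfl t) G θ {v} v) {x y : V} (hxy : G.Adj x y)
    {ε K : ℝ} (hK0 : 0 ≤ K)
    (hK : ∀ a b a' b' : ℝ, |a| ≤ 1 → |b| ≤ 1 → |a'| ≤ 1 → |b'| ≤ 1 →
      |Φ a b - Φ a' b'| ≤ ε + K * ((a - a') ^ 2 + (b - b') ^ 2))
    {N : ℕ} (hN : 1 ≤ N) :
    |∫ ω, Φ (minf G θ t x ω) (minf G θ t y ω) ∂(PP V)
      - ∫ ω, Φ (mfin G θ (bal G x N) ω t x) (mfin G θ (bal G x N) ω t y) ∂(PP V)|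
      ≤ ε + K * (2 * BN b I N) := by
  have hlt := theta_lt_one' hb h0 hbθ.le
  have habs : |θ| < 1 := by rwa [abs_of_nonneg h0]
  obtain ⟨C, la, hC, hla, hL⟩ := vol_limit hT hb hreg h0 hbθ t
  set W : Finset V := {x, y} with hW
  have hxW : x ∈ W := by simp [hW]
  have hyW : y ∈ W := by simp [hW]
  have hH : Continuous fun f : W → ℝ => Φ (f ⟨x, hxW⟩) (f ⟨y, hyW⟩) := by
    have hc : Continuous fun f : W → ℝ => ((f ⟨x, hxW⟩, f ⟨y, hyW⟩) : ℝ × ℝ) := by fun_prop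
    exact hΦ.comp hc
  have hlim := Bridge.tendsto_integral_minf (G := G) (θ := θ) (t := t) x W
    (fun n w _ ω => abs_mfin_le G habs _ ω t w)
    (fun w _ ω => abs_minf_le h0 hlt t w ω)
    (fun n w _ => measurable_mfin G θ _ t w) (fun w _ => measurable_minf G θ t w)
    (fun w hw => by
      have hd : G.dist x w ≤ 1 := by
        rw [hW, Finset.mem_insert, Finset.mem_singleton] at hw
        rcases hw with rfl | rfl
        · rw [SimpleGraph.dist_self]; omega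
        · rw [SimpleGraph.dist_eq_one_iff_adj.mpr hxy]
      have h1 : Tendsto (fun n : ℕ => C * Real.exp (-la * ((n - 1 : ℕ) : ℝ))) atTop (𝓝 0) := by
        have h2 : Tendsto (fun n : ℕ => -la * ((n - 1 : ℕ) : ℝ)) atTop atBot := by
          have h3 : Tendsto (fun n : ℕ => ((n - 1 : ℕ) : ℝ)) atTop atTop :=
            tendsto_natCast_atTop_atTop.comp (tendsto_sub_atTop_nat 1)
          exact h3.const_mul_atTop_of_neg (by linarith)
        simpa using (Real.tendsto_exp_atBot.comp h2).const_mul C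
      refine tendsto_of_tendsto_of_tendsto_of_le_of_le' tendsto_const_nhds h1
        (Eventually.of_forall fun n => integral_nonneg fun ω => sq_nonneg _) ?_
      filter_upwards [eventually_ge_atTop 1] with n hn
      refine hL t ht le_rfl w x n (n - 1) ?_
      intro u hu
      rw [mem_bal hT] at hu ⊢
      have h4 : G.dist x u ≤ G.dist x w + G.dist w u := hT.connected.dist_triangle
      omega) hH
  have hlim2 := ((hlim.sub_const (∫ ω, Φ (mfin G θ (bal G x N) ω t x)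
    (mfin G θ (bal G x N) ω t y) ∂(PP V)))).abs
  refine le_of_tendsto hlim2 ?_
  filter_upwards [eventually_ge_atTop N] with n hn
  exact vol_law hT hb hreg hΦ h0 hbθ.le hI0 hI1 hown hxy hK0 hK hN hn

theorem law_cont_aux (hT : G.IsTree) {b : ℕ} (hb : 2 ≤ b) (hreg : G.IsRegularOfDegree (b + 1))
    (t0 I : ℝ) (ht0 : 0 < t0) (hI0 : 0 < I) (hI1 : I ≤ 1)
    (hown : ∀ θ, 0 ≤ θ → (b : ℝ) * θ ^ 2 ≤ 1 → ∀ t, t0 ≤ t → ∀ v,
      I ≤ Static.qq (PP V) (Bridge.nfl t) G θ {v} v)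
    (Φ : ℝ → ℝ → ℝ) (hΦ : Continuous (Function.uncurry Φ)) (x y : V)
    (hxy : G.Adj x y) (ε : ℝ) (hε : 0 < ε) :
    ∃ δ, 0 < δ ∧ ∀ θ θ', thc b - δ < θ → θ < thc b → thc b - δ < θ' → θ' < thc b →
      ∀ t, t0 ≤ t →
      |∫ ω, Φ (minf G θ t x ω) (minf G θ t y ω) ∂(PP V)
        - ∫ ω, Φ (minf G θ' t x ω) (minf G θ' t y ω) ∂(PP V)| ≤ ε := by
  set e := ε / 10 with he
  have he0 : 0 < e := by positivity
  obtain ⟨K, hK0, hK⟩ := exists_quad hΦ he0
  obtain ⟨C, c, hC, hc, hconc⟩ := H0.conc hT hb hreg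
  -- the volume
  obtain ⟨N, hN1, hN⟩ : ∃ N : ℕ, 1 ≤ N ∧ K * (2 * BN b I N) ≤ e := by
    have h1 := ((tendsto_BN b hI0 hI1).const_mul 2).const_mul K
    simp only [mul_zero] at h1
    obtain ⟨N, hN⟩ := ((h1.eventually_le_const he0).and (eventually_ge_atTop 1)).exists
    exact ⟨N, hN.2, hN.1⟩
  -- the time
  obtain ⟨R, hR1, hR⟩ : ∃ R : ℕ, t0 ≤ R ∧ K * (2 * (C * Real.exp (-c * (R : ℝ)))) ≤ e := by
    have h2 : Tendsto (fun n : ℕ => -c * (n : ℝ)) atTop atBot :=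
      tendsto_natCast_atTop_atTop.const_mul_atTop_of_neg (by linarith)
    have h1 := ((((Real.tendsto_exp_atBot.comp h2).const_mul C).const_mul 2).const_mul K)
    simp only [mul_zero] at h1
    obtain ⟨R, hR⟩ := ((h1.eventually_le_const he0).and
      (tendsto_natCast_atTop_atTop.eventually_ge_atTop t0)).exists
    exact ⟨R, hR.2, hR.1⟩
  have hb0 : (0 : ℝ) < b := by exact_mod_cast (by omega : 0 < b)
  have hthc0 : 0 < thc b := by unfold thc; positivity
  have hthc2 : (b : ℝ) * thc b ^ 2 = 1 := by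
    unfold thc
    rw [div_pow, one_pow, Real.sq_sqrt hb0.le]
    field_simp
  have hthc1 : |thc b| < 1 := by
    rw [abs_of_pos hthc0]
    exact theta_lt_one' hb hthc0.le hthc2.le
  obtain ⟨δ, hδ, hfin⟩ := fin_cont (G := G) (bal G x N) hΦ x y hthc1 R he0
  refine ⟨min δ (thc b), lt_min hδ hthc0, ?_⟩
  have key : ∀ θ, thc b - min δ (thc b) < θ → θ < thc b → ∀ t, t0 ≤ t →
      |∫ ω, Φ (minf G θ t x ω) (minf G θ t y ω) ∂(PP V)
        - ∫ ω, Φ (mfin G (thc b) (bal G x N) ω (min t R) x)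
          (mfin G (thc b) (bal G x N) ω (min t R) y) ∂(PP V)| ≤ 5 * e := by
    intro θ h1 h2 t ht
    have h3 : min δ (thc b) ≤ δ := min_le_left _ _
    have h4 : min δ (thc b) ≤ thc b := min_le_right _ _
    have hθ0 : 0 ≤ θ := by linarith
    have hbθ : (b : ℝ) * θ ^ 2 < 1 := by
      rw [← hthc2]
      exact mul_lt_mul_of_pos_left (pow_lt_pow_left₀ h2 hθ0 (by norm_num)) hb0
    have hθ1 := theta_lt_one' hb hθ0 hbθ.le
    have habs : |θ| < 1 := by rwa [abs_of_nonneg hθ0]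
    have a1 := vol_inf hT hb hreg hΦ hθ0 hbθ hI0 hI1 (by linarith)
      (fun v => hown θ hθ0 hbθ.le t ht v) hxy hK0 hK hN1
    have a2 : |∫ ω, Φ (mfin G θ (bal G x N) ω t x) (mfin G θ (bal G x N) ω t y) ∂(PP V)
        - ∫ ω, Φ (mfin G θ (bal G x N) ω (min t R) x)
          (mfin G θ (bal G x N) ω (min t R) y) ∂(PP V)| ≤ 2 * e := by
      by_cases htR : t ≤ R
      · rw [min_eq_left htR, sub_self, abs_zero]; positivity
      · push Not at htR
        rw [min_eq_right htR.le]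
        have hD : ∀ v ∈ bal G x N, ∫ ω, (mfin G θ (bal G x N) ω t v
            - mfin G θ (bal G x N) ω R v) ^ 2 ∂(PP V) ≤ C * Real.exp (-c * (R : ℝ)) := fun v hv =>
          (time_incr_mfin G (bal G x N) habs htR.le v).trans
            (hconc θ hθ0 hbθ.le R (Nat.cast_nonneg R) x v N hv)
        have hxN : x ∈ bal G x N := by rw [mem_bal hT, SimpleGraph.dist_self]; omega
        have hyN : y ∈ bal G x N := by
          rw [mem_bal hT, SimpleGraph.dist_eq_one_iff_adj.mpr hxy]; omega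
        have := fin_sub_le (m := fun v ω => mfin G θ (bal G x N) ω t v)
          (m' := fun v ω => mfin G θ (bal G x N) ω R v) hΦ
          (fun v => measurable_mfin G θ _ t v) (fun v => measurable_mfin G θ _ R v)
          (x := x) (y := y)
          (fun v _ ω => abs_mfin_le G habs _ ω t v) (fun v _ ω => abs_mfin_le G habs _ ω R v)
          hK0 hK (hD x hxN) (hD y hyN)
        linarith
    have a3 := hfin θ (by rw [abs_lt]; constructor <;> linarith) (min t R) (min_le_right _ _)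
    set A := ∫ ω, Φ (minf G θ t x ω) (minf G θ t y ω) ∂(PP V)
    set B := ∫ ω, Φ (mfin G θ (bal G x N) ω t x) (mfin G θ (bal G x N) ω t y) ∂(PP V)
    set B' := ∫ ω, Φ (mfin G θ (bal G x N) ω (min t R) x)
          (mfin G θ (bal G x N) ω (min t R) y) ∂(PP V)
    set B'' := ∫ ω, Φ (mfin G (thc b) (bal G x N) ω (min t R) x)
          (mfin G (thc b) (bal G x N) ω (min t R) y) ∂(PP V)
    have e1 : A - B'' = (A - B) + (B - B') + (B' - B'') := by ring
    rw [e1]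
    refine (abs_add_three _ _ _).trans ?_
    linarith
  intro θ θ' h1 h2 h1' h2' t ht
  have k1 := key θ h1 h2 t ht
  have k2 := key θ' h1' h2' t ht
  rw [abs_le] at k1 k2 ⊢
  constructor <;> linarith [k1.1, k1.2, k2.1, k2.2]

/-- continuity in law at `thc b` (two adjacent vertices), UNIFORM in `t ≥ t0` -/
theorem law_cont (hT : G.IsTree) {b : ℕ} (hb : 2 ≤ b) (hreg : G.IsRegularOfDegree (b + 1))
    (t0 : ℝ) (ht0 : 0 < t0) (Φ : ℝ → ℝ → ℝ) (hΦ : Continuous (Function.uncurry Φ)) (x y : V)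
    (hxy : G.Adj x y) (ε : ℝ) (hε : 0 < ε) :
    ∃ δ, 0 < δ ∧ ∀ θ θ', thc b - δ < θ → θ < thc b → thc b - δ < θ' → θ' < thc b →
      ∀ t, t0 ≤ t →
      |∫ ω, Φ (minf G θ t x ω) (minf G θ t y ω) ∂(PP V)
        - ∫ ω, Φ (minf G θ' t x ω) (minf G θ' t y ω) ∂(PP V)| ≤ ε := by
  have h1 : 0 < min t0 (1 / 2) := lt_min ht0 (by norm_num)
  have h2 : min t0 (1 / 2) ≤ 1 / 2 := min_le_right _ _
  refine law_cont_aux hT hb hreg t0 ((min t0 (1 / 2)) ^ 3 / 36) ht0 (by positivity) ?_ ?_ Φ hΦ x y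
    hxy ε hε
  · have : (min t0 (1 / 2)) ^ 3 ≤ (1 / 2 : ℝ) ^ 3 := pow_le_pow_left₀ h1.le h2 3
    linarith
  · intro θ _ _ t ht v
    refine le_trans ?_ (One.qq_one_lower (by linarith) v)
    have : (min t0 (1 / 2)) ^ 3 ≤ (min t (1 / 2)) ^ 3 :=
      pow_le_pow_left₀ h1.le (min_le_min_right _ ht) 3
    linarith

end Crest.Agent.R160.LawCont
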