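import Mathlib
import Crest.Agent.R160.StaticTail
import Crest.Agent.R160.StaticMom
import Crest.Agent.R160.StaticBridge
import Crest.Agent.R160.VolLim
import Crest.Agent.R160.MinfBasic

/-! Row 160, module E: the tail of the magnetization at small times. -/

set_option autoImplicit false
set_option linter.unusedSectionVars false

open MeasureTheory Filter Topology
open scoped Classical

namespace Crest.Agent.R160.Static.Tl

open Crest.Agent.R160 Crest.Agent.R160.Static Crest.Agent.R160.Bridge Crest.Agent.R160.StaticConv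

variable {V : Type*} {G : SimpleGraph V} {θ : ℝ}

local notation "II" => unitInterval × unitInterval

lemma ceil_one {t : ℝ} (h0 : 0 < t) (h1 : t ≤ 1 / 2) : ⌈t⌉₊ = 1 := by
  rw [Nat.ceil_eq_iff one_ne_zero]
  constructor
  · simpa using h0
  · norm_num
    linarith

lemma nfl_small {t : ℝ} (h0 : 0 < t) (h1 : t ≤ 1 / 2) (v : V) (ω : Om V) :
    nfl t v ω = (1 + H0.xx t 0 (ω (v, 0)), 1 - H0.xx t 0 (ω (v, 0))) := by
  unfold nfl nf1
  rw [ceil_one h0 h1]
  simp

lemma magf_small {t : ℝ} (h0 : 0 < t) (h1 : t ≤ 1 / 2) (v : V) (ω : Om V) :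
    magf G θ {v} (fd (nfl t) ω) v = H0.xx t 0 (ω (v, 0)) := by
  rw [magf_singleton]
  unfold fd
  rw [nfl_small h0 h1]
  simp only
  ring

lemma zf_small {t : ℝ} (h0 : 0 < t) (h1 : t ≤ 1 / 2) (v : V) (ω : Om V) :
    zf G θ {v} (fd (nfl t) ω) = 1 := by
  rw [zf_singleton]
  unfold fd
  rw [nfl_small h0 h1]
  simp only
  ring

lemma xx_sq_le {t : ℝ} (h1 : t ≤ 1 / 2) (p : II) :
    (H0.xx t 0 p) ^ 2 ≤ if (p.1 : ℝ) < t then t ^ 2 / 4 else 0 := by
  unfold H0.xx str
  simp only [Nat.cast_zero, zero_add, if_true]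
  by_cases h : (p.1 : ℝ) < t
  · have h2 : (p.1 : ℝ) < 1 / 2 := by linarith
    simp only [if_pos h, if_pos h2]
    have a1 := p.1.2.1
    have a2 := p.2.2.1
    have a3 := p.2.2.2
    have b1 : (2 * (p.2 : ℝ) - 1) ^ 2 ≤ 1 := by nlinarith
    have b2 : (p.1 : ℝ) ^ 2 ≤ t ^ 2 := by nlinarith
    have b3 : 0 ≤ (p.1 : ℝ) ^ 2 := sq_nonneg _
    calc ((p.1 : ℝ) / 2 * (2 * (p.2 : ℝ) - 1)) ^ 2
        = (p.1 : ℝ) ^ 2 * (2 * (p.2 : ℝ) - 1) ^ 2 / 4 := by ring
      _ ≤ (p.1 : ℝ) ^ 2 * 1 / 4 := by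
          have := mul_le_mul_of_nonneg_left b1 b3
          linarith
      _ ≤ t ^ 2 / 4 := by linarith
  · simp only [if_neg h]
    norm_num

lemma xx_sq_le' {t : ℝ} (h1 : t ≤ 1 / 2) (p : II) : (H0.xx t 0 p) ^ 2 ≤ t ^ 2 / 4 := by
  refine (xx_sq_le h1 p).trans ?_
  split_ifs
  · exact le_rfl
  · positivity

lemma volume_lt {t : ℝ} (h0 : 0 < t) (h1 : t ≤ 1 / 2) :
    (volume : Measure II).real {p : II | (p.1 : ℝ) < t} = t := by
  have ht : t ∈ Set.Icc (0 : ℝ) 1 := ⟨h0.le, by linarith⟩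
  have e1 : {p : II | (p.1 : ℝ) < t} = Prod.fst ⁻¹' (Set.Iio (⟨t, ht⟩ : unitInterval)) := by
    ext p
    simp only [Set.mem_ofPred_eq, Set.mem_preimage, Set.mem_Iio]
    rfl
  have hmp : MeasurePreserving (Prod.fst : II → unitInterval) volume volume :=
    measurePreserving_fst
  rw [measureReal_def, e1, hmp.measure_preimage measurableSet_Iio.nullMeasurableSet,
    unitInterval.volume_Iio]
  simp [h0.le]

lemma integral_xx_sq_le {t : ℝ} (h0 : 0 < t) (h1 : t ≤ 1 / 2) :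
    ∫ p : II, (H0.xx t 0 p) ^ 2 ≤ t ^ 3 / 4 := by
  have hm : MeasurableSet {p : II | (p.1 : ℝ) < t} :=
    measurableSet_lt (measurable_subtype_coe.comp measurable_fst) measurable_const
  calc ∫ p : II, (H0.xx t 0 p) ^ 2
      ≤ ∫ p : II, Set.indicator {p : II | (p.1 : ℝ) < t} (fun _ => t ^ 2 / 4) p := by
        refine integral_mono ?_ ?_ fun p => ?_
        · refine Integrable.of_bound ((H0.measurable_xx t 0).pow_const 2).aestronglyMeasurable
            (t ^ 2 / 4) (Eventually.of_forall fun p => ?_)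
          rw [Real.norm_eq_abs, abs_of_nonneg (sq_nonneg _)]
          exact xx_sq_le' h1 p
        · exact (integrable_const _).indicator hm
        · exact xx_sq_le h1 p
    _ = t ^ 3 / 4 := by
        rw [integral_indicator hm, setIntegral_const, volume_lt h0 h1, smul_eq_mul]
        ring

lemma qq_single {t : ℝ} (h0 : 0 < t) (h1 : t ≤ 1 / 2) (v : V) :
    qq (PP V) (nfl t) G θ {v} v ≤ t ^ 3 / 4 := by
  unfold qq
  have e1 : ∀ ω : Om V, zf G θ {v} (fd (nfl t) ω) * (magf G θ {v} (fd (nfl t) ω) v) ^ 2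
      = ∏ e ∈ ({(v, 0)} : Finset (Ev V)), (H0.xx t 0 (ω e)) ^ 2 := by
    intro ω
    rw [zf_small h0 h1, magf_small h0 h1, Finset.prod_singleton, one_mul]
  simp_rw [e1]
  rw [H0.integral_prod_events _ (fun _ p => (H0.xx t 0 p) ^ 2)
    (fun _ => (H0.measurable_xx t 0).pow_const 2), Finset.prod_singleton]
  exact integral_xx_sq_le h0 h1

/-! ### Stars -/

section tree

variable [G.LocallyFinite]
variable {Ω : Type*} [MeasurableSpace Ω] {P : Measure Ω} {X : V → Ω → ℝ × ℝ}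

lemma qq_star_mono (h : FieldData P X) (hT : G.IsTree) (h0 : 0 ≤ θ) (h1 : θ < 1) {x : V}
    {T : Finset V} (hTn : ∀ a ∈ T, G.Adj x a) (n : ℕ) (U : Finset V) :
    (∀ a ∈ U, G.Adj x a) → qq P X G θ (star G x T n) x ≤ qq P X G θ (star G x (T ∪ U) n) x := by
  induction U using Finset.induction_on with
  | empty => intro _; rw [Finset.union_empty]
  | insert c U hcU ih =>
    intro hU
    have hU' : ∀ a ∈ U, G.Adj x a := fun a ha => hU a (Finset.mem_insert_of_mem ha)
    refine (ih hU').trans ?_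
    rw [Finset.union_insert]
    by_cases hc : c ∈ T ∪ U
    · rw [Finset.insert_eq_of_mem hc]
    · rw [star_insert]
      have hTU : ∀ a ∈ T ∪ U, G.Adj x a := by
        intro a ha
        rcases Finset.mem_union.1 ha with ha | ha
        · exact hTn a ha
        · exact hU' a ha
      have hcx := hU c (Finset.mem_insert_self _ _)
      exact h.le_qq_left h0 h1 (edge1_star hT hTU hcx hc n)
        (h.zz_star' hT h0 h1 hTU n) (h.zz_BB hT h0 h1 n hcx)

lemma starBd_of_bal (h : FieldData P X) (hT : G.IsTree) (h0 : 0 ≤ θ) (h1 : θ < 1) {Xb : ℝ}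
    (hb : ∀ x n, qq P X G θ (bal G x n) x ≤ Xb) : StarBd P X G θ Xb := by
  intro x T n hTn
  have h2 := qq_star_mono (G := G) h hT h0 h1 hTn n (G.neighborFinset x)
    (fun a ha => by simpa using ha)
  have h3 : T ∪ G.neighborFinset x = G.neighborFinset x := by
    rw [Finset.union_eq_right]
    intro a ha
    simpa using hTn a ha
  rw [h3, ← bal_succ_eq hT] at h2
  exact h2.trans (hb x (n + 1))

/-- `L²` convergence of the finite-volume magnetizations along the balls of a fixed centre -/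
lemma tendsto_L2 (hT : G.IsTree) {b : ℕ} (hb : 2 ≤ b) (hreg : G.IsRegularOfDegree (b + 1))
    (h0 : 0 ≤ θ) (h1 : (b : ℝ) * θ ^ 2 < 1) {t : ℝ} (ht : 0 ≤ t) (x : V) :
    Tendsto (fun n => ∫ ω, (mfin G θ (bal G x n) ω t x - minf G θ t x ω) ^ 2 ∂(PP V)) atTop
      (𝓝 0) := by
  obtain ⟨C, la, hC, hla, H⟩ := vol_limit (G := G) hT hb hreg h0 h1 t
  refine squeeze_zero (fun n => integral_nonneg fun ω => sq_nonneg _)
    (fun n => H t ht le_rfl x x n n (Finset.Subset.refl _)) ?_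
  have h2 : Tendsto (fun n : ℕ => -la * (n : ℝ)) atTop atBot :=
    tendsto_natCast_atTop_atTop.const_mul_atTop_of_neg (by linarith)
  have h3 := (Real.tendsto_exp_atBot.comp h2).const_mul C
  simpa using h3

/-- exponential moment of the magnetization at small times -/
theorem cosh_minf_le (hT : G.IsTree) {b : ℕ} (hb : 2 ≤ b) (hreg : G.IsRegularOfDegree (b + 1))
    (h0 : 0 ≤ θ) (hθ : (b : ℝ) * θ ^ 2 < 1) {t : ℝ} (ht : 0 < t) (ht' : t ≤ 1 / 2) (v : V)
    {l : ℝ} (hl : l ^ 2 * (2 * t ^ (3 / 2 : ℝ)) ≤ 1 / 16) :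
    ∫ ω, Real.cosh (l * minf G θ t v ω) ∂(PP V) ≤ 2 := by
  have h1 : θ < 1 := theta_lt_one' hb h0 hθ.le
  have habs : |θ| < 1 := by rw [abs_of_nonneg h0]; exact h1
  have hF := fieldData (V := V) t
  set Y : ℝ := t ^ (3 / 2 : ℝ) with hY
  have hY0 : 0 ≤ Y := by positivity
  have hY2 : Y ^ 2 = t ^ 3 := by
    rw [hY, ← Real.rpow_natCast, ← Real.rpow_mul ht.le, ← Real.rpow_natCast]
    norm_num
  have hbal : ∀ (x : V) (n : ℕ), qq (PP V) (nfl t) G θ (bal G x n) x ≤ 2 * Y := fun x n =>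
    hF.bal_upper hT hb hreg h0 hθ.le (I := t ^ 3 / 4) (fun w => qq_single ht ht' w) hY0
      (by rw [hY2]; linarith) n x
  have hS : StarBd (PP V) (nfl t) G θ (2 * Y) := starBd_of_bal hF hT h0 h1 hbal
  have hYt : t ^ 2 ≤ Y := by
    have : t ^ (2 : ℝ) ≤ t ^ (3 / 2 : ℝ) :=
      Real.rpow_le_rpow_of_exponent_ge ht (by linarith) (by norm_num)
    rw [Real.rpow_two] at this
    exact this
  have hmax : ∀ (x : V) (ω : Om V), (magf G θ {x} (fd (nfl t) ω) x) ^ 2 ≤ 2 * Y / 4 := by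
    intro x ω
    rw [magf_small ht ht']
    refine (xx_sq_le' ht' _).trans ?_
    nlinarith [sq_nonneg t]
  -- the finite volume bound
  have hfin : ∀ n : ℕ, ∫ ω, Real.cosh (l * mfin G θ (bal G v n) ω t v) ∂(PP V) ≤ 2 := by
    intro n
    have hc := cosh_bal (G := G) hF h0 h1 hT hb hreg hθ.le (Xb := 2 * Y) (by positivity) hS hmax
      n v l hl
    have hpf := planted_formula' (G := G) (θ := θ) hT habs (bal G v n) t
      (F := fun f => Real.cosh (l * magf G θ (bal G v n) f v))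
      (Real.measurable_cosh.comp ((measurable_magf _ _).const_mul l))
      (fun f g hfg => by
        have hdep : magf G θ (bal G v n) f v = magf G θ (bal G v n) g v :=
          dependsOn_magf (bal G v n) v hfg
        simp only [hdep])
      ⟨Real.cosh l, fun f hf => by
        rw [abs_of_pos (Real.cosh_pos _), Real.cosh_le_cosh, abs_mul]
        exact mul_le_of_le_one_right (abs_nonneg _) (abs_magf_le' h0 h1 hf.pos _ _)⟩
    simp_rw [mfin_eq]
    rw [hpf]
    exact hc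
  -- infinite volume
  have hlim := tendsto_integral_minf (G := G) (θ := θ) (t := t) v {v}
    (fun n w _ ω => abs_mfin_le G habs _ ω t w)
    (fun w _ ω => abs_minf_le h0 h1 t w ω)
    (fun n w _ => measurable_mfin G θ _ t w)
    (fun w _ => measurable_minf G θ t w)
    (fun w hw => by
      rw [Finset.mem_singleton] at hw
      subst hw
      exact tendsto_L2 hT hb hreg h0 hθ ht.le w)
    (H := fun m => Real.cosh (l * m ⟨v, Finset.mem_singleton_self v⟩))
    (by fun_prop)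
  exact le_of_tendsto' hlim hfin

/-- **tail of the magnetization** -/
theorem tail (hT : G.IsTree) {b : ℕ} (hb : 2 ≤ b) (hreg : G.IsRegularOfDegree (b + 1)) :
    ∃ C c : ℝ, 0 < C ∧ 0 < c ∧ ∀ θ, 0 ≤ θ → (b : ℝ) * θ ^ 2 < 1 → ∀ t, 0 < t → t ≤ 1 / 2 → ∀ v : V,
      (PP V).real {ω | t ^ (1 / 4 : ℝ) < |minf G θ t v ω|}
        ≤ C * Real.exp (-c * t ^ (-(1 / 8) : ℝ)) := by
  refine ⟨4, 1 / 6, by norm_num, by norm_num, ?_⟩
  intro θ h0 hθ t ht ht' v
  have h1 : θ < 1 := theta_lt_one' hb h0 hθ.le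
  set l : ℝ := t ^ (-(3 / 4) : ℝ) / 6 with hl
  have hl0 : 0 ≤ l := by positivity
  have e1 : l ^ 2 * (2 * t ^ (3 / 2 : ℝ)) ≤ 1 / 16 := by
    have e2 : (t ^ (-(3 / 4) : ℝ)) ^ 2 = t ^ (-(3 / 2) : ℝ) := by
      rw [← Real.rpow_natCast, ← Real.rpow_mul ht.le]
      norm_num
    have e3 : t ^ (-(3 / 2) : ℝ) * t ^ (3 / 2 : ℝ) = 1 := by
      rw [← Real.rpow_add ht]
      norm_num
    have e4 : l ^ 2 * (2 * t ^ (3 / 2 : ℝ)) = (t ^ (-(3 / 4) : ℝ)) ^ 2 * t ^ (3 / 2 : ℝ) / 18 := by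
      rw [hl]; ring
    rw [e4, e2, e3]
    norm_num
  have hc := cosh_minf_le (G := G) hT hb hreg h0 hθ ht ht' v e1
  set a : ℝ := t ^ (1 / 4 : ℝ) with ha
  have ha0 : 0 ≤ a := by positivity
  have hmeas : Measurable (fun ω : Om V => Real.cosh (l * minf G θ t v ω)) :=
    Real.measurable_cosh.comp ((measurable_minf G θ t v).const_mul l)
  have hint : Integrable (fun ω : Om V => Real.cosh (l * minf G θ t v ω)) (PP V) := by
    refine Integrable.of_bound hmeas.aestronglyMeasurable (Real.cosh l)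
      (Eventually.of_forall fun ω => ?_)
    rw [Real.norm_eq_abs, abs_of_pos (Real.cosh_pos _), Real.cosh_le_cosh, abs_mul]
    exact mul_le_of_le_one_right (abs_nonneg _) (abs_minf_le h0 h1 t v ω)
  have hM := mul_meas_ge_le_integral_of_nonneg (μ := PP V)
    (Eventually.of_forall fun ω => (Real.cosh_pos (l * minf G θ t v ω)).le) hint
    (Real.cosh (l * a))
  have hsub : (PP V).real {ω | a < |minf G θ t v ω|}
      ≤ (PP V).real {ω | Real.cosh (l * a) ≤ Real.cosh (l * minf G θ t v ω)} := by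
    refine measureReal_mono ?_ (by finiteness)
    intro ω hω
    simp only [Set.mem_ofPred_eq] at hω ⊢
    rw [Real.cosh_le_cosh, abs_mul, abs_mul, abs_of_nonneg ha0]
    exact mul_le_mul_of_nonneg_left hω.le (abs_nonneg _)
  have hcosh : Real.exp (l * a) / 2 ≤ Real.cosh (l * a) := by
    rw [Real.cosh_eq]
    have := (Real.exp_pos (-(l * a))).le
    linarith
  have hla : 1 / 6 * t ^ (-(1 / 8) : ℝ) ≤ l * a := by
    have e5 : l * a = 1 / 6 * t ^ (-(1 / 2) : ℝ) := by
      have : t ^ (-(3 / 4) : ℝ) * t ^ (1 / 4 : ℝ) = t ^ (-(1 / 2) : ℝ) := by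
        rw [← Real.rpow_add ht]
        norm_num
      rw [hl, ha, ← this]
      ring
    rw [e5]
    have : t ^ (-(1 / 8) : ℝ) ≤ t ^ (-(1 / 2) : ℝ) :=
      Real.rpow_le_rpow_of_exponent_ge ht (by linarith) (by norm_num)
    linarith
  have h2 : Real.exp (l * a) / 2 * (PP V).real {ω | a < |minf G θ t v ω|} ≤ 2 := by
    have p0 : 0 ≤ (PP V).real {ω | a < |minf G θ t v ω|} := measureReal_nonneg
    calc Real.exp (l * a) / 2 * (PP V).real {ω | a < |minf G θ t v ω|}
        ≤ Real.cosh (l * a) * (PP V).real {ω | a < |minf G θ t v ω|} :=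
          mul_le_mul_of_nonneg_right hcosh p0
      _ ≤ Real.cosh (l * a) *
          (PP V).real {ω | Real.cosh (l * a) ≤ Real.cosh (l * minf G θ t v ω)} :=
          mul_le_mul_of_nonneg_left hsub (Real.cosh_pos _).le
      _ ≤ _ := hM
      _ ≤ 2 := hc
  have h3 : (PP V).real {ω | a < |minf G θ t v ω|} ≤ 4 * Real.exp (-(l * a)) := by
    rw [Real.exp_neg, ← div_eq_mul_inv, le_div_iff₀ (Real.exp_pos _)]
    linarith
  refine h3.trans ?_
  have h4 : Real.exp (-(l * a)) ≤ Real.exp (-(1 / 6) * t ^ (-(1 / 8) : ℝ)) :=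
    Real.exp_le_exp.2 (by linarith)
  linarith

end tree

end Crest.Agent.R160.Static.Tl
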