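import Mathlib
import Crest.Agent.R160.Tail

/-! Row 160, module E: the second moment of the magnetization at small times. -/

set_option autoImplicit false
set_option linter.unusedSectionVars false

open MeasureTheory Filter Topology
open scoped Classical

namespace Crest.Agent.R160.Static.Tl

open Crest.Agent.R160 Crest.Agent.R160.Static Crest.Agent.R160.Bridge Crest.Agent.R160.StaticConv

variable {V : Type*} {G : SimpleGraph V} {θ : ℝ} [G.LocallyFinite]

/-- second moment of the finite-volume magnetization = planted second moment -/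
lemma integral_mfin_sq (hT : G.IsTree) (h0 : 0 ≤ θ) (h1 : θ < 1) (S : Finset V) (t : ℝ) (v : V) :
    ∫ ω, (mfin G θ S ω t v) ^ 2 ∂(PP V) = qq (PP V) (nfl t) G θ S v := by
  have habs : |θ| < 1 := by rw [abs_of_nonneg h0]; exact h1
  have hpf := planted_formula' (G := G) (θ := θ) hT habs S t
    (F := fun f => (magf G θ S f v) ^ 2)
    ((measurable_magf _ _).pow_const 2)
    (fun f g hfg => by
      have hdep : magf G θ S f v = magf G θ S g v := dependsOn_magf S v hfg
      simp only [hdep])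
    ⟨1, fun f hf => by
      rw [abs_pow]
      exact pow_le_one₀ (abs_nonneg _) (abs_magf_le' h0 h1 hf.pos _ _)⟩
  simp_rw [mfin_eq]
  exact hpf

/-- the second moments converge along the balls around `x` -/
lemma tendsto_integral_sq (hT : G.IsTree) {b : ℕ} (hb : 2 ≤ b)
    (hreg : G.IsRegularOfDegree (b + 1)) (h0 : 0 ≤ θ) (hθ : (b : ℝ) * θ ^ 2 < 1) {t : ℝ}
    (ht : 0 ≤ t) (v : V) :
    Tendsto (fun n => qq (PP V) (nfl t) G θ (bal G v n) v) atTop
      (𝓝 (∫ ω, (minf G θ t v ω) ^ 2 ∂(PP V))) := by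
  have h1 : θ < 1 := theta_lt_one' hb h0 hθ.le
  have habs : |θ| < 1 := by rw [abs_of_nonneg h0]; exact h1
  have hlim := tendsto_integral_minf (G := G) (θ := θ) (t := t) v {v}
    (fun n w _ ω => abs_mfin_le G habs _ ω t w)
    (fun w _ ω => abs_minf_le h0 h1 t w ω)
    (fun n w _ => measurable_mfin G θ _ t w)
    (fun w _ => measurable_minf G θ t w)
    (fun w hw => by
      rw [Finset.mem_singleton] at hw
      subst hw
      exact tendsto_L2 hT hb hreg h0 hθ ht w)
    (H := fun m => (m ⟨v, Finset.mem_singleton_self v⟩) ^ 2)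
    (by fun_prop)
  refine hlim.congr fun n => ?_
  exact integral_mfin_sq hT h0 h1 _ t v

theorem second_moment (hT : G.IsTree) {b : ℕ} (hb : 2 ≤ b)
    (hreg : G.IsRegularOfDegree (b + 1)) :
    ∃ C : ℝ, 0 < C ∧ ∀ θ, 0 ≤ θ → (b : ℝ) * θ ^ 2 < 1 → ∀ t, 0 < t → t ≤ 1 / 2 → ∀ v : V,
      ∫ ω, (minf G θ t v ω) ^ 2 ∂(PP V) ≤ C * t ^ (3 / 2 : ℝ) := by
  refine ⟨2, by norm_num, ?_⟩
  intro θ h0 hθ t ht ht' v
  refine le_of_tendsto' (tendsto_integral_sq hT hb hreg h0 hθ ht.le v) fun n => ?_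
  have hY2 : (t ^ (3 / 2 : ℝ)) ^ 2 = t ^ 3 := by
    rw [← Real.rpow_natCast, ← Real.rpow_mul ht.le, ← Real.rpow_natCast]
    norm_num
  exact (fieldData (V := V) t).bal_upper hT hb hreg h0 hθ.le (I := t ^ 3 / 4)
    (fun w => qq_single ht ht' w) (by positivity) (by rw [hY2]; linarith) n v

end Crest.Agent.R160.Static.Tl
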