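import Mathlib
import Crest.Agent.R160.GC
import Crest.Agent.R160.GB
import Crest.Agent.R160.Tail
import Crest.Agent.R160.SecondMom
import Crest.Agent.R160.LawCont

/-! # Row 160: the Cauchy property at `θ_c` from the two level estimates -/

set_option autoImplicit false

open MeasureTheory Finset Filter Topology
open scoped Classical

namespace Crest.Agent.R160.GC

open Crest.Agent.R160 Crest.Agent.R160.TreeAut Crest.Agent.R160.GA

variable {V : Type*} {G : SimpleGraph V} [G.LocallyFinite]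

lemma Slev_eq_Sn (θ θ' r : ℝ) (v : V) (n : ℕ) :
    Slev G θ θ' r v n = Sn G (PP V) θ θ' (minf G θ r) (minf G θ' r) v n := rfl

/-- exchanging the two parameters -/
lemma Slev_swap_le (hT : G.IsTree) {θ θ' : ℝ} (h0 : 0 ≤ θ) (h1 : θ < 1) (h0' : 0 ≤ θ')
    (h1' : θ' < 1) (r : ℝ) (v : V) (n : ℕ) : Slev G θ θ' r v n ≤ 9 * Slev G θ' θ r v n := by
  unfold Slev
  rw [mul_sum]
  refine sum_le_sum fun w _ => ?_
  rw [← integral_const_mul]
  refine integral_mono ((integrable_MM_diff_sq hT h0 h1 h0' h1' r v w).add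
    (integrable_MM_sq_mul hT h0 h1 h0' h1' r v w))
    (((integrable_MM_diff_sq hT h0' h1' h0 h1 r v w).add
    (integrable_MM_sq_mul hT h0' h1' h0 h1 r v w)).const_mul _) fun ω => ?_
  simp only
  have e1 := abs_le.1 (abs_minf_le (G := G) h0 h1 r w ω)
  have e2 := abs_le.1 (abs_minf_le (G := G) h0' h1' r w ω)
  have e4 : (minf G θ r w ω - minf G θ' r w ω) ^ 2 ≤ 4 := by nlinarith
  set M := MM G θ (fun x => minf G θ r x ω) v w
  set M' := MM G θ' (fun x => minf G θ' r x ω) v w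
  set f := minf G θ r w ω - minf G θ' r w ω with hf
  have e5 : minf G θ' r w ω - minf G θ r w ω = -f := by rw [hf]; ring
  simp only [e5, Pi.add_apply]
  have e6 : (M' - M) ^ 2 = (M - M') ^ 2 := by ring
  have e7 : (-f) ^ 2 = f ^ 2 := by ring
  simp only [e6, e7]
  have e8 : M ^ 2 ≤ 2 * (M - M') ^ 2 + 2 * M' ^ 2 := by nlinarith [sq_nonneg (M - 2 * M')]
  have e9 : M ^ 2 * f ^ 2 ≤ (2 * (M - M') ^ 2 + 2 * M' ^ 2) * f ^ 2 :=
    mul_le_mul_of_nonneg_right e8 (sq_nonneg _)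
  have e10 : (M - M') ^ 2 * f ^ 2 ≤ (M - M') ^ 2 * 4 := mul_le_mul_of_nonneg_left e4 (sq_nonneg _)
  have e11 : 0 ≤ M' ^ 2 * f ^ 2 := by positivity
  nlinarith

/-- (B) in the form used by `cauchy_crit_of` -/
theorem GB_form (hT : G.IsTree) {b : ℕ} (hb : 2 ≤ b) (hreg : G.IsRegularOfDegree (b + 1))
    (hLT : ∃ C c : ℝ, 0 < C ∧ 0 < c ∧ ∀ s0, 0 < s0 → ∃ δ, 0 < δ ∧ ∀ θ, thc b - δ < θ → θ < thc b →
      ∀ t, s0 ≤ t → ∀ (o : V) (k : ℕ),
      (PP V).real {ω | C * Real.exp (-c * (min t 1) ^ (3 / 2 : ℝ) * k)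
          < Alev G b θ (fun x => minf G θ t x ω) o k} ≤ C * Real.exp (-Real.exp (c * k))) :
    ∃ C c : ℝ, 0 < C ∧ 0 < c ∧ ∀ s0, 0 < s0 → ∀ (N : ℕ) (ε : ℝ), 0 < ε →
      ∃ δ, 0 < δ ∧ ∀ θ θ', thc b - δ < θ → θ < thc b → thc b - δ < θ' → θ' < thc b →
      ∀ r, s0 ≤ r → ∀ (v : V) (M : ℕ), ∑ n ∈ range M, Slev G θ θ' r v n
        ≤ C * ((N : ℝ) ^ 2 + ((min r 1) ^ 3)⁻¹) * DD G θ θ' r v
          + C * ((min r 1) ^ 3)⁻¹ * Real.exp (-Real.exp (c * N)) + ε := by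
  obtain ⟨C, c, hC, hc, h⟩ := GB hT hb hreg hLT
  refine ⟨9 * C, c, by positivity, hc, fun s0 hs0 N ε hε => ?_⟩
  obtain ⟨δ, K, hδ, hK, h⟩ := h s0 hs0 N
  have hthc := GA.thc_pos hb
  set δ' : ℝ := min (min δ (thc b / 2)) (min 1 (ε / (9 * (K + 1)))) with hδ'
  have hδ'0 : 0 < δ' := by positivity
  have d1 : δ' ≤ δ := (min_le_left _ _).trans (min_le_left _ _)
  have d2 : δ' ≤ thc b / 2 := (min_le_left _ _).trans (min_le_right _ _)
  have d3 : δ' ≤ 1 := (min_le_right _ _).trans (min_le_left _ _)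
  have d4 : δ' ≤ ε / (9 * (K + 1)) := (min_le_right _ _).trans (min_le_right _ _)
  refine ⟨δ', hδ'0, fun θ θ' a1 a2 a3 a4 r hr v M => ?_⟩
  have hr0 : 0 < r := by linarith
  have hm : 0 < min r 1 := lt_min hr0 one_pos
  obtain ⟨f0, f1, _, _, _⟩ := theta_facts hb (by linarith : thc b / 2 ≤ θ) a2
  obtain ⟨f0', f1', _, _, _⟩ := theta_facts hb (by linarith : thc b / 2 ≤ θ') a4
  have hsq : K * (θ - θ') ^ 2 ≤ ε / 9 := by
    have e1 : |θ - θ'| ≤ δ' := by rw [abs_le]; constructor <;> linarith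
    have e2 : (θ - θ') ^ 2 ≤ δ' := by
      rw [← sq_abs]
      nlinarith [abs_nonneg (θ - θ')]
    have e3 : K * (θ - θ') ^ 2 ≤ K * (ε / (9 * (K + 1))) :=
      mul_le_mul_of_nonneg_left (e2.trans d4) hK
    have e4 : K * (ε / (9 * (K + 1))) ≤ ε / 9 := by
      rw [← mul_div_assoc, div_le_div_iff₀ (by positivity) (by norm_num)]
      nlinarith
    linarith
  have hD0 := GA.DD_nonneg (G := G) θ θ' r v
  have hE0 : 0 ≤ C * ((min r 1) ^ 3)⁻¹ * Real.exp (-Real.exp (c * N)) := by positivity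
  have hDn : 0 ≤ C * ((N : ℝ) ^ 2 + ((min r 1) ^ 3)⁻¹) * DD G θ θ' r v := by positivity
  rcases le_total θ' θ with hle | hle
  · have h1 := h θ θ' (by linarith) hle a2 r hr v M
    have e5 : ∑ n ∈ range M, Slev G θ θ' r v n
        = ∑ n ∈ range M, Sn G (PP V) θ θ' (minf G θ r) (minf G θ' r) v n := rfl
    rw [e5]
    linarith
  · have h1 := h θ' θ (by linarith) hle a4 r hr v M
    have e5 : ∑ n ∈ range M, Slev G θ' θ r v n
        = ∑ n ∈ range M, Sn G (PP V) θ' θ (minf G θ' r) (minf G θ r) v n := rfl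
    have e6 : ∑ n ∈ range M, Slev G θ θ' r v n ≤ 9 * ∑ n ∈ range M, Slev G θ' θ r v n := by
      rw [mul_sum]
      exact sum_le_sum fun n _ => Slev_swap_le hT f0.le f1 f0'.le f1' r v n
    have e7 : DD G θ' θ r v = DD G θ θ' r v := by
      unfold DD
      refine integral_congr_ae (Eventually.of_forall fun ω => ?_)
      simp only
      ring
    have e8 : (θ' - θ) ^ 2 = (θ - θ') ^ 2 := by ring
    rw [← e5, e7, e8] at h1
    linarith

/-- the Cauchy property at the critical parameter, from the level estimates -/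
theorem cauchy_crit_of_level (hT : G.IsTree) {b : ℕ} (hb : 2 ≤ b)
    (hreg : G.IsRegularOfDegree (b + 1))
    (hlev : ∃ C c : ℝ, 0 < C ∧ 0 < c ∧ ∀ θ, thc b / 2 ≤ θ → θ < thc b → ∀ t, 0 < t → t ≤ 1 / 2 →
      ∀ (o : V) (k : ℕ),
      ((b : ℝ) * θ ^ 2) ^ k * ∫ ω, Alev G b θ (fun x => minf G θ t x ω) o k ∂(PP V)
        ≤ C * Real.exp (-c * t ^ (3 / 2 : ℝ) * k))
    (hLT : ∃ C c : ℝ, 0 < C ∧ 0 < c ∧ ∀ s0, 0 < s0 → ∃ δ, 0 < δ ∧ ∀ θ, thc b - δ < θ → θ < thc b →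
      ∀ t, s0 ≤ t → ∀ (o : V) (k : ℕ),
      (PP V).real {ω | C * Real.exp (-c * (min t 1) ^ (3 / 2 : ℝ) * k)
          < Alev G b θ (fun x => minf G θ t x ω) o k} ≤ C * Real.exp (-Real.exp (c * k)))
    (t : ℝ) (ht : 0 ≤ t) (v : V) (ε : ℝ) (hε : 0 < ε) :
    ∃ δ, 0 < δ ∧ ∀ θ θ', thc b - δ < θ → θ < thc b → thc b - δ < θ' → θ' < thc b →
      DD G θ θ' t v ≤ ε :=
  cauchy_crit_of hT hb hreg (Static.Tl.second_moment hT hb hreg) (Static.Tl.tail hT hb hreg) hlev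
    (fun t0 ht0 Φ hΦ x y hxy ε hε => LawCont.law_cont hT hb hreg t0 ht0 Φ hΦ x y hxy ε hε)
    (GB_form hT hb hreg hLT) t ht v ε hε

end Crest.Agent.R160.GC
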