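import Mathlib
import Crest.Agent.R160.StaticMom

/-! Row 160, module E: level sums of slope products; mean decay and double exponential tail. -/

set_option autoImplicit false
set_option linter.unusedSectionVars false

open MeasureTheory ProbabilityTheory
open scoped Classical

namespace Crest.Agent.R160.Static

open Crest.Agent.R160

variable {V : Type*} {G : SimpleGraph V} [G.LocallyFinite] {θ : ℝ}
variable {Ω : Type*} [MeasurableSpace Ω] {P : Measure Ω} {X : V → Ω → ℝ × ℝ}

/-- normalised level sum (level `k`) of the products of the slopes in the forward ball of depth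
`n` at `x` (seen from `y`) -/
noncomputable def Bk (G : SimpleGraph V) [G.LocallyFinite] (b : ℕ) (θ : ℝ) :
    ℕ → ℕ → V → V → (V → ℝ × ℝ) → ℝ
  | 0, _, _, _, _ => 1
  | _ + 1, 0, _, _, _ => 1
  | k + 1, n + 1, y, x, f => (b : ℝ)⁻¹ * ∑ c ∈ (G.neighborFinset x).erase y,
      rhoh θ (magf G θ (BB G x c n) f c) * Bk G b θ k n x c f

variable {b : ℕ}

lemma Bk_zero (n : ℕ) (y x : V) (f : V → ℝ × ℝ) : Bk G b θ 0 n y x f = 1 := by
  cases n <;> rfl

lemma Bk_succ (k n : ℕ) (y x : V) (f : V → ℝ × ℝ) : Bk G b θ (k + 1) (n + 1) y x f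
    = (b : ℝ)⁻¹ * ∑ c ∈ (G.neighborFinset x).erase y,
      rhoh θ (magf G θ (BB G x c n) f c) * Bk G b θ k n x c f := rfl

lemma BB_subset_star {x c : V} {T : Finset V} (hc : c ∈ T) (n : ℕ) :
    BB G x c n ⊆ star G x T n := by
  intro v hv
  rw [star, Finset.mem_insert, Finset.mem_biUnion]
  exact Or.inr ⟨c, hc, hv⟩

lemma adj_of_mem_erase {x y c : V} (hc : c ∈ (G.neighborFinset x).erase y) : G.Adj x c := by
  simpa using Finset.mem_of_mem_erase hc

lemma BB_subset_BB (hT : G.IsTree) {y x c : V} (hyx : G.Adj y x)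
    (hc : c ∈ (G.neighborFinset x).erase y) (n : ℕ) : BB G x c n ⊆ BB G y x (n + 1) := by
  rw [BB_succ_eq hT hyx]
  exact BB_subset_star hc n

lemma measurable_rhoh (θ : ℝ) : Measurable (rhoh θ) := by
  unfold rhoh
  fun_prop

lemma measurable_Bk (k : ℕ) : ∀ (n : ℕ) (y x : V), Measurable (Bk G b θ k n y x) := by
  induction k with
  | zero =>
    intro n y x
    have : Bk G b θ 0 n y x = fun _ => 1 := funext fun f => Bk_zero n y x f
    rw [this]
    exact measurable_const
  | succ k ih =>
    intro n y x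
    cases n with
    | zero =>
      have : Bk G b θ (k + 1) 0 y x = fun _ => 1 := rfl
      rw [this]
      exact measurable_const
    | succ n =>
      have : Bk G b θ (k + 1) (n + 1) y x = fun f => (b : ℝ)⁻¹ *
        ∑ c ∈ (G.neighborFinset x).erase y,
          rhoh θ (magf G θ (BB G x c n) f c) * Bk G b θ k n x c f := rfl
      rw [this]
      refine Measurable.const_mul (Finset.measurable_fun_sum _ fun c _ => ?_) _
      exact ((measurable_rhoh θ).comp (measurable_magf _ _)).mul (ih n x c)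

lemma dependsOn_Bk (hT : G.IsTree) (k : ℕ) : ∀ (n : ℕ) {y x : V}, G.Adj y x →
    DependsOn (Bk G b θ k n y x) (BB G y x n : Set V) := by
  induction k with
  | zero =>
    intro n y x _ f g _
    rw [Bk_zero, Bk_zero]
  | succ k ih =>
    intro n y x hyx
    cases n with
    | zero => exact fun f g _ => rfl
    | succ n =>
      intro f g hfg
      rw [Bk_succ, Bk_succ]
      congr 1
      refine Finset.sum_congr rfl fun c hc => ?_
      have hsub := BB_subset_BB hT hyx hc n
      have hfg' : ∀ v ∈ (BB G x c n : Set V), f v = g v := fun v hv => hfg v (by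
        rw [Finset.mem_coe] at hv ⊢
        exact hsub hv)
      have a1 : magf G θ (BB G x c n) f c = magf G θ (BB G x c n) g c :=
        dependsOn_magf (G := G) (θ := θ) (BB G x c n) c hfg'
      rw [a1, ih n (adj_of_mem_erase hc) hfg']

lemma rhoh_neg (θ y : ℝ) : rhoh θ (-y) = rhoh θ y := by
  unfold rhoh
  rw [neg_sq]

lemma Bk_flip (hT : G.IsTree) (k : ℕ) : ∀ (n : ℕ) {y x : V}, G.Adj y x → ∀ {B : Set V},
    (BB G y x n : Set V) ⊆ B → ∀ f, Bk G b θ k n y x (flipOn B f) = Bk G b θ k n y x f := by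
  induction k with
  | zero =>
    intro n y x _ B _ f
    rw [Bk_zero, Bk_zero]
  | succ k ih =>
    intro n y x hyx B hB f
    cases n with
    | zero => rfl
    | succ n =>
      rw [Bk_succ, Bk_succ]
      congr 1
      refine Finset.sum_congr rfl fun c hc => ?_
      have hxc := adj_of_mem_erase hc
      have hsub : (BB G x c n : Set V) ⊆ B := fun v hv => hB (by
        rw [Finset.mem_coe] at hv ⊢
        exact BB_subset_BB hT hyx hc n hv)
      rw [magf_flip hsub f (self_mem_BB hT hxc n), rhoh_neg, ih n hxc hsub]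

lemma Bk_nonneg_le_one (_hT : G.IsTree) (hb : 1 ≤ b) (hreg : G.IsRegularOfDegree (b + 1))
    (h0 : 0 ≤ θ) (h1 : θ < 1) (h2 : θ ^ 2 ≤ 1 / 2) (k : ℕ) : ∀ (n : ℕ) {y x : V}, G.Adj y x →
    ∀ {f : V → ℝ × ℝ}, Pos f → 0 ≤ Bk G b θ k n y x f ∧ Bk G b θ k n y x f ≤ 1 := by
  have hb' : (0 : ℝ) < b := by exact_mod_cast (by omega : 0 < b)
  induction k with
  | zero =>
    intro n y x _ f _
    rw [Bk_zero]
    exact ⟨zero_le_one, le_rfl⟩
  | succ k ih =>
    intro n y x hyx f hf
    cases n with
    | zero => exact ⟨zero_le_one, le_rfl⟩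
    | succ n =>
      rw [Bk_succ]
      constructor
      · refine mul_nonneg (by positivity) (Finset.sum_nonneg fun c hc => ?_)
        exact mul_nonneg (rhoh_nonneg h2 (abs_magf_le' h0 h1 hf _ _))
          (ih n (adj_of_mem_erase hc) hf).1
      · have : ∑ c ∈ (G.neighborFinset x).erase y,
            rhoh θ (magf G θ (BB G x c n) f c) * Bk G b θ k n x c f
            ≤ ∑ c ∈ (G.neighborFinset x).erase y, (1 : ℝ) := by
          refine Finset.sum_le_sum fun c hc => ?_
          have i1 := rhoh_le_one h2 (abs_magf_le' (G := G) h0 h1 hf (BB G x c n) c)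
          have i2 := ih n (adj_of_mem_erase hc) hf
          have i3 := rhoh_nonneg h2 (abs_magf_le' (G := G) h0 h1 hf (BB G x c n) c)
          exact mul_le_one₀ i1 i2.1 i2.2
        rw [Finset.sum_const, card_neighbor_erase hreg hyx, nsmul_eq_mul, mul_one] at this
        calc (b : ℝ)⁻¹ * _ ≤ (b : ℝ)⁻¹ * b := mul_le_mul_of_nonneg_left this (by positivity)
          _ = 1 := inv_mul_cancel₀ hb'.ne'

/-- planted expectation of products over the branches of a star -/
theorem FieldData.planted_prod (h : FieldData P X) (hT : G.IsTree) (h0 : 0 ≤ θ) (h1 : θ < 1)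
    {x : V} {T : Finset V} (hTn : ∀ a ∈ T, G.Adj x a) (n : ℕ) {F : V → (V → ℝ × ℝ) → ℝ}
    (hF : ∀ c ∈ T, Measurable (F c)) (hFd : ∀ c ∈ T, DependsOn (F c) (BB G x c n : Set V))
    (hFb : ∀ c ∈ T, Bdd X (F c)) (heven : ∀ c ∈ T, ∀ f, F c (flipOn (BB G x c n : Set V) f) = F c f) :
    ∫ ω, zf G θ (star G x T n) (fd X ω) * ∏ c ∈ T, F c (fd X ω) ∂P
      = ∏ c ∈ T, ∫ ω, zf G θ (BB G x c n) (fd X ω) * F c (fd X ω) ∂P := by
  induction T using Finset.induction_on with
  | empty =>
    simp only [Finset.prod_empty, mul_one]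
    exact h.zz_star' hT h0 h1 hTn n
  | insert c T hcT ih =>
    have hTn' : ∀ a ∈ T, G.Adj x a := fun a ha => hTn a (Finset.mem_insert_of_mem ha)
    have hc := hTn c (Finset.mem_insert_self _ _)
    have e := (edge1_star hT hTn' hc hcT n).symm
    have key := h.planted_mul (G := G) h0 h1 e (F := F c)
      (H := fun f => ∏ a ∈ T, F a f) (hF c (Finset.mem_insert_self _ _))
      (Finset.measurable_fun_prod _ fun a ha => hF a (Finset.mem_insert_of_mem ha))
      (hFd c (Finset.mem_insert_self _ _)) (by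
        intro f g hfg
        refine Finset.prod_congr rfl fun a ha => ?_
        refine hFd a (Finset.mem_insert_of_mem ha) fun v hv => hfg v ?_
        rw [Finset.mem_coe] at hv ⊢
        exact BB_subset_star ha n hv)
      (hFb c (Finset.mem_insert_self _ _))
      (Bdd.prod fun a ha => hFb a (Finset.mem_insert_of_mem ha))
      (heven c (Finset.mem_insert_self _ _))
    rw [Finset.prod_insert hcT, star_insert, Finset.union_comm]
    have e2 : ∀ ω, zf G θ (BB G x c n ∪ star G x T n) (fd X ω) * ∏ a ∈ insert c T, F a (fd X ω)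
        = zf G θ (BB G x c n ∪ star G x T n) (fd X ω)
          * (F c (fd X ω) * ∏ a ∈ T, F a (fd X ω)) := by
      intro ω
      rw [Finset.prod_insert hcT]
    simp only [e2]
    rw [key, ih hTn' (fun a ha => hF a (Finset.mem_insert_of_mem ha))
      (fun a ha => hFd a (Finset.mem_insert_of_mem ha))
      (fun a ha => hFb a (Finset.mem_insert_of_mem ha))
      (fun a ha => heven a (Finset.mem_insert_of_mem ha))]

/-- restriction from a star to one of its branches -/
theorem FieldData.planted_branch (h : FieldData P X) (hT : G.IsTree) (h0 : 0 ≤ θ) (h1 : θ < 1)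
    {x : V} {T : Finset V} (hTn : ∀ a ∈ T, G.Adj x a) (n : ℕ) {c : V} (hc : c ∈ T)
    {F : (V → ℝ × ℝ) → ℝ} (hF : Measurable F) (hFd : DependsOn F (BB G x c n : Set V))
    (hFb : Bdd X F) :
    ∫ ω, zf G θ (star G x T n) (fd X ω) * F (fd X ω) ∂P
      = ∫ ω, zf G θ (BB G x c n) (fd X ω) * F (fd X ω) ∂P := by
  have hTn' : ∀ a ∈ T.erase c, G.Adj x a := fun a ha => hTn a (Finset.mem_of_mem_erase ha)
  have e := (edge1_star hT hTn' (hTn c hc) (Finset.notMem_erase _ _) n).symm
  have key := h.planted_restrict (G := G) h0 h1 e hF hFd hFb (h.zz_star' hT h0 h1 hTn' n)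
  rw [← Finset.insert_erase hc, star_insert, Finset.union_comm]
  exact key

/-- planted mean of the level sum -/
noncomputable def EB (P : Measure Ω) (X : V → Ω → ℝ × ℝ) (G : SimpleGraph V) [G.LocallyFinite]
    (b : ℕ) (θ : ℝ) (k n : ℕ) (y x : V) : ℝ :=
  ∫ ω, zf G θ (BB G y x n) (fd X ω) * Bk G b θ k n y x (fd X ω) ∂P

lemma FieldData.bdd_Bk (h : FieldData P X) (hT : G.IsTree) (hb : 1 ≤ b)
    (hreg : G.IsRegularOfDegree (b + 1)) (h0 : 0 ≤ θ) (h1 : θ < 1) (h2 : θ ^ 2 ≤ 1 / 2) (k n : ℕ)
    {y x : V} (hyx : G.Adj y x) : Bdd X (Bk G b θ k n y x) :=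
  ⟨1, fun ω => by
    have := Bk_nonneg_le_one hT hb hreg h0 h1 h2 k n hyx (h.posf ω)
    rw [abs_of_nonneg this.1]
    exact this.2⟩

lemma FieldData.bdd_rhoh (h : FieldData P X) (h0 : 0 ≤ θ) (h1 : θ < 1) (h2 : θ ^ 2 ≤ 1 / 2)
    (S : Finset V) (x : V) : Bdd X (fun f => rhoh θ (magf G θ S f x)) :=
  ⟨1, fun ω => by
    have i1 := rhoh_nonneg h2 (abs_magf_le' (G := G) h0 h1 (h.posf ω) S x)
    have i2 := rhoh_le_one h2 (abs_magf_le' (G := G) h0 h1 (h.posf ω) S x)
    rw [abs_of_nonneg i1]
    exact i2⟩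

/-- one step without gain -/
theorem FieldData.EB_succ_le (h : FieldData P X) (hT : G.IsTree) (hb : 1 ≤ b)
    (hreg : G.IsRegularOfDegree (b + 1)) (h0 : 0 ≤ θ) (h1 : θ < 1) (h2 : θ ^ 2 ≤ 1 / 2)
    {k n : ℕ} {q : ℝ} (hq : ∀ {y x : V}, G.Adj y x → EB P X G b θ k n y x ≤ q) {y x : V}
    (hyx : G.Adj y x) : EB P X G b θ (k + 1) (n + 1) y x ≤ q := by
  have hb' : (0 : ℝ) < b := by exact_mod_cast (by omega : 0 < b)
  have hTn : ∀ a ∈ (G.neighborFinset x).erase y, G.Adj x a := fun a ha => adj_of_mem_erase ha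
  have hm : ∀ c ∈ (G.neighborFinset x).erase y, Measurable (Bk G b θ k n x c) :=
    fun c _ => measurable_Bk k n x c
  have hi : ∀ c ∈ (G.neighborFinset x).erase y, Integrable (fun ω =>
      zf G θ (BB G y x (n + 1)) (fd X ω) * Bk G b θ k n x c (fd X ω)) P := fun c hc =>
    h.integrable ((measurable_zf _).mul (hm c hc))
      ((h.bdd_zf _).mul (h.bdd_Bk hT hb hreg h0 h1 h2 k n (hTn c hc)))
  have step : EB P X G b θ (k + 1) (n + 1) y x ≤ ∫ ω, (b : ℝ)⁻¹ *
      ∑ c ∈ (G.neighborFinset x).erase y,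
        zf G θ (BB G y x (n + 1)) (fd X ω) * Bk G b θ k n x c (fd X ω) ∂P := by
    unfold EB
    refine integral_mono (h.integrable ((measurable_zf _).mul (measurable_Bk _ _ _ _))
      ((h.bdd_zf _).mul (h.bdd_Bk hT hb hreg h0 h1 h2 _ _ hyx)))
      ((integrable_finsetSum _ hi).const_mul _) fun ω => ?_
    simp only
    rw [Bk_succ, ← mul_assoc, mul_comm (zf G θ (BB G y x (n + 1)) (fd X ω)), mul_assoc,
      Finset.mul_sum]
    refine mul_le_mul_of_nonneg_left (Finset.sum_le_sum fun c hc => ?_) (by positivity)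
    refine mul_le_mul_of_nonneg_left ?_ (zf_pos h0 h1 (h.posf ω) _).le
    exact mul_le_of_le_one_left (Bk_nonneg_le_one hT hb hreg h0 h1 h2 k n (hTn c hc) (h.posf ω)).1
      (rhoh_le_one h2 (abs_magf_le' h0 h1 (h.posf ω) _ _))
  refine step.trans ?_
  rw [integral_const_mul, integral_finsetSum _ hi]
  have e : ∀ c ∈ (G.neighborFinset x).erase y,
      ∫ ω, zf G θ (BB G y x (n + 1)) (fd X ω) * Bk G b θ k n x c (fd X ω) ∂P ≤ q := by
    intro c hc
    rw [BB_succ_eq hT hyx, h.planted_branch hT h0 h1 hTn n hc (hm c hc)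
      (dependsOn_Bk hT k n (hTn c hc)) (h.bdd_Bk hT hb hreg h0 h1 h2 k n (hTn c hc))]
    exact hq (hTn c hc)
  calc (b : ℝ)⁻¹ * ∑ c ∈ (G.neighborFinset x).erase y,
        ∫ ω, zf G θ (BB G y x (n + 1)) (fd X ω) * Bk G b θ k n x c (fd X ω) ∂P
      ≤ (b : ℝ)⁻¹ * ∑ c ∈ (G.neighborFinset x).erase y, q :=
        mul_le_mul_of_nonneg_left (Finset.sum_le_sum e) (by positivity)
    _ = q := by
        rw [Finset.sum_const, card_neighbor_erase hreg hyx, nsmul_eq_mul, ← mul_assoc,
          inv_mul_cancel₀ hb'.ne', one_mul]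

/-- two steps, with gain -/
theorem FieldData.EB_two_le (h : FieldData P X) (hT : G.IsTree) (hb : 2 ≤ b)
    (hreg : G.IsRegularOfDegree (b + 1)) (h0 : 0 ≤ θ) (h1 : θ < 1) (h2 : θ ^ 2 ≤ 1 / 2)
    {k n : ℕ} {q p : ℝ} (hq : ∀ {y x : V}, G.Adj y x → EB P X G b θ k n y x ≤ q)
    (hp1 : p ≤ 1) (hp : ∀ {y x : V}, G.Adj y x → p ≤ θ ^ 2 * qq P X G θ (BB G y x n) x) {y x : V}
    (hyx : G.Adj y x) : EB P X G b θ (k + 2) (n + 2) y x ≤ (1 - p / 96) * q := by
  have hb1 : 1 ≤ b := by omega
  have hb' : (0 : ℝ) < b := by exact_mod_cast (by omega : 0 < b)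
  have hTn : ∀ a ∈ (G.neighborFinset x).erase y, G.Adj x a := fun a ha => adj_of_mem_erase ha
  -- the functional at a child
  let Fc : V → (V → ℝ × ℝ) → ℝ := fun c f =>
    rhoh θ (magf G θ (BB G x c (n + 1)) f c) * Bk G b θ (k + 1) (n + 1) x c f
  have hm : ∀ c ∈ (G.neighborFinset x).erase y, Measurable (Fc c) := fun c _ =>
    ((measurable_rhoh θ).comp (measurable_magf _ _)).mul (measurable_Bk _ _ _ _)
  have hFb : ∀ c ∈ (G.neighborFinset x).erase y, Bdd X (Fc c) := fun c hc =>
    (h.bdd_rhoh h0 h1 h2 _ _).mul (h.bdd_Bk hT hb1 hreg h0 h1 h2 _ _ (hTn c hc))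
  have hFd : ∀ c ∈ (G.neighborFinset x).erase y, DependsOn (Fc c) (BB G x c (n + 1) : Set V) := by
    intro c hc f g hfg
    have a1 : magf G θ (BB G x c (n + 1)) f c = magf G θ (BB G x c (n + 1)) g c :=
      dependsOn_magf (G := G) (θ := θ) (BB G x c (n + 1)) c hfg
    simp only [Fc]
    rw [a1, dependsOn_Bk hT (k + 1) (n + 1) (hTn c hc) hfg]
  have hi : ∀ c ∈ (G.neighborFinset x).erase y, Integrable (fun ω =>
      zf G θ (BB G y x (n + 2)) (fd X ω) * Fc c (fd X ω)) P := fun c hc =>
    h.integrable ((measurable_zf _).mul (hm c hc)) ((h.bdd_zf _).mul (hFb c hc))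
  have step : EB P X G b θ (k + 2) (n + 2) y x = (b : ℝ)⁻¹ *
      ∑ c ∈ (G.neighborFinset x).erase y,
        ∫ ω, zf G θ (BB G y x (n + 2)) (fd X ω) * Fc c (fd X ω) ∂P := by
    unfold EB
    rw [← integral_finsetSum _ hi, ← integral_const_mul]
    refine integral_congr_ae (Filter.Eventually.of_forall fun ω => ?_)
    simp only
    rw [Bk_succ, ← mul_assoc, mul_comm (zf G θ (BB G y x (n + 1 + 1)) (fd X ω)), mul_assoc,
      Finset.mul_sum]
  rw [step]
  -- bound at a child
  have key : ∀ c ∈ (G.neighborFinset x).erase y,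
      ∫ ω, zf G θ (BB G y x (n + 2)) (fd X ω) * Fc c (fd X ω) ∂P ≤ (1 - p / 96) * q := by
    intro c hc
    have hxc := hTn c hc
    have hTc : ∀ a ∈ (G.neighborFinset c).erase x, G.Adj c a := fun a ha => adj_of_mem_erase ha
    rw [show n + 2 = (n + 1) + 1 from rfl, BB_succ_eq hT hyx,
      h.planted_branch hT h0 h1 hTn (n + 1) hc (hm c hc) (hFd c hc) (hFb c hc)]
    -- off-path biases
    let gam : V → (V → ℝ × ℝ) → ℝ := fun e f =>
      magf G θ (star G c (((G.neighborFinset c).erase x).erase e) n) f c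
    have hTe : ∀ e, ∀ a ∈ ((G.neighborFinset c).erase x).erase e, G.Adj c a := fun e a ha =>
      hTc a (Finset.mem_of_mem_erase ha)
    have hE : ∀ e ∈ (G.neighborFinset c).erase x,
        Edge1 G (star G c (((G.neighborFinset c).erase x).erase e) n) (BB G c e n) c e :=
      fun e he => edge1_star hT (hTe e) (hTc e he) (Finset.notMem_erase _ _) n
    have hS : ∀ e ∈ (G.neighborFinset c).erase x, BB G x c (n + 1)
        = star G c (((G.neighborFinset c).erase x).erase e) n ∪ BB G c e n := by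
      intro e he
      rw [BB_succ_eq hT hxc, ← star_insert, Finset.insert_erase he]
    have hgm : ∀ e, Measurable (fun f => 1 - gam e f ^ 2 / 96) := fun e =>
      (((measurable_magf (G := G) (θ := θ) _ _).pow_const 2).div_const 96).const_sub 1
    have hgb : ∀ e, Bdd X (fun f => 1 - gam e f ^ 2 / 96) := fun e => ⟨1, fun ω => by
      have := abs_magf_le' (G := G) h0 h1 (h.posf ω)
        (star G c (((G.neighborFinset c).erase x).erase e) n) c
      have h3 : gam e (fd X ω) ^ 2 ≤ 1 := by
        have := pow_le_one₀ (abs_nonneg _) this (n := 2)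
        rwa [sq_abs] at this
      have h4 := sq_nonneg (gam e (fd X ω))
      rw [abs_of_nonneg (by linarith)]
      linarith⟩
    have hgi : ∀ e ∈ (G.neighborFinset c).erase x, Integrable (fun ω =>
        zf G θ (BB G x c (n + 1)) (fd X ω) *
          ((1 - gam e (fd X ω) ^ 2 / 96) * Bk G b θ k n c e (fd X ω))) P := fun e he =>
      h.integrable ((measurable_zf _).mul ((hgm e).mul (measurable_Bk _ _ _ _)))
        ((h.bdd_zf _).mul ((hgb e).mul (h.bdd_Bk hT hb1 hreg h0 h1 h2 _ _ (hTc e he))))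
    have s1 : ∫ ω, zf G θ (BB G x c (n + 1)) (fd X ω) * Fc c (fd X ω) ∂P ≤
        ∫ ω, (b : ℝ)⁻¹ * ∑ e ∈ (G.neighborFinset c).erase x,
          zf G θ (BB G x c (n + 1)) (fd X ω) *
            ((1 - gam e (fd X ω) ^ 2 / 96) * Bk G b θ k n c e (fd X ω)) ∂P := by
      refine integral_mono (h.integrable ((measurable_zf _).mul (hm c hc))
        ((h.bdd_zf _).mul (hFb c hc))) ((integrable_finsetSum _ hgi).const_mul _) fun ω => ?_
      simp only [Fc]
      rw [Bk_succ]
      have e1 : zf G θ (BB G x c (n + 1)) (fd X ω) *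
          (rhoh θ (magf G θ (BB G x c (n + 1)) (fd X ω) c) * ((b : ℝ)⁻¹ *
            ∑ e ∈ (G.neighborFinset c).erase x,
              rhoh θ (magf G θ (BB G c e n) (fd X ω) e) * Bk G b θ k n c e (fd X ω)))
          = (b : ℝ)⁻¹ * ∑ e ∈ (G.neighborFinset c).erase x,
            zf G θ (BB G x c (n + 1)) (fd X ω) *
              ((rhoh θ (magf G θ (BB G x c (n + 1)) (fd X ω) c) *
                rhoh θ (magf G θ (BB G c e n) (fd X ω) e)) * Bk G b θ k n c e (fd X ω)) := by
        rw [Finset.mul_sum, Finset.mul_sum, Finset.mul_sum, Finset.mul_sum]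
        refine Finset.sum_congr rfl fun e _ => ?_
        ring
      rw [e1]
      refine mul_le_mul_of_nonneg_left (Finset.sum_le_sum fun e he => ?_) (by positivity)
      refine mul_le_mul_of_nonneg_left ?_ (zf_pos h0 h1 (h.posf ω) _).le
      refine mul_le_mul_of_nonneg_right ?_
        (Bk_nonneg_le_one hT hb1 hreg h0 h1 h2 k n (hTc e he) (h.posf ω)).1
      refine two_step_gain (g := gam e (fd X ω)) h0 h2 (abs_magf_le' h0 h1 (h.posf ω) _ _)
        (abs_magf_le' h0 h1 (h.posf ω) _ _) ?_
      have g1 := magf_glue (hE e he) h0 h1 (h.posf ω)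
      rw [← hS e he] at g1
      rw [g1]
      have g2 := (h.theta_bounds (G := G) h0 h1 ω
        (star G c (((G.neighborFinset c).erase x).erase e) n) (BB G c e n) c e).2.2
      have g3 := (abs_lt.mp g2).1
      unfold mg
      have g4 : 1 + θ * magf G θ (star G c (((G.neighborFinset c).erase x).erase e) n) (fd X ω) c *
          magf G θ (BB G c e n) (fd X ω) e ≠ 0 := by
        have : θ * magf G θ (star G c (((G.neighborFinset c).erase x).erase e) n) (fd X ω) c *
          magf G θ (BB G c e n) (fd X ω) e = magf G θ (star G c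
            (((G.neighborFinset c).erase x).erase e) n) (fd X ω) c *
              (θ * magf G θ (BB G c e n) (fd X ω) e) := by ring
        rw [this]
        linarith
      simp only [gam]
      have g5 : 1 + magf G θ (star G c (((G.neighborFinset c).erase x).erase e) n) (fd X ω) c *
          (θ * magf G θ (BB G c e n) (fd X ω) e)
          = 1 + θ * magf G θ (star G c (((G.neighborFinset c).erase x).erase e) n) (fd X ω) c *
          magf G θ (BB G c e n) (fd X ω) e := by ring
      rw [g5, div_mul_cancel₀ _ g4]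
    refine s1.trans ?_
    rw [integral_const_mul, integral_finsetSum _ hgi]
    have s2 : ∀ e ∈ (G.neighborFinset c).erase x,
        ∫ ω, zf G θ (BB G x c (n + 1)) (fd X ω) *
          ((1 - gam e (fd X ω) ^ 2 / 96) * Bk G b θ k n c e (fd X ω)) ∂P ≤ (1 - p / 96) * q := by
      intro e he
      rw [hS e he]
      have t1 := h.planted_mul (G := G) h0 h1 (hE e he) (F := fun f => 1 - gam e f ^ 2 / 96)
        (H := Bk G b θ k n c e) (hgm e) (measurable_Bk _ _ _ _) (by
          intro f g hfg
          have a1 : gam e f = gam e g := dependsOn_magf (G := G) (θ := θ) _ c hfg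
          simp only
          rw [a1]) (dependsOn_Bk hT k n (hTc e he)) (hgb e)
        (h.bdd_Bk hT hb1 hreg h0 h1 h2 _ _ (hTc e he)) (by
          intro f
          have a1 : gam e (flipOn ((star G c (((G.neighborFinset c).erase x).erase e) n :
              Finset V) : Set V) f) = - gam e f :=
            magf_flip (subset_refl _) f (mem_star_self _ _ _)
          rw [a1, neg_sq])
      rw [t1]
      have t2 : ∫ ω, zf G θ (star G c (((G.neighborFinset c).erase x).erase e) n) (fd X ω) *
          (1 - gam e (fd X ω) ^ 2 / 96) ∂P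
          = 1 - qq P X G θ (star G c (((G.neighborFinset c).erase x).erase e) n) c / 96 := by
        have e1 : ∀ ω, zf G θ (star G c (((G.neighborFinset c).erase x).erase e) n) (fd X ω) *
          (1 - gam e (fd X ω) ^ 2 / 96)
          = zf G θ (star G c (((G.neighborFinset c).erase x).erase e) n) (fd X ω)
            - (zf G θ (star G c (((G.neighborFinset c).erase x).erase e) n) (fd X ω) *
              gam e (fd X ω) ^ 2) / 96 := by
          intro ω
          ring
        simp only [e1]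
        rw [integral_sub, integral_div]
        · have z := h.zz_star' (G := G) hT h0 h1 (hTe e) n
          unfold zz at z
          rw [z]
          rfl
        · exact h.integrable (measurable_zf _) (h.bdd_zf _)
        · refine Integrable.div_const (h.integrable ((measurable_zf _).mul
            ((measurable_magf _ _).pow_const 2)) ((h.bdd_zf _).mul ⟨1, fun ω => ?_⟩)) _
          rw [abs_pow]
          exact pow_le_one₀ (abs_nonneg _) (abs_magf_le' h0 h1 (h.posf ω) _ _)
      rw [t2]
      -- a remaining child gives the lower bound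
      have hne : (((G.neighborFinset c).erase x).erase e).Nonempty := by
        rw [← Finset.card_pos, Finset.card_erase_of_mem he, card_neighbor_erase hreg hxc]
        omega
      obtain ⟨a, ha⟩ := hne
      have t3 := h.star_ge_child (G := G) hT h0 h1 (hTe e) n ha
      have t4 := hp (hTe e a ha)
      have t5 := hq (hTc e he)
      have t6 : 0 ≤ EB P X G b θ k n c e := integral_nonneg fun ω =>
        mul_nonneg (zf_pos h0 h1 (h.posf ω) _).le
          (Bk_nonneg_le_one hT hb1 hreg h0 h1 h2 k n (hTc e he) (h.posf ω)).1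
      unfold EB at t5 t6
      refine mul_le_mul ?_ t5 t6 (by linarith)
      linarith
    calc (b : ℝ)⁻¹ * ∑ e ∈ (G.neighborFinset c).erase x, ∫ ω, zf G θ (BB G x c (n + 1)) (fd X ω) *
          ((1 - gam e (fd X ω) ^ 2 / 96) * Bk G b θ k n c e (fd X ω)) ∂P
        ≤ (b : ℝ)⁻¹ * ∑ e ∈ (G.neighborFinset c).erase x, (1 - p / 96) * q :=
          mul_le_mul_of_nonneg_left (Finset.sum_le_sum s2) (by positivity)
      _ = (1 - p / 96) * q := by
          rw [Finset.sum_const, card_neighbor_erase hreg hxc, nsmul_eq_mul, ← mul_assoc,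
            inv_mul_cancel₀ hb'.ne', one_mul]
  calc (b : ℝ)⁻¹ * ∑ c ∈ (G.neighborFinset x).erase y,
        ∫ ω, zf G θ (BB G y x (n + 2)) (fd X ω) * Fc c (fd X ω) ∂P
      ≤ (b : ℝ)⁻¹ * ∑ c ∈ (G.neighborFinset x).erase y, (1 - p / 96) * q :=
        mul_le_mul_of_nonneg_left (Finset.sum_le_sum key) (by positivity)
    _ = (1 - p / 96) * q := by
        rw [Finset.sum_const, card_neighbor_erase hreg hyx, nsmul_eq_mul, ← mul_assoc,
          inv_mul_cancel₀ hb'.ne', one_mul]

end Crest.Agent.R160.Static
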