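import Mathlib
import Crest.Agent.R160.StaticLevel

/-! Row 160, module E: iterated mean bound and exponential moments of the level sums. -/

set_option autoImplicit false
set_option linter.unusedSectionVars false

open MeasureTheory ProbabilityTheory
open scoped Classical

namespace Crest.Agent.R160.Static

open Crest.Agent.R160

variable {V : Type*} {G : SimpleGraph V} [G.LocallyFinite] {θ : ℝ}
variable {Ω : Type*} [MeasurableSpace Ω] {P : Measure Ω} {X : V → Ω → ℝ × ℝ} {b : ℕ}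

/-- level sum at the centre of a star -/
noncomputable def AV (G : SimpleGraph V) [G.LocallyFinite] (b : ℕ) (θ : ℝ) (k n : ℕ) (x : V)
    (T : Finset V) (f : V → ℝ × ℝ) : ℝ :=
  (b : ℝ)⁻¹ * ∑ c ∈ T, rhoh θ (magf G θ (BB G x c n) f c) * Bk G b θ k n x c f

lemma measurable_AV (k n : ℕ) (x : V) (T : Finset V) : Measurable (AV G b θ k n x T) := by
  unfold AV
  refine Measurable.const_mul (Finset.measurable_fun_sum _ fun c _ => ?_) _
  exact ((measurable_rhoh θ).comp (measurable_magf _ _)).mul (measurable_Bk _ _ _ _)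

/-- exponential moment of the level sum -/
noncomputable def GB (P : Measure Ω) (X : V → Ω → ℝ × ℝ) (G : SimpleGraph V) [G.LocallyFinite]
    (b : ℕ) (θ : ℝ) (k n : ℕ) (y x : V) (l : ℝ) : ℝ :=
  ∫ ω, zf G θ (BB G y x n) (fd X ω) * Real.exp (l * Bk G b θ k n y x (fd X ω)) ∂P

section

variable (h : FieldData P X) (hT : G.IsTree) (hb : 2 ≤ b) (hreg : G.IsRegularOfDegree (b + 1))
  (h0 : 0 ≤ θ) (h1 : θ < 1) (h2 : θ ^ 2 ≤ 1 / 2)

include h hT hb hreg h0 h1 h2

lemma bdd_AV (k n : ℕ) {x : V} {T : Finset V} (hTn : ∀ a ∈ T, G.Adj x a) :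
    Bdd X (AV G b θ k n x T) := by
  have hb1 : 1 ≤ b := by omega
  unfold AV
  exact (Bdd.const _).mul (Bdd.sum fun c hc => (h.bdd_rhoh h0 h1 h2 _ _).mul
    (h.bdd_Bk hT hb1 hreg h0 h1 h2 _ _ (hTn c hc)))

lemma AV_nonneg (k n : ℕ) {x : V} {T : Finset V} (hTn : ∀ a ∈ T, G.Adj x a) (ω : Ω) :
    0 ≤ AV G b θ k n x T (fd X ω) := by
  have hb1 : 1 ≤ b := by omega
  unfold AV
  refine mul_nonneg (by positivity) (Finset.sum_nonneg fun c hc => ?_)
  exact mul_nonneg (rhoh_nonneg h2 (abs_magf_le' h0 h1 (h.posf ω) _ _))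
    (Bk_nonneg_le_one hT hb1 hreg h0 h1 h2 k n (hTn c hc) (h.posf ω)).1

/-- star mean bound -/
theorem AV_mean_le {k n : ℕ} {q : ℝ} (hq : ∀ {y x : V}, G.Adj y x → EB P X G b θ k n y x ≤ q)
    {x : V} {T : Finset V} (hTn : ∀ a ∈ T, G.Adj x a) :
    ∫ ω, zf G θ (star G x T n) (fd X ω) * AV G b θ k n x T (fd X ω) ∂P
      ≤ (b : ℝ)⁻¹ * (T.card * q) := by
  have hb1 : 1 ≤ b := by omega
  have hm : ∀ c ∈ T, Measurable (Bk G b θ k n x c) := fun c _ => measurable_Bk k n x c
  have hi : ∀ c ∈ T, Integrable (fun ω =>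
      zf G θ (star G x T n) (fd X ω) * Bk G b θ k n x c (fd X ω)) P := fun c hc =>
    h.integrable ((measurable_zf _).mul (hm c hc))
      ((h.bdd_zf _).mul (h.bdd_Bk hT hb1 hreg h0 h1 h2 k n (hTn c hc)))
  have step : ∫ ω, zf G θ (star G x T n) (fd X ω) * AV G b θ k n x T (fd X ω) ∂P ≤
      ∫ ω, (b : ℝ)⁻¹ * ∑ c ∈ T,
        zf G θ (star G x T n) (fd X ω) * Bk G b θ k n x c (fd X ω) ∂P := by
    refine integral_mono (h.integrable ((measurable_zf _).mul (measurable_AV _ _ _ _))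
      ((h.bdd_zf _).mul (bdd_AV h hT hb hreg h0 h1 h2 k n hTn)))
      ((integrable_finsetSum _ hi).const_mul _) fun ω => ?_
    simp only [AV]
    rw [← mul_assoc, mul_comm (zf G θ (star G x T n) (fd X ω)), mul_assoc, Finset.mul_sum]
    refine mul_le_mul_of_nonneg_left (Finset.sum_le_sum fun c hc => ?_) (by positivity)
    refine mul_le_mul_of_nonneg_left ?_ (zf_pos h0 h1 (h.posf ω) _).le
    exact mul_le_of_le_one_left (Bk_nonneg_le_one hT hb1 hreg h0 h1 h2 k n (hTn c hc) (h.posf ω)).1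
      (rhoh_le_one h2 (abs_magf_le' h0 h1 (h.posf ω) _ _))
  refine step.trans ?_
  rw [integral_const_mul, integral_finsetSum _ hi]
  refine mul_le_mul_of_nonneg_left ?_ (by positivity)
  rw [← nsmul_eq_mul, ← Finset.sum_const]
  refine Finset.sum_le_sum fun c hc => ?_
  rw [h.planted_branch hT h0 h1 hTn n hc (hm c hc)
      (dependsOn_Bk hT k n (hTn c hc)) (h.bdd_Bk hT hb1 hreg h0 h1 h2 k n (hTn c hc))]
  exact hq (hTn c hc)

/-- exponential moment of a star -/
theorem AV_exp_le {k n : ℕ} {l : ℝ} (hl : 0 ≤ l) {x : V} {T : Finset V}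
    (hTn : ∀ a ∈ T, G.Adj x a) :
    ∫ ω, zf G θ (star G x T n) (fd X ω) * Real.exp (l * AV G b θ k n x T (fd X ω)) ∂P
      ≤ ∏ c ∈ T, GB P X G b θ k n x c (l / b) := by
  have hb1 : 1 ≤ b := by omega
  have hb' : (0 : ℝ) < b := by exact_mod_cast (by omega : 0 < b)
  let F : V → (V → ℝ × ℝ) → ℝ := fun c f => Real.exp (l / b * Bk G b θ k n x c f)
  have hF : ∀ c ∈ T, Measurable (F c) := fun c _ =>
    Real.measurable_exp.comp ((measurable_Bk k n x c).const_mul _)
  have hFd : ∀ c ∈ T, DependsOn (F c) (BB G x c n : Set V) := by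
    intro c hc f g hfg
    simp only [F]
    rw [dependsOn_Bk hT k n (hTn c hc) hfg]
  have hFb : ∀ c ∈ T, Bdd X (F c) := fun c hc => ⟨Real.exp (l / b), fun ω => by
    have := Bk_nonneg_le_one hT hb1 hreg h0 h1 h2 k n (hTn c hc) (h.posf ω)
    simp only [F]
    rw [abs_of_pos (Real.exp_pos _)]
    apply Real.exp_le_exp.mpr
    exact mul_le_of_le_one_right (by positivity) this.2⟩
  have heven : ∀ c ∈ T, ∀ f, F c (flipOn (BB G x c n : Set V) f) = F c f := by
    intro c hc f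
    simp only [F]
    rw [Bk_flip hT k n (hTn c hc) (subset_refl _)]
  have key := h.planted_prod hT h0 h1 hTn n hF hFd hFb heven
  have e : ∏ c ∈ T, GB P X G b θ k n x c (l / b)
      = ∏ c ∈ T, ∫ ω, zf G θ (BB G x c n) (fd X ω) * F c (fd X ω) ∂P := rfl
  rw [e, ← key]
  obtain ⟨K, hK⟩ := bdd_AV (P := P) h hT hb hreg h0 h1 h2 k n hTn
  refine integral_mono (h.integrable ((measurable_zf _).mul
    (Real.measurable_exp.comp ((measurable_AV _ _ _ _).const_mul l)))
    ((h.bdd_zf _).mul ⟨Real.exp (l * K), fun ω => ?_⟩))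
    (h.integrable ((measurable_zf _).mul (Finset.measurable_fun_prod _ hF))
      ((h.bdd_zf _).mul (Bdd.prod hFb))) fun ω => ?_
  · change |Real.exp (l * AV G b θ k n x T (fd X ω))| ≤ Real.exp (l * K)
    rw [abs_of_pos (Real.exp_pos _)]
    exact Real.exp_le_exp.mpr (mul_le_mul_of_nonneg_left ((le_abs_self _).trans (hK ω)) hl)
  · simp only [F]
    refine mul_le_mul_of_nonneg_left ?_ (zf_pos h0 h1 (h.posf ω) _).le
    rw [← Real.exp_sum]
    apply Real.exp_le_exp.mpr
    unfold AV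
    rw [← Finset.mul_sum, ← mul_assoc, ← div_eq_mul_inv]
    refine mul_le_mul_of_nonneg_left (Finset.sum_le_sum fun c hc => ?_) (by positivity)
    exact mul_le_of_le_one_left (Bk_nonneg_le_one hT hb1 hreg h0 h1 h2 k n (hTn c hc) (h.posf ω)).1
      (rhoh_le_one h2 (abs_magf_le' h0 h1 (h.posf ω) _ _))

theorem GB_nonneg (k n : ℕ) {y x : V} (l : ℝ) : 0 ≤ GB P X G b θ k n y x l :=
  integral_nonneg fun ω => mul_nonneg (zf_pos h0 h1 (h.posf ω) _).le (Real.exp_pos _).le

theorem GB_base {k n : ℕ} {q : ℝ} (hq : ∀ {y x : V}, G.Adj y x → EB P X G b θ k n y x ≤ q)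
    {y x : V} (hyx : G.Adj y x) {l : ℝ} (hl : 0 ≤ l) (hl1 : l ≤ 1) :
    GB P X G b θ k n y x l ≤ Real.exp (2 * (l * q)) := by
  have hb1 : 1 ≤ b := by omega
  have s1 : GB P X G b θ k n y x l ≤ 1 + 2 * (l * EB P X G b θ k n y x) := by
    have z := h.zz_BB (G := G) hT h0 h1 n hyx
    unfold zz at z
    have i1 : Integrable (fun ω => zf G θ (BB G y x n) (fd X ω)) P :=
      h.integrable (measurable_zf _) (h.bdd_zf _)
    have i2 : Integrable (fun ω => zf G θ (BB G y x n) (fd X ω)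
        * Bk G b θ k n y x (fd X ω)) P :=
      h.integrable ((measurable_zf _).mul (measurable_Bk _ _ _ _))
        ((h.bdd_zf _).mul (h.bdd_Bk hT hb1 hreg h0 h1 h2 _ _ hyx))
    have e : 1 + 2 * (l * EB P X G b θ k n y x) = ∫ ω, (zf G θ (BB G y x n) (fd X ω)
        + 2 * l * (zf G θ (BB G y x n) (fd X ω) * Bk G b θ k n y x (fd X ω))) ∂P := by
      rw [integral_add i1 (i2.const_mul _), integral_const_mul, z]
      unfold EB
      ring
    rw [e]
    refine integral_mono (h.integrable ((measurable_zf _).mul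
      (Real.measurable_exp.comp ((measurable_Bk _ _ _ _).const_mul l)))
      ((h.bdd_zf _).mul ⟨Real.exp l, fun ω => ?_⟩)) (i1.add (i2.const_mul _)) fun ω => ?_
    · change |Real.exp (l * Bk G b θ k n y x (fd X ω))| ≤ Real.exp l
      rw [abs_of_pos (Real.exp_pos _)]
      apply Real.exp_le_exp.mpr
      exact mul_le_of_le_one_right hl
        (Bk_nonneg_le_one hT hb1 hreg h0 h1 h2 k n hyx (h.posf ω)).2
    · have j1 := Bk_nonneg_le_one hT hb1 hreg h0 h1 h2 k n hyx (h.posf ω)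
      have j2 := exp_le_one_add_two_mul (x := l * Bk G b θ k n y x (fd X ω))
        (mul_nonneg hl j1.1) (mul_le_one₀ hl1 j1.1 j1.2)
      have j3 := (zf_pos (G := G) h0 h1 (h.posf ω) (BB G y x n)).le
      simp only
      calc zf G θ (BB G y x n) (fd X ω) * Real.exp (l * Bk G b θ k n y x (fd X ω))
          ≤ zf G θ (BB G y x n) (fd X ω) * (1 + 2 * (l * Bk G b θ k n y x (fd X ω))) :=
            mul_le_mul_of_nonneg_left j2 j3
        _ = _ := by ring
  refine s1.trans ?_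
  have s2 := Real.add_one_le_exp (2 * (l * q))
  have s3 : l * EB P X G b θ k n y x ≤ l * q := mul_le_mul_of_nonneg_left (hq hyx) hl
  linarith

theorem GB_iter {k n : ℕ} {q : ℝ} (hq : ∀ {y x : V}, G.Adj y x → EB P X G b θ k n y x ≤ q)
    (j : ℕ) : ∀ {y x : V}, G.Adj y x → ∀ {l : ℝ}, 0 ≤ l → l ≤ (b : ℝ) ^ j →
    GB P X G b θ (k + j) (n + j) y x l ≤ Real.exp (2 * (l * q)) := by
  have hb' : (0 : ℝ) < b := by exact_mod_cast (by omega : 0 < b)
  induction j with
  | zero =>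
    intro y x hyx l hl hl1
    exact GB_base h hT hb hreg h0 h1 h2 hq hyx hl (by simpa using hl1)
  | succ j ih =>
    intro y x hyx l hl hl1
    have hTn : ∀ a ∈ (G.neighborFinset x).erase y, G.Adj x a := fun a ha => adj_of_mem_erase ha
    have s1 := AV_exp_le h hT hb hreg h0 h1 h2 (k := k + j) (n := n + j) hl hTn
    rw [← BB_succ_eq hT hyx] at s1
    have s2 : GB P X G b θ (k + (j + 1)) (n + (j + 1)) y x l ≤
        ∏ c ∈ (G.neighborFinset x).erase y, GB P X G b θ (k + j) (n + j) x c (l / b) := s1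
    refine s2.trans ?_
    have s3 : ∏ c ∈ (G.neighborFinset x).erase y, GB P X G b θ (k + j) (n + j) x c (l / b)
        ≤ ∏ _c ∈ (G.neighborFinset x).erase y, Real.exp (2 * (l / b * q)) := by
      refine Finset.prod_le_prod (fun c hc => GB_nonneg h hT hb hreg h0 h1 h2 _ _ _)
        (fun c hc => ih (hTn c hc) (by positivity) ?_)
      rw [div_le_iff₀ hb']
      rw [pow_succ] at hl1
      exact hl1
    refine s3.trans (le_of_eq ?_)
    rw [Finset.prod_const, card_neighbor_erase hreg hyx, ← Real.exp_nat_mul]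
    congr 1
    field_simp

/-- iterated mean bound: even levels -/
theorem EB_iter {N k0 : ℕ} {p : ℝ} (hp1 : p ≤ 1)
    (hp : ∀ n, N ≤ n → ∀ {y x : V}, G.Adj y x → p ≤ θ ^ 2 * qq P X G θ (BB G y x n) x) (j : ℕ) :
    ∀ n, N ≤ n → ∀ {y x : V}, G.Adj y x →
      EB P X G b θ (k0 + 2 * j) (n + k0 + 2 * j) y x ≤ (1 - p / 96) ^ j := by
  have hb1 : 1 ≤ b := by omega
  have hbase : ∀ k n, ∀ {y x : V}, G.Adj y x → EB P X G b θ k n y x ≤ 1 := by
    intro k n y x hyx
    have z := h.zz_BB (G := G) hT h0 h1 n hyx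
    unfold zz at z
    rw [← z]
    refine integral_mono (h.integrable ((measurable_zf _).mul (measurable_Bk _ _ _ _))
        ((h.bdd_zf _).mul (h.bdd_Bk hT hb1 hreg h0 h1 h2 _ _ hyx)))
        (h.integrable (measurable_zf _) (h.bdd_zf _)) fun ω => ?_
    exact mul_le_of_le_one_right (zf_pos h0 h1 (h.posf ω) _).le
      (Bk_nonneg_le_one hT hb1 hreg h0 h1 h2 k n hyx (h.posf ω)).2
  induction j with
  | zero =>
    intro n _ y x hyx
    simpa using hbase _ _ hyx
  | succ j ih =>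
    intro n hn y x hyx
    have s1 := h.EB_two_le hT hb hreg h0 h1 h2 (k := k0 + 2 * j) (n := n + k0 + 2 * j)
      (q := (1 - p / 96) ^ j) (p := p) (fun hyx => ih n hn hyx) hp1
      (fun hyx => hp (n + k0 + 2 * j) (by omega) hyx) hyx
    rw [pow_succ, mul_comm ((1 - p / 96) ^ j)]
    exact s1

end

end Crest.Agent.R160.Static
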