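import Mathlib
import Crest.Agent.R160.StaticExp
import Crest.Agent.R160.Product

/-! # Row 160, module E: the level sums `Alev` of a finite ball as branch level sums `AV` -/

set_option autoImplicit false
set_option linter.unusedSectionVars false

open MeasureTheory ProbabilityTheory Finset
open scoped Classical

namespace Crest.Agent.R160.Static

open Crest.Agent.R160 Crest.Agent.R160.TreeAut

variable {V : Type*} {G : SimpleGraph V} [G.LocallyFinite] {θ : ℝ} {b : ℕ}

/-- the side of a child `c` of `u` in the ball around `o` is a forward ball -/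
lemma side_bal (hT : G.IsTree) {o u c : V} {n k : ℕ} (hu : G.dist o u = k) (hk : k ≤ n)
    (hc : c ≠ o) (hpar : par G o c = u) :
    side G (bal G o (n + 1)) c u = BB G u c (n - k) := by
  have hadj : G.Adj c u := hpar ▸ par_adj hT hc
  have hd : G.dist o u + 1 = G.dist o c := by
    have := par_dist hT hc
    rwa [hpar] at this
  ext v
  rw [mem_side, mem_bal hT, mem_BB hT]
  constructor
  · rintro ⟨h1, h2⟩
    -- `v` is behind `c`: the distance to `o` is additive
    have a1 := hT.dist_eq_dist_add_one_of_adj v hadj
    have c1 := SimpleGraph.dist_comm (G := G) (u := v) (v := c)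
    have c2 := SimpleGraph.dist_comm (G := G) (u := v) (v := u)
    have huv : G.dist u v = G.dist c v + 1 := by omega
    -- distance from `o` to `v`
    have key : G.dist o v = G.dist o c + G.dist c v := by
      -- induct along the path from `c` to `v`
      have hgen : ∀ m : ℕ, ∀ w : V, G.dist c w = m → G.dist u w = G.dist c w + 1 →
          G.dist o w = G.dist o c + G.dist c w := by
        intro m
        induction m with
        | zero =>
          intro w hw _
          have : c = w := hT.connected.dist_eq_zero_iff.mp hw
          subst this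
          simp
        | succ m ih =>
          intro w hw hw'
          have hne : w ≠ c := by
            rintro rfl
            rw [SimpleGraph.dist_self] at hw; omega
          have p1 := par_adj hT (r := c) hne
          have p2 := par_dist hT (r := c) hne
          set w' := par G c w with hw'def
          have hw'c : G.dist c w' = m := by omega
          -- `w'` is also on the side of `c`
          have hside : G.dist u w' = G.dist c w' + 1 := by
            have b1 : G.dist u w ≤ G.dist u w' + G.dist w' w := hT.connected.dist_triangle
            have b2 : G.dist w' w = 1 := SimpleGraph.dist_eq_one_iff_adj.mpr p1.symm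
            have b3 : G.dist u w' ≤ G.dist u c + G.dist c w' := hT.connected.dist_triangle
            have b4 : G.dist u c = 1 := SimpleGraph.dist_eq_one_iff_adj.mpr hadj.symm
            omega
          have ih' := ih w' hw'c hside
          -- compare `dist o w` and `dist o w'`
          rcases hT.dist_eq_dist_add_one_of_adj o p1 with h | h
          · omega
          · exfalso
            -- `w'` has the parent (towards `o`) `w`; but also its parent towards `o` is closer
            -- to `c` (or is `u` if `w' = c`)
            by_cases hw'eq : w' = c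
            · have h3 : w = u := by
                refine unique_closer hT (r := o) (v := c) ?_ hadj ?_ hd
                · rw [hw'eq] at p1; exact p1.symm
                · rw [hw'eq] at h; exact h.symm
              rw [h3, SimpleGraph.dist_self] at hw'
              omega
            · have q1 := par_adj hT (r := c) hw'eq
              have q2 := par_dist hT (r := c) hw'eq
              set w'' := par G c w' with hw''def
              have q3 : G.dist u w'' = G.dist c w'' + 1 := by
                have b1 : G.dist u w' ≤ G.dist u w'' + G.dist w'' w' := hT.connected.dist_triangle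
                have b2 : G.dist w'' w' = 1 := SimpleGraph.dist_eq_one_iff_adj.mpr q1.symm
                have b3 : G.dist u w'' ≤ G.dist u c + G.dist c w'' := hT.connected.dist_triangle
                have b4 : G.dist u c = 1 := SimpleGraph.dist_eq_one_iff_adj.mpr hadj.symm
                omega
              have q4 : G.dist o w'' ≤ G.dist o c + G.dist c w'' := hT.connected.dist_triangle
              have q5 : G.dist o w'' + 1 = G.dist o w' := by
                rcases hT.dist_eq_dist_add_one_of_adj o q1 with h5 | h5
                · omega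
                · omega
              have q6 : w = w'' := unique_closer hT p1.symm q1 h.symm q5
              rw [← q6] at q2
              omega
      exact hgen _ v rfl huv
    refine ⟨by omega, huv⟩
  · rintro ⟨h1, h2⟩
    have c1 := SimpleGraph.dist_comm (G := G) (u := v) (v := c)
    have c2 := SimpleGraph.dist_comm (G := G) (u := v) (v := u)
    have t1 : G.dist o v ≤ G.dist o c + G.dist c v := hT.connected.dist_triangle
    constructor <;> omega

/-- slope over an edge of the ball in terms of the cavity bias behind it -/
lemma rho_bal (hT : G.IsTree) (h0 : 0 ≤ θ) (h1 : θ < 1) {f : V → ℝ × ℝ} (hf : Pos f)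
    {o u c : V} {n k : ℕ} (hu : G.dist o u = k) (hk : k ≤ n) (hc : c ≠ o)
    (hpar : par G o c = u) :
    rho θ (magf G θ (bal G o (n + 1)) f u) (magf G θ (bal G o (n + 1)) f c)
      = rhoh θ (magf G θ (BB G u c (n - k)) f c) := by
  have hadj : G.Adj u c := (hpar ▸ par_adj hT hc : G.Adj c u).symm
  have hd : G.dist o u + 1 = G.dist o c := by
    have := par_dist hT hc
    rwa [hpar] at this
  have hx : u ∈ bal G o (n + 1) := by rw [mem_bal hT]; omega
  have hcm : c ∈ bal G o (n + 1) := by rw [mem_bal hT]; omega
  have h := (mag_edge hT h0 h1 (fun v _ => hf v) hx hcm hadj).2.2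
  rw [h, side_bal hT hu hk hc hpar]
  rfl

/-- children of `u ≠ o` as a punctured neighbourhood -/
lemma chl_eq_erase (hT : G.IsTree) {o u : V} (hu : u ≠ o) :
    chl hT o u = (G.neighborFinset u).erase (par G o u) := by
  ext v
  rw [mem_chl, Finset.mem_erase, SimpleGraph.mem_neighborFinset]
  have h := mem_children_iff hT (r := o) (u := u) (v := v)
  constructor
  · intro hv
    have h2 := h.mp hv
    exact ⟨h2.2.resolve_left hu, h2.1⟩
  · rintro ⟨h1, h2⟩
    exact h.mpr ⟨h2, Or.inr h1⟩

lemma chl_root (hT : G.IsTree) (o : V) : chl hT o o = G.neighborFinset o := by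
  ext v
  rw [mem_chl, SimpleGraph.mem_neighborFinset]
  have h := mem_children_iff hT (r := o) (u := o) (v := v)
  constructor
  · intro hv; exact (h.mp hv).1
  · intro hv; exact h.mpr ⟨hv, Or.inl rfl⟩

/-- backward recursion for the level sums in the ball -/
lemma level_back (hT : G.IsTree) (hb : 1 ≤ b) (h0 : 0 ≤ θ) (h1 : θ < 1) {f : V → ℝ × ℝ}
    (hf : Pos f) (o : V) (n K : ℕ) (hK : K ≤ n + 1) :
    ∀ j, j + 1 ≤ K → ∑ w ∈ sph G o K, rprodN G θ (fun x => magf G θ (bal G o (n + 1)) f x) o K w
      = ∑ u ∈ sph G o (K - j), rprodN G θ (fun x => magf G θ (bal G o (n + 1)) f x) o (K - j) u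
        * ((b : ℝ) ^ j * Bk G b θ j (n + 1 - (K - j)) (par G o u) u f) := by
  intro j
  induction j with
  | zero =>
    intro _
    simp [Bk_zero]
  | succ j ih =>
    intro hj
    rw [ih (by omega)]
    obtain ⟨k, hk⟩ : ∃ k, K - j = k + 1 := ⟨K - j - 1, by omega⟩
    have hk' : K - (j + 1) = k := by omega
    have hk1 : 1 ≤ k := by omega
    rw [hk, hk', sum_sph_succ hT]
    apply Finset.sum_congr rfl
    intro u hu
    rw [mem_sph hT] at hu
    have hune : u ≠ o := by
      rintro rfl
      rw [SimpleGraph.dist_self] at hu; omega
    obtain ⟨n', hn'⟩ : ∃ n', n + 1 - k = n' + 1 := ⟨n - k, by omega⟩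
    have hn2 : n + 1 - (k + 1) = n' := by omega
    have hn3 : n - k = n' := by omega
    rw [hn', Bk_succ, hn2, chl_eq_erase hT hune, Finset.mul_sum, Finset.mul_sum, Finset.mul_sum]
    apply Finset.sum_congr rfl
    intro c hc
    have hc2 : c ∈ chl hT o u := by rw [chl_eq_erase hT hune]; exact hc
    rw [mem_chl] at hc2
    obtain ⟨hco, hpar⟩ := hc2
    simp only [rprodN]
    rw [hpar, rho_bal hT h0 h1 hf hu (by omega) hco hpar, hn3]
    have hb0 : (b : ℝ) ≠ 0 := by positivity
    field_simp
    ring

/-- **level sums of a ball** -/
theorem Alev_bal (hT : G.IsTree) (hb : 1 ≤ b) (h0 : 0 ≤ θ) (h1 : θ < 1) {f : V → ℝ × ℝ}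
    (hf : Pos f) (o : V) {n k : ℕ} (hk : k ≤ n) :
    Alev G b θ (fun x => magf G θ (bal G o (n + 1)) f x) o (k + 1)
      = AV G b θ k n o (G.neighborFinset o) f := by
  unfold Alev AV
  have hb0 : (b : ℝ) ≠ 0 := by positivity
  have e1 : ∑ w ∈ sph G o (k + 1),
      rprod G θ (fun x => magf G θ (bal G o (n + 1)) f x) o w
      = ∑ w ∈ sph G o (k + 1),
        rprodN G θ (fun x => magf G θ (bal G o (n + 1)) f x) o (k + 1) w := by
    apply Finset.sum_congr rfl
    intro w hw
    rw [mem_sph hT] at hw
    unfold rprod
    rw [hw]
  rw [e1, level_back hT hb h0 h1 hf o n (k + 1) (by omega) k le_rfl]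
  have hk2 : k + 1 - k = 1 := by omega
  rw [hk2, show (1:ℕ) = 0 + 1 from rfl, sum_sph_succ hT, sph_zero hT, Finset.sum_singleton,
    chl_root hT, Finset.mul_sum, Finset.mul_sum]
  apply Finset.sum_congr rfl
  intro c hc
  have hco : c ≠ o := by
    rintro rfl
    rw [SimpleGraph.mem_neighborFinset] at hc
    exact SimpleGraph.irrefl G hc
  have hc2 : c ∈ chl hT o o := by rw [chl_root hT]; exact hc
  rw [mem_chl] at hc2
  simp only [rprodN, zero_add]
  rw [hc2.2, rho_bal hT h0 h1 hf (SimpleGraph.dist_self) (by omega) hco hc2.2]
  have hn : n + 1 - 1 = n := by omega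
  have hn0 : n - 0 = n := by omega
  rw [hn, hn0, inv_pow]
  field_simp
  ring

end Crest.Agent.R160.Static
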