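import Mathlib
import Crest.Agent.R160.StaticExp
import Crest.Agent.R160.StaticBridge
import Crest.Agent.R160.VolLim
import Crest.Agent.R160.MinfBasic

/-! Row 160, module E: level sums of the infinite-volume magnetizations as limits. -/

set_option autoImplicit false
set_option linter.unusedSectionVars false

open MeasureTheory ProbabilityTheory Filter
open scoped Classical Topology

namespace Crest.Agent.R160.Static

open Crest.Agent.R160 Crest.Agent.R160.Bridge Crest.Agent.R160.TreeAut

variable {V : Type*} {G : SimpleGraph V} [G.LocallyFinite] {θ : ℝ} {b : ℕ}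

lemma continuous_clp : Continuous clp := by
  unfold clp
  fun_prop

lemma continuous_rho_clp (h0 : 0 ≤ θ) (h1 : θ < 1) :
    Continuous (fun p : ℝ × ℝ => rho θ (clp p.1) (clp p.2)) := by
  have e : (fun p : ℝ × ℝ => rho θ (clp p.1) (clp p.2)) = fun p =>
      2 * (1 - clp p.2 ^ 2) / (Bq θ (clp p.1) (clp p.2) + Rq θ (clp p.1) (clp p.2)) :=
    funext fun p => rho_eq θ _ _
  rw [e]
  have c1 : Continuous fun p : ℝ × ℝ => clp p.1 := continuous_clp.comp continuous_fst
  have c2 : Continuous fun p : ℝ × ℝ => clp p.2 := continuous_clp.comp continuous_snd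
  refine Continuous.div (by fun_prop) ?_ fun p =>
    (den_pos h0 h1 (abs_clp_le p.1) (abs_clp_le p.2)).ne'
  unfold Rq Dq Bq
  fun_prop

lemma continuous_rprodN_clp (h0 : 0 ≤ θ) (h1 : θ < 1) (r : V) (n : ℕ) : ∀ v : V,
    Continuous (fun m : V → ℝ => rprodN G θ (fun x => clp (m x)) r n v) := by
  induction n with
  | zero => intro v; exact continuous_const
  | succ n ih =>
    intro v
    have : (fun m : V → ℝ => rprodN G θ (fun x => clp (m x)) r (n + 1) v) = fun m =>
        rprodN G θ (fun x => clp (m x)) r n (par G r v)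
          * rho θ (clp (m (par G r v))) (clp (m v)) := rfl
    rw [this]
    refine (ih _).mul ?_
    have c2 : Continuous (fun m : V → ℝ => (m (par G r v), m v)) :=
      (continuous_apply (par G r v)).prodMk (continuous_apply v)
    exact (continuous_rho_clp h0 h1).comp c2

lemma continuous_Alev_clp (h0 : 0 ≤ θ) (h1 : θ < 1) (o : V) (k : ℕ) :
    Continuous (fun m : V → ℝ => Alev G b θ (fun x => clp (m x)) o k) := by
  unfold Alev
  refine continuous_const.mul (continuous_finsetSum _ fun w _ => ?_)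
  exact continuous_rprodN_clp h0 h1 o _ w

lemma rprodN_congr (hT : G.IsTree) {m m' : V → ℝ} {r : V} (n : ℕ) : ∀ v : V, G.dist r v = n →
    (∀ x, G.dist r x ≤ n → m x = m' x) → rprodN G θ m r n v = rprodN G θ m' r n v := by
  induction n with
  | zero => intro v _ _; rfl
  | succ n ih =>
    intro v hv hm
    have hne : v ≠ r := by
      rintro rfl
      rw [SimpleGraph.dist_self] at hv
      omega
    have hp := par_dist hT hne
    have e1 : rprodN G θ m r (n + 1) v
        = rprodN G θ m r n (par G r v) * rho θ (m (par G r v)) (m v) := rfl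
    have e2 : rprodN G θ m' r (n + 1) v
        = rprodN G θ m' r n (par G r v) * rho θ (m' (par G r v)) (m' v) := rfl
    rw [e1, e2, ih (par G r v) (by omega) (fun x hx => hm x (by omega)), hm _ (by omega),
      hm v (by omega)]

lemma Alev_congr (hT : G.IsTree) {m m' : V → ℝ} {o : V} {k : ℕ}
    (hm : ∀ x ∈ bal G o k, m x = m' x) : Alev G b θ m o k = Alev G b θ m' o k := by
  unfold Alev
  congr 1
  refine Finset.sum_congr rfl fun w hw => ?_
  have hd := (mem_sph hT o w k).1 hw
  unfold rprod
  rw [hd]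
  exact rprodN_congr hT k w hd fun x hx => hm x ((mem_bal hT o x k).2 hx)

/-- extension by zero -/
noncomputable def ext0 (W : Finset V) (u : W → ℝ) : V → ℝ :=
  fun x => if h : x ∈ W then u ⟨x, h⟩ else 0

lemma continuous_ext0 (W : Finset V) : Continuous (ext0 W) := by
  unfold ext0
  refine continuous_pi fun x => ?_
  by_cases h : x ∈ W
  · simp only [h, dite_true]
    exact continuous_apply _
  · simp only [h, dite_false]
    exact continuous_const

/-- the level sum as a continuous function of the magnetizations in the ball -/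
noncomputable def AH (G : SimpleGraph V) [G.LocallyFinite] (b : ℕ) (θ : ℝ) (o : V) (k : ℕ)
    (u : bal G o k → ℝ) : ℝ := Alev G b θ (fun x => clp (ext0 (bal G o k) u x)) o k

lemma continuous_AH (h0 : 0 ≤ θ) (h1 : θ < 1) (o : V) (k : ℕ) : Continuous (AH G b θ o k) :=
  (continuous_Alev_clp h0 h1 o k).comp (continuous_ext0 _)

lemma AH_eq (hT : G.IsTree) {m : V → ℝ} (hm : ∀ x, |m x| ≤ 1) (o : V) (k : ℕ) :
    AH G b θ o k (fun w => m w) = Alev G b θ m o k := by
  unfold AH
  refine Alev_congr hT fun x hx => ?_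
  simp only [ext0, hx, dite_true]
  exact clp_eq (hm x)

section

variable (hT : G.IsTree) (hb : 2 ≤ b) (hreg : G.IsRegularOfDegree (b + 1))
  (h0 : 0 ≤ θ) (hθ : (b : ℝ) * θ ^ 2 < 1)

include hT hb hreg h0 hθ

/-- `L²` convergence of the magnetizations computed in balls around `o` -/
theorem tendsto_sq_mfin {t : ℝ} (ht : 0 ≤ t) (o w : V) :
    Tendsto (fun n => ∫ ω, (mfin G θ (bal G o n) ω t w - minf G θ t w ω) ^ 2 ∂(PP V)) atTop
      (𝓝 0) := by
  obtain ⟨c, γ, hc, hγ, hγ1, H⟩ := Vol.exists_vol_le (G := G) hT hb hreg h0 hθ t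
  have h2 : Tendsto (fun n : ℕ => c * γ ^ (n - G.dist o w)) atTop (𝓝 0) := by
    have h3 : Tendsto (fun n : ℕ => γ ^ (n - G.dist o w)) atTop (𝓝 0) :=
      (tendsto_pow_atTop_nhds_zero_of_lt_one hγ.le hγ1).comp (tendsto_sub_atTop_nat _)
    simpa using h3.const_mul c
  refine squeeze_zero' (Eventually.of_forall fun n => integral_nonneg fun ω => sq_nonneg _) ?_ h2
  filter_upwards [eventually_ge_atTop (G.dist o w)] with n hn
  refine H t ht le_rfl w o n (n - G.dist o w) ?_
  intro x hx
  rw [mem_bal hT] at hx ⊢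
  have := hT.connected.dist_triangle (u := o) (v := w) (w := x)
  omega

theorem tendsto_Alev {t : ℝ} (ht : 0 ≤ t) (o : V) (k : ℕ) {ψ : ℝ → ℝ} (hψ : Continuous ψ) :
    Tendsto (fun n => ∫ ω, ψ (Alev G b θ (fun x => mfin G θ (bal G o (n + 1)) ω t x) o k) ∂(PP V))
      atTop (𝓝 (∫ ω, ψ (Alev G b θ (fun x => minf G θ t x ω) o k) ∂(PP V))) := by
  have h1 : θ < 1 := theta_lt_one' hb h0 hθ.le
  have hθ' : |θ| < 1 := by rwa [abs_of_nonneg h0]
  have key := tendsto_integral_minf (G := G) (θ := θ) (t := t) o (bal G o k)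
    (fun n w _ ω => abs_mfin_le G hθ' _ ω t w) (fun w _ ω => abs_minf_le h0 h1 t w ω)
    (fun n w _ => measurable_mfin G θ _ t w) (fun w _ => measurable_minf G θ t w)
    (fun w _ => tendsto_sq_mfin hT hb hreg h0 hθ ht o w)
    (H := fun u => ψ (AH G b θ o k u)) (hψ.comp (continuous_AH h0 h1 o k))
  have key2 := key.comp (tendsto_add_atTop_nat 1)
  have e1 : ∀ ω, AH G b θ o k (fun w => minf G θ t w ω)
      = Alev G b θ (fun x => minf G θ t x ω) o k := fun ω =>
    AH_eq hT (m := fun x => minf G θ t x ω) (fun x => abs_minf_le h0 h1 t x ω) o k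
  have e2 : ∀ n ω, AH G b θ o k (fun w => mfin G θ (bal G o n) ω t w)
      = Alev G b θ (fun x => mfin G θ (bal G o n) ω t x) o k := fun n ω =>
    AH_eq hT (m := fun x => mfin G θ (bal G o n) ω t x) (fun x => abs_mfin_le G hθ' _ ω t x) o k
  simp only [e1] at key2
  refine key2.congr fun n => ?_
  simp only [Function.comp_apply, e2]

omit hb hreg in
lemma measurable_Alev_minf (hb : 2 ≤ b) (t : ℝ) (o : V) (k : ℕ) :
    Measurable fun ω => Alev G b θ (fun x => minf G θ t x ω) o k := by
  have h1 : θ < 1 := theta_lt_one' hb h0 hθ.le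
  have e1 : (fun ω => Alev G b θ (fun x => minf G θ t x ω) o k)
      = fun ω => AH G b θ o k (fun w => minf G θ t w ω) := funext fun ω =>
    (AH_eq hT (m := fun x => minf G θ t x ω) (fun x => abs_minf_le h0 h1 t x ω) o k).symm
  rw [e1]
  refine (continuous_AH h0 h1 o k).measurable.comp ?_
  exact measurable_pi_iff.mpr fun w => measurable_minf G θ t w

theorem tendsto_sq_minf {t : ℝ} (ht : 0 ≤ t) (o : V) :
    Tendsto (fun n => ∫ ω, (mfin G θ (bal G o n) ω t o) ^ 2 ∂(PP V))
      atTop (𝓝 (∫ ω, (minf G θ t o ω) ^ 2 ∂(PP V))) := by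
  have h1 : θ < 1 := theta_lt_one' hb h0 hθ.le
  have hθ' : |θ| < 1 := by rwa [abs_of_nonneg h0]
  have key := tendsto_integral_minf (G := G) (θ := θ) (t := t) o {o}
    (fun n w _ ω => abs_mfin_le G hθ' _ ω t w) (fun w _ ω => abs_minf_le h0 h1 t w ω)
    (fun n w _ => measurable_mfin G θ _ t w) (fun w _ => measurable_minf G θ t w)
    (fun w _ => tendsto_sq_mfin hT hb hreg h0 hθ ht o w)
    (H := fun u => (u ⟨o, Finset.mem_singleton_self o⟩) ^ 2)
    ((continuous_apply _).pow 2)
  exact key

end

end Crest.Agent.R160.Static
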