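import Mathlib
import Crest.Agent.R160.StaticLim
import Crest.Agent.R160.StaticAlev
import Crest.Agent.R160.Product
import Crest.Agent.R160.StaticOne

/-! Row 160, module E: `second_moment`, `level_mean`, `level_tail`. -/

set_option autoImplicit false
set_option linter.unusedSectionVars false

open MeasureTheory ProbabilityTheory Filter
open scoped Classical Topology

namespace Crest.Agent.R160.Static

open Crest.Agent.R160 Crest.Agent.R160.Bridge Crest.Agent.R160.TreeAut

variable {V : Type*} {G : SimpleGraph V} [G.LocallyFinite] {b : ℕ}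

theorem one_upper (θ : ℝ) {t : ℝ} (ht : 0 < t) (ht' : t ≤ 1 / 2) (v : V) :
    qq (PP V) (nfl t) G θ {v} v ≤ t ^ 3 := One.qq_one_small_le ht ht' v

theorem one_lower (θ : ℝ) {t : ℝ} (ht : 0 < t) (v : V) :
    (min t (1 / 2)) ^ 3 / 36 ≤ qq (PP V) (nfl t) G θ {v} v := One.qq_one_lower ht v

lemma dependsOn_AV (hT : G.IsTree) {θ : ℝ} (k n : ℕ) (o : V) :
    DependsOn (AV G b θ k n o (G.neighborFinset o)) (bal G o (n + 1) : Set V) := by
  intro f g hfg
  unfold AV
  congr 1
  refine Finset.sum_congr rfl fun c hc => ?_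
  have hoc : G.Adj o c := by simpa using hc
  have hsub : ∀ v ∈ (BB G o c n : Set V), f v = g v := fun v hv => hfg v (by
    rw [bal_succ_eq hT]
    rw [Finset.mem_coe] at hv ⊢
    exact BB_subset_star hc n hv)
  have a1 : magf G θ (BB G o c n) f c = magf G θ (BB G o c n) g c :=
    dependsOn_magf (G := G) (θ := θ) (BB G o c n) c hsub
  rw [a1, dependsOn_Bk hT k n hoc hsub]

lemma AV_mem (hT : G.IsTree) {θ : ℝ} (hb : 2 ≤ b) (hreg : G.IsRegularOfDegree (b + 1))
    (h0 : 0 ≤ θ) (h1 : θ < 1) (h2 : θ ^ 2 ≤ 1 / 2) (k n : ℕ) (o : V) {f : V → ℝ × ℝ}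
    (hf : Pos f) : 0 ≤ AV G b θ k n o (G.neighborFinset o) f ∧
      AV G b θ k n o (G.neighborFinset o) f ≤ 2 := by
  have hb1 : 1 ≤ b := by omega
  have hb' : (2 : ℝ) ≤ b := by exact_mod_cast hb
  unfold AV
  constructor
  · refine mul_nonneg (by positivity) (Finset.sum_nonneg fun c hc => ?_)
    have hoc : G.Adj o c := by simpa using hc
    exact mul_nonneg (rhoh_nonneg h2 (abs_magf_le' h0 h1 hf _ _))
      (Bk_nonneg_le_one hT hb1 hreg h0 h1 h2 k n hoc hf).1
  · have : ∑ c ∈ G.neighborFinset o, rhoh θ (magf G θ (BB G o c n) f c) * Bk G b θ k n o c f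
        ≤ ∑ _c ∈ G.neighborFinset o, (1 : ℝ) := by
      refine Finset.sum_le_sum fun c hc => ?_
      have hoc : G.Adj o c := by simpa using hc
      have i1 := rhoh_le_one h2 (abs_magf_le' (G := G) h0 h1 hf (BB G o c n) c)
      have i2 := Bk_nonneg_le_one hT hb1 hreg h0 h1 h2 k n hoc hf
      exact mul_le_one₀ i1 i2.1 i2.2
    rw [Finset.sum_const, card_neighbor hreg, nsmul_eq_mul, mul_one] at this
    push_cast at this
    calc (b : ℝ)⁻¹ * _ ≤ (b : ℝ)⁻¹ * (b + 1) := mul_le_mul_of_nonneg_left this (by positivity)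
      _ ≤ 2 := by
          rw [inv_mul_le_iff₀ (by linarith)]
          linarith

/-- finite-volume expectation of a function of the level sum -/
theorem planted_Alev (hT : G.IsTree) {θ : ℝ} (hb : 2 ≤ b) (hreg : G.IsRegularOfDegree (b + 1))
    (h0 : 0 ≤ θ) (h1 : θ < 1) (h2 : θ ^ 2 ≤ 1 / 2) (t : ℝ) (o : V) {k n : ℕ} (hkn : k ≤ n)
    {ψ : ℝ → ℝ} (hψ : Continuous ψ) :
    ∫ ω, ψ (Alev G b θ (fun x => mfin G θ (bal G o (n + 1)) ω t x) o (k + 1)) ∂(PP V)
      = ∫ ω, zf G θ (bal G o (n + 1)) (fd (nfl t) ω)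
          * ψ (AV G b θ k n o (G.neighborFinset o) (fd (nfl t) ω)) ∂(PP V) := by
  have hθ' : |θ| < 1 := by rwa [abs_of_nonneg h0]
  have e1 : ∀ ω, Alev G b θ (fun x => mfin G θ (bal G o (n + 1)) ω t x) o (k + 1)
      = AV G b θ k n o (G.neighborFinset o) (ofl G θ (bal G o (n + 1)) t ω) := by
    intro ω
    rw [← Alev_bal hT (by omega) h0 h1 (adm_ofl hθ' (bal G o (n + 1)) t ω).pos o hkn]
    congr 1
    funext x
    exact mfin_eq _ t ω x
  simp only [e1]
  obtain ⟨C, hC⟩ := (isCompact_Icc (a := (0 : ℝ)) (b := 2)).exists_bound_of_continuousOn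
    hψ.continuousOn
  refine planted_formula' hT hθ' (bal G o (n + 1)) t
    (F := fun f => ψ (AV G b θ k n o (G.neighborFinset o) f))
    (hψ.measurable.comp (measurable_AV _ _ _ _)) ?_ ⟨C, fun f hf => ?_⟩
  · intro f g hfg
    simp only
    rw [dependsOn_AV hT k n o hfg]
  · have := hC _ (AV_mem hT hb hreg h0 h1 h2 k n o hf.pos)
    rwa [Real.norm_eq_abs] at this

/-- **second moment** -/
theorem second_moment (hT : G.IsTree) {b : ℕ} (hb : 2 ≤ b)
    (hreg : G.IsRegularOfDegree (b + 1)) :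
    ∃ C : ℝ, 0 < C ∧ ∀ θ, 0 ≤ θ → (b : ℝ) * θ ^ 2 < 1 → ∀ t, 0 < t → t ≤ 1 / 2 → ∀ v : V,
      ∫ ω, (minf G θ t v ω) ^ 2 ∂(PP V) ≤ C * t ^ (3 / 2 : ℝ) := by
  refine ⟨4, by norm_num, fun θ h0 hθ t ht ht' v => ?_⟩
  have h1 : θ < 1 := theta_lt_one' hb h0 hθ.le
  have hθ' : |θ| < 1 := by rwa [abs_of_nonneg h0]
  refine le_of_tendsto (tendsto_sq_minf hT hb hreg h0 hθ ht.le v)
    (Eventually.of_forall fun n => ?_)
  have h := fieldData (V := V) t
  have e : ∫ ω, (mfin G θ (bal G v n) ω t v) ^ 2 ∂(PP V) = qq (PP V) (nfl t) G θ (bal G v n) v := by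
    have e1 : ∀ ω, mfin G θ (bal G v n) ω t v = magf G θ (bal G v n) (ofl G θ (bal G v n) t ω) v :=
      fun ω => mfin_eq _ t ω v
    simp only [e1]
    refine planted_formula' hT hθ' (bal G v n) t (F := fun f => (magf G θ (bal G v n) f v) ^ 2)
      ((measurable_magf _ _).pow_const 2) ?_ ⟨1, fun f hf => ?_⟩
    · intro f g hfg
      have := dependsOn_magf (G := G) (θ := θ) (bal G v n) v hfg
      simp only at this ⊢
      rw [this]
    · rw [abs_pow]
      exact pow_le_one₀ (abs_nonneg _) (abs_magf_le' h0 h1 hf.pos _ _)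
  rw [e]
  have hY : 4 * t ^ 3 ≤ (2 * t ^ (3 / 2 : ℝ)) ^ 2 := by
    rw [mul_pow, ← Real.rpow_natCast (t ^ (3 / 2 : ℝ)) 2, ← Real.rpow_mul ht.le]
    norm_num
  have := h.bal_upper hT hb hreg h0 hθ.le (I := t ^ 3) (Y := 2 * t ^ (3 / 2 : ℝ))
    (fun v => one_upper θ ht ht' v) (by positivity) hY n v
  linarith

/-- mean of the level sum, from a lower bound on the information -/
theorem mean_core (hT : G.IsTree) {b : ℕ} (hb : 2 ≤ b) (hreg : G.IsRegularOfDegree (b + 1))
    {θ : ℝ} (h0 : 0 < θ) (hθ : (b : ℝ) * θ ^ 2 < 1) {t : ℝ} {I : ℝ} (hI0 : 0 < I)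
    (hI1 : I ≤ 1 / 16) (hI : ∀ v : V, I ≤ qq (PP V) (nfl t) G θ {v} v)
    (hδ : 1 - Real.sqrt I ≤ b * θ ^ 2) :
    ∃ N : ℕ, ∀ (k0 j n : ℕ), N ≤ n → ∀ {y x : V}, G.Adj y x →
      EB (PP V) (nfl t) G b θ (k0 + 2 * j) (n + k0 + 2 * j) y x
        ≤ (1 - θ ^ 2 * (Real.sqrt I / 4) / 96) ^ j := by
  have h1 : θ < 1 := theta_lt_one' hb h0.le hθ.le
  have h2 : θ ^ 2 ≤ 1 / 2 := theta_sq_le_half hb hθ.le
  have h := fieldData (V := V) t
  obtain ⟨N, hN⟩ := exists_nat_ge (Real.sqrt I / 4 / (I / 2))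
  refine ⟨N, fun k0 j n hn y x hyx => ?_⟩
  have hs1 : Real.sqrt I ≤ 1 := by
    rw [Real.sqrt_le_one]
    linarith
  refine EB_iter h hT hb hreg h0.le h1 h2 (N := N) (k0 := k0)
    (p := θ ^ 2 * (Real.sqrt I / 4)) ?_ (fun m hm y' x' hyx' => ?_) j n hn hyx
  · have := Real.sqrt_nonneg I
    nlinarith
  · have l1 := h.BB_lower hT hb hreg h0.le hθ.le hI0.le hI1 hI hδ m hyx'
    have l2 : Real.sqrt I / 4 ≤ m * (I / 2) := by
      rw [div_le_iff₀ (by positivity)] at hN
      refine hN.trans ?_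
      have : (N : ℝ) ≤ m := by exact_mod_cast hm
      exact mul_le_mul_of_nonneg_right this (by positivity)
    rw [min_eq_right l2] at l1
    exact mul_le_mul_of_nonneg_left l1 (sq_nonneg _)

lemma sqrt_pow_three {t : ℝ} (ht : 0 < t) : Real.sqrt (t ^ 3 / 36) = t ^ (3 / 2 : ℝ) / 6 := by
  rw [Real.sqrt_div (by positivity)]
  congr 1
  · rw [Real.sqrt_eq_rpow, ← Real.rpow_natCast t 3, ← Real.rpow_mul ht.le]
    norm_num
  · rw [show (36 : ℝ) = 6 ^ 2 by norm_num, Real.sqrt_sq (by norm_num)]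

lemma thc_pos (hb : 2 ≤ b) : 0 < thc b := by
  unfold thc
  have : (0 : ℝ) < b := by exact_mod_cast (by omega : 0 < b)
  positivity

lemma thc_sq (hb : 2 ≤ b) : (b : ℝ) * thc b ^ 2 = 1 := by
  unfold thc
  have : (0 : ℝ) < b := by exact_mod_cast (by omega : 0 < b)
  rw [div_pow, Real.sq_sqrt this.le, one_pow, mul_one_div, div_self this.ne']

lemma sq_lt_of_lt_thc (hb : 2 ≤ b) {θ : ℝ} (h0 : 0 ≤ θ) (h : θ < thc b) :
    (b : ℝ) * θ ^ 2 < 1 := by
  have hb' : (0 : ℝ) < b := by exact_mod_cast (by omega : 0 < b)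
  rw [← thc_sq hb]
  exact mul_lt_mul_of_pos_left (pow_lt_pow_left₀ h h0 (by norm_num)) hb'

lemma Alev_zero (hT : G.IsTree) {θ : ℝ} (m : V → ℝ) (o : V) : Alev G b θ m o 0 = 1 := by
  unfold Alev
  rw [sph_zero hT]
  simp [rprod, rprodN]

lemma Alev_nonneg {θ : ℝ} (h0 : 0 ≤ θ) (h1 : θ < 1) {m : V → ℝ} (hm : ∀ x, |m x| ≤ 1) (o : V)
    (k : ℕ) : 0 ≤ Alev G b θ m o k := by
  unfold Alev
  exact mul_nonneg (by positivity) (Finset.sum_nonneg fun w _ => rprod_nonneg h0 h1 hm o w)

/-- mean of the infinite-volume level sum -/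
theorem mean_limit (hT : G.IsTree) {b : ℕ} (hb : 2 ≤ b) (hreg : G.IsRegularOfDegree (b + 1))
    {θ : ℝ} (h0 : 0 < θ) (hθ : (b : ℝ) * θ ^ 2 < 1) {t : ℝ} (ht : 0 < t) {q : ℝ} {k N : ℕ}
    (hq : ∀ n, N ≤ n → ∀ {y x : V}, G.Adj y x → EB (PP V) (nfl t) G b θ k (n + k) y x ≤ q)
    (hq0 : 0 ≤ q) (o : V) :
    ∫ ω, Alev G b θ (fun x => minf G θ t x ω) o (k + 1) ∂(PP V) ≤ 2 * q := by
  have h1 : θ < 1 := theta_lt_one' hb h0.le hθ.le
  have h2 : θ ^ 2 ≤ 1 / 2 := theta_sq_le_half hb hθ.le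
  have hb' : (2 : ℝ) ≤ b := by exact_mod_cast hb
  have h := fieldData (V := V) t
  refine le_of_tendsto (tendsto_Alev (b := b) hT hb hreg h0.le hθ ht.le o (k + 1)
    (ψ := fun x => x) continuous_id) ?_
  filter_upwards [eventually_ge_atTop (N + k)] with n hn
  obtain ⟨m, rfl⟩ : ∃ m, n = m + k := ⟨n - k, by omega⟩
  have hTn : ∀ a ∈ G.neighborFinset o, G.Adj o a := fun a ha => by simpa using ha
  have e1 := planted_Alev hT hb hreg h0.le h1 h2 t o (k := k) (n := m + k) (by omega)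
    (ψ := fun x => x) continuous_id
  rw [e1, bal_succ_eq hT]
  have s1 := AV_mean_le h hT hb hreg h0.le h1 h2 (k := k) (n := m + k)
    (fun hyx => hq m (by omega) hyx) hTn
  refine s1.trans ?_
  rw [card_neighbor hreg]
  push_cast
  rw [inv_mul_le_iff₀ (by linarith)]
  nlinarith

/-- exponential moment of the infinite-volume level sum -/
theorem exp_limit (hT : G.IsTree) {b : ℕ} (hb : 2 ≤ b) (hreg : G.IsRegularOfDegree (b + 1))
    {θ : ℝ} (h0 : 0 < θ) (hθ : (b : ℝ) * θ ^ 2 < 1) {t : ℝ} (ht : 0 < t) {q : ℝ} {k N : ℕ}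
    (hq : ∀ n, N ≤ n → ∀ {y x : V}, G.Adj y x → EB (PP V) (nfl t) G b θ k (n + k) y x ≤ q)
    (hq0 : 0 ≤ q) (j : ℕ) (o : V) :
    ∫ ω, Real.exp ((b : ℝ) ^ j * Alev G b θ (fun x => minf G θ t x ω) o (k + j + 1)) ∂(PP V)
      ≤ Real.exp (3 * ((b : ℝ) ^ j * q)) := by
  have h1 : θ < 1 := theta_lt_one' hb h0.le hθ.le
  have h2 : θ ^ 2 ≤ 1 / 2 := theta_sq_le_half hb hθ.le
  have hb' : (2 : ℝ) ≤ b := by exact_mod_cast hb
  have h := fieldData (V := V) t
  have hψ : Continuous (fun x : ℝ => Real.exp ((b : ℝ) ^ j * x)) := by fun_prop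
  refine le_of_tendsto (tendsto_Alev (b := b) hT hb hreg h0.le hθ ht.le o (k + j + 1) hψ) ?_
  filter_upwards [eventually_ge_atTop (N + k + j)] with n hn
  obtain ⟨m, rfl⟩ : ∃ m, n = m + k + j := ⟨n - (k + j), by omega⟩
  have hTn : ∀ a ∈ G.neighborFinset o, G.Adj o a := fun a ha => by simpa using ha
  have e1 := planted_Alev hT hb hreg h0.le h1 h2 t o (k := k + j) (n := m + k + j) (by omega) hψ
  rw [e1, bal_succ_eq hT]
  have hl : (0 : ℝ) ≤ (b : ℝ) ^ j := by positivity
  have s1 := AV_exp_le h hT hb hreg h0.le h1 h2 (k := k + j) (n := m + k + j) hl hTn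
  refine s1.trans ?_
  have s2 : ∏ c ∈ G.neighborFinset o, GB (PP V) (nfl t) G b θ (k + j) (m + k + j) o c
      ((b : ℝ) ^ j / b) ≤ ∏ _c ∈ G.neighborFinset o, Real.exp (2 * ((b : ℝ) ^ j / b * q)) := by
    refine Finset.prod_le_prod (fun c _ => GB_nonneg h hT hb hreg h0.le h1 h2 _ _ _)
      fun c hc => ?_
    refine GB_iter h hT hb hreg h0.le h1 h2 (k := k) (n := m + k)
      (fun hyx => hq m (by omega) hyx) j (hTn c hc) (by positivity) ?_
    exact div_le_self hl (by linarith)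
  refine s2.trans ?_
  rw [Finset.prod_const, card_neighbor hreg, ← Real.exp_nat_mul]
  apply Real.exp_le_exp.mpr
  push_cast
  have hb0 : (b : ℝ) ≠ 0 := by positivity
  have e2 : ((b : ℝ) + 1) * (2 * ((b : ℝ) ^ j / b * q)) = (2 + 2 / b) * ((b : ℝ) ^ j * q) := by
    field_simp
  rw [e2]
  refine mul_le_mul_of_nonneg_right ?_ (by positivity)
  have : 2 / (b : ℝ) ≤ 1 := by
    rw [div_le_one (by linarith)]
    exact hb'
  linarith

lemma Alev_minf_le (hT : G.IsTree) {b : ℕ} (hb : 2 ≤ b) (hreg : G.IsRegularOfDegree (b + 1))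
    {θ : ℝ} (h0 : 0 ≤ θ) (hθ : (b : ℝ) * θ ^ 2 < 1) {t : ℝ} (ht : 0 < t) (o : V) (k : ℕ) :
    ∫ ω, Alev G b θ (fun x => minf G θ t x ω) o k ∂(PP V) ≤ 2 := by
  have h1 : θ < 1 := theta_lt_one' hb h0 hθ.le
  have h2 : θ ^ 2 ≤ 1 / 2 := theta_sq_le_half hb hθ.le
  cases k with
  | zero =>
    simp only [Alev_zero hT]
    simp
  | succ k =>
    have h := fieldData (V := V) t
    refine le_of_tendsto (tendsto_Alev (b := b) hT hb hreg h0 hθ ht.le o (k + 1)
      (ψ := fun x => x) continuous_id) ?_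
    filter_upwards [eventually_ge_atTop k] with n hn
    have e1 := planted_Alev hT hb hreg h0 h1 h2 t o (k := k) (n := n) hn
      (ψ := fun x => x) continuous_id
    rw [e1]
    have z := h.zz_bal (G := G) hT h0 h1 o (n + 1)
    unfold zz at z
    calc ∫ ω, zf G θ (bal G o (n + 1)) (fd (nfl t) ω)
          * AV G b θ k n o (G.neighborFinset o) (fd (nfl t) ω) ∂(PP V)
        ≤ ∫ ω, zf G θ (bal G o (n + 1)) (fd (nfl t) ω) * 2 ∂(PP V) := by
          refine integral_mono (h.integrable ((measurable_zf _).mul (measurable_AV _ _ _ _))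
            ((h.bdd_zf _).mul (bdd_AV h hT hb hreg h0 h1 h2 k n
              (fun a ha => by simpa using ha)))) ((h.integrable (measurable_zf _)
              (h.bdd_zf _)).mul_const 2) fun ω => ?_
          exact mul_le_mul_of_nonneg_left (AV_mem hT hb hreg h0 h1 h2 k n o (h.posf ω)).2
            (zf_pos h0 h1 (h.posf ω) _).le
      _ = 2 := by
          rw [integral_mul_const, z, one_mul]

/-- **decay of the level sums**, all small times, including the deterministic factor -/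
theorem level_mean (hT : G.IsTree) {b : ℕ} (hb : 2 ≤ b) (hreg : G.IsRegularOfDegree (b + 1)) :
    ∃ C c : ℝ, 0 < C ∧ 0 < c ∧ ∀ θ, thc b / 2 ≤ θ → θ < thc b → ∀ t, 0 < t → t ≤ 1 / 2 →
      ∀ (o : V) (k : ℕ),
      ((b : ℝ) * θ ^ 2) ^ k * ∫ ω, Alev G b θ (fun x => minf G θ t x ω) o k ∂(PP V)
        ≤ C * Real.exp (-c * t ^ (3 / 2 : ℝ) * k) := by
  have hb' : (2 : ℝ) ≤ b := by exact_mod_cast hb
  have hb0 : (0 : ℝ) < b := by linarith
  refine ⟨6, 1 / (18432 * b), by norm_num, by positivity, fun θ hθ1 hθ2 t ht ht' o k => ?_⟩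
  have htc := thc_pos hb
  have h0 : 0 < θ := by linarith
  have hθ := sq_lt_of_lt_thc hb h0.le hθ2
  have h1 : θ < 1 := theta_lt_one' hb h0.le hθ.le
  have h2 : θ ^ 2 ≤ 1 / 2 := theta_sq_le_half hb hθ.le
  have hbθ : (0 : ℝ) ≤ b * θ ^ 2 := by positivity
  set τ := t ^ (3 / 2 : ℝ) with hτ
  have hτ0 : 0 < τ := Real.rpow_pos_of_pos ht _
  have hτ1 : τ ≤ 1 := Real.rpow_le_one ht.le (by linarith) (by norm_num)
  have hsq : Real.sqrt (t ^ 3 / 36) = τ / 6 := sqrt_pow_three ht
  have hA2 := Alev_minf_le hT hb hreg h0.le hθ ht o k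
  rcases le_or_gt (b * θ ^ 2) (1 - τ / 6) with hcase | hcase
  · -- the deterministic factor decays
    have s1 : (b * θ ^ 2) ^ k ≤ Real.exp (-(τ / 6) * k) := by
      calc (b * θ ^ 2) ^ k ≤ (Real.exp (-(τ / 6))) ^ k := by
            refine pow_le_pow_left₀ hbθ ?_ k
            have := Real.add_one_le_exp (-(τ / 6))
            linarith
        _ = Real.exp (-(τ / 6) * k) := by
            rw [← Real.exp_nat_mul]
            ring_nf
    have s2 : Real.exp (-(τ / 6) * k) ≤ Real.exp (-(1 / (18432 * b)) * τ * k) := by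
      apply Real.exp_le_exp.mpr
      refine mul_le_mul_of_nonneg_right ?_ (Nat.cast_nonneg k)
      have : 1 / (18432 * (b : ℝ)) ≤ 1 / 6 := by
        apply one_div_le_one_div_of_le (by norm_num)
        linarith
      nlinarith
    calc (b * θ ^ 2) ^ k * ∫ ω, Alev G b θ (fun x => minf G θ t x ω) o k ∂(PP V)
        ≤ (b * θ ^ 2) ^ k * 2 := mul_le_mul_of_nonneg_left hA2 (by positivity)
      _ ≤ Real.exp (-(1 / (18432 * b)) * τ * k) * 2 :=
          mul_le_mul_of_nonneg_right (s1.trans s2) (by norm_num)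
      _ ≤ 6 * Real.exp (-(1 / (18432 * b)) * τ * k) := by
          have := Real.exp_pos (-(1 / (18432 * b)) * τ * k)
          linarith
  · -- gain
    have hδ : 1 - Real.sqrt (t ^ 3 / 36) ≤ b * θ ^ 2 := by
      rw [hsq]
      linarith
    have hI : ∀ v : V, t ^ 3 / 36 ≤ qq (PP V) (nfl t) G θ {v} v := by
      intro v
      have := one_lower (G := G) θ ht v
      rwa [min_eq_left ht'] at this
    have hI1 : t ^ 3 / 36 ≤ 1 / 16 := by
      have : t ^ 3 ≤ 1 := pow_le_one₀ ht.le (by linarith)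
      linarith
    obtain ⟨N, hN⟩ := mean_core hT hb hreg h0 hθ (t := t) (by positivity) hI1 hI hδ
    rw [hsq] at hN
    have hfac : (b * θ ^ 2) ^ k ≤ 1 := pow_le_one₀ hbθ hθ.le
    have hApos : 0 ≤ ∫ ω, Alev G b θ (fun x => minf G θ t x ω) o k ∂(PP V) :=
      integral_nonneg fun ω => Alev_nonneg h0.le h1 (fun x => abs_minf_le h0.le h1 t x ω) o k
    have hle : (b * θ ^ 2) ^ k * ∫ ω, Alev G b θ (fun x => minf G θ t x ω) o k ∂(PP V)
        ≤ ∫ ω, Alev G b θ (fun x => minf G θ t x ω) o k ∂(PP V) :=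
      mul_le_of_le_one_left hApos hfac
    refine hle.trans ?_
    cases k with
    | zero =>
      simp only [Nat.cast_zero, mul_zero, Real.exp_zero, mul_one]
      linarith
    | succ k =>
      -- level `k = k0 + 2 j`
      set j := k / 2 with hj
      set k0 := k % 2 with hk0
      have hk : k = k0 + 2 * j := by omega
      have hk1 : k ≤ 2 * j + 1 := by omega
      set p := θ ^ 2 * (τ / 6 / 4) with hp
      have hp0 : 0 ≤ p := by positivity
      have hp1 : p ≤ 1 := by
        rw [hp]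
        nlinarith
      have hθ3 : 1 / (4 * b) ≤ θ ^ 2 := by
        have e1 := thc_sq hb
        have e2 : (thc b / 2) ^ 2 ≤ θ ^ 2 := pow_le_pow_left₀ (by positivity) hθ1 2
        rw [div_le_iff₀ (by positivity)]
        nlinarith
      have hplow : τ / (96 * b) ≤ p := by
        have e1 : τ / (96 * b) = 1 / (4 * b) * (τ / 6 / 4) := by
          field_simp
          norm_num
        rw [e1, hp]
        exact mul_le_mul_of_nonneg_right hθ3 (by positivity)
      have hq : ∀ n, N ≤ n → ∀ {y x : V}, G.Adj y x →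
          EB (PP V) (nfl t) G b θ k (n + k) y x ≤ (1 - p / 96) ^ j := by
        intro n hn y x hyx
        have := hN k0 j n hn hyx
        rw [add_assoc n k0, ← hk] at this
        exact this
      have hq0 : 0 ≤ (1 - p / 96) ^ j := pow_nonneg (by linarith) _
      have s1 := mean_limit hT hb hreg h0 hθ ht hq hq0 o
      refine s1.trans ?_
      have s2 : (1 - p / 96) ^ j ≤ Real.exp (-(p / 96) * j) := by
        calc (1 - p / 96) ^ j ≤ (Real.exp (-(p / 96))) ^ j := by
              refine pow_le_pow_left₀ (by linarith) ?_ j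
              have := Real.add_one_le_exp (-(p / 96))
              linarith
          _ = Real.exp (-(p / 96) * j) := by
              rw [← Real.exp_nat_mul]
              ring_nf
      have hj' : ((k : ℝ) + 1) / 2 - 1 ≤ j := by
        have : (k : ℝ) ≤ 2 * j + 1 := by exact_mod_cast hk1
        linarith
      have s3 : -(p / 96) * j ≤ 1 + -(1 / (18432 * b)) * τ * ((k + 1 : ℕ) : ℝ) := by
        push_cast
        have e1 : (p / 96) * (((k : ℝ) + 1) / 2 - 1) ≤ (p / 96) * j :=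
          mul_le_mul_of_nonneg_left hj' (by positivity)
        have e2 : τ / (96 * b) / 96 * (((k : ℝ) + 1) / 2) ≤ p / 96 * (((k : ℝ) + 1) / 2) := by
          refine mul_le_mul_of_nonneg_right ?_ (by positivity)
          linarith
        have e3 : τ / (96 * b) / 96 * (((k : ℝ) + 1) / 2)
            = (1 / (18432 * b)) * τ * ((k : ℝ) + 1) := by
          field_simp
          norm_num
        nlinarith
      have s4 : Real.exp (-(p / 96) * j)
          ≤ Real.exp 1 * Real.exp (-(1 / (18432 * b)) * τ * ((k + 1 : ℕ) : ℝ)) := by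
        rw [← Real.exp_add]
        exact Real.exp_le_exp.mpr s3
      have s5 : Real.exp 1 ≤ 3 := by
        have := Real.exp_one_lt_d9
        linarith
      have s6 := Real.exp_pos (-(1 / (18432 * b)) * τ * ((k + 1 : ℕ) : ℝ))
      nlinarith

set_option maxHeartbeats 2000000 in
/-- **double exponential tail** of the level sums -/
theorem level_tail (hT : G.IsTree) {b : ℕ} (hb : 2 ≤ b) (hreg : G.IsRegularOfDegree (b + 1)) :
    ∃ C c : ℝ, 0 < C ∧ 0 < c ∧ ∀ s0, 0 < s0 → ∃ δ, 0 < δ ∧ ∀ θ, thc b - δ < θ → θ < thc b →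
      ∀ t, s0 ≤ t → ∀ (o : V) (k : ℕ),
      (PP V).real {ω | C * Real.exp (-c * (min t 1) ^ (3 / 2 : ℝ) * k)
          < Alev G b θ (fun x => minf G θ t x ω) o k} ≤ C * Real.exp (-Real.exp (c * k)) := by
  have hb' : (2 : ℝ) ≤ b := by exact_mod_cast hb
  have hb0 : (0 : ℝ) < b := by linarith
  have htc := thc_pos hb
  refine ⟨8, 1 / (110592 * b), by norm_num, by positivity, fun s0 hs0 => ?_⟩
  set m0 := min s0 (1 / 2) with hm0
  have hm0pos : 0 < m0 := lt_min hs0 (by norm_num)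
  set r0 := m0 ^ (3 / 2 : ℝ) / 6 with hr0
  have hr0pos : 0 < r0 := by positivity
  refine ⟨min (thc b / 2) (r0 / (2 * b * thc b)), lt_min (by positivity) (by positivity),
    fun θ hθ1 hθ2 t ht o k => ?_⟩
  have hθ3 : thc b / 2 ≤ θ := by
    have := min_le_left (thc b / 2) (r0 / (2 * b * thc b))
    linarith
  have h0 : 0 < θ := by linarith
  have hθ := sq_lt_of_lt_thc hb h0.le hθ2
  have h1 : θ < 1 := theta_lt_one' hb h0.le hθ.le
  have h2 : θ ^ 2 ≤ 1 / 2 := theta_sq_le_half hb hθ.le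
  have ht0 : 0 < t := lt_of_lt_of_le hs0 ht
  set c := 1 / (110592 * (b : ℝ)) with hc
  have hc0 : 0 < c := by positivity
  have hc1 : c ≤ 1 / 8 := by
    rw [hc]
    apply one_div_le_one_div_of_le (by norm_num)
    linarith
  set τ := (min t 1) ^ (3 / 2 : ℝ) with hτ
  have hmt : 0 < min t 1 := lt_min ht0 one_pos
  have hτ0 : 0 < τ := Real.rpow_pos_of_pos hmt _
  have hτ1 : τ ≤ 1 := Real.rpow_le_one hmt.le (min_le_right _ _) (by norm_num)
  cases k with
  | zero =>
    have : {ω : Om V | 8 * Real.exp (-c * τ * ((0 : ℕ) : ℝ))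
        < Alev G b θ (fun x => minf G θ t x ω) o 0} = ∅ := by
      ext ω
      simp only [Set.mem_ofPred_eq, Set.mem_empty_iff_false, iff_false, not_lt, Alev_zero hT]
      simp
    rw [this]
    simp only [measureReal_empty]
    positivity
  | succ k =>
    -- the information lower bound
    set m := min t (1 / 2) with hm
    have hmpos : 0 < m := lt_min ht0 (by norm_num)
    have hsq : Real.sqrt (m ^ 3 / 36) = m ^ (3 / 2 : ℝ) / 6 := sqrt_pow_three hmpos
    have hm0m : m0 ≤ m := min_le_min ht le_rfl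
    have hr : r0 ≤ m ^ (3 / 2 : ℝ) / 6 := by
      rw [hr0]
      have := Real.rpow_le_rpow hm0pos.le hm0m (z := 3 / 2) (by norm_num)
      linarith
    have hδ : 1 - Real.sqrt (m ^ 3 / 36) ≤ b * θ ^ 2 := by
      rw [hsq]
      have e1 : θ > thc b - r0 / (2 * b * thc b) := by
        have := min_le_right (thc b / 2) (r0 / (2 * b * thc b))
        linarith
      set d := r0 / (2 * b * thc b) with hd
      have hdpos : 0 < d := by positivity
      have e2 : 2 * b * thc b * d = r0 := by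
        rw [hd]
        field_simp
      have e3 : thc b - θ < d := by linarith
      have e4 := thc_sq hb
      have e5 : (thc b + θ) * (thc b - θ) ≤ 2 * thc b * d := by
        have : (thc b + θ) * (thc b - θ) ≤ (2 * thc b) * (thc b - θ) :=
          mul_le_mul_of_nonneg_right (by linarith) (by linarith)
        have : (2 * thc b) * (thc b - θ) ≤ 2 * thc b * d :=
          mul_le_mul_of_nonneg_left e3.le (by positivity)
        linarith
      have e6 : b * ((thc b + θ) * (thc b - θ)) ≤ b * (2 * thc b * d) :=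
        mul_le_mul_of_nonneg_left e5 hb0.le
      nlinarith
    have hI : ∀ v : V, m ^ 3 / 36 ≤ qq (PP V) (nfl t) G θ {v} v := fun v => one_lower θ ht0 v
    have hI1 : m ^ 3 / 36 ≤ 1 / 16 := by
      have h3 : m ≤ 1 / 2 := min_le_right _ _
      have : m ^ 3 ≤ 1 := pow_le_one₀ hmpos.le (by linarith)
      linarith
    obtain ⟨N, hN⟩ := mean_core hT hb hreg h0 hθ (t := t) (by positivity) hI1 hI hδ
    rw [hsq] at hN
    -- levels
    obtain ⟨j, j2, k0, hk, hj, hj2⟩ : ∃ j j2 k0 : ℕ, k = k0 + 2 * j2 + j ∧ k ≤ 2 * j + 1 ∧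
        k ≤ 4 * j2 + 2 := by
      refine ⟨k / 2, (k - k / 2) / 2, (k - k / 2) % 2, ?_, ?_, ?_⟩ <;> omega
    set p := θ ^ 2 * (m ^ (3 / 2 : ℝ) / 6 / 4) with hp
    have hmle : m ^ (3 / 2 : ℝ) ≤ 1 :=
      Real.rpow_le_one hmpos.le ((min_le_right _ _).trans (by norm_num)) (by norm_num)
    have hmr0 : 0 < m ^ (3 / 2 : ℝ) := Real.rpow_pos_of_pos hmpos _
    have hp0 : 0 ≤ p := by positivity
    have hp1 : p ≤ 1 := by
      rw [hp]
      nlinarith
    have hθ4 : 1 / (4 * b) ≤ θ ^ 2 := by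
      have e1 := thc_sq hb
      have e2 : (thc b / 2) ^ 2 ≤ θ ^ 2 := pow_le_pow_left₀ (by positivity) hθ3 2
      rw [div_le_iff₀ (by positivity)]
      nlinarith
    have hmτ : τ / 3 ≤ m ^ (3 / 2 : ℝ) := by
      have e1 : min t 1 / 2 ≤ m := by
        refine le_min ?_ ?_
        · have := min_le_left t 1
          linarith
        · have := min_le_right t 1
          linarith
      have e2 : (min t 1 / 2) ^ (3 / 2 : ℝ) ≤ m ^ (3 / 2 : ℝ) :=
        Real.rpow_le_rpow (by positivity) e1 (by norm_num)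
      have e3 : (min t 1 / 2) ^ (3 / 2 : ℝ) = τ / 2 ^ (3 / 2 : ℝ) := by
        rw [Real.div_rpow hmt.le (by norm_num)]
      have e4 : (2 : ℝ) ^ (3 / 2 : ℝ) ≤ 3 := by
        have : ((2 : ℝ) ^ (3 / 2 : ℝ)) ^ 2 ≤ 3 ^ 2 := by
          rw [← Real.rpow_natCast ((2 : ℝ) ^ (3 / 2 : ℝ)) 2, ← Real.rpow_mul (by norm_num)]
          norm_num
        exact (pow_le_pow_iff_left₀ (by positivity) (by norm_num) (by norm_num)).mp this
      have e5 : τ / 3 ≤ τ / 2 ^ (3 / 2 : ℝ) :=
        div_le_div_of_nonneg_left hτ0.le (by positivity) e4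
      linarith
    have hplow : τ / (288 * b) ≤ p := by
      have e1 : τ / (288 * b) = 1 / (4 * b) * (τ / 3 / 6 / 4) := by
        field_simp
        norm_num
      rw [e1, hp]
      refine mul_le_mul hθ4 (by linarith) (by positivity) (by positivity)
    have hcp : c * τ ≤ p / 384 := by
      have : c * τ = τ / (288 * b) / 384 := by
        rw [hc]
        field_simp
        norm_num
      rw [this]
      linarith
    set q := (1 - p / 96) ^ j2 with hq
    have hq0 : 0 ≤ q := pow_nonneg (by linarith) _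
    have hqb : ∀ n, N ≤ n → ∀ {y x : V}, G.Adj y x →
        EB (PP V) (nfl t) G b θ (k0 + 2 * j2) (n + (k0 + 2 * j2)) y x ≤ q := by
      intro n hn y x hyx
      have := hN k0 j2 n hn hyx
      rw [add_assoc n k0] at this
      exact this
    have hexp := exp_limit hT hb hreg h0 hθ ht0 hqb hq0 j o
    rw [← hk] at hexp
    -- bound of `q`
    have hq1 : q ≤ 4 / 3 * Real.exp (-c * τ * ((k + 1 : ℕ) : ℝ)) := by
      have s2 : q ≤ Real.exp (-(p / 96) * j2) := by
        calc (1 - p / 96) ^ j2 ≤ (Real.exp (-(p / 96))) ^ j2 := by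
              refine pow_le_pow_left₀ (by linarith) ?_ j2
              have := Real.add_one_le_exp (-(p / 96))
              linarith
          _ = Real.exp (-(p / 96) * j2) := by
              rw [← Real.exp_nat_mul]
              ring_nf
      have hj2' : ((k : ℝ) + 1) / 4 - 3 / 4 ≤ j2 := by
        have : (k : ℝ) ≤ 4 * j2 + 2 := by exact_mod_cast hj2
        linarith
      have s3 : -(p / 96) * j2 ≤ 1 / 128 + -c * τ * ((k + 1 : ℕ) : ℝ) := by
        push_cast
        have e1 : (p / 96) * (((k : ℝ) + 1) / 4 - 3 / 4) ≤ (p / 96) * j2 :=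
          mul_le_mul_of_nonneg_left hj2' (by positivity)
        have e2 : c * τ * ((k : ℝ) + 1) ≤ p / 384 * ((k : ℝ) + 1) :=
          mul_le_mul_of_nonneg_right hcp (by positivity)
        nlinarith
      have s4 : Real.exp (-(p / 96) * j2)
          ≤ Real.exp (1 / 128) * Real.exp (-c * τ * ((k + 1 : ℕ) : ℝ)) := by
        rw [← Real.exp_add]
        exact Real.exp_le_exp.mpr s3
      have s5 : Real.exp (1 / 128) ≤ 4 / 3 := by
        have := exp_le_one_add_two_mul (x := 1 / 128) (by norm_num) (by norm_num)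
        linarith
      exact s2.trans (s4.trans (mul_le_mul_of_nonneg_right s5 (Real.exp_pos _).le))
    -- Markov
    set l := (b : ℝ) ^ j with hl
    have hl0 : 0 < l := by positivity
    set a := 8 * Real.exp (-c * τ * ((k + 1 : ℕ) : ℝ)) with ha
    set A := fun ω : Om V => Alev G b θ (fun x => minf G θ t x ω) o (k + 1) with hA
    have hAm : Measurable A := measurable_Alev_minf hT h0.le hθ hb t o (k + 1)
    have hexpm : Measurable fun ω => Real.exp (l * A ω) :=
      Real.measurable_exp.comp (hAm.const_mul l)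
    have hexpi : Integrable (fun ω => Real.exp (l * A ω)) (PP V) := by
      by_contra hni
      -- `A` is bounded
      obtain ⟨K, hK⟩ : ∃ K, ∀ ω, A ω ≤ K := by
        refine ⟨(b : ℝ)⁻¹ ^ (k + 1) * (sph G o (k + 1)).card, fun ω => ?_⟩
        simp only [hA]
        unfold Alev
        refine mul_le_mul_of_nonneg_left ?_ (by positivity)
        rw [← nsmul_one, ← Finset.sum_const]
        exact Finset.sum_le_sum fun w _ => rprod_le_one h0.le h2
          (fun x => abs_minf_le h0.le h1 t x ω) o w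
      apply hni
      refine Integrable.of_bound hexpm.aestronglyMeasurable (Real.exp (l * K)) ?_
      refine Eventually.of_forall fun ω => ?_
      rw [Real.norm_eq_abs, abs_of_pos (Real.exp_pos _)]
      exact Real.exp_le_exp.mpr (mul_le_mul_of_nonneg_left (hK ω) hl0.le)
    have hmarkov : Real.exp (l * a) * (PP V).real {ω | a < A ω}
        ≤ ∫ ω, Real.exp (l * A ω) ∂(PP V) := by
      have m1 := mul_meas_ge_le_integral_of_nonneg (μ := PP V)
        (f := fun ω => Real.exp (l * A ω)) (Eventually.of_forall fun ω => (Real.exp_pos _).le)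
        hexpi (Real.exp (l * a))
      refine le_trans (mul_le_mul_of_nonneg_left ?_ (Real.exp_pos _).le) m1
      refine measureReal_mono (fun ω hω => ?_)
      simp only [Set.mem_ofPred_eq] at hω ⊢
      exact Real.exp_le_exp.mpr (mul_le_mul_of_nonneg_left hω.le hl0.le)
    have hP : (PP V).real {ω | a < A ω} ≤ Real.exp (3 * (l * q) - l * a) := by
      have m2 := hmarkov.trans hexp
      rw [Real.exp_sub, le_div_iff₀ (Real.exp_pos _), mul_comm]
      exact m2
    have hE0 := Real.exp_pos (-c * τ * ((k + 1 : ℕ) : ℝ))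
    have hfin : Real.exp (c * ((k + 1 : ℕ) : ℝ)) ≤ l * a - 3 * (l * q) := by
      have f1 : 4 * Real.exp (-c * τ * ((k + 1 : ℕ) : ℝ)) ≤ a - 3 * q := by
        rw [ha]
        linarith
      have f2 : l * (4 * Real.exp (-c * τ * ((k + 1 : ℕ) : ℝ))) ≤ l * a - 3 * (l * q) := by
        have := mul_le_mul_of_nonneg_left f1 hl0.le
        linarith
      refine le_trans ?_ f2
      have f3 : Real.exp (1 / 2) ≤ 2 := by
        have := exp_le_one_add_two_mul (x := 1 / 2) (by norm_num) (by norm_num)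
        linarith
      have f4 : Real.exp ((j : ℝ) / 2) ≤ l := by
        have : Real.exp ((j : ℝ) / 2) = (Real.exp (1 / 2)) ^ j := by
          rw [← Real.exp_nat_mul]
          ring_nf
        rw [this, hl]
        exact pow_le_pow_left₀ (Real.exp_pos _).le (f3.trans hb') j
      have f5 : Real.exp (((k : ℝ) + 1) / 4 - 1 / 2) ≤ l := by
        refine le_trans (Real.exp_le_exp.mpr ?_) f4
        have : (k : ℝ) ≤ 2 * j + 1 := by exact_mod_cast hj
        linarith
      have f6 : Real.exp (c * ((k + 1 : ℕ) : ℝ)) ≤ 4 * (Real.exp (((k : ℝ) + 1) / 4 - 1 / 2)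
          * Real.exp (-c * τ * ((k + 1 : ℕ) : ℝ))) := by
        rw [← Real.exp_add]
        have g1 : Real.exp (c * ((k + 1 : ℕ) : ℝ)) ≤ Real.exp (1 / 2 +
            (((k : ℝ) + 1) / 4 - 1 / 2 + -c * τ * ((k + 1 : ℕ) : ℝ))) := by
          apply Real.exp_le_exp.mpr
          push_cast
          have : c * τ ≤ c := mul_le_of_le_one_right hc0.le hτ1
          nlinarith
        rw [Real.exp_add] at g1
        have g2 := Real.exp_pos (((k : ℝ) + 1) / 4 - 1 / 2 + -c * τ * ((k + 1 : ℕ) : ℝ))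
        nlinarith
      calc Real.exp (c * ((k + 1 : ℕ) : ℝ))
          ≤ 4 * (Real.exp (((k : ℝ) + 1) / 4 - 1 / 2)
            * Real.exp (-c * τ * ((k + 1 : ℕ) : ℝ))) := f6
        _ ≤ 4 * (l * Real.exp (-c * τ * ((k + 1 : ℕ) : ℝ))) := by
            have := mul_le_mul_of_nonneg_right f5 hE0.le
            linarith
        _ = l * (4 * Real.exp (-c * τ * ((k + 1 : ℕ) : ℝ))) := by ring
    calc (PP V).real {ω | a < A ω} ≤ Real.exp (3 * (l * q) - l * a) := hP
      _ ≤ Real.exp (-Real.exp (c * ((k + 1 : ℕ) : ℝ))) := Real.exp_le_exp.mpr (by linarith)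
      _ ≤ 8 * Real.exp (-Real.exp (c * ((k + 1 : ℕ) : ℝ))) := by
          have := Real.exp_pos (-Real.exp (c * ((k + 1 : ℕ) : ℝ)))
          linarith

end Crest.Agent.R160.Static
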