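import Mathlib
import Crest.Agent.R160.CauchyCrit
import Crest.Agent.R160.StaticFinal
import Crest.Agent.R160.Final

/-! # Row 160: the Cauchy property at `θ_c`, no hypotheses left -/

set_option autoImplicit false

open scoped Classical

namespace Crest.Agent.R160.GC

open Crest.Agent.R160

variable {V : Type*} {G : SimpleGraph V} [G.LocallyFinite]

/-- `cauchy_crit_skel` -/
theorem cauchy_crit (hT : G.IsTree) {b : ℕ} (hb : 2 ≤ b) (hreg : G.IsRegularOfDegree (b + 1))
    (t : ℝ) (ht : 0 ≤ t) (v : V) (ε : ℝ) (hε : 0 < ε) :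
    ∃ δ, 0 < δ ∧ ∀ θ θ', thc b - δ < θ → θ < thc b → thc b - δ < θ' → θ' < thc b →
      DD G θ θ' t v ≤ ε :=
  cauchy_crit_of_level hT hb hreg (Static.level_mean hT hb hreg) (Static.level_tail hT hb hreg)
    t ht v ε hε

theorem cauchyCrit (hT : G.IsTree) {b : ℕ} (hb : 2 ≤ b) (hreg : G.IsRegularOfDegree (b + 1)) :
    Fin.CauchyCrit G b :=
  fun t ht v ε hε => cauchy_crit hT hb hreg t ht v ε hε

end Crest.Agent.R160.GC
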