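import Crest.Agent.R160.Sphere

/-! Row 160: spheres in the set of edges of a regular tree. -/

set_option autoImplicit false

open SimpleGraph Finset
open scoped Classical

namespace Crest.Agent.R160.Sphere

open Crest.Agent.R160.TreeAut

variable {V : Type*} {G : SimpleGraph V}

/-- the endpoint of the edge `e` farther away from `o` -/
noncomputable def far (G : SimpleGraph V) (o : V) (e : Sym2 V) : V :=
  if h : ∃ v, v ≠ o ∧ s(v, par G o v) = e then h.choose else o

lemma far_spec (hT : G.IsTree) (o : V) {e : Sym2 V} (he : e ∈ G.edgeSet) :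
    far G o e ≠ o ∧ s(far G o e, par G o (far G o e)) = e := by
  have h : ∃ v, v ≠ o ∧ s(v, par G o v) = e := by
    induction e using Sym2.ind with
    | _ a b =>
      rw [SimpleGraph.mem_edgeSet] at he
      rcases adj_cases hT o he with ⟨h1, h2⟩ | ⟨h1, h2⟩
      · exact ⟨a, h1, by rw [h2]⟩
      · exact ⟨b, h1, by rw [h2, Sym2.eq_swap]⟩
  unfold far
  rw [dif_pos h]
  exact h.choose_spec

lemma far_inj (hT : G.IsTree) (o : V) {e f : Sym2 V} (he : e ∈ G.edgeSet) (hf : f ∈ G.edgeSet)
    (h : far G o e = far G o f) : e = f := by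
  rw [← (far_spec hT o he).2, ← (far_spec hT o hf).2, h]

lemma far_mem (hT : G.IsTree) (o : V) {e : Sym2 V} (he : e ∈ G.edgeSet) : far G o e ∈ e := by
  have h : far G o e ∈ s(far G o e, par G o (far G o e)) := Sym2.mem_mk_left _ _
  rwa [(far_spec hT o he).2] at h

lemma IsNB.map {n : ℕ} {p : ℕ → V} (h : IsNB G n p) (g : G ≃g G) :
    IsNB G n (fun i => g (p i)) :=
  ⟨fun i hi => (SimpleGraph.Iso.map_adj_iff g).mpr (h.adj i hi),
    fun i hi h' => h.nb i hi (g.injective h')⟩

lemma ERel.map {n : ℕ} {e f : Sym2 V} (h : ERel G n e f) (g : G ≃g G) :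
    ERel G n (Sym2.map g e) (Sym2.map g f) := by
  obtain ⟨hn, p, hp, rfl, rfl⟩ := h
  exact ⟨hn, _, IsNB.map hp g, rfl, rfl⟩

/-- distances between endpoints of related edges -/
lemma ERel.dist_cases (hT : G.IsTree) {n : ℕ} {e f : Sym2 V} (h : ERel G n e f) {x y : V}
    (hx : x ∈ e) (hy : y ∈ f) :
    G.dist x y = n ∨ G.dist x y = n - 1 ∨ G.dist x y = n - 2 := by
  obtain ⟨hn, p, hp, rfl, rfl⟩ := h
  rw [Sym2.mem_iff] at hx hy
  rcases hx with rfl | rfl <;> rcases hy with rfl | rfl
  · right; left
    rw [hp.dist hT (by omega) (by omega)]; omega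
  · left
    rw [hp.dist hT (by omega) (by omega)]; omega
  · rcases Nat.lt_or_ge n 2 with h2 | h2
    · have : n = 1 := by omega
      subst this
      left
      rw [SimpleGraph.dist_comm]
      simpa using hp.dist hT (i := 0) (j := 1) (by omega) (by omega)
    · right; right
      rw [hp.dist hT (by omega) (by omega)]; omega
  · right; left
    rw [hp.dist hT (by omega) (by omega)]

variable [G.LocallyFinite]

/-- the vertices which may be far endpoints of edges of the sphere -/
noncomputable def fset (G : SimpleGraph V) [G.LocallyFinite] (n : ℕ) (x : V) : Finset V :=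
  sph G x n ∪ (sph G x (n - 1) ∪ sph G x (n - 2))

lemma far_mem_fset (hT : G.IsTree) (o : V) {n : ℕ} {e f : Sym2 V} (he : e ∈ G.edgeSet)
    (hf : f ∈ G.edgeSet) (h : ERel G n e f) : far G o f ∈ fset G n (far G o e) := by
  simp only [fset, Finset.mem_union, mem_sph hT]
  exact ERel.dist_cases hT h (far_mem hT o he) (far_mem hT o hf)

lemma esph_finite (hT : G.IsTree) (n : ℕ) (e : G.edgeSet) :
    {f : G.edgeSet | ERel G n (e : Sym2 V) f}.Finite := by
  have o : V := hT.connected.nonempty.some
  refine Set.Finite.of_injOn (f := fun f : G.edgeSet => far G o f)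
    (t := (fset G n (far G o e) : Set V)) ?_ ?_ (Finset.finite_toSet _)
  · intro f hf
    exact far_mem_fset hT o e.2 f.2 hf
  · intro f _ f' _ h
    exact Subtype.ext (far_inj hT o f.2 f'.2 h)

/-- the sphere of edges -/
noncomputable def esph (G : SimpleGraph V) [G.LocallyFinite] (hT : G.IsTree) (n : ℕ)
    (e : G.edgeSet) : Finset G.edgeSet := (esph_finite hT n e).toFinset

lemma mem_esph (hT : G.IsTree) {n : ℕ} {e f : G.edgeSet} :
    f ∈ esph G hT n e ↔ ERel G n (e : Sym2 V) f := by
  simp [esph]

lemma sum_esph_wt (hT : G.IsTree) {d : ℕ} (hreg : G.IsRegularOfDegree d) {q : ℝ} (hq : 1 ≤ q)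
    (hqd : (d : ℝ) = q ^ 2 + 1) (o : V) (n : ℕ) (e : G.edgeSet) :
    ∑ f ∈ esph G hT n e, wt q (G.dist o (far G o f)) ≤
      (6 * (n + 1) * q ^ n) * wt q (G.dist o (far G o e)) := by
  have h1 : ∑ f ∈ esph G hT n e, wt q (G.dist o (far G o f)) =
      ∑ u ∈ (esph G hT n e).image (fun f : G.edgeSet => far G o f), wt q (G.dist o u) := by
    rw [Finset.sum_image]
    intro f _ f' _ h
    exact Subtype.ext (far_inj hT o f.2 f'.2 h)
  have h2 : (esph G hT n e).image (fun f : G.edgeSet => far G o f) ⊆ fset G n (far G o e) := by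
    intro u hu
    rw [Finset.mem_image] at hu
    obtain ⟨f, hf, rfl⟩ := hu
    exact far_mem_fset hT o e.2 f.2 (mem_esph hT |>.mp hf)
  have hpos : ∀ u, 0 ≤ wt q (G.dist o u) := fun u => (wt_pos hq _).le
  have h3 : ∑ u ∈ fset G n (far G o e), wt q (G.dist o u) ≤
      ∑ u ∈ sph G (far G o e) n, wt q (G.dist o u) +
      (∑ u ∈ sph G (far G o e) (n - 1), wt q (G.dist o u) +
        ∑ u ∈ sph G (far G o e) (n - 2), wt q (G.dist o u)) := by
    have hun : ∀ A B : Finset V, ∑ u ∈ A ∪ B, wt q (G.dist o u) ≤
        ∑ u ∈ A, wt q (G.dist o u) + ∑ u ∈ B, wt q (G.dist o u) := by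
      intro A B
      rw [← Finset.sum_union_inter]
      have : 0 ≤ ∑ u ∈ A ∩ B, wt q (G.dist o u) := Finset.sum_nonneg fun u _ => hpos u
      linarith
    refine (hun _ _).trans ?_
    have := hun (sph G (far G o e) (n - 1)) (sph G (far G o e) (n - 2))
    linarith
  have hl : ∀ m ≤ n, lam q m ≤ 2 * (n + 1) * q ^ n := by
    intro m hm
    refine (lam_le hq m).trans ?_
    have : (m : ℝ) ≤ n := by exact_mod_cast hm
    apply mul_le_mul
    · linarith
    · exact pow_le_pow_right₀ hq hm
    · positivity
    · positivity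
  rw [h1]
  refine (Finset.sum_le_sum_of_subset_of_nonneg h2 fun u _ _ => hpos u).trans (h3.trans ?_)
  rw [sum_sph_wt hT hreg hq hqd, sum_sph_wt hT hreg hq hqd, sum_sph_wt hT hreg hq hqd]
  have h4 := hl n le_rfl
  have h5 := hl (n - 1) (by omega)
  have h6 := hl (n - 2) (by omega)
  have h7 := hpos (far G o e)
  nlinarith [mul_le_mul_of_nonneg_right h4 h7, mul_le_mul_of_nonneg_right h5 h7,
    mul_le_mul_of_nonneg_right h6 h7]

/-- descendants of `y`, as seen from `x` -/
noncomputable def desc (G : SimpleGraph V) [G.LocallyFinite] (x y : V) : ℕ → Finset V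
  | 0 => {y}
  | n + 1 => (desc G x y n).biUnion (chF G x)

lemma desc_path (hT : G.IsTree) {x y : V} (hxy : G.Adj x y) (n : ℕ) {u : V}
    (hu : u ∈ desc G x y n) : ∃ p : ℕ → V, IsNB G (n + 1) p ∧ p 0 = x ∧ p 1 = y ∧ p (n + 1) = u := by
  induction n generalizing u with
  | zero =>
    simp only [desc, Finset.mem_singleton] at hu
    subst hu
    exact ⟨_, IsNB.one G hxy, by simp, by simp, by simp⟩
  | succ n ih =>
    simp only [desc, Finset.mem_biUnion] at hu
    obtain ⟨a, ha, hu⟩ := hu
    obtain ⟨p, hp, h0, h1, h2⟩ := ih ha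
    refine ⟨fun i => if i = n + 2 then u else p i, ⟨?_, ?_⟩, ?_, ?_, ?_⟩
    · intro i hi
      rcases Nat.lt_or_ge i (n + 1) with h | h
      · rw [if_neg (by omega), if_neg (by omega)]
        exact hp.adj i h
      · have : i = n + 1 := by omega
        subst this
        simp only [show ¬ (n + 1 = n + 2) by omega, if_false, if_true]
        rw [h2]
        exact (mem_chF.mp hu).1
    · intro i hi
      rcases Nat.lt_or_ge i n with h | h
      · rw [if_neg (by omega), if_neg (by omega)]
        exact hp.nb i (by omega)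
      · have : i = n := by omega
        subst this
        simp only [if_true, show ¬ (i = i + 2) by omega, if_false]
        intro h3
        have h4 := (mem_chF.mp hu).2
        have h5 := hp.dist hT (i := 0) (j := i + 1) (by omega) (by omega)
        have h6 := hp.dist hT (i := 0) (j := i) (by omega) (by omega)
        rw [h0, h2] at h5
        rw [h0, ← h3] at h6
        omega
    · simp [h0]
    · simp only [show ¬ (1 = n + 2) by omega, if_false, h1]
    · simp

lemma desc_dist (hT : G.IsTree) {x y : V} (hxy : G.Adj x y) (n : ℕ) {u : V}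
    (hu : u ∈ desc G x y n) : G.dist x u = n + 1 := by
  obtain ⟨p, hp, h0, h1, h2⟩ := desc_path hT hxy n hu
  rw [← h0, ← h2, hp.dist hT (by omega) le_rfl]
  rfl

lemma card_desc (hT : G.IsTree) {d : ℕ} (hreg : G.IsRegularOfDegree d) {x y : V}
    (hxy : G.Adj x y) (n : ℕ) : (desc G x y n).card = (d - 1) ^ n := by
  induction n with
  | zero => simp [desc]
  | succ n ih =>
    rw [desc, Finset.card_biUnion, Finset.sum_congr rfl (g := fun _ => d - 1), Finset.sum_const,
      ih, smul_eq_mul, pow_succ]
    · intro u hu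
      apply card_chF hT hreg
      rintro rfl
      have := desc_dist hT hxy n hu
      rw [SimpleGraph.dist_self] at this
      omega
    · intro a _ b _ hab
      rw [Function.onFun, Finset.disjoint_left]
      intro v hv hv'
      rw [mem_chF_iff_par hT] at hv hv'
      exact hab (hv.2.symm.trans hv'.2)

lemma card_esph_ge (hT : G.IsTree) {d : ℕ} (hreg : G.IsRegularOfDegree d) (n : ℕ)
    (e : G.edgeSet) : (d - 1) ^ n ≤ (esph G hT (n + 1) e).card := by
  obtain ⟨e, he⟩ := e
  induction e using Sym2.ind with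
  | _ x y =>
    have hxy : G.Adj x y := he
    rw [← card_desc hT hreg hxy n]
    have hne : ∀ u ∈ desc G x y n, u ≠ x := by
      rintro u hu rfl
      have := desc_dist hT hxy n hu
      rw [SimpleGraph.dist_self] at this
      omega
    refine Finset.card_le_card_of_injOn
      (fun u => if h : u ≠ x then ⟨s(par G x u, u), by
        rw [SimpleGraph.mem_edgeSet]; exact (par_adj hT h).symm⟩ else ⟨s(x, y), he⟩) ?_ ?_
    · intro u hu
      simp only [dif_pos (hne u hu)]
      rw [Finset.mem_coe, mem_esph hT]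
      obtain ⟨p, hp, h0, h1, h2⟩ := desc_path hT hxy n hu
      refine ⟨by omega, p, hp, by rw [h0, h1], ?_⟩
      have h3 := (hp.dist_par hT (n + 1) le_rfl).2 (by omega)
      simp only [Nat.add_sub_cancel] at h3 ⊢
      rw [← h3, h0, h2]
    · intro u hu v hv huv
      simp only [dif_pos (hne u hu), dif_pos (hne v hv), Subtype.mk.injEq] at huv
      rw [Sym2.eq_iff] at huv
      rcases huv with h | h
      · exact h.2
      · have h1 := par_dist hT (hne u hu)
        have h2 := desc_dist hT hxy n hu
        have h3 := desc_dist hT hxy n hv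
        rw [h.1] at h1
        omega

end Crest.Agent.R160.Sphere
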