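import Crest.Agent.R160.TelSum

/-! # Row 160, module G: estimate (B) in abstract form. -/

set_option autoImplicit false

open MeasureTheory
open scoped Classical

namespace Crest.Agent.R160

open Crest.Agent.R160.TreeAut

/-! ### real sums -/

namespace GBsum

theorem geom_id (x : ℝ) (M : ℕ) :
    (1 - x) ^ 2 * ∑ n ∈ Finset.range M, ((n : ℝ) + 1) * x ^ n
      = 1 - (M + 1) * x ^ M + M * x ^ (M + 1) := by
  induction M with
  | zero => simp
  | succ M ih =>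
    rw [Finset.sum_range_succ, mul_add, ih]
    push_cast
    ring

theorem geom_le {x : ℝ} (h0 : 0 ≤ x) (h1 : x < 1) (M : ℕ) :
    ∑ n ∈ Finset.range M, ((n : ℝ) + 1) * x ^ n ≤ 1 / (1 - x) ^ 2 := by
  have h2 : 0 < (1 - x) ^ 2 := by have : 0 < 1 - x := by linarith
                                  positivity
  rw [le_div_iff₀ h2, mul_comm, geom_id]
  have h3 : x ^ (M + 1) ≤ x ^ M := by
    rw [pow_succ]
    have : 0 ≤ x ^ M := by positivity
    nlinarith
  have h4 : (M : ℝ) * x ^ (M + 1) ≤ (M : ℝ) * x ^ M := by gcongr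
  have h5 : 0 ≤ x ^ M := by positivity
  linarith

/-- `∑ (n+1) e^{-κ(n-1)/2} ≤ e^{κ/2} (1+κ/2)²·4/κ²` -/
theorem sum_exp_le {κ : ℝ} (hκ : 0 < κ) (M : ℕ) :
    ∑ n ∈ Finset.range M, ((n : ℝ) + 1) * Real.exp (-κ * ((n : ℝ) - 1) / 2)
      ≤ Real.exp (κ / 2) * (1 + κ / 2) ^ 2 * 4 / κ ^ 2 := by
  have h1 : ∀ n : ℕ, ((n : ℝ) + 1) * Real.exp (-κ * ((n : ℝ) - 1) / 2)
      = Real.exp (κ / 2) * (((n : ℝ) + 1) * (Real.exp (-κ / 2)) ^ n) := by
    intro n
    rw [← Real.exp_nat_mul, mul_left_comm, ← Real.exp_add]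
    congr 2
    ring
  simp only [h1]
  rw [← Finset.mul_sum]
  have hx0 : 0 ≤ Real.exp (-κ / 2) := (Real.exp_pos _).le
  have hx1 : Real.exp (-κ / 2) < 1 := by
    rw [Real.exp_lt_one_iff]; linarith
  have h2 := geom_le hx0 hx1 M
  have h3 : 1 / (1 - Real.exp (-κ / 2)) ^ 2 ≤ (1 + κ / 2) ^ 2 * 4 / κ ^ 2 := by
    have h4 : Real.exp (-κ / 2) ≤ 1 / (1 + κ / 2) := by
      rw [show -κ / 2 = -(κ / 2) by ring, Real.exp_neg, one_div]
      apply inv_anti₀ (by positivity)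
      have := Real.add_one_le_exp (κ / 2)
      linarith
    have h5 : (κ / 2) / (1 + κ / 2) ≤ 1 - Real.exp (-κ / 2) := by
      have : (κ / 2) / (1 + κ / 2) = 1 - 1 / (1 + κ / 2) := by field_simp; ring
      linarith
    have h6 : 0 < (κ / 2) / (1 + κ / 2) := by positivity
    have h7 : 1 / (1 - Real.exp (-κ / 2)) ^ 2 ≤ 1 / ((κ / 2) / (1 + κ / 2)) ^ 2 := by
      apply one_div_le_one_div_of_le (by positivity)
      gcongr
    refine h7.trans (le_of_eq ?_)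
    field_simp
    ring
  calc Real.exp (κ / 2) * ∑ n ∈ Finset.range M, ((n : ℝ) + 1) * (Real.exp (-κ / 2)) ^ n
      ≤ Real.exp (κ / 2) * ((1 + κ / 2) ^ 2 * 4 / κ ^ 2) :=
        mul_le_mul_of_nonneg_left (h2.trans h3) (Real.exp_pos _).le
    _ = _ := by ring

theorem sum_small_le (N : ℕ) (M : ℕ) :
    ∑ n ∈ (Finset.range M).filter (fun n => n ≤ 2 * N + 1), ((n : ℝ) + 1) ≤ 8 * (N : ℝ) ^ 2 + 8 := by
  have h1 : ∑ n ∈ (Finset.range M).filter (fun n => n ≤ 2 * N + 1), ((n : ℝ) + 1)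
      ≤ ∑ n ∈ Finset.range (2 * N + 2), ((n : ℝ) + 1) := by
    apply Finset.sum_le_sum_of_subset_of_nonneg
    · intro n hn
      rw [Finset.mem_filter] at hn
      rw [Finset.mem_range]
      omega
    · intro n _ _
      positivity
  have h2 : ∑ n ∈ Finset.range (2 * N + 2), ((n : ℝ) + 1)
      ≤ ∑ n ∈ Finset.range (2 * N + 2), ((2 * N + 2 : ℕ) : ℝ) := by
    apply Finset.sum_le_sum
    intro n hn
    rw [Finset.mem_range] at hn
    exact_mod_cast hn
  rw [Finset.sum_const, Finset.card_range, nsmul_eq_mul] at h2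
  push_cast at h2
  nlinarith [sq_nonneg ((N : ℝ) - 1)]

theorem sum_small2_le (N : ℕ) (M : ℕ) :
    ∑ n ∈ (Finset.range M).filter (fun n => n ≤ 2 * N + 1), ((n : ℝ) + 1) ^ 2
      ≤ (2 * (N : ℝ) + 2) ^ 3 := by
  have h1 : ∑ n ∈ (Finset.range M).filter (fun n => n ≤ 2 * N + 1), ((n : ℝ) + 1) ^ 2
      ≤ ∑ n ∈ Finset.range (2 * N + 2), ((n : ℝ) + 1) ^ 2 := by
    apply Finset.sum_le_sum_of_subset_of_nonneg
    · intro n hn
      rw [Finset.mem_filter] at hn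
      rw [Finset.mem_range]
      omega
    · intro n _ _
      positivity
  have h2 : ∑ n ∈ Finset.range (2 * N + 2), ((n : ℝ) + 1) ^ 2
      ≤ ∑ n ∈ Finset.range (2 * N + 2), (((2 * N + 2 : ℕ) : ℝ)) ^ 2 := by
    apply Finset.sum_le_sum
    intro n hn
    rw [Finset.mem_range] at hn
    have : (n : ℝ) + 1 ≤ ((2 * N + 2 : ℕ) : ℝ) := by exact_mod_cast hn
    gcongr
  rw [Finset.sum_const, Finset.card_range, nsmul_eq_mul] at h2
  push_cast at h2
  calc _ ≤ _ := h1.trans h2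
    _ = _ := by ring

/-- `∑ (n+1)² e^{-κ(n-1)/2}` is bounded -/
theorem sum_exp2_le {κ : ℝ} (hκ : 0 < κ) (M : ℕ) :
    ∑ n ∈ Finset.range M, ((n : ℝ) + 1) ^ 2 * Real.exp (-κ * ((n : ℝ) - 1) / 2)
      ≤ (4 / κ) * Real.exp κ * (Real.exp (κ / 4) * (1 + κ / 4) ^ 2 * 4 / (κ / 2) ^ 2) := by
  have h1 : ∀ n : ℕ, ((n : ℝ) + 1) ^ 2 * Real.exp (-κ * ((n : ℝ) - 1) / 2)
      ≤ (4 / κ) * Real.exp κ * (((n : ℝ) + 1) * Real.exp (-(κ / 2) * ((n : ℝ) - 1) / 2)) := by
    intro n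
    have h2 : (n : ℝ) + 1 ≤ (4 / κ) * Real.exp (κ / 4 * ((n : ℝ) + 1)) := by
      have := Real.add_one_le_exp (κ / 4 * ((n : ℝ) + 1))
      calc (n : ℝ) + 1 = (4 / κ) * (κ / 4 * ((n : ℝ) + 1)) := by field_simp
        _ ≤ (4 / κ) * Real.exp (κ / 4 * ((n : ℝ) + 1)) := by
            apply mul_le_mul_of_nonneg_left _ (by positivity)
            linarith
    have h3 : 0 ≤ ((n : ℝ) + 1) * Real.exp (-κ * ((n : ℝ) - 1) / 2) := by positivity
    calc ((n : ℝ) + 1) ^ 2 * Real.exp (-κ * ((n : ℝ) - 1) / 2)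
        = ((n : ℝ) + 1) * (((n : ℝ) + 1) * Real.exp (-κ * ((n : ℝ) - 1) / 2)) := by ring
      _ ≤ ((4 / κ) * Real.exp (κ / 4 * ((n : ℝ) + 1))) *
            (((n : ℝ) + 1) * Real.exp (-κ * ((n : ℝ) - 1) / 2)) :=
          mul_le_mul_of_nonneg_right h2 h3
      _ = (4 / κ) * (((n : ℝ) + 1) * (Real.exp (κ / 4 * ((n : ℝ) + 1))
            * Real.exp (-κ * ((n : ℝ) - 1) / 2))) := by ring
      _ = (4 / κ) * (((n : ℝ) + 1) * Real.exp (κ / 4 * ((n : ℝ) + 1)
            + -κ * ((n : ℝ) - 1) / 2)) := by rw [Real.exp_add]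
      _ ≤ (4 / κ) * (((n : ℝ) + 1) * Real.exp (κ + -(κ / 2) * ((n : ℝ) - 1) / 2)) := by
          apply mul_le_mul_of_nonneg_left _ (by positivity)
          apply mul_le_mul_of_nonneg_left _ (by positivity)
          apply Real.exp_le_exp.2
          nlinarith
      _ = _ := by rw [Real.exp_add]; ring
  refine (Finset.sum_le_sum fun n _ => h1 n).trans ?_
  rw [← Finset.mul_sum]
  apply mul_le_mul_of_nonneg_left _ (by positivity)
  have := sum_exp_le (κ := κ / 2) (by positivity) M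
  have e : κ / 2 / 2 = κ / 4 := by ring
  rw [e] at this
  exact this

/-- the double exponential part -/
theorem sum_dexp_le {c : ℝ} (hc : 0 < c) (N M : ℕ) :
    ∑ n ∈ (Finset.range M).filter (fun n => ¬ n ≤ 2 * N + 1),
      ((n : ℝ) + 1) * Real.exp (-Real.exp (c * ((n : ℝ) - 1) / 2))
      ≤ (2 * (Real.exp (c / 4) * (1 + c / 4) ^ 2 * 4 / (c / 2) ^ 2))
        * Real.exp (-Real.exp (c / 2 * N)) := by
  have h1 : ∀ n ∈ (Finset.range M).filter (fun n => ¬ n ≤ 2 * N + 1),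
      ((n : ℝ) + 1) * Real.exp (-Real.exp (c * ((n : ℝ) - 1) / 2))
      ≤ (2 * Real.exp (-Real.exp (c / 2 * N)))
        * (((n : ℝ) + 1) * Real.exp (-(c / 2) * ((n : ℝ) - 1) / 2)) := by
    intro n hn
    rw [Finset.mem_filter] at hn
    have hn2 : 2 * (N : ℝ) ≤ (n : ℝ) - 1 := by
      have : 2 * N + 1 ≤ n := by omega
      have : (2 * (N : ℝ) + 1) ≤ n := by exact_mod_cast this
      linarith
    have h2 : Real.exp (-Real.exp (c * ((n : ℝ) - 1) / 2))
        ≤ (2 * Real.exp (-Real.exp (c / 2 * N))) * Real.exp (-(c / 2) * ((n : ℝ) - 1) / 2) := by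
      have e1 : Real.exp (c * N) ≤ Real.exp (c * ((n : ℝ) - 1) / 2) := by
        apply Real.exp_le_exp.2
        nlinarith
      have e2 : Real.exp (c / 2 * N) ≤ Real.exp (c * N) / 2 + 1 / 2 := by
        have : Real.exp (c * N) = Real.exp (c / 2 * N) ^ 2 := by
          rw [← Real.exp_nat_mul]; congr 1; push_cast; ring
        rw [this]
        nlinarith [sq_nonneg (Real.exp (c / 2 * N) - 1)]
      have e3 : c * ((n : ℝ) - 1) / 2 + 1 ≤ Real.exp (c * ((n : ℝ) - 1) / 2) :=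
        Real.add_one_le_exp _
      have e4 : (1 : ℝ) ≤ 2 := by norm_num
      have e5 : Real.exp (-Real.exp (c * ((n : ℝ) - 1) / 2))
          ≤ Real.exp (-Real.exp (c / 2 * N)) * Real.exp (-(c / 2) * ((n : ℝ) - 1) / 2) := by
        rw [← Real.exp_add]
        apply Real.exp_le_exp.2
        linarith
      have e6 : 0 ≤ Real.exp (-Real.exp (c / 2 * N)) * Real.exp (-(c / 2) * ((n : ℝ) - 1) / 2) := by
        positivity
      linarith
    calc ((n : ℝ) + 1) * Real.exp (-Real.exp (c * ((n : ℝ) - 1) / 2))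
        ≤ ((n : ℝ) + 1) * ((2 * Real.exp (-Real.exp (c / 2 * N)))
            * Real.exp (-(c / 2) * ((n : ℝ) - 1) / 2)) :=
          mul_le_mul_of_nonneg_left h2 (by positivity)
      _ = _ := by ring
  refine (Finset.sum_le_sum h1).trans ?_
  rw [← Finset.mul_sum]
  have h2 : ∑ n ∈ (Finset.range M).filter (fun n => ¬ n ≤ 2 * N + 1),
      ((n : ℝ) + 1) * Real.exp (-(c / 2) * ((n : ℝ) - 1) / 2)
      ≤ ∑ n ∈ Finset.range M, ((n : ℝ) + 1) * Real.exp (-(c / 2) * ((n : ℝ) - 1) / 2) := by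
    apply Finset.sum_le_sum_of_subset_of_nonneg (Finset.filter_subset _ _)
    intro n _ _
    positivity
  have h3 := sum_exp_le (κ := c / 2) (by positivity) M
  have e : c / 2 / 2 = c / 4 := by ring
  rw [e] at h3
  calc _ ≤ (2 * Real.exp (-Real.exp (c / 2 * N)))
        * (Real.exp (c / 4) * (1 + c / 4) ^ 2 * 4 / (c / 2) ^ 2) :=
        mul_le_mul_of_nonneg_left (h2.trans h3) (by positivity)
    _ = _ := by ring

/-- summation of the per-level bounds -/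
theorem total (S : ℕ → ℝ) (L c κ κ0 D Δ : ℝ) (hL : 0 ≤ L) (hc : 0 < c) (hκ0 : 0 < κ0)
    (hκ : κ0 ≤ κ) (hκc : κ ≤ c) (hD : 0 ≤ D) (hΔ : 0 ≤ Δ) (N : ℕ)
    (hsmall : ∀ n, S n ≤ L * ((n : ℝ) + 1) * D + L * ((n : ℝ) + 1) ^ 2 * Δ)
    (hlarge : ∀ n, S n ≤ L * ((n : ℝ) + 1) * Real.exp (-κ * ((n : ℝ) - 1) / 2) * D
      + L * ((n : ℝ) + 1) * Real.exp (-Real.exp (c * ((n : ℝ) - 1) / 2))
      + L * ((n : ℝ) + 1) ^ 2 * Real.exp (-κ0 * ((n : ℝ) - 1) / 2) * Δ) (M : ℕ) :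
    ∑ n ∈ Finset.range M, S n ≤
      L * (8 * (N : ℝ) ^ 2 + 8 + Real.exp (c / 2) * (1 + c / 2) ^ 2 * 4 / κ ^ 2) * D
      + L * (2 * (Real.exp (c / 4) * (1 + c / 4) ^ 2 * 4 / (c / 2) ^ 2))
        * Real.exp (-Real.exp (c / 2 * N))
      + L * ((2 * N + 2) ^ 3 + (4 / κ0) * Real.exp κ0
          * (Real.exp (κ0 / 4) * (1 + κ0 / 4) ^ 2 * 4 / (κ0 / 2) ^ 2)) * Δ := by
  have hκp : 0 < κ := lt_of_lt_of_le hκ0 hκ
  rw [← Finset.sum_filter_add_sum_filter_not (Finset.range M) (fun n => n ≤ 2 * N + 1)]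
  have h1 : ∑ n ∈ (Finset.range M).filter (fun n => n ≤ 2 * N + 1), S n
      ≤ L * (8 * (N : ℝ) ^ 2 + 8) * D + L * (2 * N + 2) ^ 3 * Δ := by
    calc _ ≤ ∑ n ∈ (Finset.range M).filter (fun n => n ≤ 2 * N + 1),
          (L * ((n : ℝ) + 1) * D + L * ((n : ℝ) + 1) ^ 2 * Δ) :=
          Finset.sum_le_sum fun n _ => hsmall n
      _ = L * (∑ n ∈ (Finset.range M).filter (fun n => n ≤ 2 * N + 1), ((n : ℝ) + 1)) * D
          + L * (∑ n ∈ (Finset.range M).filter (fun n => n ≤ 2 * N + 1), ((n : ℝ) + 1) ^ 2) * Δ := by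
          rw [Finset.sum_add_distrib, Finset.mul_sum, Finset.mul_sum, Finset.sum_mul,
            Finset.sum_mul]
      _ ≤ _ := by
          have a1 := sum_small_le N M
          have a2 := sum_small2_le N M
          gcongr
  have h2 : ∑ n ∈ (Finset.range M).filter (fun n => ¬ n ≤ 2 * N + 1), S n
      ≤ L * (Real.exp (c / 2) * (1 + c / 2) ^ 2 * 4 / κ ^ 2) * D
        + L * ((2 * (Real.exp (c / 4) * (1 + c / 4) ^ 2 * 4 / (c / 2) ^ 2))
          * Real.exp (-Real.exp (c / 2 * N)))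
        + L * ((4 / κ0) * Real.exp κ0
          * (Real.exp (κ0 / 4) * (1 + κ0 / 4) ^ 2 * 4 / (κ0 / 2) ^ 2)) * Δ := by
    calc _ ≤ ∑ n ∈ (Finset.range M).filter (fun n => ¬ n ≤ 2 * N + 1),
          (L * ((n : ℝ) + 1) * Real.exp (-κ * ((n : ℝ) - 1) / 2) * D
      + L * ((n : ℝ) + 1) * Real.exp (-Real.exp (c * ((n : ℝ) - 1) / 2))
      + L * ((n : ℝ) + 1) ^ 2 * Real.exp (-κ0 * ((n : ℝ) - 1) / 2) * Δ) :=
          Finset.sum_le_sum fun n _ => hlarge n
      _ = L * (∑ n ∈ (Finset.range M).filter (fun n => ¬ n ≤ 2 * N + 1),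
            ((n : ℝ) + 1) * Real.exp (-κ * ((n : ℝ) - 1) / 2)) * D
          + L * (∑ n ∈ (Finset.range M).filter (fun n => ¬ n ≤ 2 * N + 1),
            ((n : ℝ) + 1) * Real.exp (-Real.exp (c * ((n : ℝ) - 1) / 2)))
          + L * (∑ n ∈ (Finset.range M).filter (fun n => ¬ n ≤ 2 * N + 1),
            ((n : ℝ) + 1) ^ 2 * Real.exp (-κ0 * ((n : ℝ) - 1) / 2)) * Δ := by
          rw [Finset.sum_add_distrib, Finset.sum_add_distrib, Finset.mul_sum, Finset.mul_sum,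
            Finset.mul_sum, Finset.sum_mul, Finset.sum_mul]
          simp only [mul_assoc]
      _ ≤ _ := by
          have a1 : ∑ n ∈ (Finset.range M).filter (fun n => ¬ n ≤ 2 * N + 1),
              ((n : ℝ) + 1) * Real.exp (-κ * ((n : ℝ) - 1) / 2)
              ≤ Real.exp (c / 2) * (1 + c / 2) ^ 2 * 4 / κ ^ 2 := by
            refine (Finset.sum_le_sum_of_subset_of_nonneg (Finset.filter_subset _ _)
              (fun n _ _ => by positivity)).trans ((sum_exp_le hκp M).trans ?_)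
            gcongr
          have a2 := sum_dexp_le hc N M
          have a3 : ∑ n ∈ (Finset.range M).filter (fun n => ¬ n ≤ 2 * N + 1),
              ((n : ℝ) + 1) ^ 2 * Real.exp (-κ0 * ((n : ℝ) - 1) / 2) ≤ _ :=
            (Finset.sum_le_sum_of_subset_of_nonneg (Finset.filter_subset _ _)
              (fun n _ _ => by positivity)).trans (sum_exp2_le hκ0 M)
          gcongr
  calc _ ≤ _ := add_le_add h1 h2
    _ = _ := by ring

end GBsum

/-! ### level bounds -/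

section lev

variable {V Ω : Type*} [MeasurableSpace Ω] {G : SimpleGraph V} [G.LocallyFinite] {P : Measure Ω}
  {m m' : V → Ω → ℝ}

/-- splitting an integral according to a tail event -/
theorem integral_mul_le_of_tail [IsProbabilityMeasure P] {F A : Ω → ℝ} (hF : BM F) (hA : BM A)
    {KF KA a : ℝ} (ha : 0 ≤ a) (hF0 : ∀ ω, 0 ≤ F ω) (hFK : ∀ ω, F ω ≤ KF) (hA0 : ∀ ω, 0 ≤ A ω)
    (hAK : ∀ ω, A ω ≤ KA) :
    ∫ ω, F ω * A ω ∂P ≤ a * ∫ ω, F ω ∂P + KF * KA * P.real {ω | a < A ω} := by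
  have hms : MeasurableSet {ω | a < A ω} := measurableSet_lt measurable_const hA.1
  have h1 : ∀ ω, F ω * A ω ≤ a * F ω + KF * KA * ({ω | a < A ω}.indicator 1 ω) := by
    intro ω
    by_cases hω : a < A ω
    · have : ({ω | a < A ω}.indicator (1 : Ω → ℝ) ω) = 1 := by
        simp [Set.indicator, hω]
      rw [this, mul_one]
      have h2 : F ω * A ω ≤ KF * KA :=
        mul_le_mul (hFK ω) (hAK ω) (hA0 ω) ((hF0 ω).trans (hFK ω))
      have := mul_nonneg ha (hF0 ω)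
      linarith
    · have : ({ω | a < A ω}.indicator (1 : Ω → ℝ) ω) = 0 := by
        simp [Set.indicator, hω]
      rw [this, mul_zero, add_zero, mul_comm]
      push Not at hω
      exact mul_le_mul_of_nonneg_right hω (hF0 ω)
  have hind : Integrable ({ω | a < A ω}.indicator (1 : Ω → ℝ)) P :=
    (integrable_const (1 : ℝ)).indicator hms
  have h2 := integral_mono (hF.mul hA).integrable
    ((hF.integrable.const_mul a).add (hind.const_mul (KF * KA))) h1
  refine h2.trans (le_of_eq ?_)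
  simp only [Pi.add_apply]
  rw [integral_add (hF.integrable.const_mul a) (hind.const_mul (KF * KA)), integral_const_mul,
    integral_const_mul, integral_indicator_one hms]

variable [IsProbabilityMeasure P]

/-- the data of estimate (B) at a fixed time -/
structure GBdata (G : SimpleGraph V) [G.LocallyFinite] (P : Measure Ω) (b : ℕ) (θ θ' : ℝ)
    (m m' : V → Ω → ℝ) (D C1 c κ κ0 : ℝ) : Prop where
  tree : G.IsTree
  reg : G.IsRegularOfDegree (b + 1)
  hb : 2 ≤ b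
  hom : HomPair G P m m'
  h0' : 0 ≤ θ'
  hle : θ' ≤ θ
  h4 : 1 / 4 ≤ (b : ℝ) * θ ^ 2
  hlt : (b : ℝ) * θ ^ 2 ≤ 1
  hD : ∀ v, ∫ ω, (m v ω - m' v ω) ^ 2 ∂P = D
  hC1 : 1 ≤ C1
  hc : 0 < c
  hκ0 : 0 < κ0
  hκ : κ0 ≤ κ
  hκc : κ ≤ c
  tail : ∀ (o : V) (k : ℕ), P.real {ω | C1 * Real.exp (-κ * k) < Alev G b θ (fun x => m x ω) o k}
    ≤ C1 * Real.exp (-Real.exp (c * k))
  tail' : ∀ (o : V) (k : ℕ), P.real {ω | C1 * Real.exp (-κ * k) < Alev G b θ' (fun x => m' x ω) o k}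
    ≤ C1 * Real.exp (-Real.exp (c * k))

set_option maxHeartbeats 4000000 in
theorem GBdata.level {b : ℕ} {θ θ' D C1 c κ κ0 : ℝ}
    (h : GBdata G P b θ θ' m m' D C1 c κ κ0) (v : V) (n : ℕ) :
    (Sn G P θ θ' m m' v n ≤ (10 ^ 17 * b * C1) * ((n : ℝ) + 1) * D
        + (10 ^ 17 * b * C1) * ((n : ℝ) + 1) ^ 2 * (θ - θ') ^ 2) ∧
    (Sn G P θ θ' m m' v n ≤
      (10 ^ 17 * b * C1) * ((n : ℝ) + 1) * Real.exp (-κ * ((n : ℝ) - 1) / 2) * D
      + (10 ^ 17 * b * C1) * ((n : ℝ) + 1) * Real.exp (-Real.exp (c * ((n : ℝ) - 1) / 2))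
      + (10 ^ 17 * b * C1) * ((n : ℝ) + 1) ^ 2 * Real.exp (-κ0 * ((n : ℝ) - 1) / 2)
        * (θ - θ') ^ 2) := by
  obtain ⟨hT, hreg, hb, hom, h0', hle, h4, hlt, hD, hC1, hc, hκ0, hκ, hκc, tail, tail'⟩ := h
  have hb1 : 1 ≤ b := by omega
  have hbR : (2 : ℝ) ≤ b := by exact_mod_cast hb
  have h0 : 0 ≤ θ := h0'.trans hle
  have h2 : θ ^ 2 ≤ 1 / 2 := by nlinarith [sq_nonneg θ]
  have h2' : θ' ^ 2 ≤ 1 / 2 := le_trans (by gcongr) h2
  have t1 := theta_lt_one h0 h2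
  have t1' := theta_lt_one h0' h2'
  have hκp : 0 < κ := lt_of_lt_of_le hκ0 hκ
  -- a neighbour
  obtain ⟨y, hy⟩ := sph_nonempty hT hb1 hreg v 1
  rw [mem_sph hT, SimpleGraph.dist_eq_one_iff_adj] at hy
  have hmain := hom.Sn_le hT hb hreg h0' hle h4 hlt v hy n
  have hbm : ∀ v, BM (fun ω => (m v ω - m' v ω) ^ 2) := fun v =>
    ((hom.bm v).sub (hom.bm' v)).pow 2
  have hf4 : ∀ v ω, (m v ω - m' v ω) ^ 2 ≤ 4 := by
    intro v ω
    have := abs_sub (m v ω) (m' v ω)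
    have h1 := hom.le v ω
    have h2 := hom.le' v ω
    rw [← sq_abs]
    have h3 : |m v ω - m' v ω| ≤ 2 := by linarith
    calc |m v ω - m' v ω| ^ 2 ≤ 2 ^ 2 := pow_le_pow_left₀ (abs_nonneg _) h3 2
      _ = 4 := by norm_num
  have hA0 : ∀ o k ω, 0 ≤ Alev G b θ (fun x => m x ω) o k := fun o k ω =>
    (Alev_mem hT hb1 hreg h0 t1 (m := fun x => m x ω) (fun x => hom.le x ω) o k).1
  have hA2 : ∀ o k ω, Alev G b θ (fun x => m x ω) o k ≤ 2 := fun o k ω =>
    (Alev_mem hT hb1 hreg h0 t1 (m := fun x => m x ω) (fun x => hom.le x ω) o k).2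
  have hA0' : ∀ o k ω, 0 ≤ Alev G b θ' (fun x => m' x ω) o k := fun o k ω =>
    (Alev_mem hT hb1 hreg h0' t1' (m := fun x => m' x ω) (fun x => hom.le' x ω) o k).1
  have hA2' : ∀ o k ω, Alev G b θ' (fun x => m' x ω) o k ≤ 2 := fun o k ω =>
    (Alev_mem hT hb1 hreg h0' t1' (m := fun x => m' x ω) (fun x => hom.le' x ω) o k).2
  have hAbm : ∀ o k, BM (fun ω => Alev G b θ (fun x => m x ω) o k) := fun o k =>
    hom.bm_Alev hT hb1 hreg h0 t1 o k
  have hAbm' : ∀ o k, BM (fun ω => Alev G b θ' (fun x => m' x ω) o k) := fun o k =>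
    hom.symm.bm_Alev hT hb1 hreg h0' t1' o k
  set Δ : ℝ := (θ - θ') ^ 2 with hΔ
  have hΔ0 : 0 ≤ Δ := sq_nonneg _
  have hΔ1 : Δ ≤ 1 := by
    rw [hΔ]
    exact pow_le_one₀ (by linarith) (by linarith)
  have hD0 : 0 ≤ D := by
    rw [← hD v]
    exact integral_nonneg fun ω => sq_nonneg _
  set F : Ω → ℝ := fun ω => (m v ω - m' v ω) ^ 2 + (m y ω - m' y ω) ^ 2 + Δ with hF
  have hFbm : BM F := ((hbm v).add (hbm y)).add (BM.const Δ)
  have hF0 : ∀ ω, 0 ≤ F ω := fun ω => by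
    simp only [hF]; positivity
  have hF9 : ∀ ω, F ω ≤ 9 := fun ω => by
    have := hf4 v ω; have := hf4 y ω
    simp only [hF]; linarith
  have hFint : ∫ ω, F ω ∂P = 2 * D + Δ := by
    simp only [hF]
    rw [integral_add ((hbm v).add (hbm y)).integrable (integrable_const Δ),
      integral_add (hbm v).integrable (hbm y).integrable, hD, hD, integral_const]
    simp
    ring
  have q1 : ((b : ℝ) * θ ^ 2) ^ n ≤ 1 := pow_le_one₀ (by positivity) hlt
  have q1' : 0 ≤ ((b : ℝ) * θ ^ 2) ^ n := by positivity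
  have q2 : ((b : ℝ) * θ' ^ 2) ^ n ≤ 1 := by
    apply pow_le_one₀ (by positivity)
    refine le_trans ?_ hlt
    gcongr
  have q2' : 0 ≤ ((b : ℝ) * θ' ^ 2) ^ n := by positivity
  -- consequence of the main inequality
  have hI1 : 0 ≤ ∫ ω, (m v ω - m' v ω) ^ 2 * Alev G b θ (fun x => m x ω) v n ∂P :=
    integral_nonneg fun ω => mul_nonneg (sq_nonneg _) (hA0 v n ω)
  have hI2 : 0 ≤ ∫ ω, Alev G b θ (fun x => m x ω) v n ∂P :=
    integral_nonneg fun ω => hA0 v n ω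
  have hI3 : ∀ i, 0 ≤ ∫ ω, F ω * (Alev G b θ' (fun x => m' x ω) v i
      * Alev G b θ (fun x => m x ω) y (n - 1 - i)) ∂P := fun i =>
    integral_nonneg fun ω => mul_nonneg (hF0 ω) (mul_nonneg (hA0' v i ω) (hA0 y _ ω))
  have red : ∀ X Y Z : ℝ,
      ∫ ω, (m v ω - m' v ω) ^ 2 * Alev G b θ (fun x => m x ω) v n ∂P ≤ X →
      ∫ ω, Alev G b θ (fun x => m x ω) v n ∂P ≤ Y →
      (∀ i < n, ∫ ω, F ω * (Alev G b θ' (fun x => m' x ω) v i
        * Alev G b θ (fun x => m x ω) y (n - 1 - i)) ∂P ≤ Z) →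
      Sn G P θ θ' m m' v n ≤ 13 * X + 12 * b * n ^ 2 * Δ * Y + 288 * 10 ^ 12 * (n * Z) := by
    intro X Y Z hX hY hZ
    refine hmain.trans ?_
    have a1 : 13 * ((b : ℝ) * θ ^ 2) ^ n
          * ∫ ω, (m v ω - m' v ω) ^ 2 * Alev G b θ (fun x => m x ω) v n ∂P ≤ 13 * X := by
      calc _ ≤ 13 * 1 * ∫ ω, (m v ω - m' v ω) ^ 2 * Alev G b θ (fun x => m x ω) v n ∂P := by
            gcongr
        _ ≤ _ := by linarith
    have a2 : 12 * b * n ^ 2 * Δ * ((b : ℝ) * θ ^ 2) ^ n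
          * ∫ ω, Alev G b θ (fun x => m x ω) v n ∂P ≤ 12 * b * n ^ 2 * Δ * Y := by
      calc _ ≤ 12 * b * n ^ 2 * Δ * 1 * ∫ ω, Alev G b θ (fun x => m x ω) v n ∂P := by
            gcongr
        _ = 12 * b * n ^ 2 * Δ * ∫ ω, Alev G b θ (fun x => m x ω) v n ∂P := by ring
        _ ≤ _ := by gcongr
    have a3 : ∑ i ∈ Finset.range n, ∫ ω, F ω * (Alev G b θ' (fun x => m' x ω) v i
        * Alev G b θ (fun x => m x ω) y (n - 1 - i)) ∂P ≤ n * Z := by
      refine (Finset.sum_le_sum fun i hi => hZ i (Finset.mem_range.1 hi)).trans (le_of_eq ?_)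
      rw [Finset.sum_const, Finset.card_range, nsmul_eq_mul]
    have a4 : 0 ≤ ∑ i ∈ Finset.range n, ∫ ω, F ω * (Alev G b θ' (fun x => m' x ω) v i
        * Alev G b θ (fun x => m x ω) y (n - 1 - i)) ∂P :=
      Finset.sum_nonneg fun i _ => hI3 i
    have a5 : 288 * 10 ^ 12 * ((b : ℝ) * θ' ^ 2) ^ n * ∑ i ∈ Finset.range n,
        ∫ ω, F ω * (Alev G b θ' (fun x => m' x ω) v i
        * Alev G b θ (fun x => m x ω) y (n - 1 - i)) ∂P ≤ 288 * 10 ^ 12 * (n * Z) := by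
      calc _ ≤ 288 * 10 ^ 12 * 1 * ∑ i ∈ Finset.range n,
            ∫ ω, F ω * (Alev G b θ' (fun x => m' x ω) v i
            * Alev G b θ (fun x => m x ω) y (n - 1 - i)) ∂P := by gcongr
        _ ≤ _ := by linarith
    exact add_le_add (add_le_add a1 a2) a5
  constructor
  · -- trivial bound
    have hX : ∫ ω, (m v ω - m' v ω) ^ 2 * Alev G b θ (fun x => m x ω) v n ∂P ≤ 2 * D := by
      rw [← hD v, ← integral_const_mul]
      apply integral_mono ((hbm v).mul (hAbm v n)).integrable ((hbm v).integrable.const_mul 2)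
      intro ω
      simp only
      rw [mul_comm]
      exact mul_le_mul_of_nonneg_right (hA2 v n ω) (sq_nonneg _)
    have hY : ∫ ω, Alev G b θ (fun x => m x ω) v n ∂P ≤ 2 := by
      have := integral_mono (μ := P) (hAbm v n).integrable (integrable_const (2 : ℝ))
        (fun ω => hA2 v n ω)
      simpa using this
    have hZ : ∀ i < n, ∫ ω, F ω * (Alev G b θ' (fun x => m' x ω) v i
        * Alev G b θ (fun x => m x ω) y (n - 1 - i)) ∂P ≤ 4 * (2 * D + Δ) := by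
      intro i _
      rw [← hFint, ← integral_const_mul]
      apply integral_mono (hFbm.mul ((hAbm' v i).mul (hAbm y _))).integrable
        (hFbm.integrable.const_mul 4)
      intro ω
      simp only
      have : Alev G b θ' (fun x => m' x ω) v i * Alev G b θ (fun x => m x ω) y (n - 1 - i)
          ≤ 2 * 2 := mul_le_mul (hA2' v i ω) (hA2 y _ ω) (hA0 y _ ω) (by norm_num)
      calc _ ≤ F ω * (2 * 2) := mul_le_mul_of_nonneg_left this (hF0 ω)
        _ = 4 * F ω := by ring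
    refine (red _ _ _ hX hY hZ).trans ?_
    have hn : (0 : ℝ) ≤ n := Nat.cast_nonneg n
    have hL : (10 : ℝ) ^ 17 * b ≤ 10 ^ 17 * b * C1 := by
      have : (0 : ℝ) ≤ 10 ^ 17 * b := by positivity
      exact le_mul_of_one_le_right this hC1
    have hbn : (n : ℝ) ≤ b * n := le_mul_of_one_le_left hn (by linarith)
    have e1 : 13 * (2 * D) + 288 * 10 ^ 12 * (n * (4 * (2 * D)))
        ≤ (10 ^ 17 * b) * ((n : ℝ) + 1) * D := by
      have : 13 * 2 + 288 * 10 ^ 12 * 8 * (n : ℝ) ≤ (10 ^ 17 * b) * ((n : ℝ) + 1) := by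
        rw [show (10 ^ 17 * (b : ℝ)) * ((n : ℝ) + 1) = 10 ^ 17 * (b * n) + 10 ^ 17 * b by ring]
        linarith
      calc _ = (13 * 2 + 288 * 10 ^ 12 * 8 * (n : ℝ)) * D := by ring
        _ ≤ _ := mul_le_mul_of_nonneg_right this hD0
    have e2 : 12 * b * n ^ 2 * Δ * 2 + 288 * 10 ^ 12 * (n * (4 * Δ))
        ≤ (10 ^ 17 * b) * ((n : ℝ) + 1) ^ 2 * Δ := by
      have : 24 * b * (n : ℝ) ^ 2 + 288 * 10 ^ 12 * 4 * (n : ℝ)
          ≤ (10 ^ 17 * b) * ((n : ℝ) + 1) ^ 2 := by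
        have f1 : 0 ≤ (b : ℝ) * (n : ℝ) ^ 2 := by positivity
        have f2 : (n : ℝ) ≤ b * n := hbn
        have f3 : (10 ^ 17 * (b : ℝ)) * ((n : ℝ) + 1) ^ 2
            = 10 ^ 17 * (b * (n : ℝ) ^ 2) + 2 * 10 ^ 17 * (b * n) + 10 ^ 17 * b := by ring
        rw [f3]
        linarith
      calc _ = (24 * b * (n : ℝ) ^ 2 + 288 * 10 ^ 12 * 4 * (n : ℝ)) * Δ := by ring
        _ ≤ _ := mul_le_mul_of_nonneg_right this hΔ0
    calc _ = (13 * (2 * D) + 288 * 10 ^ 12 * (n * (4 * (2 * D))))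
          + (12 * b * n ^ 2 * Δ * 2 + 288 * 10 ^ 12 * (n * (4 * Δ))) := by ring
      _ ≤ (10 ^ 17 * b) * ((n : ℝ) + 1) * D + (10 ^ 17 * b) * ((n : ℝ) + 1) ^ 2 * Δ :=
          add_le_add e1 e2
      _ ≤ _ := by gcongr
  · -- tail bound
    set ε1 : ℝ := Real.exp (-κ * ((n : ℝ) - 1) / 2) with hε1
    set ε2 : ℝ := Real.exp (-Real.exp (c * ((n : ℝ) - 1) / 2)) with hε2
    set ε3 : ℝ := Real.exp (-κ0 * ((n : ℝ) - 1) / 2) with hε3
    have hn : (0 : ℝ) ≤ n := Nat.cast_nonneg n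
    have g1 : ∀ i : ℕ, (n : ℝ) - 1 ≤ 2 * i → Real.exp (-κ * i) ≤ ε1 := by
      intro i hi
      apply Real.exp_le_exp.2
      have := mul_le_mul_of_nonneg_left hi hκp.le
      linarith
    have g2 : ∀ i : ℕ, (n : ℝ) - 1 ≤ 2 * i → Real.exp (-Real.exp (c * i)) ≤ ε2 := by
      intro i hi
      apply Real.exp_le_exp.2
      apply neg_le_neg
      apply Real.exp_le_exp.2
      have := mul_le_mul_of_nonneg_left hi hc.le
      linarith
    have hκ0n : κ0 * n ≤ κ * n := mul_le_mul_of_nonneg_right hκ hn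
    have hκcn : κ * n ≤ c * n := mul_le_mul_of_nonneg_right hκc hn
    have hκ0n' : 0 ≤ κ0 * n := by positivity
    have g3 : Real.exp (-κ * n) ≤ ε3 := by
      apply Real.exp_le_exp.2
      linarith
    have g4 : Real.exp (-Real.exp (c * n)) ≤ ε3 := by
      apply Real.exp_le_exp.2
      have := Real.add_one_le_exp (c * n)
      linarith
    have hX : ∫ ω, (m v ω - m' v ω) ^ 2 * Alev G b θ (fun x => m x ω) v n ∂P
        ≤ C1 * ε1 * D + 8 * (C1 * ε2) := by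
      have := integral_mul_le_of_tail (P := P) (hbm v) (hAbm v n) (KF := 4) (KA := 2)
        (a := C1 * Real.exp (-κ * n)) (by positivity) (fun ω => sq_nonneg _) (hf4 v) (hA0 v n)
        (hA2 v n)
      rw [hD v] at this
      have e1 := g1 n (by linarith)
      have e2 := g2 n (by linarith)
      have e3 := tail v n
      have e4 : C1 * Real.exp (-κ * n) * D ≤ C1 * ε1 * D := by gcongr
      have e5 : C1 * Real.exp (-Real.exp (c * n)) ≤ C1 * ε2 := by gcongr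
      linarith
    have hY : ∫ ω, Alev G b θ (fun x => m x ω) v n ∂P ≤ 3 * C1 * ε3 := by
      have := integral_mul_le_of_tail (P := P) (BM.const 1) (hAbm v n) (KF := 1) (KA := 2)
        (a := C1 * Real.exp (-κ * n)) (by positivity) (fun ω => zero_le_one) (fun ω => le_rfl)
        (hA0 v n) (hA2 v n)
      simp only [one_mul, integral_const, probReal_univ, smul_eq_mul, mul_one] at this
      have e3 := tail v n
      have e4 : C1 * Real.exp (-κ * n) ≤ C1 * ε3 := by gcongr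
      have e5 : C1 * Real.exp (-Real.exp (c * n)) ≤ C1 * ε3 := by gcongr
      linarith
    have hZ : ∀ i < n, ∫ ω, F ω * (Alev G b θ' (fun x => m' x ω) v i
        * Alev G b θ (fun x => m x ω) y (n - 1 - i)) ∂P
        ≤ 2 * (C1 * ε1 * (2 * D + Δ)) + 36 * (C1 * ε2) := by
      intro i hi
      by_cases hi2 : n - 1 ≤ 2 * i
      · have hi3 : (n : ℝ) - 1 ≤ 2 * i := by
          have : n ≤ 2 * i + 1 := by omega
          have : (n : ℝ) ≤ 2 * i + 1 := by exact_mod_cast this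
          linarith
        have hb1 : ∫ ω, F ω * (Alev G b θ' (fun x => m' x ω) v i
            * Alev G b θ (fun x => m x ω) y (n - 1 - i)) ∂P
            ≤ 2 * ∫ ω, F ω * Alev G b θ' (fun x => m' x ω) v i ∂P := by
          rw [← integral_const_mul]
          apply integral_mono (hFbm.mul ((hAbm' v i).mul (hAbm y _))).integrable
            ((hFbm.mul (hAbm' v i)).integrable.const_mul 2)
          intro ω
          simp only
          have u1 := hA2 y (n - 1 - i) ω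
          have u2 := mul_nonneg (hF0 ω) (hA0' v i ω)
          have u3 := mul_le_mul_of_nonneg_left u1 u2
          linarith
        have := integral_mul_le_of_tail (P := P) hFbm (hAbm' v i) (KF := 9) (KA := 2)
          (a := C1 * Real.exp (-κ * i)) (by positivity) hF0 hF9 (hA0' v i) (hA2' v i)
        rw [hFint] at this
        have e3 := tail' v i
        have e4 : C1 * Real.exp (-κ * i) * (2 * D + Δ) ≤ C1 * ε1 * (2 * D + Δ) := by
          have := g1 i hi3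
          gcongr
        have e5 : C1 * Real.exp (-Real.exp (c * i)) ≤ C1 * ε2 := by
          have := g2 i hi3
          gcongr
        linarith
      · have hi3 : (n : ℝ) - 1 ≤ 2 * ((n - 1 - i : ℕ) : ℝ) := by
          have : n ≤ 2 * (n - 1 - i) + 1 := by omega
          have : (n : ℝ) ≤ 2 * ((n - 1 - i : ℕ) : ℝ) + 1 := by exact_mod_cast this
          linarith
        have hb1 : ∫ ω, F ω * (Alev G b θ' (fun x => m' x ω) v i
            * Alev G b θ (fun x => m x ω) y (n - 1 - i)) ∂P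
            ≤ 2 * ∫ ω, F ω * Alev G b θ (fun x => m x ω) y (n - 1 - i) ∂P := by
          rw [← integral_const_mul]
          apply integral_mono (hFbm.mul ((hAbm' v i).mul (hAbm y _))).integrable
            ((hFbm.mul (hAbm y _)).integrable.const_mul 2)
          intro ω
          simp only
          have u1 := hA2' v i ω
          have u2 := mul_nonneg (hF0 ω) (hA0 y (n - 1 - i) ω)
          have u3 := mul_le_mul_of_nonneg_left u1 u2
          linarith
        have := integral_mul_le_of_tail (P := P) hFbm (hAbm y (n - 1 - i)) (KF := 9) (KA := 2)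
          (a := C1 * Real.exp (-κ * (n - 1 - i : ℕ))) (by positivity) hF0 hF9 (hA0 y _) (hA2 y _)
        rw [hFint] at this
        have e3 := tail y (n - 1 - i)
        have e4 : C1 * Real.exp (-κ * (n - 1 - i : ℕ)) * (2 * D + Δ) ≤ C1 * ε1 * (2 * D + Δ) := by
          have := g1 (n - 1 - i) hi3
          gcongr
        have e5 : C1 * Real.exp (-Real.exp (c * (n - 1 - i : ℕ))) ≤ C1 * ε2 := by
          have := g2 (n - 1 - i) hi3
          gcongr
        linarith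
    refine (red _ _ _ hX hY hZ).trans ?_
    have hbn : (n : ℝ) ≤ b * n := le_mul_of_one_le_left hn (by linarith)
    have hε1p : 0 < ε1 := Real.exp_pos _
    have hε2p : 0 < ε2 := Real.exp_pos _
    have hε3p : 0 < ε3 := Real.exp_pos _
    have e1 : 13 * (C1 * ε1 * D) + 288 * 10 ^ 12 * (n * (2 * (C1 * ε1 * (2 * D))))
        ≤ (10 ^ 17 * b * C1) * ((n : ℝ) + 1) * ε1 * D := by
      have f1 : 13 + 288 * 10 ^ 12 * 4 * (n : ℝ) ≤ (10 ^ 17 * b) * ((n : ℝ) + 1) := by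
        rw [show (10 ^ 17 * (b : ℝ)) * ((n : ℝ) + 1) = 10 ^ 17 * (b * n) + 10 ^ 17 * b by ring]
        linarith
      have f2 : 0 ≤ C1 * ε1 * D := by positivity
      calc _ = (13 + 288 * 10 ^ 12 * 4 * (n : ℝ)) * (C1 * ε1 * D) := by ring
        _ ≤ ((10 ^ 17 * b) * ((n : ℝ) + 1)) * (C1 * ε1 * D) := mul_le_mul_of_nonneg_right f1 f2
        _ = _ := by ring
    have e2 : 13 * (8 * (C1 * ε2)) + 288 * 10 ^ 12 * (n * (36 * (C1 * ε2)))
        ≤ (10 ^ 17 * b * C1) * ((n : ℝ) + 1) * ε2 := by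
      have f1 : 104 + 288 * 10 ^ 12 * 36 * (n : ℝ) ≤ (10 ^ 17 * b) * ((n : ℝ) + 1) := by
        rw [show (10 ^ 17 * (b : ℝ)) * ((n : ℝ) + 1) = 10 ^ 17 * (b * n) + 10 ^ 17 * b by ring]
        linarith
      have f2 : 0 ≤ C1 * ε2 := by positivity
      calc _ = (104 + 288 * 10 ^ 12 * 36 * (n : ℝ)) * (C1 * ε2) := by ring
        _ ≤ ((10 ^ 17 * b) * ((n : ℝ) + 1)) * (C1 * ε2) := mul_le_mul_of_nonneg_right f1 f2
        _ = _ := by ring
    have e3 : 12 * b * n ^ 2 * Δ * (3 * C1 * ε3) + 288 * 10 ^ 12 * (n * (2 * (C1 * ε1 * Δ)))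
        ≤ (10 ^ 17 * b * C1) * ((n : ℝ) + 1) ^ 2 * ε3 * Δ := by
      have f0 : (n : ℝ) * ε1 ≤ n * ε3 := by
        rcases Nat.eq_zero_or_pos n with h | h
        · rw [h]; simp
        · have h1n : (1 : ℝ) ≤ n := by exact_mod_cast h
          have : ε1 ≤ ε3 := by
            apply Real.exp_le_exp.2
            have := mul_le_mul_of_nonneg_right hκ (show (0 : ℝ) ≤ (n : ℝ) - 1 by linarith)
            linarith
          gcongr
      have f1 : 36 * b * (n : ℝ) ^ 2 + 288 * 10 ^ 12 * 2 * (n : ℝ)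
          ≤ (10 ^ 17 * b) * ((n : ℝ) + 1) ^ 2 := by
        have f1 : 0 ≤ (b : ℝ) * (n : ℝ) ^ 2 := by positivity
        have f2 : (n : ℝ) ≤ b * n := hbn
        have f3 : (10 ^ 17 * (b : ℝ)) * ((n : ℝ) + 1) ^ 2
            = 10 ^ 17 * (b * (n : ℝ) ^ 2) + 2 * 10 ^ 17 * (b * n) + 10 ^ 17 * b := by ring
        rw [f3]
        linarith
      have f2 : 0 ≤ C1 * ε3 * Δ := by positivity
      have f3 : 0 ≤ C1 * Δ := by positivity
      calc _ = 36 * b * (n : ℝ) ^ 2 * (C1 * ε3 * Δ)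
            + 288 * 10 ^ 12 * 2 * ((n * ε1) * (C1 * Δ)) := by ring
        _ ≤ 36 * b * (n : ℝ) ^ 2 * (C1 * ε3 * Δ)
            + 288 * 10 ^ 12 * 2 * ((n * ε3) * (C1 * Δ)) := by gcongr
        _ = (36 * b * (n : ℝ) ^ 2 + 288 * 10 ^ 12 * 2 * (n : ℝ)) * (C1 * ε3 * Δ) := by ring
        _ ≤ ((10 ^ 17 * b) * ((n : ℝ) + 1) ^ 2) * (C1 * ε3 * Δ) :=
            mul_le_mul_of_nonneg_right f1 f2
        _ = _ := by ring
    calc _ = (13 * (C1 * ε1 * D) + 288 * 10 ^ 12 * (n * (2 * (C1 * ε1 * (2 * D)))))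
          + (13 * (8 * (C1 * ε2)) + 288 * 10 ^ 12 * (n * (36 * (C1 * ε2))))
          + (12 * b * n ^ 2 * Δ * (3 * C1 * ε3)
            + 288 * 10 ^ 12 * (n * (2 * (C1 * ε1 * Δ)))) := by ring
      _ ≤ _ := add_le_add (add_le_add e1 e2) e3

/-- estimate (B), abstract form -/
theorem GBdata.main {b : ℕ} {θ θ' D C1 c κ κ0 : ℝ}
    (h : GBdata G P b θ θ' m m' D C1 c κ κ0) (v : V) (N M : ℕ) :
    ∑ n ∈ Finset.range M, Sn G P θ θ' m m' v n ≤
      (10 ^ 17 * b * C1) * (8 * (N : ℝ) ^ 2 + 8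
        + Real.exp (c / 2) * (1 + c / 2) ^ 2 * 4 / κ ^ 2) * D
      + (10 ^ 17 * b * C1) * (2 * (Real.exp (c / 4) * (1 + c / 4) ^ 2 * 4 / (c / 2) ^ 2))
        * Real.exp (-Real.exp (c / 2 * N))
      + (10 ^ 17 * b * C1) * ((2 * N + 2) ^ 3 + (4 / κ0) * Real.exp κ0
          * (Real.exp (κ0 / 4) * (1 + κ0 / 4) ^ 2 * 4 / (κ0 / 2) ^ 2)) * (θ - θ') ^ 2 := by
  have hD0 : 0 ≤ D := by
    rw [← h.hD v]
    exact integral_nonneg fun ω => sq_nonneg _
  exact GBsum.total (fun n => Sn G P θ θ' m m' v n) (10 ^ 17 * b * C1) c κ κ0 D ((θ - θ') ^ 2)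
    (by have := h.hC1; positivity) h.hc h.hκ0 h.hκ h.hκc hD0 (sq_nonneg _) N
    (fun n => (h.level v n).1) (fun n => (h.level v n).2) M

end lev

end Crest.Agent.R160
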