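import Mathlib
import Crest.Agent.R160.Defs

/-! # Row 160: SKELETON (interface statements, all with sorry; import ONLY for development).
Every statement is to be proved in its own module under the same name (without the suffix
`_skel`) with exactly this type (up to harmless changes announced in the notes). -/

set_option autoImplicit false

open MeasureTheory
open scoped Classical

namespace Crest.Agent.R160.Skel

open Crest.Agent.R160 Crest.Agent.R160.TreeAut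

noncomputable section

variable {V : Type*} {G : SimpleGraph V} [G.LocallyFinite]

/-! ### Module A2: balls and spheres -/

theorem mem_bal_skel (hT : G.IsTree) (v w : V) (n : ℕ) : w ∈ bal G v n ↔ G.dist v w ≤ n := by
  sorry

theorem mem_sph_skel (hT : G.IsTree) (v w : V) (n : ℕ) : w ∈ sph G v n ↔ G.dist v w = n := by
  sorry

theorem card_sph_skel (hT : G.IsTree) {b : ℕ} (hreg : G.IsRegularOfDegree (b + 1)) (v : V)
    (n : ℕ) : (sph G v (n + 1)).card = (b + 1) * b ^ n := by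
  sorry

/-! ### Module B: product formula (S geodesically convex, `|o e| < 1`) -/

theorem cov_eq_MM_skel (hT : G.IsTree) {θ : ℝ} (h0 : 0 ≤ θ) (h1 : θ < 1) {S : Finset V}
    (hS : ∀ x ∈ S, ∀ y ∈ S, x ≠ y → par G x y ∈ S) {E : Finset (Ev V)} (hE : ∀ e ∈ E, e.1 ∈ S)
    {o : Ev V → ℝ} (ho : ∀ e ∈ E, |o e| < 1) {v w : V} (hv : v ∈ S) (hw : w ∈ S) :
    cov G θ S E o v w = MM G θ (mm G θ S E o) v w := by
  sorry

/-! ### Module C: process, law, increments are stated in helper160's files -/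

/-! ### Module D: volume limit for `b θ^2 < 1` -/

theorem minf_equivariant_skel (hT : G.IsTree) (θ t : ℝ) (g : G ≃g G) (v : V) (ω : Om V) :
    minf G θ t v (act g ω) = minf G θ t (g v) ω := by
  sorry

theorem measurable_minf_skel (θ t : ℝ) (v : V) : Measurable (minf G θ t v) := by
  sorry

theorem abs_minf_le_skel (hT : G.IsTree) {θ : ℝ} (h0 : 0 ≤ θ) (h1 : θ < 1) (t : ℝ) (v : V)
    (ω : Om V) : |minf G θ t v ω| ≤ 1 := by
  sorry

/-- L2 convergence of the finite-volume magnetizations, exponentially fast, uniformly in `t ≤ T` -/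
theorem vol_limit_skel (hT : G.IsTree) {b : ℕ} (hb : 2 ≤ b) (hreg : G.IsRegularOfDegree (b + 1))
    {θ : ℝ} (h0 : 0 ≤ θ) (h1 : (b : ℝ) * θ ^ 2 < 1) (T : ℝ) :
    ∃ C la : ℝ, 0 < C ∧ 0 < la ∧ ∀ t, 0 ≤ t → t ≤ T → ∀ (v x : V) (n r : ℕ),
      bal G v r ⊆ bal G x n →
      ∫ ω, (mfin G θ (bal G x n) ω t v - minf G θ t v ω) ^ 2 ∂(PP V) ≤ C * Real.exp (-la * r) := by
  sorry

/-- increment inequality in infinite volume, sup form (monotonicity in time included) -/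
theorem DD_mono_skel (hT : G.IsTree) {b : ℕ} (hb : 2 ≤ b) (hreg : G.IsRegularOfDegree (b + 1))
    {θ θ' : ℝ} (h0 : 0 ≤ θ) (h1 : (b : ℝ) * θ ^ 2 < 1) (h0' : 0 ≤ θ') (h1' : (b : ℝ) * θ' ^ 2 < 1)
    (v : V) {s t : ℝ} (hs : 0 ≤ s) (hst : s ≤ t) : DD G θ θ' s v ≤ DD G θ θ' t v := by
  sorry

theorem DD_zero_skel (θ θ' : ℝ) (v : V) : DD G θ θ' 0 v = 0 := by
  sorry

theorem DD_incr_skel (hT : G.IsTree) {b : ℕ} (hb : 2 ≤ b) (hreg : G.IsRegularOfDegree (b + 1))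
    {θ θ' : ℝ} (h0 : 0 ≤ θ) (h1 : (b : ℝ) * θ ^ 2 < 1) (h0' : 0 ≤ θ') (h1' : (b : ℝ) * θ' ^ 2 < 1)
    (v : V) (k : ℕ) {s t : ℝ} (hs : (k : ℝ) ≤ s) (hst : s ≤ t) (ht : t ≤ k + 1 / 2) (B : ℝ)
    (hB : ∀ r, s ≤ r → r ≤ t → ∀ N : ℕ,
      ∑ n ∈ Finset.range N, ∑ w ∈ sph G v n,
        ∫ ω, ((MM G θ (fun x => minf G θ r x ω) v w - MM G θ' (fun x => minf G θ' r x ω) v w) ^ 2
          + (MM G θ (fun x => minf G θ r x ω) v w) ^ 2
              * (minf G θ r w ω - minf G θ' r w ω) ^ 2) ∂(PP V) ≤ B) :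
    DD G θ θ' t v ≤ DD G θ θ' s v
      + 100 * (if k = 0 then t / 2 else 1 / 2) ^ 2 * (t - s) * B := by
  sorry

/-- no increments in the second halves of the rounds -/
theorem DD_idle_skel (θ θ' : ℝ) (v : V) (k : ℕ) {s t : ℝ} (hs : (k : ℝ) + 1 / 2 ≤ s)
    (hst : s ≤ t) (ht : t ≤ k + 1) : DD G θ θ' t v = DD G θ θ' s v := by
  sorry

/-! ### Module E: static estimates (uniform in `θ` up to `thc b`) -/

theorem second_moment_skel (hT : G.IsTree) {b : ℕ} (hb : 2 ≤ b)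
    (hreg : G.IsRegularOfDegree (b + 1)) :
    ∃ C : ℝ, 0 < C ∧ ∀ θ, 0 ≤ θ → (b : ℝ) * θ ^ 2 < 1 → ∀ t, 0 < t → t ≤ 1 / 2 → ∀ v : V,
      ∫ ω, (minf G θ t v ω) ^ 2 ∂(PP V) ≤ C * t ^ (3 / 2 : ℝ) := by
  sorry

theorem tail_skel (hT : G.IsTree) {b : ℕ} (hb : 2 ≤ b) (hreg : G.IsRegularOfDegree (b + 1)) :
    ∃ C c : ℝ, 0 < C ∧ 0 < c ∧ ∀ θ, 0 ≤ θ → (b : ℝ) * θ ^ 2 < 1 → ∀ t, 0 < t → t ≤ 1 / 2 → ∀ v : V,
      (PP V).real {ω | t ^ (1 / 4 : ℝ) < |minf G θ t v ω|}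
        ≤ C * Real.exp (-c * t ^ (-(1 / 8) : ℝ)) := by
  sorry

/-- decay of the level sums, all small times, including the deterministic factor -/
theorem level_mean_skel (hT : G.IsTree) {b : ℕ} (hb : 2 ≤ b) (hreg : G.IsRegularOfDegree (b + 1)) :
    ∃ C c : ℝ, 0 < C ∧ 0 < c ∧ ∀ θ, thc b / 2 ≤ θ → θ < thc b → ∀ t, 0 < t → t ≤ 1 / 2 →
      ∀ (o : V) (k : ℕ),
      ((b : ℝ) * θ ^ 2) ^ k * ∫ ω, Alev G b θ (fun x => minf G θ t x ω) o k ∂(PP V)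
        ≤ C * Real.exp (-c * t ^ (3 / 2 : ℝ) * k) := by
  sorry

/-- double exponential tail of the level sums, times in `[s0, T]`, `θ` close to `thc b` -/
theorem level_tail_skel (hT : G.IsTree) {b : ℕ} (hb : 2 ≤ b) (hreg : G.IsRegularOfDegree (b + 1)) :
    ∃ C c : ℝ, 0 < C ∧ 0 < c ∧ ∀ s0, 0 < s0 → ∃ δ, 0 < δ ∧ ∀ θ, thc b - δ < θ → θ < thc b →
      ∀ t, s0 ≤ t → ∀ (o : V) (k : ℕ),
      (PP V).real {ω | C * Real.exp (-c * (min t 1) ^ (3 / 2 : ℝ) * k)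
          < Alev G b θ (fun x => minf G θ t x ω) o k} ≤ C * Real.exp (-Real.exp (c * k)) := by
  sorry

/-- continuity in law at `thc b` (two adjacent vertices), UNIFORM in `t ≥ t0` -/
theorem law_cont_skel (hT : G.IsTree) {b : ℕ} (hb : 2 ≤ b) (hreg : G.IsRegularOfDegree (b + 1))
    (t0 : ℝ) (ht0 : 0 < t0) (Φ : ℝ → ℝ → ℝ) (hΦ : Continuous (Function.uncurry Φ)) (x y : V)
    (hxy : G.Adj x y) (ε : ℝ) (hε : 0 < ε) :
    ∃ δ, 0 < δ ∧ ∀ θ θ', thc b - δ < θ → θ < thc b → thc b - δ < θ' → θ' < thc b →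
      ∀ t, t0 ≤ t →
      |∫ ω, Φ (minf G θ t x ω) (minf G θ t y ω) ∂(PP V)
        - ∫ ω, Φ (minf G θ' t x ω) (minf G θ' t y ω) ∂(PP V)| ≤ ε := by
  sorry

/-! ### Module G: conclusion of the dynamic part -/

theorem cauchy_crit_skel (hT : G.IsTree) {b : ℕ} (hb : 2 ≤ b) (hreg : G.IsRegularOfDegree (b + 1))
    (t : ℝ) (ht : 0 ≤ t) (v : V) (ε : ℝ) (hε : 0 < ε) :
    ∃ δ, 0 < δ ∧ ∀ θ θ', thc b - δ < θ → θ < thc b → thc b - δ < θ' → θ' < thc b →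
      DD G θ θ' t v ≤ ε := by
  sorry

/-! ### Module H0: concentration and law of the signs in finite volume -/

theorem conc_skel (hT : G.IsTree) {b : ℕ} (hb : 2 ≤ b) (hreg : G.IsRegularOfDegree (b + 1)) :
    ∃ C c : ℝ, 0 < C ∧ 0 < c ∧ ∀ θ, 0 ≤ θ → (b : ℝ) * θ ^ 2 ≤ 1 → ∀ t, 0 ≤ t →
      ∀ (x v : V) (n : ℕ), v ∈ bal G x n →
      ∫ ω, (1 - (mfin G θ (bal G x n) ω t v) ^ 2) ∂(PP V) ≤ C * Real.exp (-c * t) := by
  sorry

/-- orthogonality of the increments in time -/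
theorem time_incr_skel (hT : G.IsTree) {θ : ℝ} (h0 : 0 ≤ θ) (h1 : θ < 1) {s t : ℝ} (hs : 0 ≤ s)
    (hst : s ≤ t) (x v : V) (n : ℕ) (hv : v ∈ bal G x n) :
    ∫ ω, (mfin G θ (bal G x n) ω t v - mfin G θ (bal G x n) ω s v) ^ 2 ∂(PP V)
      ≤ ∫ ω, (1 - (mfin G θ (bal G x n) ω s v) ^ 2) ∂(PP V) := by
  sorry

theorem sign_law_skel (hT : G.IsTree) {b : ℕ} (hb : 2 ≤ b) (hreg : G.IsRegularOfDegree (b + 1))
    (S : Finset V) (hS : (G.induce (S : Set V)).Connected) :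
    ∃ C c : ℝ, 0 < C ∧ 0 < c ∧ ∀ (η : V → Bool) (θ : ℝ), 0 ≤ θ → (b : ℝ) * θ ^ 2 ≤ 1 →
      ∀ t, 0 ≤ t →
      ∀ (x : V) (n : ℕ), S ⊆ bal G x n →
      |(PP V).real {ω | ∀ v ∈ S, decide (0 < mfin G θ (bal G x n) ω t v) = η v}
        - ProbabilityR.TreeIsing.isingWeight G θ S η| ≤ C * Real.exp (-c * t) := by
  sorry

end

end Crest.Agent.R160.Skel
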