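import Crest.Agent.R160.TreeAut

/-! Row 160: spheres in a regular tree and the ground-state eigenfunction. -/

set_option autoImplicit false

open SimpleGraph Finset
open scoped Classical

namespace Crest.Agent.R160.Sphere

open Crest.Agent.R160.TreeAut

variable {V : Type*} {G : SimpleGraph V} [G.LocallyFinite]

/-- neighbours of `u` farther away from `r` -/
noncomputable def chF (G : SimpleGraph V) [G.LocallyFinite] (r u : V) : Finset V :=
  (G.neighborFinset u).filter (fun v => G.dist r v = G.dist r u + 1)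

/-- the sphere of radius `n` around `r` -/
noncomputable def sph (G : SimpleGraph V) [G.LocallyFinite] (r : V) : ℕ → Finset V
  | 0 => {r}
  | n + 1 => (sph G r n).biUnion (chF G r)

lemma mem_chF {r u v : V} : v ∈ chF G r u ↔ G.Adj u v ∧ G.dist r v = G.dist r u + 1 := by
  simp [chF]

lemma mem_chF_iff_par (hT : G.IsTree) {r u v : V} : v ∈ chF G r u ↔ v ≠ r ∧ par G r v = u := by
  rw [mem_chF]
  constructor
  · rintro ⟨h1, h2⟩
    have : v ≠ r := by rintro rfl; rw [SimpleGraph.dist_self] at h2; omega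
    exact ⟨this, eq_par hT h1.symm h2.symm⟩
  · rintro ⟨h1, rfl⟩
    exact ⟨(par_adj hT h1).symm, (par_dist hT h1).symm⟩

lemma card_chF_root (hT : G.IsTree) {d : ℕ} (hreg : G.IsRegularOfDegree d) (r : V) :
    (chF G r r).card = d := by
  rw [← ncard_children_root hT hreg r, ← Set.ncard_coe_finset]
  congr 1
  ext v
  simp only [Finset.mem_coe, mem_chF_iff_par hT, children, Set.mem_ofPred_eq]

lemma card_chF (hT : G.IsTree) {d : ℕ} (hreg : G.IsRegularOfDegree d) {r u : V} (h : u ≠ r) :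
    (chF G r u).card = d - 1 := by
  rw [← ncard_children hT hreg h, ← Set.ncard_coe_finset]
  congr 1
  ext v
  simp only [Finset.mem_coe, mem_chF_iff_par hT, children, Set.mem_ofPred_eq]

lemma mem_sph (hT : G.IsTree) {r v : V} {n : ℕ} : v ∈ sph G r n ↔ G.dist r v = n := by
  induction n generalizing v with
  | zero =>
    simp only [sph, Finset.mem_singleton]
    rw [hT.connected.dist_eq_zero_iff]
    exact eq_comm
  | succ n ih =>
    simp only [sph, Finset.mem_biUnion, ih]
    constructor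
    · rintro ⟨a, rfl, hv⟩
      exact (mem_chF.mp hv).2
    · intro h
      have hv : v ≠ r := by rintro rfl; rw [SimpleGraph.dist_self] at h; omega
      refine ⟨par G r v, ?_, (mem_chF_iff_par hT).mpr ⟨hv, rfl⟩⟩
      have := par_dist hT hv
      omega

lemma sum_sph_succ (hT : G.IsTree) (r : V) (n : ℕ) (f : V → ℝ) :
    ∑ v ∈ sph G r (n + 1), f v = ∑ u ∈ sph G r n, ∑ v ∈ chF G r u, f v := by
  rw [sph, Finset.sum_biUnion]
  intro a _ b _ hab
  rw [Function.onFun, Finset.disjoint_left]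
  intro v hv hv'
  rw [mem_chF_iff_par hT] at hv hv'
  exact hab (hv.2.symm.trans hv'.2)

lemma sum_nbr_root (r : V) (f : V → ℝ) :
    ∑ v ∈ chF G r r, f v = ∑ v ∈ G.neighborFinset r, f v := by
  refine Finset.sum_congr ?_ fun _ _ => rfl
  ext v
  simp only [mem_chF, mem_neighborFinset, SimpleGraph.dist_self, zero_add, and_iff_left_iff_imp]
  intro h
  exact SimpleGraph.dist_eq_one_iff_adj.mpr h

lemma sum_nbr (hT : G.IsTree) {r u : V} (h : u ≠ r) (f : V → ℝ) :
    ∑ v ∈ G.neighborFinset u, f v = f (par G r u) + ∑ v ∈ chF G r u, f v := by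
  have h1 : G.neighborFinset u = insert (par G r u) (chF G r u) := by
    ext v
    simp only [mem_neighborFinset, Finset.mem_insert, mem_chF_iff_par hT]
    constructor
    · intro hv
      rcases adj_cases hT r hv with h1 | h1
      · exact Or.inl h1.2.symm
      · exact Or.inr h1
    · rintro (rfl | ⟨h1, rfl⟩)
      · exact par_adj hT h
      · exact (par_adj hT h1).symm
  rw [h1, Finset.sum_insert]
  intro hp
  have h2 := (mem_chF.mp hp).2
  have h3 := par_dist hT h
  omega

/-- the ground state profile -/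
noncomputable def wt (q : ℝ) (l : ℕ) : ℝ := (1 + (q ^ 2 - 1) / (q ^ 2 + 1) * l) * q⁻¹ ^ l

lemma wt_pos {q : ℝ} (hq : 1 ≤ q) (l : ℕ) : 0 < wt q l := by
  unfold wt
  have : 0 ≤ (q ^ 2 - 1) / (q ^ 2 + 1) := by
    apply div_nonneg _ (by positivity)
    nlinarith
  positivity

lemma wt_zero (q : ℝ) : wt q 0 = 1 := by simp [wt]

lemma wt_rec {q : ℝ} (hq : 1 ≤ q) (l : ℕ) :
    wt q l + q ^ 2 * wt q (l + 2) = 2 * q * wt q (l + 1) := by
  unfold wt
  have h0 : q ≠ 0 := by positivity
  have h1 : q ^ 2 + 1 ≠ 0 := by positivity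
  push_cast
  have e1 : q⁻¹ ^ (l + 1) = q⁻¹ ^ l * q⁻¹ := pow_succ _ _
  have e2 : q⁻¹ ^ (l + 2) = q⁻¹ ^ l * q⁻¹ * q⁻¹ := by rw [pow_succ, pow_succ]
  rw [e1, e2]
  generalize q⁻¹ ^ l = X
  field_simp
  ring

lemma wt_one {q : ℝ} (hq : 1 ≤ q) : (q ^ 2 + 1) * wt q 1 = 2 * q := by
  unfold wt
  have h0 : q ≠ 0 := by positivity
  have h1 : q ^ 2 + 1 ≠ 0 := by positivity
  push_cast
  field_simp
  ring

/-- The ground-state eigenfunction of the adjacency operator of the `d`-regular tree. -/
lemma sum_nbr_wt (hT : G.IsTree) {d : ℕ} (hreg : G.IsRegularOfDegree d) {q : ℝ} (hq : 1 ≤ q)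
    (hqd : (d : ℝ) = q ^ 2 + 1) (o u : V) :
    ∑ v ∈ G.neighborFinset u, wt q (G.dist o v) = 2 * q * wt q (G.dist o u) := by
  by_cases h : u = o
  · subst h
    rw [← sum_nbr_root, SimpleGraph.dist_self, wt_zero, mul_one, ← wt_one hq, ← hqd,
      ← card_chF_root hT hreg u, ← nsmul_eq_mul, ← Finset.sum_const]
    refine Finset.sum_congr rfl fun v hv => ?_
    rw [(mem_chF.mp hv).2, SimpleGraph.dist_self]
  · rw [sum_nbr hT h]
    have h1 := par_dist hT h
    have hd : (d - 1 : ℕ) = (q ^ 2 : ℝ) := by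
      have : 1 ≤ d := by
        by_contra h0
        have : d = 0 := by omega
        subst this
        push_cast at hqd
        nlinarith
      push_cast [this]
      linarith
    have h2 : ∑ v ∈ chF G o u, wt q (G.dist o v) = q ^ 2 * wt q (G.dist o u + 1) := by
      rw [← hd, ← card_chF hT hreg h, ← nsmul_eq_mul, ← Finset.sum_const]
      refine Finset.sum_congr rfl fun v hv => ?_
      rw [(mem_chF.mp hv).2]
    rw [h2, ← h1]
    exact wt_rec hq _

/-- sums over the parent of a sphere -/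
lemma sum_sph_par (hT : G.IsTree) (r : V) (n : ℕ) (f : V → ℝ) :
    ∑ v ∈ sph G r (n + 1), f (par G r v) = ∑ u ∈ sph G r n, ((chF G r u).card : ℝ) * f u := by
  rw [sum_sph_succ hT]
  refine Finset.sum_congr rfl fun u _ => ?_
  rw [← nsmul_eq_mul, ← Finset.sum_const]
  refine Finset.sum_congr rfl fun v hv => ?_
  rw [((mem_chF_iff_par hT).mp hv).2]

/-- eigenvalue of the sphere operator -/
noncomputable def lam (q : ℝ) (n : ℕ) : ℝ :=
  if n = 0 then 1 else q ^ n * ((1 + q⁻¹ ^ 2) + (1 - q⁻¹ ^ 2) * n)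

lemma lam_zero (q : ℝ) : lam q 0 = 1 := by simp [lam]

lemma lam_one (q : ℝ) : lam q 1 = 2 * q := by
  simp [lam]; ring

lemma lam_two {q : ℝ} (hq : 1 ≤ q) : lam q 2 = 2 * q * lam q 1 - (q ^ 2 + 1) := by
  have h0 : q ≠ 0 := by positivity
  simp [lam]
  field_simp
  ring

lemma lam_rec {q : ℝ} (hq : 1 ≤ q) (n : ℕ) :
    lam q (n + 3) = 2 * q * lam q (n + 2) - q ^ 2 * lam q (n + 1) := by
  have h0 : q ≠ 0 := by positivity
  simp only [lam, Nat.add_eq_zero_iff, OfNat.ofNat_ne_zero, and_false, if_false, one_ne_zero]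
  push_cast
  rw [pow_add q n 3, pow_add q n 2, pow_add q n 1]
  field_simp
  ring

lemma lam_pos {q : ℝ} (hq : 1 ≤ q) (n : ℕ) : 0 < lam q n := by
  unfold lam
  split_ifs
  · exact one_pos
  · have : 0 ≤ 1 - q⁻¹ ^ 2 := by
      have h1 : q⁻¹ ≤ 1 := inv_le_one_of_one_le₀ hq
      have h2 : 0 ≤ q⁻¹ := by positivity
      nlinarith
    positivity

lemma lam_le {q : ℝ} (hq : 1 ≤ q) (n : ℕ) : lam q n ≤ 2 * (n + 1) * q ^ n := by
  unfold lam
  split_ifs with h
  · subst h; norm_num
  · rw [mul_comm]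
    apply mul_le_mul_of_nonneg_right _ (by positivity)
    have h1 : q⁻¹ ≤ 1 := inv_le_one_of_one_le₀ hq
    have h2 : 0 ≤ q⁻¹ := by positivity
    have h3 : q⁻¹ ^ 2 ≤ 1 := by nlinarith
    have h4 : 0 ≤ q⁻¹ ^ 2 := by positivity
    have h5 : (0 : ℝ) ≤ n := by positivity
    nlinarith

/-- The sphere operators act on the ground state by `lam`. -/
lemma sum_sph_wt (hT : G.IsTree) {d : ℕ} (hreg : G.IsRegularOfDegree d) {q : ℝ} (hq : 1 ≤ q)
    (hqd : (d : ℝ) = q ^ 2 + 1) (o r : V) (n : ℕ) :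
    ∑ v ∈ sph G r n, wt q (G.dist o v) = lam q n * wt q (G.dist o r) := by
  have hd : (d - 1 : ℕ) = (q ^ 2 : ℝ) := by
    have : 1 ≤ d := by
      by_contra h0
      have : d = 0 := by omega
      subst this
      push_cast at hqd
      nlinarith
    push_cast [this]
    linarith
  have step : ∀ n, ∑ v ∈ sph G r (n + 2), wt q (G.dist o v) =
      2 * q * ∑ v ∈ sph G r (n + 1), wt q (G.dist o v) -
        ∑ u ∈ sph G r n, ((chF G r u).card : ℝ) * wt q (G.dist o u) := by
    intro n
    rw [← sum_sph_par hT r n (fun v => wt q (G.dist o v)), sum_sph_succ hT, Finset.mul_sum,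
      ← Finset.sum_sub_distrib]
    refine Finset.sum_congr rfl fun u hu => ?_
    have hur : u ≠ r := by
      rintro rfl
      rw [mem_sph hT, SimpleGraph.dist_self] at hu
      omega
    rw [← sum_nbr_wt hT hreg hq hqd o u, sum_nbr hT hur]
    ring
  have h0 : ∑ v ∈ sph G r 0, wt q (G.dist o v) = lam q 0 * wt q (G.dist o r) := by
    simp [sph, lam_zero]
  have h1 : ∑ v ∈ sph G r 1, wt q (G.dist o v) = lam q 1 * wt q (G.dist o r) := by
    rw [sum_sph_succ hT]
    simp only [sph, Finset.sum_singleton]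
    rw [sum_nbr_root, sum_nbr_wt hT hreg hq hqd, lam_one]
  have key : ∀ n, (∑ v ∈ sph G r (n + 1), wt q (G.dist o v) = lam q (n + 1) * wt q (G.dist o r)) ∧
      (∑ v ∈ sph G r (n + 2), wt q (G.dist o v) = lam q (n + 2) * wt q (G.dist o r)) := by
    intro n
    induction n with
    | zero =>
      refine ⟨h1, ?_⟩
      rw [step 0, h1, lam_two hq]
      simp only [sph, Finset.sum_singleton]
      rw [card_chF_root hT hreg, hqd]
      ring
    | succ n ih =>
      refine ⟨ih.2, ?_⟩
      rw [step (n + 1), ih.2, lam_rec hq]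
      have : ∑ u ∈ sph G r (n + 1), ((chF G r u).card : ℝ) * wt q (G.dist o u) =
          q ^ 2 * ∑ u ∈ sph G r (n + 1), wt q (G.dist o u) := by
        rw [Finset.mul_sum]
        refine Finset.sum_congr rfl fun u hu => ?_
        have hur : u ≠ r := by
          rintro rfl
          rw [mem_sph hT, SimpleGraph.dist_self] at hu
          omega
        rw [card_chF hT hreg hur, hd]
      rw [this, ih.1]
      ring
  rcases n with _ | n
  · exact h0
  · exact (key n).1

end Crest.Agent.R160.Sphere
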