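import Mathlib

/-! Row 160, module E: convex order for the addition of biases, scalar part. -/

set_option autoImplicit false

namespace Crest.Agent.R160.StaticConv

/-- key inequality for ordered atoms -/
lemma conv_order_aux {f : ℝ → ℝ} (hf : ConvexOn ℝ Set.univ f) {a b : ℝ} (hb : 0 ≤ b)
    (hab : b ≤ a) (ha : a ≤ 1) (h : a * b < 1) :
    (1 + a * b) * f ((a + b) / (1 + a * b)) + (1 - a * b) * f ((a - b) / (1 - a * b)) ≤
      f (a + b) + f (a - b) := by
  rcases hb.eq_or_lt with hb0 | hb0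
  · subst hb0
    simp
  have hab0 : 0 ≤ a * b := mul_nonneg (hb.trans hab) hb
  have h1 : 0 < 1 + a * b := by linarith
  have h2 : 0 < 1 - a * b := by linarith
  have hb2 : 0 < 2 * b := by linarith
  have ha0 : 0 ≤ a := hb.trans hab
  have hb1 : b ≤ 1 := hab.trans ha
  -- weights
  set p : ℝ := ((a + b) / (1 + a * b) - (a - b)) / (2 * b) with hp
  set p' : ℝ := ((a - b) / (1 - a * b) - (a - b)) / (2 * b) with hp'
  have e1 : (a + b) / (1 + a * b) = p * (a + b) + (1 - p) * (a - b) := by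
    rw [hp]; field_simp; ring
  have e2 : (a - b) / (1 - a * b) = p' * (a + b) + (1 - p') * (a - b) := by
    rw [hp']; field_simp; ring
  have p0 : 0 ≤ p := by
    rw [hp]
    apply div_nonneg _ hb2.le
    rw [sub_nonneg, le_div_iff₀ h1]
    nlinarith [mul_nonneg hab0 hb, mul_nonneg ha0 hb]
  have p1 : p ≤ 1 := by
    rw [hp, div_le_one hb2, sub_le_iff_le_add, div_le_iff₀ h1]
    nlinarith [mul_nonneg hab0 ha0, mul_nonneg hab0 hb]
  have p0' : 0 ≤ p' := by
    rw [hp']
    apply div_nonneg _ hb2.le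
    rw [sub_nonneg, le_div_iff₀ h2]
    nlinarith [mul_nonneg hab0 (sub_nonneg.2 hab)]
  have p1' : p' ≤ 1 := by
    rw [hp', div_le_one hb2, sub_le_iff_le_add, div_le_iff₀ h2]
    have : a * (a * b) + b * (a * b) ≤ 2 * b := by
      have h3 : a * a ≤ 1 := by nlinarith
      have h4 : a * b ≤ 1 := h.le
      nlinarith
    nlinarith
  have c1 := hf.2 (Set.mem_univ (a + b)) (Set.mem_univ (a - b)) p0 (sub_nonneg.2 p1) (by ring)
  have c2 := hf.2 (Set.mem_univ (a + b)) (Set.mem_univ (a - b)) p0' (sub_nonneg.2 p1') (by ring)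
  simp only [smul_eq_mul] at c1 c2
  rw [← e1] at c1
  rw [← e2] at c2
  have hsum : (1 + a * b) * p + (1 - a * b) * p' = 1 := by
    rw [hp, hp']; field_simp; ring
  have d1 := mul_le_mul_of_nonneg_left c1 h1.le
  have d2 := mul_le_mul_of_nonneg_left c2 h2.le
  have : (1 + a * b) * (p * f (a + b) + (1 - p) * f (a - b)) +
      (1 - a * b) * (p' * f (a + b) + (1 - p') * f (a - b)) =
      ((1 + a * b) * p + (1 - a * b) * p') * f (a + b) +
      (2 - ((1 + a * b) * p + (1 - a * b) * p')) * f (a - b) := by ring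
  rw [hsum] at this
  linarith

/-- **convex order** for the combination of two symmetric biases: even convex functions -/
theorem conv_order {f : ℝ → ℝ} (hf : ConvexOn ℝ Set.univ f) (heven : ∀ x, f (-x) = f x)
    {a b : ℝ} (ha : |a| ≤ 1) (hb : |b| ≤ 1) (h : |a * b| < 1) :
    (1 + a * b) * f ((a + b) / (1 + a * b)) + (1 - a * b) * f ((a - b) / (1 - a * b)) ≤
      f (a + b) + f (a - b) := by
  -- reduce to `0 ≤ b ≤ a`
  have key : ∀ {a b : ℝ}, 0 ≤ a → 0 ≤ b → a ≤ 1 → b ≤ 1 → a * b < 1 →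
      (1 + a * b) * f ((a + b) / (1 + a * b)) + (1 - a * b) * f ((a - b) / (1 - a * b)) ≤
      f (a + b) + f (a - b) := by
    intro a b ha hb ha1 hb1 hab
    rcases le_total b a with hba | hba
    · exact conv_order_aux hf hb hba ha1 hab
    · have := conv_order_aux hf ha hba hb1 (by rwa [mul_comm])
      have e1 : (b - a) / (1 - b * a) = -((a - b) / (1 - a * b)) := by
        rw [mul_comm b a, ← neg_div]; congr 1; ring
      have e2 : b - a = -(a - b) := by ring
      rw [e1, heven, e2, heven, mul_comm b a, add_comm b a] at this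
      exact this
  have h' := abs_lt.1 h
  rcases le_total 0 a with ha0 | ha0 <;> rcases le_total 0 b with hb0 | hb0
  · exact key ha0 hb0 (by rwa [abs_of_nonneg ha0] at ha) (by rwa [abs_of_nonneg hb0] at hb) h'.2
  · have := key (a := a) (b := -b) ha0 (by linarith) (by rwa [abs_of_nonneg ha0] at ha)
      (by rwa [abs_of_nonpos hb0] at hb) (by linarith [mul_neg a b])
    rw [show 1 + a * -b = 1 - a * b by ring, show 1 - a * -b = 1 + a * b by ring,
      show a + -b = a - b by ring, show a - -b = a + b by ring] at this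
    linarith
  · have := key (a := -a) (b := b) (by linarith) hb0 (by rwa [abs_of_nonpos ha0] at ha)
      (by rwa [abs_of_nonneg hb0] at hb) (by linarith [neg_mul a b])
    rw [show 1 + -a * b = 1 - a * b by ring, show 1 - -a * b = 1 + a * b by ring,
      show -a + b = -(a - b) by ring, show -a - b = -(a + b) by ring, neg_div, heven, neg_div,
      heven, heven, heven] at this
    linarith
  · have := key (a := -a) (b := -b) (by linarith) (by linarith) (by rwa [abs_of_nonpos ha0] at ha)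
      (by rwa [abs_of_nonpos hb0] at hb) (by linarith [neg_mul_neg a b])
    rw [show 1 + -a * -b = 1 + a * b by ring, show 1 - -a * -b = 1 - a * b by ring,
      show -a + -b = -(a + b) by ring, show -a - -b = -(a - b) by ring, neg_div, heven, neg_div,
      heven, heven, heven] at this
    linarith

/-- the remainder function -/
noncomputable def rem (l x : ℝ) : ℝ := Real.cosh (l * x) - 1 - (l * x) ^ 2 / 2

lemma rem_even (l x : ℝ) : rem l (-x) = rem l x := by
  unfold rem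
  rw [mul_neg, Real.cosh_neg, neg_sq]

/-- derivative of `rem` -/
lemma hasDerivAt_rem (l x : ℝ) :
    HasDerivAt (rem l) (l * Real.sinh (l * x) - l * (l * x)) x := by
  unfold rem
  have h1 : HasDerivAt (fun x : ℝ => l * x) l x := by
    simpa using (hasDerivAt_id x).const_mul l
  have h2 := h1.cosh
  have h3 := (h1.pow 2).div_const 2
  have h4 := (h2.sub_const 1).sub h3
  refine h4.congr_deriv ?_
  ring

lemma hasDerivAt_rem' (l x : ℝ) :
    HasDerivAt (fun x => l * Real.sinh (l * x) - l * (l * x)) (l ^ 2 * (Real.cosh (l * x) - 1))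
      x := by
  have h1 : HasDerivAt (fun x : ℝ => l * x) l x := by
    simpa using (hasDerivAt_id x).const_mul l
  have h2 := (h1.sinh.const_mul l).sub (h1.const_mul l)
  refine h2.congr_deriv ?_
  ring

lemma rem_convex (l : ℝ) : ConvexOn ℝ Set.univ (rem l) := by
  have hd : deriv (rem l) = fun x => l * Real.sinh (l * x) - l * (l * x) :=
    funext fun x => (hasDerivAt_rem l x).deriv
  have hd2 : ∀ x, deriv^[2] (rem l) x = l ^ 2 * (Real.cosh (l * x) - 1) := by
    intro x
    rw [Function.iterate_succ_apply, Function.iterate_one, hd]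
    exact (hasDerivAt_rem' l x).deriv
  apply convexOn_univ_of_deriv2_nonneg
  · exact fun x => (hasDerivAt_rem l x).differentiableAt
  · rw [hd]
    exact fun x => (hasDerivAt_rem' l x).differentiableAt
  · intro x
    rw [hd2]
    exact mul_nonneg (sq_nonneg l) (sub_nonneg.2 (Real.one_le_cosh _))

lemma rem_zero (l : ℝ) : rem l 0 = 0 := by simp [rem]

lemma rem_nonneg (l x : ℝ) : 0 ≤ rem l x := by
  have h := (rem_convex l).2 (Set.mem_univ x) (Set.mem_univ (-x))
    (by norm_num : (0 : ℝ) ≤ 1 / 2) (by norm_num : (0 : ℝ) ≤ 1 / 2) (by norm_num)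
  simp only [smul_eq_mul] at h
  rw [rem_even, show 1 / 2 * x + 1 / 2 * -x = 0 by ring, rem_zero] at h
  linarith

lemma rem_le {l x : ℝ} (h : (l * x) ^ 2 ≤ 2) : rem l x ≤ (l * x) ^ 4 / 4 := by
  unfold rem
  have h1 := Real.cosh_le_exp_half_sq (l * x)
  have h2 := Real.abs_exp_sub_one_sub_id_le (x := (l * x) ^ 2 / 2)
    (by rw [abs_of_nonneg (by positivity)]; linarith)
  have h3 := (abs_le.1 h2).2
  have h4 : ((l * x) ^ 2 / 2) ^ 2 = (l * x) ^ 4 / 4 := by ring
  rw [h4] at h3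
  linarith

lemma rem_scale (l t x : ℝ) : rem l (t * x) = rem (t * l) x := by
  unfold rem
  rw [show l * (t * x) = t * l * x by ring]

/-- the symmetrised remainder of a sum factorises -/
lemma rem_avg (l a b : ℝ) :
    (rem l (a + b) + rem l (a - b)) / 2 =
      Real.cosh (l * a) * Real.cosh (l * b) - 1 - (l * a) ^ 2 / 2 - (l * b) ^ 2 / 2 := by
  unfold rem
  rw [mul_add, mul_sub, Real.cosh_add, Real.cosh_sub]
  ring

lemma cosh_eq_rem (l a : ℝ) : Real.cosh (l * a) = 1 + (l * a) ^ 2 / 2 + rem l a := by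
  unfold rem; ring

/-- one gluing step, as an inequality for atoms -/
lemma glue_rem {l a b : ℝ} (ha : |a| ≤ 1) (hb : |b| ≤ 1) (h : |a * b| < 1) :
    ((1 + a * b) * rem l ((a + b) / (1 + a * b)) + (1 - a * b) * rem l ((a - b) / (1 - a * b))) / 2 ≤
      rem l a + rem l b + ((l * a) ^ 2 / 2 + rem l a) * ((l * b) ^ 2 / 2 + rem l b) := by
  have h1 := conv_order (rem_convex l) (rem_even l) ha hb h
  have h2 := rem_avg l a b
  rw [cosh_eq_rem l a, cosh_eq_rem l b] at h2
  nlinarith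

/-- arithmetic of the recursion over the children -/
lemma step_arith {b : ℕ} (hb : 2 ≤ b) {L th2 z xs xc zc : ℝ} {j : ℕ} (hj : j ≤ b)
    (hL0 : 0 ≤ L) (hL : L ≤ 1 / 16) (ht0 : 0 ≤ th2) (ht : (b : ℝ) * th2 ≤ 1)
    (_hxs0 : 0 ≤ xs) (hxs : xs ≤ L / 2) (hxc0 : 0 ≤ xc) (hxc : xc ≤ th2 * L / 2)
    (_hz0 : 0 ≤ z) (hz : z ≤ L ^ 2 * (1 / 16 + j * (1 / (b : ℝ) ^ 2 + 34 / (100 * b))))
    (hzc0 : 0 ≤ zc) (hzc : zc ≤ (th2 * L) ^ 2) :
    z + zc + (xs + z) * (xc + zc) ≤
      L ^ 2 * (1 / 16 + (j + 1) * (1 / (b : ℝ) ^ 2 + 34 / (100 * b))) := by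
  have hb' : (2 : ℝ) ≤ b := by exact_mod_cast hb
  have hbpos : (0 : ℝ) < b := by linarith
  have hj' : (j : ℝ) ≤ b := by exact_mod_cast hj
  have ht' : th2 ≤ 1 / b := by rw [le_div_iff₀ hbpos]; linarith
  have hb1 : 1 / (b : ℝ) ≤ 1 / 2 := by
    apply one_div_le_one_div_of_le <;> linarith
  have hbp : 0 < 1 / (b : ℝ) := by positivity
  -- z ≤ 2 L^2
  have hz2 : z ≤ 2 * L ^ 2 := by
    refine hz.trans ?_
    have h1 : (j : ℝ) * (1 / (b : ℝ) ^ 2 + 34 / (100 * b)) ≤ 1 / b + 34 / 100 := by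
      have h2 : (j : ℝ) * (1 / (b : ℝ) ^ 2 + 34 / (100 * b)) ≤
          b * (1 / (b : ℝ) ^ 2 + 34 / (100 * b)) := by
        apply mul_le_mul_of_nonneg_right hj'
        positivity
      refine h2.trans (le_of_eq ?_)
      field_simp
    nlinarith [sq_nonneg L]
  have hzc2 : zc ≤ L ^ 2 / (b : ℝ) ^ 2 := by
    refine hzc.trans ?_
    rw [mul_pow, div_eq_mul_one_div, mul_comm]
    apply mul_le_mul_of_nonneg_left _ (sq_nonneg L)
    rw [← one_div_pow]
    exact pow_le_pow_left₀ ht0 ht' 2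
  have hxc2 : xc ≤ L / (2 * b) := by
    refine hxc.trans ?_
    rw [le_div_iff₀ (by positivity)]
    nlinarith
  have h1 : (xs + z) ≤ L / 2 * (5 / 4) := by nlinarith
  have h2 : xc + zc ≤ L / (2 * b) * (17 / 16) := by
    have h3 : L ^ 2 / (b : ℝ) ^ 2 ≤ L / (2 * b) * (1 / 16) := by
      rw [div_le_iff₀ (by positivity)]
      have : L / (2 * b) * (1 / 16) * (b : ℝ) ^ 2 = L * b / 32 := by field_simp; ring
      rw [this]
      nlinarith
    linarith
  have h3 : (xs + z) * (xc + zc) ≤ L / 2 * (5 / 4) * (L / (2 * b) * (17 / 16)) := by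
    apply mul_le_mul h1 h2 (by linarith) (by positivity)
  have h4 : L / 2 * (5 / 4) * (L / (2 * b) * (17 / 16)) ≤ L ^ 2 * (34 / (100 * b)) := by
    have h5 : L / 2 * (5 / 4) * (L / (2 * b) * (17 / 16)) = L ^ 2 * (85 / 256) * (1 / b) := by
      field_simp; ring
    have h6 : L ^ 2 * (34 / (100 * (b : ℝ))) = L ^ 2 * (34 / 100) * (1 / b) := by
      field_simp
    rw [h5, h6]
    apply mul_le_mul_of_nonneg_right _ hbp.le
    nlinarith [sq_nonneg L]
  have h7 : L ^ 2 * (1 / 16 + (j + 1) * (1 / (b : ℝ) ^ 2 + 34 / (100 * b))) =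
      L ^ 2 * (1 / 16 + j * (1 / (b : ℝ) ^ 2 + 34 / (100 * b))) + L ^ 2 / (b : ℝ) ^ 2 +
      L ^ 2 * (34 / (100 * b)) := by ring
  rw [h7]
  linarith

lemma final_arith {b : ℕ} (hb : 2 ≤ b) {L z : ℝ}
    (hz : z ≤ L ^ 2 * (1 / 16 + b * (1 / (b : ℝ) ^ 2 + 34 / (100 * b)))) : z ≤ L ^ 2 := by
  have hb' : (2 : ℝ) ≤ b := by exact_mod_cast hb
  have hbpos : (0 : ℝ) < b := by linarith
  have hb1 : 1 / (b : ℝ) ≤ 1 / 2 := by
    apply one_div_le_one_div_of_le <;> linarith
  refine hz.trans ?_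
  have h2 : (b : ℝ) * (1 / (b : ℝ) ^ 2 + 34 / (100 * b)) = 1 / b + 34 / 100 := by
    field_simp
  rw [h2]
  nlinarith [sq_nonneg L]

lemma final_arith' {b : ℕ} (hb : 2 ≤ b) {L z : ℝ}
    (hz : z ≤ L ^ 2 * (1 / 16 + (b + 1) * (1 / (b : ℝ) ^ 2 + 34 / (100 * b)))) :
    z ≤ 2 * L ^ 2 := by
  have hb' : (2 : ℝ) ≤ b := by exact_mod_cast hb
  have hbpos : (0 : ℝ) < b := by linarith
  have hb1 : 1 / (b : ℝ) ≤ 1 / 2 := by
    apply one_div_le_one_div_of_le <;> linarith
  have hb0 : 0 < 1 / (b : ℝ) := by positivity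
  refine hz.trans ?_
  have h2 : ((b : ℝ) + 1) * (1 / (b : ℝ) ^ 2 + 34 / (100 * b)) =
      1 / b + (1 / b) ^ 2 + 34 / 100 + 34 / 100 * (1 / b) := by
    field_simp
    ring
  rw [h2]
  nlinarith [sq_nonneg L, mul_nonneg (sq_nonneg L) hb0.le]

end Crest.Agent.R160.StaticConv
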