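import Crest.Agent.R160.Homog
import Crest.Agent.R160.Scalar

/-! # Row 160, module G: the telescoping inequality for path products, and its expectation. -/

set_option autoImplicit false

open MeasureTheory
open scoped Classical

namespace Crest.Agent.R160

open Crest.Agent.R160.TreeAut

section seq

theorem tel_right (u : ℕ → ℝ) (n : ℕ) :
    ∑ i ∈ Finset.range n, (1 - u i) * ∏ k ∈ Finset.Ico (i + 1) n, u k
      = 1 - ∏ k ∈ Finset.range n, u k := by
  induction n with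
  | zero => simp
  | succ n ih =>
    rw [Finset.sum_range_succ, Finset.Ico_self, Finset.prod_empty, mul_one,
      Finset.prod_range_succ]
    have : ∑ i ∈ Finset.range n, (1 - u i) * ∏ k ∈ Finset.Ico (i + 1) (n + 1), u k
        = (∑ i ∈ Finset.range n, (1 - u i) * ∏ k ∈ Finset.Ico (i + 1) n, u k) * u n := by
      rw [Finset.sum_mul]
      apply Finset.sum_congr rfl
      intro i hi
      rw [Finset.mem_range] at hi
      rw [Finset.prod_Ico_succ_top (by omega)]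
      ring
    rw [this, ih]
    ring

theorem tel_left (u : ℕ → ℝ) (n : ℕ) :
    ∑ i ∈ Finset.range n, (∏ k ∈ Finset.range i, u k) * (1 - u i)
      = 1 - ∏ k ∈ Finset.range n, u k := by
  induction n with
  | zero => simp
  | succ n ih =>
    rw [Finset.sum_range_succ, ih, Finset.prod_range_succ]
    ring

theorem tel_prod (u u' : ℕ → ℝ) (n : ℕ) :
    ∏ k ∈ Finset.range n, u k - ∏ k ∈ Finset.range n, u' k
      = ∑ i ∈ Finset.range n, (∏ k ∈ Finset.range i, u' k) * (u i - u' i)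
          * ∏ k ∈ Finset.Ico (i + 1) n, u k := by
  induction n with
  | zero => simp
  | succ n ih =>
    rw [Finset.sum_range_succ, Finset.Ico_self, Finset.prod_empty, mul_one,
      Finset.prod_range_succ, Finset.prod_range_succ]
    have : ∑ i ∈ Finset.range n, (∏ k ∈ Finset.range i, u' k) * (u i - u' i)
          * ∏ k ∈ Finset.Ico (i + 1) (n + 1), u k
        = (∑ i ∈ Finset.range n, (∏ k ∈ Finset.range i, u' k) * (u i - u' i)
          * ∏ k ∈ Finset.Ico (i + 1) n, u k) * u n := by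
      rw [Finset.sum_mul]
      apply Finset.sum_congr rfl
      intro i hi
      rw [Finset.mem_range] at hi
      rw [Finset.prod_Ico_succ_top (by omega)]
      ring
    rw [this, ← ih]
    ring

theorem sq_prod_sub_prod_le (u u' g : ℕ → ℝ) (C : ℝ) (hC : 0 ≤ C) (n : ℕ)
    (hu : ∀ i < n, 0 ≤ u i ∧ u i ≤ 1) (hu' : ∀ i < n, 0 ≤ u' i ∧ u' i ≤ 1)
    (hg : ∀ i < n, 0 ≤ g i)
    (hd : ∀ i < n, (u i - u' i) ^ 2 ≤ C * ((1 - u i) + (1 - u' i)) * g i) :
    (∏ k ∈ Finset.range n, u k - ∏ k ∈ Finset.range n, u' k) ^ 2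
      ≤ 2 * C * ∑ i ∈ Finset.range n, (∏ k ∈ Finset.range i, u' k)
          * (∏ k ∈ Finset.Ico (i + 1) n, u k) * g i := by
  have hP : ∀ i < n, 0 ≤ ∏ k ∈ Finset.range i, u' k ∧ ∏ k ∈ Finset.range i, u' k ≤ 1 := by
    intro i hi
    exact ⟨Finset.prod_nonneg fun k hk => (hu' k (by rw [Finset.mem_range] at hk; omega)).1,
      Finset.prod_le_one (fun k hk => (hu' k (by rw [Finset.mem_range] at hk; omega)).1)
        fun k hk => (hu' k (by rw [Finset.mem_range] at hk; omega)).2⟩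
  have hQ : ∀ i < n, 0 ≤ ∏ k ∈ Finset.Ico (i + 1) n, u k ∧ ∏ k ∈ Finset.Ico (i + 1) n, u k ≤ 1 := by
    intro i hi
    exact ⟨Finset.prod_nonneg fun k hk => (hu k (by rw [Finset.mem_Ico] at hk; omega)).1,
      Finset.prod_le_one (fun k hk => (hu k (by rw [Finset.mem_Ico] at hk; omega)).1)
        fun k hk => (hu k (by rw [Finset.mem_Ico] at hk; omega)).2⟩
  rw [tel_prod]
  have h1 := Finset.sum_sq_le_sum_mul_sum_of_sq_le_mul (Finset.range n)
    (r := fun i => (∏ k ∈ Finset.range i, u' k) * (u i - u' i) * ∏ k ∈ Finset.Ico (i + 1) n, u k)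
    (f := fun i => (∏ k ∈ Finset.range i, u' k) * (∏ k ∈ Finset.Ico (i + 1) n, u k)
      * ((1 - u i) + (1 - u' i)))
    (g := fun i => C * ((∏ k ∈ Finset.range i, u' k) * (∏ k ∈ Finset.Ico (i + 1) n, u k) * g i))
    (fun i hi => by
      rw [Finset.mem_range] at hi
      have := hP i hi; have := hQ i hi; have := hu i hi; have := hu' i hi
      apply mul_nonneg (mul_nonneg (hP i hi).1 (hQ i hi).1)
      linarith)
    (fun i hi => by
      rw [Finset.mem_range] at hi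
      exact mul_nonneg hC (mul_nonneg (mul_nonneg (hP i hi).1 (hQ i hi).1) (hg i hi)))
    (fun i hi => by
      rw [Finset.mem_range] at hi
      have h2 := hd i hi
      have h3 : 0 ≤ ((∏ k ∈ Finset.range i, u' k) * (∏ k ∈ Finset.Ico (i + 1) n, u k)) ^ 2 :=
        sq_nonneg _
      calc ((∏ k ∈ Finset.range i, u' k) * (u i - u' i) * ∏ k ∈ Finset.Ico (i + 1) n, u k) ^ 2
          = ((∏ k ∈ Finset.range i, u' k) * (∏ k ∈ Finset.Ico (i + 1) n, u k)) ^ 2
            * (u i - u' i) ^ 2 := by ring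
        _ ≤ ((∏ k ∈ Finset.range i, u' k) * (∏ k ∈ Finset.Ico (i + 1) n, u k)) ^ 2
            * (C * ((1 - u i) + (1 - u' i)) * g i) := mul_le_mul_of_nonneg_left h2 h3
        _ = _ := by ring)
  refine h1.trans ?_
  have h4 : ∑ i ∈ Finset.range n, (∏ k ∈ Finset.range i, u' k) * (∏ k ∈ Finset.Ico (i + 1) n, u k)
      * ((1 - u i) + (1 - u' i)) ≤ 2 := by
    have h5 : ∑ i ∈ Finset.range n, (∏ k ∈ Finset.range i, u' k)
          * (∏ k ∈ Finset.Ico (i + 1) n, u k) * ((1 - u i) + (1 - u' i))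
        ≤ ∑ i ∈ Finset.range n, ((1 - u i) * ∏ k ∈ Finset.Ico (i + 1) n, u k)
          + ∑ i ∈ Finset.range n, ((∏ k ∈ Finset.range i, u' k) * (1 - u' i)) := by
      rw [← Finset.sum_add_distrib]
      apply Finset.sum_le_sum
      intro i hi
      rw [Finset.mem_range] at hi
      have a1 := hP i hi
      have a2 := hQ i hi
      have a3 := hu i hi
      have a4 := hu' i hi
      set P := ∏ k ∈ Finset.range i, u' k
      set Q := ∏ k ∈ Finset.Ico (i + 1) n, u k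
      have b1 : P * Q * (1 - u i) ≤ (1 - u i) * Q := by
        have : 0 ≤ Q * (1 - u i) := mul_nonneg a2.1 (by linarith)
        nlinarith
      have b2 : P * Q * (1 - u' i) ≤ P * (1 - u' i) := by
        have : 0 ≤ P * (1 - u' i) := mul_nonneg a1.1 (by linarith)
        nlinarith
      linarith
    rw [tel_right, tel_left] at h5
    have h6 : 0 ≤ ∏ k ∈ Finset.range n, u k :=
      Finset.prod_nonneg fun k hk => (hu k (by rw [Finset.mem_range] at hk; omega)).1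
    have h7 : 0 ≤ ∏ k ∈ Finset.range n, u' k :=
      Finset.prod_nonneg fun k hk => (hu' k (by rw [Finset.mem_range] at hk; omega)).1
    linarith
  have h8 : 0 ≤ ∑ i ∈ Finset.range n,
      C * ((∏ k ∈ Finset.range i, u' k) * (∏ k ∈ Finset.Ico (i + 1) n, u k) * g i) :=
    Finset.sum_nonneg fun i hi => by
      rw [Finset.mem_range] at hi
      exact mul_nonneg hC (mul_nonneg (mul_nonneg (hP i hi).1 (hQ i hi).1) (hg i hi))
  refine (mul_le_mul_of_nonneg_right h4 h8).trans (le_of_eq ?_)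
  rw [← Finset.mul_sum]
  ring

end seq

/-- the one-edge difference bound in the form needed for the telescoping -/
theorem rho_sub_sq_le {θ θ' a b a' b' : ℝ} (h0 : 0 ≤ θ) (h2 : θ ^ 2 ≤ 1 / 2) (h0' : 0 ≤ θ')
    (h2' : θ' ^ 2 ≤ 1 / 2) (ha : |a| ≤ 1) (hb : |b| ≤ 1) (ha' : |a'| ≤ 1) (hb' : |b'| ≤ 1) :
    (rho θ a b - rho θ' a' b') ^ 2 ≤ (24 * 10 ^ 12) * ((1 - rho θ a b) + (1 - rho θ' a' b'))
      * ((a - a') ^ 2 + (b - b') ^ 2 + (θ - θ') ^ 2) := by
  have h := gain_diff h0 h2 h0' h2' ha hb ha' hb'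
  have g1 := gain_ge h0 h2 ha hb
  have g2 := gain_ge h0' h2' ha' hb'
  rw [← one_sub_gain h0 h2 ha hb, ← one_sub_gain h0' h2' ha' hb']
  set g := gain θ a b
  set g' := gain θ' a' b'
  set y := b - θ * a
  set y' := b' - θ' * a'
  have e1 : (1 - g - (1 - g')) ^ 2 = |g - g'| ^ 2 := by rw [sq_abs]; ring
  have e2 : (1 - (1 - g) + (1 - (1 - g'))) = g + g' := by ring
  rw [e1, e2]
  have h3 : |g - g'| ^ 2 ≤ (10 ^ 6 * (|y| + |y'|) * (|a - a'| + |b - b'| + |θ - θ'|)) ^ 2 := by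
    gcongr
  refine h3.trans ?_
  have h4 : (|y| + |y'|) ^ 2 ≤ 8 * (g + g') := by
    have : (|y| + |y'|) ^ 2 ≤ 2 * (y ^ 2 + y' ^ 2) := by
      rw [← sq_abs y, ← sq_abs y']
      nlinarith [sq_nonneg (|y| - |y'|)]
    linarith
  have h5 : (|a - a'| + |b - b'| + |θ - θ'|) ^ 2
      ≤ 3 * ((a - a') ^ 2 + (b - b') ^ 2 + (θ - θ') ^ 2) := by
    rw [← sq_abs (a - a'), ← sq_abs (b - b'), ← sq_abs (θ - θ')]
    nlinarith [sq_nonneg (|a - a'| - |b - b'|), sq_nonneg (|a - a'| - |θ - θ'|),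
      sq_nonneg (|b - b'| - |θ - θ'|)]
  calc (10 ^ 6 * (|y| + |y'|) * (|a - a'| + |b - b'| + |θ - θ'|)) ^ 2
      = 10 ^ 12 * ((|y| + |y'|) ^ 2 * (|a - a'| + |b - b'| + |θ - θ'|) ^ 2) := by ring
    _ ≤ 10 ^ 12 * ((8 * (g + g')) * (3 * ((a - a') ^ 2 + (b - b') ^ 2 + (θ - θ') ^ 2))) := by
        have hgg : 0 ≤ 8 * (g + g') := le_trans (sq_nonneg _) h4
        gcongr
    _ = _ := by ring

section ptw

variable {V : Type*} {G : SimpleGraph V}

theorem nb_gpt_eq (hT : G.IsTree) {n : ℕ} {p : ℕ → V} (hp : IsNB G n p) {i : ℕ} (hi : i ≤ n) :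
    gpt G (p 0) (p n) i = p i := by
  have h0 : G.dist (p 0) (p n) = n := (hp.dist_par hT n le_rfl).1
  unfold gpt
  rw [h0]
  have key : ∀ k ≤ n, (par G (p 0))^[k] (p n) = p (n - k) := by
    intro k
    induction k with
    | zero => intro _; rfl
    | succ k ih =>
      intro hk
      rw [Function.iterate_succ_apply', ih (by omega), (hp.dist_par hT (n - k) (by omega)).2
        (by omega)]
      rfl
  rw [key (n - i) (by omega), show n - (n - i) = i by omega]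

theorem rprod_sub_sq_le (hT : G.IsTree) {θ θ' : ℝ} (h0 : 0 ≤ θ) (h2 : θ ^ 2 ≤ 1 / 2)
    (h0' : 0 ≤ θ') (h2' : θ' ^ 2 ≤ 1 / 2) {m m' : V → ℝ} (hm : ∀ v, |m v| ≤ 1)
    (hm' : ∀ v, |m' v| ≤ 1) (v w : V) :
    (1 - m' v ^ 2) * (rprod G θ m v w - rprod G θ' m' v w) ^ 2 ≤
      (48 * 10 ^ 12) * ∑ i ∈ Finset.Icc 1 (G.dist v w),
        rprod G θ' m' (gpt G v w (i - 1)) v * rprod G θ m (gpt G v w i) w
          * ((m (gpt G v w (i - 1)) - m' (gpt G v w (i - 1))) ^ 2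
            + (m (gpt G v w i) - m' (gpt G v w i)) ^ 2 + (θ - θ') ^ 2) := by
  obtain ⟨p, hp, hp0, hp1⟩ := exists_geodesic hT v w
  set n := G.dist v w with hn
  have hg : ∀ i ≤ n, gpt G v w i = p i := by
    intro i hi
    have := nb_gpt_eq hT hp hi
    rwa [hp0, hp1] at this
  have t1 := theta_lt_one h0 h2
  have t1' := theta_lt_one h0' h2'
  have hv1 : m' v ^ 2 ≤ 1 := sq_le_one_of_abs (hm' v)
  have h3 := sq_prod_sub_prod_le (fun i => rho θ (m (p i)) (m (p (i + 1))))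
    (fun i => rho θ' (m' (p i)) (m' (p (i + 1))))
    (fun i => (m (p i) - m' (p i)) ^ 2 + (m (p (i + 1)) - m' (p (i + 1))) ^ 2 + (θ - θ') ^ 2)
    (24 * 10 ^ 12) (by norm_num) n
    (fun i _ => ⟨rho_nonneg h0 t1 (hm _) (hm _), rho_le_one h0 h2 (hm _) (hm _)⟩)
    (fun i _ => ⟨rho_nonneg h0' t1' (hm' _) (hm' _), rho_le_one h0' h2' (hm' _) (hm' _)⟩)
    (fun i _ => by positivity)
    (fun i _ => rho_sub_sq_le h0 h2 h0' h2' (hm _) (hm _) (hm' _) (hm' _))
  have e1 := rprod_path hT θ m hp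
  have e2 := rprod_path hT θ' m' hp
  rw [hp0, hp1] at e1 e2
  rw [e1, e2]
  refine (mul_le_mul_of_nonneg_left h3 (by linarith)).trans ?_
  rw [show (1 - m' v ^ 2) * (2 * (24 * 10 ^ 12) *
      ∑ i ∈ Finset.range n, (∏ k ∈ Finset.range i, rho θ' (m' (p k)) (m' (p (k + 1))))
          * (∏ k ∈ Finset.Ico (i + 1) n, rho θ (m (p k)) (m (p (k + 1))))
          * ((m (p i) - m' (p i)) ^ 2 + (m (p (i + 1)) - m' (p (i + 1))) ^ 2 + (θ - θ') ^ 2))
      = (48 * 10 ^ 12) * ∑ i ∈ Finset.range n,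
        (1 - m' v ^ 2) * ((∏ k ∈ Finset.range i, rho θ' (m' (p k)) (m' (p (k + 1))))
          * (∏ k ∈ Finset.Ico (i + 1) n, rho θ (m (p k)) (m (p (k + 1))))
          * ((m (p i) - m' (p i)) ^ 2 + (m (p (i + 1)) - m' (p (i + 1))) ^ 2 + (θ - θ') ^ 2)) by
    rw [← Finset.mul_sum]; ring]
  apply mul_le_mul_of_nonneg_left _ (by norm_num)
  have hI : Finset.Icc 1 n = (Finset.range n).image (fun i => i + 1) := by
    ext k
    simp only [Finset.mem_Icc, Finset.mem_image, Finset.mem_range]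
    constructor
    · intro h; exact ⟨k - 1, by omega, by omega⟩
    · rintro ⟨a, h, rfl⟩; omega
  rw [hI, Finset.sum_image (fun a _ b _ h => by simpa using h)]
  apply Finset.sum_le_sum
  intro i hi
  rw [Finset.mem_range] at hi
  rw [Nat.add_sub_cancel, hg i (by omega), hg (i + 1) (by omega)]
  have f1 := rprod_path_to hT θ' m' hp (i := i) (by omega)
  have f2 := rprod_path_from hT θ m hp (i := i + 1) (by omega)
  rw [hp0] at f1
  rw [hp1] at f2
  rw [← f1, ← f2]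
  have h5 := rprod_rev hT θ' m' v (p i)
  have h6 := rprod_mem hT h0' t1' hm' (p i) v
  have h7 := rprod_mem hT h0 t1 hm (p (i + 1)) w
  have h8 : (1 - m' v ^ 2) * rprod G θ' m' v (p i) ≤ rprod G θ' m' (p i) v := by
    rw [h5]
    have := sq_nonneg (m' (p i))
    nlinarith [h6.1]
  have h9 : 0 ≤ rprod G θ m (p (i + 1)) w
      * ((m (p i) - m' (p i)) ^ 2 + (m (p (i + 1)) - m' (p (i + 1))) ^ 2 + (θ - θ') ^ 2) :=
    mul_nonneg h7.1 (by positivity)
  calc _ = ((1 - m' v ^ 2) * rprod G θ' m' v (p i)) * (rprod G θ m (p (i + 1)) w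
      * ((m (p i) - m' (p i)) ^ 2 + (m (p (i + 1)) - m' (p (i + 1))) ^ 2 + (θ - θ') ^ 2)) := by ring
    _ ≤ rprod G θ' m' (p i) v * (rprod G θ m (p (i + 1)) w
      * ((m (p i) - m' (p i)) ^ 2 + (m (p (i + 1)) - m' (p (i + 1))) ^ 2 + (θ - θ') ^ 2)) :=
        mul_le_mul_of_nonneg_right h8 h9
    _ = _ := by ring

/-- the pointwise telescoping bound for the covariances -/
theorem MM_sub_sq_le (hT : G.IsTree) {θ θ' : ℝ} (h0' : 0 ≤ θ') (hle : θ' ≤ θ)
    (h2 : θ ^ 2 ≤ 1 / 2) {m m' : V → ℝ} (hm : ∀ v, |m v| ≤ 1)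
    (hm' : ∀ v, |m' v| ≤ 1) (v w : V) :
    (MM G θ m v w - MM G θ' m' v w) ^ 2 ≤
      12 * θ ^ (2 * G.dist v w) * ((m v - m' v) ^ 2 * rprod G θ m v w)
      + 3 * (θ ^ G.dist v w - θ' ^ G.dist v w) ^ 2 * rprod G θ m v w
      + (144 * 10 ^ 12) * θ' ^ (2 * G.dist v w) * ∑ i ∈ Finset.Icc 1 (G.dist v w),
        rprod G θ' m' (gpt G v w (i - 1)) v * rprod G θ m (gpt G v w i) w
          * ((m (gpt G v w (i - 1)) - m' (gpt G v w (i - 1))) ^ 2
            + (m (gpt G v w i) - m' (gpt G v w i)) ^ 2 + (θ - θ') ^ 2) := by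
  have h0 : 0 ≤ θ := h0'.trans hle
  have h2' : θ' ^ 2 ≤ 1 / 2 := le_trans (by gcongr) h2
  have t1 := theta_lt_one h0 h2
  have t1' := theta_lt_one h0' h2'
  have key := rprod_sub_sq_le hT h0 h2 h0' h2' hm hm' v w
  set n := G.dist v w with hn
  set R := rprod G θ m v w with hR
  set R' := rprod G θ' m' v w with hR'
  set Sg := ∑ i ∈ Finset.Icc 1 n,
        rprod G θ' m' (gpt G v w (i - 1)) v * rprod G θ m (gpt G v w i) w
          * ((m (gpt G v w (i - 1)) - m' (gpt G v w (i - 1))) ^ 2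
            + (m (gpt G v w i) - m' (gpt G v w i)) ^ 2 + (θ - θ') ^ 2) with hS
  have r1 := rprod_mem hT h0 t1 hm v w
  rw [← hR] at r1
  have hv1 : m' v ^ 2 ≤ 1 := sq_le_one_of_abs (hm' v)
  have hv0 := sq_nonneg (m' v)
  have e : MM G θ m v w - MM G θ' m' v w = (m' v ^ 2 - m v ^ 2) * θ ^ n * R
      + (1 - m' v ^ 2) * (θ ^ n - θ' ^ n) * R + (1 - m' v ^ 2) * θ' ^ n * (R - R') := by
    unfold MM
    rw [← hn, ← hR, ← hR']
    ring
  rw [e]
  set X := (m' v ^ 2 - m v ^ 2) * θ ^ n * R with hX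
  set Y := (1 - m' v ^ 2) * (θ ^ n - θ' ^ n) * R with hY
  set Z := (1 - m' v ^ 2) * θ' ^ n * (R - R') with hZ
  have h3 : (X + Y + Z) ^ 2 ≤ 3 * (X ^ 2 + Y ^ 2 + Z ^ 2) := by
    nlinarith [sq_nonneg (X - Y), sq_nonneg (X - Z), sq_nonneg (Y - Z)]
  have hRR : R ^ 2 ≤ R := by nlinarith [r1.1, r1.2]
  have hX2 : X ^ 2 ≤ 4 * θ ^ (2 * n) * ((m v - m' v) ^ 2 * R) := by
    have a1 : (m' v ^ 2 - m v ^ 2) ^ 2 ≤ 4 * (m v - m' v) ^ 2 := by
      have b1 : |m v + m' v| ≤ 2 := by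
        have := abs_add_le (m v) (m' v)
        linarith [hm v, hm' v]
      have b2 : (m v + m' v) ^ 2 ≤ 4 := by
        rw [← sq_abs]; nlinarith [abs_nonneg (m v + m' v)]
      calc (m' v ^ 2 - m v ^ 2) ^ 2 = (m v + m' v) ^ 2 * (m v - m' v) ^ 2 := by ring
        _ ≤ 4 * (m v - m' v) ^ 2 := mul_le_mul_of_nonneg_right b2 (sq_nonneg _)
    calc X ^ 2 = (m' v ^ 2 - m v ^ 2) ^ 2 * θ ^ (2 * n) * R ^ 2 := by rw [hX]; ring
      _ ≤ (4 * (m v - m' v) ^ 2) * θ ^ (2 * n) * R := by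
          apply mul_le_mul _ hRR (sq_nonneg _) (by positivity)
          apply mul_le_mul_of_nonneg_right a1; positivity
      _ = _ := by ring
  have hY2 : Y ^ 2 ≤ (θ ^ n - θ' ^ n) ^ 2 * R := by
    have a1 : (1 - m' v ^ 2) ^ 2 ≤ 1 := by nlinarith
    calc Y ^ 2 = (1 - m' v ^ 2) ^ 2 * (θ ^ n - θ' ^ n) ^ 2 * R ^ 2 := by rw [hY]; ring
      _ ≤ (1 * (θ ^ n - θ' ^ n) ^ 2) * R := by
          apply mul_le_mul _ hRR (sq_nonneg _) (by positivity)
          exact mul_le_mul_of_nonneg_right a1 (sq_nonneg _)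
      _ = _ := by ring
  have hZ2 : Z ^ 2 ≤ θ' ^ (2 * n) * ((48 * 10 ^ 12) * Sg) := by
    calc Z ^ 2 = (1 - m' v ^ 2) * (θ' ^ (2 * n) * ((1 - m' v ^ 2) * (R - R') ^ 2)) := by
          rw [hZ]; ring
      _ ≤ 1 * (θ' ^ (2 * n) * ((1 - m' v ^ 2) * (R - R') ^ 2)) := by
          apply mul_le_mul_of_nonneg_right (by linarith)
          apply mul_nonneg (by positivity)
          exact mul_nonneg (by linarith) (sq_nonneg _)
      _ = θ' ^ (2 * n) * ((1 - m' v ^ 2) * (R - R') ^ 2) := one_mul _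
      _ ≤ _ := mul_le_mul_of_nonneg_left key (by positivity)
  calc (X + Y + Z) ^ 2 ≤ 3 * (X ^ 2 + Y ^ 2 + Z ^ 2) := h3
    _ ≤ 3 * (4 * θ ^ (2 * n) * ((m v - m' v) ^ 2 * R) + (θ ^ n - θ' ^ n) ^ 2 * R
          + θ' ^ (2 * n) * ((48 * 10 ^ 12) * Sg)) := by linarith
    _ = _ := by ring

theorem MM_sq_mul_le (hT : G.IsTree) {θ : ℝ} (h0 : 0 ≤ θ)
    (h2 : θ ^ 2 ≤ 1 / 2) {m : V → ℝ} (hm : ∀ v, |m v| ≤ 1) (v w : V) :
    (MM G θ m v w) ^ 2 ≤ θ ^ (2 * G.dist v w) * rprod G θ m w v := by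
  have t1 := theta_lt_one h0 h2
  have r1 := rprod_mem hT h0 t1 hm v w
  have r2 := rprod_mem hT h0 t1 hm w v
  have hv1 : m v ^ 2 ≤ 1 := sq_le_one_of_abs (hm v)
  have hv0 := sq_nonneg (m v)
  have hw0 := sq_nonneg (m w)
  have hrev := rprod_rev hT θ m v w
  unfold MM
  calc ((1 - m v ^ 2) * θ ^ G.dist v w * rprod G θ m v w) ^ 2
      = θ ^ (2 * G.dist v w) * (((1 - m v ^ 2) * rprod G θ m v w)
          * ((1 - m v ^ 2) * rprod G θ m v w)) := by ring
    _ ≤ θ ^ (2 * G.dist v w) * (((1 - m v ^ 2) * rprod G θ m v w) * 1) := by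
        have : (1 - m v ^ 2) * rprod G θ m v w ≤ 1 := by nlinarith [r1.1, r1.2]
        have h3 : 0 ≤ (1 - m v ^ 2) * rprod G θ m v w := mul_nonneg (by linarith) r1.1
        gcongr
    _ = θ ^ (2 * G.dist v w) * ((1 - m w ^ 2) * rprod G θ m w v) := by rw [mul_one, hrev]
    _ ≤ θ ^ (2 * G.dist v w) * rprod G θ m w v := by
        apply mul_le_mul_of_nonneg_left _ (by positivity)
        nlinarith [r2.1]

end ptw

end Crest.Agent.R160
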