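import Crest.Agent.R160.Tel

/-! # Row 160, module G: the telescoping inequality in expectation (relocated to a fixed dart). -/

set_option autoImplicit false

open MeasureTheory
open scoped Classical

namespace Crest.Agent.R160

open Crest.Agent.R160.TreeAut

/-! ### bounded measurable functions -/

/-- bounded measurable real functions -/
def BM {Ω : Type*} [MeasurableSpace Ω] (F : Ω → ℝ) : Prop :=
  Measurable F ∧ ∃ K : ℝ, ∀ ω, |F ω| ≤ K

section bm

variable {Ω : Type*} [MeasurableSpace Ω] {F F' : Ω → ℝ}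

theorem BM.const (c : ℝ) : BM (fun _ : Ω => c) := ⟨measurable_const, |c|, fun _ => le_rfl⟩

theorem BM.add (h : BM F) (h' : BM F') : BM (fun ω => F ω + F' ω) := by
  obtain ⟨h1, K, hK⟩ := h
  obtain ⟨h1', K', hK'⟩ := h'
  exact ⟨h1.add h1', K + K', fun ω => (abs_add_le _ _).trans (add_le_add (hK ω) (hK' ω))⟩

theorem BM.mul (h : BM F) (h' : BM F') : BM (fun ω => F ω * F' ω) := by
  obtain ⟨h1, K, hK⟩ := h
  obtain ⟨h1', K', hK'⟩ := h'
  refine ⟨h1.mul h1', K * K', fun ω => ?_⟩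
  rw [abs_mul]
  exact mul_le_mul (hK ω) (hK' ω) (abs_nonneg _) ((abs_nonneg _).trans (hK ω))

theorem BM.sub (h : BM F) (h' : BM F') : BM (fun ω => F ω - F' ω) := by
  obtain ⟨h1, K, hK⟩ := h
  obtain ⟨h1', K', hK'⟩ := h'
  exact ⟨h1.sub h1', K + K', fun ω => (abs_sub _ _).trans (add_le_add (hK ω) (hK' ω))⟩

theorem BM.pow (h : BM F) (n : ℕ) : BM (fun ω => F ω ^ n) := by
  obtain ⟨h1, K, hK⟩ := h
  refine ⟨h1.pow_const n, K ^ n, fun ω => ?_⟩
  rw [abs_pow]
  exact pow_le_pow_left₀ (abs_nonneg _) (hK ω) n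

theorem BM.sum {ι : Type*} (s : Finset ι) {F : ι → Ω → ℝ} (h : ∀ i ∈ s, BM (F i)) :
    BM (fun ω => ∑ i ∈ s, F i ω) := by
  induction s using Finset.induction_on with
  | empty => simpa using BM.const (0 : ℝ)
  | insert a s ha ih =>
    simp only [Finset.sum_insert ha]
    exact (h a (Finset.mem_insert_self a s)).add
      (ih fun i hi => h i (Finset.mem_insert_of_mem hi))

theorem BM.integrable {P : Measure Ω} [IsFiniteMeasure P] (h : BM F) : Integrable F P := by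
  obtain ⟨h1, K, hK⟩ := h
  exact Integrable.of_bound h1.aestronglyMeasurable K (Filter.Eventually.of_forall hK)

end bm

section main

variable {V Ω : Type*} [MeasurableSpace Ω] {G : SimpleGraph V} [G.LocallyFinite] {P : Measure Ω}
  {m m' : V → Ω → ℝ}

/-- the level-`n` contribution to the growth of the mean square difference -/
noncomputable def Sn (G : SimpleGraph V) [G.LocallyFinite] (P : Measure Ω) (θ θ' : ℝ)
    (m m' : V → Ω → ℝ) (v : V) (n : ℕ) : ℝ :=
  ∑ w ∈ sph G v n, ∫ ω, ((MM G θ (fun x => m x ω) v w - MM G θ' (fun x => m' x ω) v w) ^ 2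
    + (MM G θ (fun x => m x ω) v w) ^ 2 * (m w ω - m' w ω) ^ 2) ∂P

omit [G.LocallyFinite] in
theorem HomPair.bm (h : HomPair G P m m') (v : V) : BM (m v) := ⟨h.meas v, 1, h.le v⟩

omit [G.LocallyFinite] in
theorem HomPair.bm' (h : HomPair G P m m') (v : V) : BM (m' v) := ⟨h.meas' v, 1, h.le' v⟩

omit [G.LocallyFinite] in
theorem HomPair.bm_rprod (h : HomPair G P m m') (hT : G.IsTree) {θ : ℝ} (h0 : 0 ≤ θ) (h1 : θ < 1)
    (v w : V) : BM (fun ω => rprod G θ (fun x => m x ω) v w) :=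
  ⟨measurable_rprod θ h.meas v w, 1, fun ω => by
    have := rprod_mem hT h0 h1 (m := fun x => m x ω) (fun x => h.le x ω) v w
    rw [abs_of_nonneg this.1]
    exact this.2⟩

omit [G.LocallyFinite] in
theorem HomPair.bm_rprod' (h : HomPair G P m m') (hT : G.IsTree) {θ : ℝ} (h0 : 0 ≤ θ) (h1 : θ < 1)
    (v w : V) : BM (fun ω => rprod G θ (fun x => m' x ω) v w) :=
  h.symm.bm_rprod hT h0 h1 v w

omit [G.LocallyFinite] in
theorem HomPair.bm_MM (h : HomPair G P m m') (hT : G.IsTree) {θ : ℝ} (h0 : 0 ≤ θ) (h1 : θ < 1)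
    (v w : V) : BM (fun ω => MM G θ (fun x => m x ω) v w) :=
  ⟨measurable_MM θ h.meas v w, 1, fun ω => by
    have := MM_mem hT h0 h1 (m := fun x => m x ω) (fun x => h.le x ω) v w
    rw [abs_of_nonneg this.1]
    exact this.2⟩

theorem HomPair.bm_Alev (h : HomPair G P m m') (hT : G.IsTree) {b : ℕ} (hb : 1 ≤ b)
    (hreg : G.IsRegularOfDegree (b + 1)) {θ : ℝ} (h0 : 0 ≤ θ) (h1 : θ < 1)
    (o : V) (k : ℕ) : BM (fun ω => Alev G b θ (fun x => m x ω) o k) :=
  ⟨measurable_Alev b θ h.meas o k, 2, fun ω => by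
    have := Alev_mem hT hb hreg h0 h1 (m := fun x => m x ω) (fun x => h.le x ω) o k
    rw [abs_of_nonneg this.1]
    exact this.2⟩

/-- (P1) -/
theorem HomPair.sum_sq_out (h : HomPair G P m m') [IsProbabilityMeasure P] (hT : G.IsTree)
    {b : ℕ} (hb : 1 ≤ b) (hreg : G.IsRegularOfDegree (b + 1)) {θ : ℝ} (h0 : 0 ≤ θ) (h1 : θ < 1)
    (v y : V) (n : ℕ) :
    ∑ w ∈ sph G v n, ∫ ω, (m v ω - m' v ω) ^ 2 * rprod G θ (fun x => m x ω) v w ∂P
      = (b : ℝ) ^ n * ∫ ω, (m y ω - m' y ω) ^ 2 * Alev G b θ (fun x => m x ω) y n ∂P := by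
  have hb0 : (b : ℝ) ≠ 0 := by exact_mod_cast (by omega : b ≠ 0)
  rw [relocate2' hT hreg
    (F := fun v w => ∫ ω, (m v ω - m' v ω) ^ 2 * rprod G θ (fun x => m x ω) v w ∂P) ?_ v y]
  · rw [← integral_finsetSum, ← integral_const_mul]
    · congr 1
      funext ω
      rw [← Finset.mul_sum]
      unfold Alev
      rw [inv_pow]
      field_simp
    · intro w _
      exact ((((h.bm y).sub (h.bm' y)).pow 2).mul (h.bm_rprod hT h0 h1 y w)).integrable
  · intro g u w
    have := h.integral_map g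
      (fun μ μ' => (μ u - μ' u) ^ 2 * rprod G θ μ u w)
      ((((h.bm u).sub (h.bm' u)).pow 2).mul (h.bm_rprod hT h0 h1 u w)).1
    rw [← this]
    congr 1
    funext ω
    rw [rprod_map hT]

/-- (P2) -/
theorem HomPair.sum_out (h : HomPair G P m m') [IsProbabilityMeasure P] (hT : G.IsTree)
    {b : ℕ} (hb : 1 ≤ b) (hreg : G.IsRegularOfDegree (b + 1)) {θ : ℝ} (h0 : 0 ≤ θ) (h1 : θ < 1)
    (v y : V) (n : ℕ) :
    ∑ w ∈ sph G v n, ∫ ω, rprod G θ (fun x => m x ω) v w ∂P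
      = (b : ℝ) ^ n * ∫ ω, Alev G b θ (fun x => m x ω) y n ∂P := by
  have hb0 : (b : ℝ) ≠ 0 := by exact_mod_cast (by omega : b ≠ 0)
  rw [relocate2' hT hreg
    (F := fun v w => ∫ ω, rprod G θ (fun x => m x ω) v w ∂P) ?_ v y]
  · rw [← integral_finsetSum, ← integral_const_mul]
    · congr 1
      funext ω
      unfold Alev
      rw [inv_pow]
      field_simp
    · intro w _
      exact (h.bm_rprod hT h0 h1 y w).integrable
  · intro g u w
    have := h.integral_map g (fun μ μ' => rprod G θ μ u w) (h.bm_rprod hT h0 h1 u w).1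
    rw [← this]
    congr 1
    funext ω
    rw [rprod_map hT]

/-- (P3) -/
theorem HomPair.sum_sq_in (h : HomPair G P m m') [IsProbabilityMeasure P] (hT : G.IsTree)
    {b : ℕ} (hb : 1 ≤ b) (hreg : G.IsRegularOfDegree (b + 1)) {θ : ℝ} (h0 : 0 ≤ θ) (h1 : θ < 1)
    (v y : V) (n : ℕ) :
    ∑ w ∈ sph G v n, ∫ ω, (m w ω - m' w ω) ^ 2 * rprod G θ (fun x => m x ω) w v ∂P
      = (b : ℝ) ^ n * ∫ ω, (m y ω - m' y ω) ^ 2 * Alev G b θ (fun x => m x ω) y n ∂P := by
  rw [← h.sum_sq_out hT hb hreg h0 h1 v y n]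
  rw [relocate2 hT hreg
    (F := fun v w => ∫ ω, (m w ω - m' w ω) ^ 2 * rprod G θ (fun x => m x ω) w v ∂P) ?_ v v]
  intro g u w
  have := h.integral_map g
    (fun μ μ' => (μ w - μ' w) ^ 2 * rprod G θ μ w u)
    ((((h.bm w).sub (h.bm' w)).pow 2).mul (h.bm_rprod hT h0 h1 w u)).1
  rw [← this]
  congr 1
  funext ω
  rw [rprod_map hT]

/-- (P4) -/
theorem HomPair.sum_mid (h : HomPair G P m m') [IsProbabilityMeasure P] (hT : G.IsTree)
    {b : ℕ} (hb : 1 ≤ b) (hreg : G.IsRegularOfDegree (b + 1)) {θ θ' : ℝ} (h0 : 0 ≤ θ) (h1 : θ < 1)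
    (h0' : 0 ≤ θ') (h1' : θ' < 1) (κ : ℝ) (hκ : 0 ≤ κ)
    (v : V) {y z : V} (hyz : G.Adj y z) {n i : ℕ} (hi1 : 1 ≤ i) (hi : i ≤ n) :
    ∑ w ∈ sph G v n, ∫ ω, rprod G θ' (fun x => m' x ω) (gpt G v w (i - 1)) v
        * rprod G θ (fun x => m x ω) (gpt G v w i) w
        * ((m (gpt G v w (i - 1)) ω - m' (gpt G v w (i - 1)) ω) ^ 2
            + (m (gpt G v w i) ω - m' (gpt G v w i) ω) ^ 2 + κ) ∂P
      ≤ 2 * (b : ℝ) ^ n * ∫ ω, ((m y ω - m' y ω) ^ 2 + (m z ω - m' z ω) ^ 2 + κ)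
          * (Alev G b θ' (fun x => m' x ω) y (i - 1)
            * Alev G b θ (fun x => m x ω) z (n - i)) ∂P := by
  have hb0 : (b : ℝ) ≠ 0 := by exact_mod_cast (by omega : b ≠ 0)
  have hb1 : (1 : ℝ) ≤ b := by exact_mod_cast hb
  have hbm : ∀ u y z w : V, BM (fun ω => rprod G θ' (fun x => m' x ω) y u
        * rprod G θ (fun x => m x ω) z w
        * ((m y ω - m' y ω) ^ 2 + (m z ω - m' z ω) ^ 2 + κ)) := by
    intro u y z w
    exact ((h.bm_rprod' hT h0' h1' y u).mul (h.bm_rprod hT h0 h1 z w)).mul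
      (((((h.bm y).sub (h.bm' y)).pow 2).add (((h.bm z).sub (h.bm' z)).pow 2)).add (BM.const κ))
  have hrel := relocate4 hT hreg
    (F := fun u y z w => ∫ ω, rprod G θ' (fun x => m' x ω) y u
        * rprod G θ (fun x => m x ω) z w
        * ((m y ω - m' y ω) ^ 2 + (m z ω - m' z ω) ^ 2 + κ) ∂P)
    (by
      intro g u y z w
      have := h.integral_map g
        (fun μ μ' => rprod G θ' μ' y u * rprod G θ μ z w
          * ((μ y - μ' y) ^ 2 + (μ z - μ' z) ^ 2 + κ)) (hbm u y z w).1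
      rw [← this]
      congr 1
      funext ω
      rw [rprod_map hT, rprod_map hT])
    (by
      intro u y z w
      apply integral_nonneg
      intro ω
      have a1 := (rprod_mem hT h0' h1' (m := fun x => m' x ω) (fun x => h.le' x ω) y u).1
      have a2 := (rprod_mem hT h0 h1 (m := fun x => m x ω) (fun x => h.le x ω) z w).1
      positivity)
    v hyz hi1 hi
  refine hrel.trans ?_
  have e1 : ∑ u ∈ sph G y (i - 1), ∑ w ∈ sph G z (n - i),
      ∫ ω, rprod G θ' (fun x => m' x ω) y u * rprod G θ (fun x => m x ω) z w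
        * ((m y ω - m' y ω) ^ 2 + (m z ω - m' z ω) ^ 2 + κ) ∂P
      = (b : ℝ) ^ (n - 1) * ∫ ω, ((m y ω - m' y ω) ^ 2 + (m z ω - m' z ω) ^ 2 + κ)
          * (Alev G b θ' (fun x => m' x ω) y (i - 1)
            * Alev G b θ (fun x => m x ω) z (n - i)) ∂P := by
    have e2 : ∀ u ∈ sph G y (i - 1), ∑ w ∈ sph G z (n - i),
      ∫ ω, rprod G θ' (fun x => m' x ω) y u * rprod G θ (fun x => m x ω) z w
        * ((m y ω - m' y ω) ^ 2 + (m z ω - m' z ω) ^ 2 + κ) ∂P
      = ∫ ω, ∑ w ∈ sph G z (n - i), rprod G θ' (fun x => m' x ω) y u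
        * rprod G θ (fun x => m x ω) z w
        * ((m y ω - m' y ω) ^ 2 + (m z ω - m' z ω) ^ 2 + κ) ∂P := by
      intro u _
      rw [integral_finsetSum]
      intro w _
      exact (hbm u y z w).integrable
    rw [Finset.sum_congr rfl e2, ← integral_finsetSum, ← integral_const_mul]
    · congr 1
      funext ω
      have e3 : (b : ℝ) ^ (n - 1) = (b : ℝ) ^ (i - 1) * (b : ℝ) ^ (n - i) := by
        rw [← pow_add]; congr 1; omega
      have e4 : (b : ℝ) ^ (i - 1) * Alev G b θ' (fun x => m' x ω) y (i - 1)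
          = ∑ u ∈ sph G y (i - 1), rprod G θ' (fun x => m' x ω) y u := by
        unfold Alev
        rw [inv_pow]
        field_simp
      have e5 : (b : ℝ) ^ (n - i) * Alev G b θ (fun x => m x ω) z (n - i)
          = ∑ w ∈ sph G z (n - i), rprod G θ (fun x => m x ω) z w := by
        unfold Alev
        rw [inv_pow]
        field_simp
      have e6 : (b : ℝ) ^ (n - 1) * (((m y ω - m' y ω) ^ 2 + (m z ω - m' z ω) ^ 2 + κ)
          * (Alev G b θ' (fun x => m' x ω) y (i - 1)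
            * Alev G b θ (fun x => m x ω) z (n - i)))
          = ((b : ℝ) ^ (i - 1) * Alev G b θ' (fun x => m' x ω) y (i - 1))
            * ((b : ℝ) ^ (n - i) * Alev G b θ (fun x => m x ω) z (n - i))
            * ((m y ω - m' y ω) ^ 2 + (m z ω - m' z ω) ^ 2 + κ) := by
        rw [e3]; ring
      rw [e6, e4, e5, Finset.sum_mul_sum, Finset.sum_mul]
      apply Finset.sum_congr rfl
      intro u _
      rw [Finset.sum_mul]
    · intro u _
      exact (BM.sum _ fun w _ => hbm u y z w).integrable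
  rw [e1]
  have hnn : 0 ≤ ∫ ω, ((m y ω - m' y ω) ^ 2 + (m z ω - m' z ω) ^ 2 + κ)
          * (Alev G b θ' (fun x => m' x ω) y (i - 1)
            * Alev G b θ (fun x => m x ω) z (n - i)) ∂P := by
    apply integral_nonneg
    intro ω
    have a1 := (Alev_mem hT hb hreg h0' h1' (m := fun x => m' x ω) (fun x => h.le' x ω) y
      (i - 1)).1
    have a2 := (Alev_mem hT hb hreg h0 h1 (m := fun x => m x ω) (fun x => h.le x ω) z
      (n - i)).1
    positivity
  rw [← mul_assoc]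
  apply mul_le_mul_of_nonneg_right _ hnn
  have e7 : (b : ℝ) ^ n = (b : ℝ) ^ (n - 1) * b := by
    rw [← pow_succ]; congr 1; omega
  rw [e7]
  have : 0 < (b : ℝ) ^ (n - 1) := by positivity
  nlinarith

/-- **The telescoping inequality in expectation**, relocated to a fixed dart `(y,z)`. -/
theorem HomPair.Sn_le (h : HomPair G P m m') [IsProbabilityMeasure P] (hT : G.IsTree)
    {b : ℕ} (hb : 2 ≤ b) (hreg : G.IsRegularOfDegree (b + 1)) {θ θ' : ℝ}
    (h0' : 0 ≤ θ') (hle : θ' ≤ θ) (h4 : 1 / 4 ≤ (b : ℝ) * θ ^ 2) (hlt : (b : ℝ) * θ ^ 2 ≤ 1)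
    (v : V) {y z : V} (hyz : G.Adj y z) (n : ℕ) :
    Sn G P θ θ' m m' v n ≤
      13 * ((b : ℝ) * θ ^ 2) ^ n
          * ∫ ω, (m y ω - m' y ω) ^ 2 * Alev G b θ (fun x => m x ω) y n ∂P
      + 12 * b * n ^ 2 * (θ - θ') ^ 2 * ((b : ℝ) * θ ^ 2) ^ n
          * ∫ ω, Alev G b θ (fun x => m x ω) y n ∂P
      + 288 * 10 ^ 12 * ((b : ℝ) * θ' ^ 2) ^ n * ∑ i ∈ Finset.range n,
          ∫ ω, ((m y ω - m' y ω) ^ 2 + (m z ω - m' z ω) ^ 2 + (θ - θ') ^ 2)
            * (Alev G b θ' (fun x => m' x ω) y i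
              * Alev G b θ (fun x => m x ω) z (n - 1 - i)) ∂P := by
  have hb1 : 1 ≤ b := by omega
  have hbR : (2 : ℝ) ≤ b := by exact_mod_cast hb
  have h0 : 0 ≤ θ := h0'.trans hle
  have h2 : θ ^ 2 ≤ 1 / 2 := by nlinarith [sq_nonneg θ]
  have h2' : θ' ^ 2 ≤ 1 / 2 := le_trans (by gcongr) h2
  have t1 := theta_lt_one h0 h2
  have t1' := theta_lt_one h0' h2'
  have hbmf : ∀ v, BM (fun ω => (m v ω - m' v ω) ^ 2) := fun v =>
    ((h.bm v).sub (h.bm' v)).pow 2
  -- pointwise bounds integrated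
  have step1 : ∀ w ∈ sph G v n,
      ∫ ω, ((MM G θ (fun x => m x ω) v w - MM G θ' (fun x => m' x ω) v w) ^ 2
        + (MM G θ (fun x => m x ω) v w) ^ 2 * (m w ω - m' w ω) ^ 2) ∂P ≤
      12 * θ ^ (2 * n) * ∫ ω, (m v ω - m' v ω) ^ 2 * rprod G θ (fun x => m x ω) v w ∂P
      + 3 * (θ ^ n - θ' ^ n) ^ 2 * ∫ ω, rprod G θ (fun x => m x ω) v w ∂P
      + (144 * 10 ^ 12) * θ' ^ (2 * n) * ∑ i ∈ Finset.Icc 1 n,
          ∫ ω, rprod G θ' (fun x => m' x ω) (gpt G v w (i - 1)) v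
            * rprod G θ (fun x => m x ω) (gpt G v w i) w
            * ((m (gpt G v w (i - 1)) ω - m' (gpt G v w (i - 1)) ω) ^ 2
              + (m (gpt G v w i) ω - m' (gpt G v w i) ω) ^ 2 + (θ - θ') ^ 2) ∂P
      + θ ^ (2 * n) * ∫ ω, (m w ω - m' w ω) ^ 2 * rprod G θ (fun x => m x ω) w v ∂P := by
    intro w hw
    rw [mem_sph hT] at hw
    have hmid : ∀ i, BM (fun ω => rprod G θ' (fun x => m' x ω) (gpt G v w (i - 1)) v
            * rprod G θ (fun x => m x ω) (gpt G v w i) w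
            * ((m (gpt G v w (i - 1)) ω - m' (gpt G v w (i - 1)) ω) ^ 2
              + (m (gpt G v w i) ω - m' (gpt G v w i) ω) ^ 2 + (θ - θ') ^ 2)) := fun i =>
      ((h.bm_rprod' hT h0' t1' _ _).mul (h.bm_rprod hT h0 t1 _ _)).mul
        (((hbmf _).add (hbmf _)).add (BM.const _))
    rw [← integral_const_mul, ← integral_const_mul, ← integral_const_mul,
      ← integral_finsetSum _ (fun i _ => (hmid i).integrable), ← integral_const_mul,
      ← integral_add, ← integral_add, ← integral_add]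
    · apply integral_mono
      · exact ((((h.bm_MM hT h0 t1 v w).sub (h.symm.bm_MM hT h0' t1' v w)).pow 2).add
          (((h.bm_MM hT h0 t1 v w).pow 2).mul (hbmf w))).integrable
      · exact ((((BM.const _).mul ((hbmf v).mul (h.bm_rprod hT h0 t1 v w))).add
          ((BM.const _).mul (h.bm_rprod hT h0 t1 v w))).add
          ((BM.const _).mul (BM.sum _ fun i _ => hmid i))).add
          ((BM.const _).mul ((hbmf w).mul (h.bm_rprod hT h0 t1 w v))) |>.integrable
      · intro ω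
        have q1 := MM_sub_sq_le hT h0' hle h2 (m := fun x => m x ω) (m' := fun x => m' x ω)
          (fun x => h.le x ω) (fun x => h.le' x ω) v w
        have q2 := MM_sq_mul_le hT h0 h2 (m := fun x => m x ω) (fun x => h.le x ω) v w
        rw [hw] at q1 q2
        have q3 := mul_le_mul_of_nonneg_right q2 (sq_nonneg (m w ω - m' w ω))
        simp only
        calc _ ≤ _ := add_le_add q1 q3
          _ = _ := by ring
    · exact (((BM.const _).mul ((hbmf v).mul (h.bm_rprod hT h0 t1 v w))).add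
          ((BM.const _).mul (h.bm_rprod hT h0 t1 v w))).add
          ((BM.const _).mul (BM.sum _ fun i _ => hmid i)) |>.integrable
    · exact ((BM.const _).mul ((hbmf w).mul (h.bm_rprod hT h0 t1 w v))).integrable
    · exact ((BM.const _).mul ((hbmf v).mul (h.bm_rprod hT h0 t1 v w))).add
          ((BM.const _).mul (h.bm_rprod hT h0 t1 v w)) |>.integrable
    · exact ((BM.const _).mul (BM.sum _ fun i _ => hmid i)).integrable
    · exact ((BM.const _).mul ((hbmf v).mul (h.bm_rprod hT h0 t1 v w))).integrable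
    · exact ((BM.const _).mul (h.bm_rprod hT h0 t1 v w)).integrable
  unfold Sn
  refine (Finset.sum_le_sum step1).trans ?_
  rw [Finset.sum_add_distrib, Finset.sum_add_distrib, Finset.sum_add_distrib,
    ← Finset.mul_sum, ← Finset.mul_sum, ← Finset.mul_sum, ← Finset.mul_sum,
    h.sum_sq_out hT hb1 hreg h0 t1 v y n, h.sum_out hT hb1 hreg h0 t1 v y n,
    h.sum_sq_in hT hb1 hreg h0 t1 v y n, Finset.sum_comm]
  -- the middle term
  have hmid2 : ∑ i ∈ Finset.Icc 1 n, ∑ w ∈ sph G v n,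
      ∫ ω, rprod G θ' (fun x => m' x ω) (gpt G v w (i - 1)) v
            * rprod G θ (fun x => m x ω) (gpt G v w i) w
            * ((m (gpt G v w (i - 1)) ω - m' (gpt G v w (i - 1)) ω) ^ 2
              + (m (gpt G v w i) ω - m' (gpt G v w i) ω) ^ 2 + (θ - θ') ^ 2) ∂P
      ≤ 2 * (b : ℝ) ^ n * ∑ i ∈ Finset.range n,
          ∫ ω, ((m y ω - m' y ω) ^ 2 + (m z ω - m' z ω) ^ 2 + (θ - θ') ^ 2)
            * (Alev G b θ' (fun x => m' x ω) y i
              * Alev G b θ (fun x => m x ω) z (n - 1 - i)) ∂P := by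
    rw [Finset.mul_sum]
    have hI : Finset.Icc 1 n = (Finset.range n).image (fun i => i + 1) := by
      ext k
      simp only [Finset.mem_Icc, Finset.mem_image, Finset.mem_range]
      constructor
      · intro h; exact ⟨k - 1, by omega, by omega⟩
      · rintro ⟨a, h, rfl⟩; omega
    rw [hI, Finset.sum_image (fun a _ b _ h => by simpa using h)]
    apply Finset.sum_le_sum
    intro i hi
    rw [Finset.mem_range] at hi
    have := h.sum_mid hT hb1 hreg h0 t1 h0' t1' ((θ - θ') ^ 2) (sq_nonneg _) v hyz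
      (n := n) (i := i + 1) (by omega) (by omega)
    rw [Nat.add_sub_cancel] at this
    rw [show n - (i + 1) = n - 1 - i by omega] at this
    exact this
  -- nonnegativity
  have hA0 : ∀ ω k, 0 ≤ Alev G b θ (fun x => m x ω) y k := fun ω k =>
    (Alev_mem hT hb1 hreg h0 t1 (m := fun x => m x ω) (fun x => h.le x ω) y k).1
  have hI2 : 0 ≤ ∫ ω, Alev G b θ (fun x => m x ω) y n ∂P :=
    integral_nonneg fun ω => hA0 ω n
  have hpow : (θ ^ n - θ' ^ n) ^ 2 ≤ 4 * b * n ^ 2 * (θ - θ') ^ 2 * θ ^ (2 * n) := by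
    rcases Nat.eq_zero_or_pos n with rfl | hn
    · simp
    · have a1 := abs_pow_sub_pow_le θ θ' n
      rw [abs_of_nonneg h0, abs_of_nonneg h0', max_eq_left hle] at a1
      have a2 : (θ ^ n - θ' ^ n) ^ 2 ≤ (|θ - θ'| * n * θ ^ (n - 1)) ^ 2 := by
        rw [← sq_abs (θ ^ n - θ' ^ n)]
        exact pow_le_pow_left₀ (abs_nonneg _) a1 2
      refine a2.trans ?_
      have a3 : θ ^ (2 * n) = θ ^ 2 * (θ ^ (n - 1)) ^ 2 := by
        rw [← pow_mul, ← pow_add]; congr 1; omega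
      rw [a3]
      have a4 : (|θ - θ'| * n * θ ^ (n - 1)) ^ 2
          = (n : ℝ) ^ 2 * (θ - θ') ^ 2 * (θ ^ (n - 1)) ^ 2 := by
        rw [mul_pow, mul_pow, sq_abs]; ring
      rw [a4]
      have a5 : 0 ≤ (n : ℝ) ^ 2 * (θ - θ') ^ 2 * (θ ^ (n - 1)) ^ 2 := by positivity
      calc (n : ℝ) ^ 2 * (θ - θ') ^ 2 * (θ ^ (n - 1)) ^ 2
          ≤ (4 * (b * θ ^ 2)) * ((n : ℝ) ^ 2 * (θ - θ') ^ 2 * (θ ^ (n - 1)) ^ 2) := by nlinarith
        _ = _ := by ring
  have e1 : ((b : ℝ) * θ ^ 2) ^ n = (b : ℝ) ^ n * θ ^ (2 * n) := by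
    rw [mul_pow, ← pow_mul]
  have e2 : ((b : ℝ) * θ' ^ 2) ^ n = (b : ℝ) ^ n * θ' ^ (2 * n) := by
    rw [mul_pow, ← pow_mul]
  rw [e1, e2]
  have hbn : 0 ≤ (b : ℝ) ^ n := by positivity
  have f1 : 3 * (θ ^ n - θ' ^ n) ^ 2 * ((b : ℝ) ^ n * ∫ ω, Alev G b θ (fun x => m x ω) y n ∂P)
      ≤ 12 * b * n ^ 2 * (θ - θ') ^ 2 * ((b : ℝ) ^ n * θ ^ (2 * n))
          * ∫ ω, Alev G b θ (fun x => m x ω) y n ∂P := by
    have := mul_le_mul_of_nonneg_right hpow (mul_nonneg hbn hI2)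
    calc _ = 3 * ((θ ^ n - θ' ^ n) ^ 2 * ((b : ℝ) ^ n
            * ∫ ω, Alev G b θ (fun x => m x ω) y n ∂P)) := by ring
      _ ≤ 3 * (4 * b * n ^ 2 * (θ - θ') ^ 2 * θ ^ (2 * n) * ((b : ℝ) ^ n
            * ∫ ω, Alev G b θ (fun x => m x ω) y n ∂P)) := by linarith
      _ = _ := by ring
  have f2 := mul_le_mul_of_nonneg_left hmid2
    (by positivity : 0 ≤ (144 * 10 ^ 12 : ℝ) * θ' ^ (2 * n))
  refine (add_le_add (add_le_add (add_le_add le_rfl f1) f2) le_rfl).trans (le_of_eq ?_)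
  ring

end main

end Crest.Agent.R160
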